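import Vale.Agent.P218N.End.Solver

/-! A priori estimates on the ends. -/

open Filter Topology Metric Set Complex
open scoped BoundedContinuousFunction

noncomputable section

namespace Vale.Agent.P218N.End

theorem W.norm_le_add {A B D : Type*} [NormedAddCommGroup A] [NormedAddCommGroup B]
    [NormedAddCommGroup D] {a : W A} {b : W B} {d : W D} {C C' : ℝ}
    (h : ∀ m, ‖a.c m‖ ≤ C * ‖b.c m‖ + C' * ‖d.c m‖) : ‖a‖ ≤ C * ‖b‖ + C' * ‖d‖ :=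
  W.norm_le_of_hasSum ((b.hasSum.mul_left C).add (d.hasSum.mul_left C')) h

/-- comparison of weights -/
theorem norm_C_mul_mono {w w' : BC} {C : ℝ} (h : ∀ t, ‖w t‖ ≤ C * ‖w' t‖) (hC : 0 ≤ C) (f : WB) :
    ‖W.C w * f‖ ≤ C * ‖W.C w' * f‖ := W.norm_le_of_le fun m => norm_BC_le fun t => by
  have := ((W.C w' * f).c m).norm_coe_le_norm t
  simp only [W.c_C_mul, BoundedContinuousFunction.mul_apply, norm_mul] at this ⊢
  calc _ ≤ C * ‖w' t‖ * ‖f.c m t‖ := by gcongr; exact h t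
    _ ≤ _ := by rw [mul_assoc]; gcongr

theorem norm_C_mul_le (w : BC) (f : WB) : ‖W.C w * f‖ ≤ ‖w‖ * ‖f‖ :=
  (norm_mul_le _ _).trans_eq (by rw [W.norm_C])

/-- multiplication as a continuous linear map -/
def mulW (x : WB) : WB →L[ℂ] WB :=
  LinearMap.mkContinuous ⟨⟨fun f => x * f, mul_add x⟩, fun z f => mul_smul_comm z x f⟩ ‖x‖
    (norm_mul_le x)

@[simp] theorem mulW_apply (x f : WB) : mulW x f = x * f := rfl

namespace EJ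
variable (σ w : BC) (j : EJ)

/-- the component `pt` is scaled by `σ` -/
def sc : EJ := (j.y2, j.op, j.oq, W.C σ * j.pt)

@[simp] theorem sc_one : sc 1 j = j := by simp only [sc, map_one, one_mul]; rfl

/-- a multiplier acting on all components -/
def mu (χ : ℤ → ℂ) (j : EJ) : EJ := (mult χ j.y2, mult χ j.op, mult χ j.oq, mult χ j.pt)

@[simp] theorem mu_y2 (χ : ℤ → ℂ) : (mu χ j).y2 = mult χ j.y2 := rfl
@[simp] theorem mu_op (χ : ℤ → ℂ) : (mu χ j).op = mult χ j.op := rfl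
@[simp] theorem mu_oq (χ : ℤ → ℂ) : (mu χ j).oq = mult χ j.oq := rfl
@[simp] theorem mu_pt (χ : ℤ → ℂ) : (mu χ j).pt = mult χ j.pt := rfl

theorem c_mu_y {χ : ℤ → ℂ} {B : ℝ} (h : ∀ m, ‖χ m‖ ≤ B) (m : ℤ) :
    (mu χ j).y.c m = χ m • j.y.c m := by
  rw [c_y, c_y, mu_y2, c_mult h, smul_comm]

end EJ

/-- the weighted norm of a jet; `w` is the inverse weight and `σ` the scale of `∂_θ ∂_ζ y` -/
def nm (σ w : BC) (j : EJ) : ℝ := ‖EJ.wt w (EJ.sc σ j)‖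

section nm
variable (σ w : BC) (j : EJ)

theorem nm_nonneg : 0 ≤ nm σ w j := norm_nonneg _
theorem nm_one : nm 1 w j = ‖EJ.wt w j‖ := by rw [nm, EJ.sc_one]
theorem nm_one_one : nm 1 1 j = ‖j‖ := by rw [nm_one, EJ.wt_one]
theorem y2_le_nm : ‖W.C w * j.y2‖ ≤ nm σ w j := EJ.norm_y2_le (EJ.wt w (EJ.sc σ j))
theorem op_le_nm : ‖W.C w * j.op‖ ≤ nm σ w j := EJ.norm_op_le (EJ.wt w (EJ.sc σ j))
theorem oq_le_nm : ‖W.C w * j.oq‖ ≤ nm σ w j := EJ.norm_oq_le (EJ.wt w (EJ.sc σ j))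
theorem pt_le_nm : ‖W.C w * (W.C σ * j.pt)‖ ≤ nm σ w j := EJ.norm_pt_le (EJ.wt w (EJ.sc σ j))
theorem y_le_y2 : ‖W.C w * j.y‖ ≤ ‖W.C w * j.y2‖ := by
  simpa using EJ.norm_y_le' (EJ.wt w j)
theorem yt_le_y2 : ‖W.C w * j.yt‖ ≤ ‖W.C w * j.y2‖ := by
  simpa using EJ.norm_yt_le' (EJ.wt w j)
theorem ytt_le_y2 : ‖W.C w * j.ytt‖ ≤ ‖W.C w * j.y2‖ := by
  simpa using EJ.norm_ytt_le' (EJ.wt w j)
theorem y_le_nm : ‖W.C w * j.y‖ ≤ nm σ w j := (y_le_y2 w j).trans (y2_le_nm σ w j)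
theorem yt_le_nm : ‖W.C w * j.yt‖ ≤ nm σ w j := (yt_le_y2 w j).trans (y2_le_nm σ w j)
theorem ytt_le_nm : ‖W.C w * j.ytt‖ ≤ nm σ w j := (ytt_le_y2 w j).trans (y2_le_nm σ w j)

variable {σ w j} in
theorem nm_le {C : ℝ} (h1 : ‖W.C w * j.y2‖ ≤ C) (h2 : ‖W.C w * j.op‖ ≤ C)
    (h3 : ‖W.C w * j.oq‖ ≤ C) (h4 : ‖W.C w * (W.C σ * j.pt)‖ ≤ C) : nm σ w j ≤ C :=
  EJ.norm_le _ h1 h2 h3 h4

/-- the norm comes from a linear map -/
def nmL : EJ →L[ℂ] EJ :=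
  ((mulW (W.C w)).comp EJ.y2L).prod (((mulW (W.C w)).comp EJ.opL).prod
    (((mulW (W.C w)).comp EJ.oqL).prod ((mulW (W.C w)).comp ((mulW (W.C σ)).comp EJ.ptL))))

theorem nm_eq : nm σ w j = ‖nmL σ w j‖ := rfl

@[simp] theorem nm_zero : nm σ w 0 = 0 := by rw [nm_eq, map_zero, norm_zero]
theorem nm_add_le (j' : EJ) : nm σ w (j + j') ≤ nm σ w j + nm σ w j' := by
  simp only [nm_eq, map_add]; exact norm_add_le _ _
theorem nm_sub_le (j' : EJ) : nm σ w (j - j') ≤ nm σ w j + nm σ w j' := by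
  simp only [nm_eq, map_sub]; exact norm_sub_le _ _
theorem nm_sub_rev (j' : EJ) : nm σ w (j - j') = nm σ w (j' - j) := by
  simp only [nm_eq, map_sub]; exact norm_sub_rev _ _
theorem nm_smul (z : ℂ) : nm σ w (z • j) = ‖z‖ * nm σ w j := by
  simp only [nm_eq, map_smul, norm_smul]
theorem continuous_nm : Continuous (nm σ w) := (nmL σ w).continuous.norm

variable {w} in
theorem nm_mono {w' : BC} {C : ℝ} (h : ∀ t, ‖w t‖ ≤ C * ‖w' t‖) (hC : 0 ≤ C) :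
    nm σ w j ≤ C * nm σ w' j :=
  nm_le ((norm_C_mul_mono h hC _).trans (by gcongr; exact y2_le_nm σ w' j))
    ((norm_C_mul_mono h hC _).trans (by gcongr; exact op_le_nm σ w' j))
    ((norm_C_mul_mono h hC _).trans (by gcongr; exact oq_le_nm σ w' j))
    ((norm_C_mul_mono h hC _).trans (by gcongr; exact pt_le_nm σ w' j))

variable {σ} in
theorem pt_le_nm' {τ : BC} (h : ∀ t, ‖τ t‖ ≤ ‖σ t‖) : ‖W.C w * (W.C τ * j.pt)‖ ≤ nm σ w j := by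
  refine le_trans ?_ (pt_le_nm σ w j)
  rw [← mul_assoc, ← mul_assoc, ← map_mul, ← map_mul, ← one_mul ‖W.C (w * σ) * j.pt‖]
  refine norm_C_mul_mono (fun t => ?_) zero_le_one _
  simp only [BoundedContinuousFunction.mul_apply, norm_mul, one_mul]
  gcongr
  exact h t

variable {σ} in
theorem nm_mono_sc {τ : BC} (h : ∀ t, ‖τ t‖ ≤ ‖σ t‖) : nm τ w j ≤ nm σ w j :=
  nm_le (y2_le_nm σ w j) (op_le_nm σ w j) (oq_le_nm σ w j) (pt_le_nm' w j h)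

variable {σ} in
theorem norm_wt_le_nm (h : ∀ t, 1 ≤ ‖σ t‖) : ‖EJ.wt w j‖ ≤ nm σ w j := by
  rw [← nm_one]; exact nm_mono_sc w j (by simpa using h)

variable {σ} in
theorem norm_le_nm (h : ∀ t, 1 ≤ ‖σ t‖) : ‖j‖ ≤ nm σ 1 j := by
  simpa using norm_wt_le_nm 1 j h

end nm

namespace Ctr
variable {Γ : Ctr} {μ : ℤ → ℝ} {s : ℤ → Icc (0 : ℝ) 1} {φ σ : BC} {c c₁ K : ℝ}

theorem nm_one_le (φ : BC) (r : Icc (0 : ℝ) 1) (σ : BC) (j : EJ) :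
    nm σ 1 j ≤ ‖Γ.Wt φ r‖ * nm σ (Γ.iW φ r) j :=
  nm_mono σ j (fun t => by
    have h1 : Γ.Wt φ r t * Γ.iW φ r t = 1 := congrArg (fun f : BC => f t) (Wt_mul_iW φ r)
    calc ‖(1 : BC) t‖ = ‖Γ.Wt φ r t‖ * ‖Γ.iW φ r t‖ := by rw [← norm_mul, h1]; rfl
      _ ≤ _ := by gcongr; exact (Γ.Wt φ r).norm_coe_le_norm t) (norm_nonneg _)

theorem IsJet.mu {j : EJ} (h : Γ.IsJet j) {χ : ℤ → ℂ} {B : ℝ} (hχ : ∀ m, ‖χ m‖ ≤ B) :
    Γ.IsJet (EJ.mu χ j) := fun m => by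
  rw [EJ.c_mu_y _ hχ, EJ.mu_op, EJ.mu_oq, EJ.mu_pt, c_mult hχ, c_mult hχ, c_mult hχ,
    mul_smul_comm, mul_smul_comm, (h m).2.2]
  refine ⟨fun t => ?_, fun t => ?_, smul_comm _ _ _⟩
  · exact HasDerivAt.congr_deriv (((h m).1 t).const_mul (χ m)) (by simp [mul_left_comm])
  · exact HasDerivAt.congr_deriv (((h m).2.1 t).const_mul (χ m)) (by simp [mul_left_comm])

theorem isJet_zero : Γ.IsJet 0 := fun m => by
  have e : (0 : EJ).y = 0 := map_zero _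
  have e1 : (0 : EJ).op = 0 := rfl
  have e2 : (0 : EJ).oq = 0 := rfl
  have e3 : (0 : EJ).pt = 0 := rfl
  rw [e, e1, e2, e3]
  simp only [W.c_zero, mul_zero, smul_zero, and_self, and_true]
  exact fun t => by simp

theorem IsJet.add {j j' : EJ} (h : Γ.IsJet j) (h' : Γ.IsJet j') : Γ.IsJet (j + j') := by
  simpa using h.sub (isJet_zero.sub h')

variable (Γ μ) in
/-- the source of a jet -/
def src (j : EJ) : WB := Mod μ j + Γ.Err μ j.y2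

theorem Mod_sub (j j' : EJ) : Mod μ (j - j') = Mod μ j - Mod μ j' := by
  simp only [Mod, EJ.sub_oq, EJ.sub_op, EJ.sub_y2, map_sub, smul_sub]; abel

theorem piJ_sub (j j' : EJ) : Γ.piJ μ (j - j') = Γ.piJ μ j - Γ.piJ μ j' := by
  simp only [piJ, EJ.sub_pt, EJ.sub_op, EJ.sub_y2, map_sub, smul_sub]; abel

theorem SM.mono {μ ρ ρ' : ℝ} {s : Icc (0 : ℝ) 1} (h : Γ.SM μ φ s ρ) (hρ : ρ ≤ ρ') :
    Γ.SM μ φ s ρ' := by
  refine ⟨h.1.trans_le hρ, h.2.imp (And.imp_right fun a t => (a t).trans ?_)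
    (And.imp_right fun a t => (a t).trans ?_)⟩ <;>
  exact mul_le_mul_of_nonneg_right hρ
    (nonneg_of_mul_nonneg_right ((norm_nonneg _).trans (a t)) h.1)

namespace Good

theorem src_solve (h : Γ.Good μ s φ c c₁ K) (f : WB) (d ω : WD) :
    Γ.src μ (Γ.solve μ s f d ω) = f := by rw [src, h.Mod_solve, sub_add_cancel]

/-- the formulas for the modes of a jet -/
theorem modes (h : Γ.Good μ s φ c c₁ K) {j : EJ} (hj : Γ.IsJet j) (m : ℤ) :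
    (Γ.piJ μ j).c m = (Γ.piJ μ j).c m 1 • Γ.hPi (μ m) + Γ.Pi (μ m) ((Γ.src μ j).c m) ∧
      j.y.c m = j.y.c m (s m) • Γ.hY (μ m) (s m) + Γ.Ys (μ m) (s m) ((Γ.piJ μ j).c m) ∧
      j.op.c m = Γ.OP (μ m) ((Γ.piJ μ j).c m) (j.y.c m) := by
  have hO : ∀ x : BC, Γ.Om * (Γ.io * x) = x := fun x => by rw [← mul_assoc, h.ok.inv, one_mul]
  obtain ⟨a1, a2, a3, -⟩ := (h.adm m).repr h.ok (s m) (hj m).1 (hj m).2.1
    (f := (Γ.src μ j).c m) (π := (Γ.piJ μ j).c m) (by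
      rw [src, W.c_add, h.c_Mod, h.c_Err', mul_sub, mul_smul_comm, mul_smul_comm, hO, hO]) (by
      rw [h.c_piJ hj]
      ext t
      have h1 : Γ.Om t * Γ.io t = 1 := congrArg (fun f : BC => f t) h.ok.inv
      simp only [BoundedContinuousFunction.add_apply, BoundedContinuousFunction.smul_apply,
        BoundedContinuousFunction.mul_apply, smul_eq_mul]
      linear_combination (-(Γ.laB (μ m) t * j.op.c m t) - (μ m : ℂ) / 2 * j.y.c m t) * h1 -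
        (Γ.Om t * j.y.c m t) * (h.adm m).nu_la t)
  exact ⟨a1, a2, by rw [← (h.adm m).Om_PP h.ok, ← a3, hO]⟩

theorem piJ_mu (h : Γ.Good μ s φ c c₁ K) {j : EJ} (hj : Γ.IsJet j) {χ : ℤ → ℂ} {B : ℝ}
    (hχ : ∀ m, ‖χ m‖ ≤ B) : Γ.piJ μ (EJ.mu χ j) = mult χ (Γ.piJ μ j) := by
  ext1 m
  rw [h.c_piJ (hj.mu hχ), c_mult hχ, h.c_piJ hj, EJ.c_mu_y _ hχ, EJ.mu_op, c_mult hχ, smul_add,
    mul_smul_comm, smul_comm]

theorem src_mu (h : Γ.Good μ s φ c c₁ K) (j : EJ) {χ : ℤ → ℂ} {B : ℝ}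
    (hχ : ∀ m, ‖χ m‖ ≤ B) : Γ.src μ (EJ.mu χ j) = mult χ (Γ.src μ j) := by
  ext m t
  simp only [src, W.c_add, h.c_Mod, h.c_Err', c_mult hχ, EJ.c_mu_y _ hχ, EJ.mu_op, EJ.mu_oq,
    BoundedContinuousFunction.add_apply, BoundedContinuousFunction.sub_apply,
    BoundedContinuousFunction.smul_apply, BoundedContinuousFunction.mul_apply, smul_eq_mul]
  ring

variable (r : Icc (0 : ℝ) 1) {j : EJ}

theorem l_pi (h : Γ.Good μ s φ c c₁ K) (hj : Γ.IsJet j) :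
    ‖W.C (Γ.iW φ r) * Γ.piJ μ j‖ ≤ ‖tr 1 (W.C (Γ.iW φ r) * Γ.piJ μ j)‖ +
      1 / (2 * c₁) * ‖W.C (Γ.iW φ r) * Γ.src μ j‖ := by
  rw [← one_mul ‖tr 1 _‖]
  refine W.norm_le_add fun m => ?_
  rw [c_tr, W.c_C_mul, W.c_C_mul, BoundedContinuousFunction.mul_apply, one_mul]
  conv_lhs => rw [(h.modes hj m).1, mul_add, mul_smul_comm]
  refine (norm_add_le _ _).trans (add_le_add ?_ (norm_Pi h.ok (h.fm m) h.c₁0 r _))
  rw [norm_smul, norm_mul (Γ.iW φ r 1), mul_comm]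
  gcongr
  exact norm_hPi h.ok (h.fm m) h.c₁0 r

theorem l_mode (h : Γ.Good μ s φ c c₁ K) (hj : Γ.IsJet j) {m : ℤ} {ρ : ℝ}
    (hρ : Γ.SM (μ m) φ (s m) ρ) : ‖Γ.iW φ r * j.y.c m‖ ≤ ‖Γ.iW φ r (s m) * j.y.c m (s m)‖ +
      ρ * ‖Γ.iW φ r * (Γ.piJ μ j).c m‖ := by
  conv_lhs => rw [(h.modes hj m).2.1, mul_add, mul_smul_comm]
  refine (norm_add_le _ _).trans (add_le_add ?_ (norm_Ys h.ok hρ r _))
  rw [norm_smul, norm_mul (Γ.iW φ r (s m)), mul_comm]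
  gcongr
  exact norm_hY h.ok hρ r

theorem l_y (h : Γ.Good μ s φ c c₁ K) (hj : Γ.IsJet j) {ρ : ℝ} (hρ : ∀ m, Γ.SM (μ m) φ (s m) ρ) :
    ‖W.C (Γ.iW φ r) * j.y‖ ≤ ‖slowD s (W.C (Γ.iW φ r) * j.y)‖ +
      ρ * ‖W.C (Γ.iW φ r) * Γ.piJ μ j‖ := by
  rw [← one_mul ‖slowD s _‖]
  refine W.norm_le_add fun m => ?_
  rw [c_slowD, W.c_C_mul, W.c_C_mul, one_mul]
  exact h.l_mode r hj (hρ m)

theorem l_y2 (h : Γ.Good μ s φ c c₁ K) (hj : Γ.IsJet j) :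
    ‖W.C (Γ.iW φ r) * j.y2‖ ≤ ‖slowD s (W.C (Γ.iW φ r) * j.y2)‖ +
      K * ‖W.C (Γ.iW φ r) * Γ.piJ μ j‖ := by
  rw [← one_mul ‖slowD s _‖]
  refine W.norm_le_add fun m => ?_
  have h1 := mul_le_mul_of_nonneg_left (h.l_mode r hj (h.sm m)) (br_pos m).le
  have h2 := (br_pos m).ne'
  rw [c_slowD, W.c_C_mul, W.c_C_mul, one_mul, EJ.c_y2, mul_smul_comm,
    BoundedContinuousFunction.smul_apply, norm_smul, norm_smul, Complex.norm_real,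
    Real.norm_of_nonneg (br_pos m).le]
  refine h1.trans_eq ?_
  rw [BoundedContinuousFunction.mul_apply]
  field_simp

theorem n_Err (h : Γ.Good μ s φ c c₁ K) (w : BC) (f : WB) :
    ‖W.C w * Γ.Err μ f‖ ≤ 8 / c * ‖Γ.lo‖ * K * ‖W.C w * f‖ := W.norm_le_of_le fun m => by
  rw [W.c_C_mul, W.c_C_mul, h.c_Err, mul_left_comm]
  exact (norm_mul_le _ _).trans (by gcongr; exact h.nee m)

theorem l_core (h : Γ.Good μ s φ c c₁ K) (w : BC) {b : ℤ → BC} {B : ℝ}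
    (hb : ∀ m, ‖b m‖ ≤ B) {x : WB}
    (hx : ∀ m, x.c m = b m * ((Γ.piJ μ j).c m - ((μ m : ℂ) / 2) • j.y.c m)) :
    ‖W.C w * x‖ ≤ B * ‖W.C w * Γ.piJ μ j‖ + B * (K / 2) * ‖W.C w * j.y2‖ :=
  W.norm_le_add fun m => by
    have h0 := (norm_nonneg _).trans (hb m)
    rw [W.c_C_mul, W.c_C_mul, W.c_C_mul, hx, mul_left_comm, mul_sub, EJ.c_y, smul_smul,
      mul_smul_comm, mul_assoc, ← mul_add]
    refine (norm_mul_le _ _).trans (mul_le_mul (hb m) ((norm_sub_le _ _).trans ?_) (norm_nonneg _) h0)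
    rw [norm_smul]
    gcongr
    exact h.nmu2 m

/-- all components of a jet -/
theorem l_nm (h : Γ.Good μ s φ c c₁ K) (hj : Γ.IsJet j) (hK : 1 ≤ K)
    (hlo : 8 / c * ‖Γ.lo‖ * K ≤ 1) (hσ : ∀ t, ‖σ t‖ ^ 2 * ‖Γ.io t‖ ≤ 1) (w : BC) :
    nm σ w j ≤ 9 * K * ‖W.C w * Γ.piJ μ j‖ + 5 * K ^ 2 * ‖W.C w * j.y2‖ +
      1 / 2 * ‖W.C w * Γ.src μ j‖ := by
  have h1 := h.l_core (j := j) w (fun m => (h.adm m).norm_il) (x := j.op) fun m => (h.modes hj m).2.2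
  have h2 := h.l_core (j := j) w (h.npt zero_le_one (fun t => by simpa using hσ t))
    (x := W.C σ * j.pt) fun m => by
      rw [W.c_C_mul, (hj m).2.2, (h.modes hj m).2.2, OP]
      simp only [mul_smul_comm, smul_mul_assoc, mul_assoc]
  have h3 : √(66 * K) ≤ 9 * K := Real.sqrt_le_iff.2 ⟨by positivity, by nlinarith⟩
  have h4 : W.C w * j.oq = (1 / 2 : ℂ) • (W.C w * Γ.src μ j - W.C w * Γ.Err μ j.y2 +
      (1 / 2 : ℂ) • (W.C w * j.op) +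
      mult (fun m => (μ m : ℂ) * ((br m : ℝ) : ℂ)⁻¹) (W.C w * j.y2)) := by
    rw [← C_mul_mult h.nmu, src, Mod]
    simp only [mul_add, mul_sub, mul_smul_comm]
    module
  have h5 := h.n_Err w j.y2
  have h6 := norm_mult_apply_le h.nmu (W.C w * j.y2)
  have h7 : ‖W.C w * j.oq‖ ≤ 1 / 2 * (‖W.C w * Γ.src μ j‖ + ‖W.C w * Γ.Err μ j.y2‖ +
      1 / 2 * ‖W.C w * j.op‖ + K * ‖W.C w * j.y2‖) := by
    rw [h4, norm_smul]
    refine mul_le_mul (by simp) ((norm_add_le _ _).trans (add_le_add ((norm_add_le _ _).trans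
      (add_le_add (norm_sub_le _ _) (by rw [norm_smul]; simp))) h6)) (norm_nonneg _) (by norm_num)
  have hP := norm_nonneg (W.C w * Γ.piJ μ j)
  have hY := norm_nonneg (W.C w * j.y2)
  have hF := norm_nonneg (W.C w * Γ.src μ j)
  generalize ‖W.C w * Γ.piJ μ j‖ = P at *
  generalize hYe : ‖W.C w * j.y2‖ = Y at *
  have b1 : P ≤ K * P := le_mul_of_one_le_left hP hK
  have b2 : Y ≤ K * Y := le_mul_of_one_le_left hY hK
  have b3 : K * Y ≤ K ^ 2 * Y := by nlinarith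
  have b4 : 8 / c * ‖Γ.lo‖ * K * Y ≤ Y := mul_le_of_le_one_left hY hlo
  refine nm_le (by rw [hYe]; nlinarith) (by nlinarith) (by nlinarith) (h2.trans ?_)
  have b5 : √(66 * K) * P ≤ 9 * K * P := by gcongr
  have b6 : √(66 * K) * (K / 2 * Y) ≤ 9 * K * (K / 2 * Y) := by gcongr
  nlinarith

end Good

end Ctr

/-- the constants of an end problem -/
structure Cst where
  c : ℝ
  c₁ : ℝ
  K : ℝ
  ρ : ℝ
  e : ℝ
  ε : ℝ
  A : ℝ
  δ : ℝ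

namespace Cst
variable (k : Cst)

/-- the norm of the linear solver -/
def C₁ : ℝ := 14 * k.K ^ 3 * (1 + 1 / k.c₁)
/-- the constant of the a priori estimate -/
def C : ℝ := 2 * k.C₁ * (2 + k.A)
/-- the small constant of the backward outputs -/
def η : ℝ := (k.ε + 2 * k.e) * k.C / k.c₁

structure Ok : Prop where
  c₁0 : 0 < k.c₁
  c₁1 : k.c₁ ≤ 1
  K1 : 1 ≤ k.K
  e0 : 0 ≤ k.e
  ε0 : 0 ≤ k.ε
  A0 : 0 ≤ k.A
  δ0 : 0 < k.δ
  Aρ : k.A * k.ρ ≤ k.c₁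
  sm : k.C₁ * (k.ε + 2 * k.e) ≤ 1 / 2

variable {k}

theorem Ok.le_C₁ (h : k.Ok) : 14 * (1 + 1 / k.c₁) ≤ k.C₁ := by
  have h1 := h.c₁0
  have h2 : 1 ≤ k.K ^ 3 := one_le_pow₀ h.K1
  unfold C₁
  gcongr
  linarith

theorem Ok.one_le_inv (h : k.Ok) : 1 ≤ 1 / k.c₁ := one_le_one_div h.c₁0 h.c₁1

theorem Ok.one_le_C (h : k.Ok) : 1 ≤ k.C := by
  have := h.le_C₁
  have := h.one_le_inv
  have := h.A0
  unfold C
  nlinarith

theorem Ok.η0 (h : k.Ok) : 0 ≤ k.η := by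
  have := h.one_le_C
  have := h.c₁0
  have := h.e0
  have := h.ε0
  unfold η
  positivity

end Cst

/-- `F` is a small perturbation of twice the model operator on the jets of size at most `δ` -/
def Lip (μ : ℤ → ℝ) (σ : BC) (F : EJ → WB) (δ ε A : ℝ) : Prop :=
  ∀ v v', nm σ 1 v ≤ δ → nm σ 1 v' ≤ δ → ∀ w : BC,
    ‖W.C w * (F v - F v' - (2 : ℂ) • Ctr.Mod μ (v - v'))‖ ≤
      ε * nm σ w (v - v') + A * ‖W.C w * (v - v').y‖

/-- the hypotheses of the linear theory -/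
structure Lin (k : Cst) (Γ : Ctr) (μ : ℤ → ℝ) (s : ℤ → Icc (0 : ℝ) 1) (φ σ : BC) : Prop where
  ok : k.Ok
  good : Γ.Good μ s φ k.c k.c₁ k.K
  sm : ∀ m, Γ.SM (μ m) φ (s m) k.ρ
  lo : 8 / k.c * ‖Γ.lo‖ * k.K ≤ k.e
  sg : ∀ t, ‖σ t‖ ^ 2 * ‖Γ.io t‖ ≤ 1

/-- an end problem `F v = 0` -/
structure Box (k : Cst) (Γ : Ctr) (μ : ℤ → ℝ) (s : ℤ → Icc (0 : ℝ) 1) (φ σ : BC) (F : EJ → WB) :
    Prop extends Lin k Γ μ s φ σ where
  lip : Lip μ σ F k.δ k.ε k.A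

section box
open Ctr
variable {k : Cst} {Γ : Ctr} {μ : ℤ → ℝ} {s : ℤ → Icc (0 : ℝ) 1} {φ σ : BC} {F : EJ → WB}
  (r : Icc (0 : ℝ) 1)

theorem norm_slowD_y_le (s : ℤ → Icc (0 : ℝ) 1) (w : BC) (j : EJ) :
    ‖slowD s (W.C w * j.y)‖ ≤ ‖slowD s (W.C w * j.y2)‖ := by
  rw [← one_mul ‖slowD s (W.C w * j.y2)‖]
  refine W.norm_le_of_le fun m => ?_
  rw [c_slowD, c_slowD, W.c_C_mul, W.c_C_mul, EJ.c_y, mul_smul_comm,
    BoundedContinuousFunction.smul_apply, norm_smul]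
  gcongr
  exact sym0_le m

/-- the linear estimate -/
theorem Lin.nm_le (h : Lin k Γ μ s φ σ) {j : EJ} (hj : Γ.IsJet j) :
    nm σ (Γ.iW φ r) j ≤ k.C₁ * (‖slowD s (W.C (Γ.iW φ r) * j.y2)‖ +
      ‖tr 1 (W.C (Γ.iW φ r) * Γ.piJ μ j)‖ + ‖W.C (Γ.iW φ r) * Γ.src μ j‖) := by
  have a0 := h.ok.le_C₁
  have a1 := h.ok.one_le_inv
  have hK := h.ok.K1
  have h1 := h.good.l_nm hj hK (h.lo.trans (by nlinarith [h.ok.sm, h.ok.e0, h.ok.ε0])) h.sg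
    (Γ.iW φ r)
  have h2 := h.good.l_pi r hj
  have h3 := h.good.l_y2 r hj
  rw [show 1 / (2 * k.c₁) = 1 / k.c₁ / 2 by field_simp] at h2
  unfold Cst.C₁
  have hD := norm_nonneg (slowD s (W.C (Γ.iW φ r) * j.y2))
  have hW := norm_nonneg (tr 1 (W.C (Γ.iW φ r) * Γ.piJ μ j))
  have hF := norm_nonneg (W.C (Γ.iW φ r) * Γ.src μ j)
  have hP := norm_nonneg (W.C (Γ.iW φ r) * Γ.piJ μ j)
  generalize ‖slowD s (W.C (Γ.iW φ r) * j.y2)‖ = D at *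
  generalize ‖tr 1 (W.C (Γ.iW φ r) * Γ.piJ μ j)‖ = O at *
  generalize ‖W.C (Γ.iW φ r) * Γ.src μ j‖ = Q at *
  generalize ‖W.C (Γ.iW φ r) * Γ.piJ μ j‖ = P at *
  generalize 1 / k.c₁ = i at *
  have b1 : k.K ≤ k.K ^ 3 := by simpa using pow_le_pow_right₀ hK (by norm_num : 1 ≤ 3)
  have b2 : k.K ^ 2 ≤ k.K ^ 3 := pow_le_pow_right₀ hK (by norm_num)
  have b3 : 5 * k.K ^ 2 * ‖W.C (Γ.iW φ r) * j.y2‖ ≤ 5 * k.K ^ 2 * (D + k.K * P) := by gcongr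
  have b4 : k.K * P ≤ k.K ^ 3 * P := by gcongr
  have b5 : k.K ^ 2 * D ≤ k.K ^ 3 * D := by gcongr
  have b6 : k.K ^ 3 * P ≤ k.K ^ 3 * (O + i / 2 * Q) := by gcongr
  have b7 : Q ≤ k.K ^ 3 * Q := le_mul_of_one_le_left hF (hK.trans b1)
  have b0 : 0 ≤ k.K ^ 3 := by positivity
  nlinarith [mul_nonneg b0 hD, mul_nonneg b0 hW, mul_nonneg b0 hF,
    mul_nonneg (mul_nonneg b0 hD) (zero_le_one.trans a1),
    mul_nonneg (mul_nonneg b0 hW) (zero_le_one.trans a1),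
    mul_nonneg (mul_nonneg b0 hF) (zero_le_one.trans a1)]

/-- the error of the model: `src (v - v') - (F v - F v') / 2` -/
theorem Box.err (h : Box k Γ μ s φ σ F) {v v' : EJ} (h1 : nm σ 1 v ≤ k.δ) (h2 : nm σ 1 v' ≤ k.δ)
    (w : BC) : ‖W.C w * (Γ.src μ (v - v') - (1 / 2 : ℂ) • (F v - F v'))‖ ≤
      (k.ε + 2 * k.e) / 2 * nm σ w (v - v') + k.A / 2 * ‖W.C w * (v - v').y‖ := by
  have e : W.C w * (Γ.src μ (v - v') - (1 / 2 : ℂ) • (F v - F v')) = W.C w * Γ.Err μ (v - v').y2 -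
      (1 / 2 : ℂ) • (W.C w * (F v - F v' - (2 : ℂ) • Mod μ (v - v'))) := by
    simp only [src, mul_add, mul_sub, mul_smul_comm, smul_sub]
    module
  have a1 := h.lip v v' h1 h2 w
  have a2 : ‖W.C w * Γ.Err μ (v - v').y2‖ ≤ k.e * nm σ w (v - v') :=
    (h.good.n_Err w _).trans (mul_le_mul h.lo (y2_le_nm σ w _) (norm_nonneg _) h.ok.e0)
  rw [e]
  refine (norm_sub_le _ _).trans ?_
  rw [norm_smul, show ‖(1 / 2 : ℂ)‖ = 1 / 2 by simp]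
  linarith

/-- the source of the difference of two small jets -/
theorem Box.src_le (h : Box k Γ μ s φ σ F) {v v' : EJ} (hj : Γ.IsJet (v - v'))
    (h1 : nm σ 1 v ≤ k.δ) (h2 : nm σ 1 v' ≤ k.δ) :
    ‖W.C (Γ.iW φ r) * Γ.src μ (v - v')‖ ≤ ‖W.C (Γ.iW φ r) * (F v - F v')‖ +
      (k.ε + 2 * k.e) * nm σ (Γ.iW φ r) (v - v') +
      k.A * ‖slowD s (W.C (Γ.iW φ r) * (v - v').y)‖ +
      ‖tr 1 (W.C (Γ.iW φ r) * Γ.piJ μ (v - v'))‖ := by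
  have a1 := h.err h1 h2 (Γ.iW φ r)
  have a2 := h.good.l_y r hj h.sm
  have a3 := h.good.l_pi r hj
  have a4 : ‖W.C (Γ.iW φ r) * Γ.src μ (v - v')‖ ≤ ‖W.C (Γ.iW φ r) * (Γ.src μ (v - v') -
      (1 / 2 : ℂ) • (F v - F v'))‖ + 1 / 2 * ‖W.C (Γ.iW φ r) * (F v - F v')‖ := by
    rw [mul_sub (W.C _) (Γ.src μ _), mul_smul_comm]
    refine (norm_le_norm_sub_add _ ((1 / 2 : ℂ) • (W.C (Γ.iW φ r) * (F v - F v')))).trans_eq ?_
    rw [norm_smul]; simp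
  have c0 := h.ok.c₁0
  have a5 : k.A * k.ρ * ‖W.C (Γ.iW φ r) * Γ.piJ μ (v - v')‖ ≤ k.c₁ * (‖tr 1 (W.C (Γ.iW φ r) *
      Γ.piJ μ (v - v'))‖ + 1 / (2 * k.c₁) * ‖W.C (Γ.iW φ r) * Γ.src μ (v - v')‖) :=
    mul_le_mul h.ok.Aρ a3 (norm_nonneg _) c0.le
  rw [mul_add, ← mul_assoc, show k.c₁ * (1 / (2 * k.c₁)) = 1 / 2 by field_simp] at a5
  have a6 := mul_le_mul_of_nonneg_left a2 h.ok.A0
  have a7 := mul_le_of_le_one_left (norm_nonneg (tr 1 (W.C (Γ.iW φ r) * Γ.piJ μ (v - v'))))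
    h.ok.c₁1
  nlinarith [norm_nonneg (W.C (Γ.iW φ r) * (F v - F v')),
    norm_nonneg (tr 1 (W.C (Γ.iW φ r) * Γ.piJ μ (v - v'))),
    mul_nonneg h.ok.A0 (norm_nonneg (slowD s (W.C (Γ.iW φ r) * (v - v').y))),
    mul_nonneg (add_nonneg h.ok.ε0 (mul_nonneg zero_le_two h.ok.e0)) (nm_nonneg σ (Γ.iW φ r) (v - v'))]

/-- **a priori estimate** -/
theorem Box.ap (h : Box k Γ μ s φ σ F) {v v' : EJ} (hj : Γ.IsJet (v - v'))
    (h1 : nm σ 1 v ≤ k.δ) (h2 : nm σ 1 v' ≤ k.δ) :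
    nm σ (Γ.iW φ r) (v - v') ≤ k.C * (‖slowD s (W.C (Γ.iW φ r) * (v - v').y2)‖ +
      ‖tr 1 (W.C (Γ.iW φ r) * Γ.piJ μ (v - v'))‖ + ‖W.C (Γ.iW φ r) * (F v - F v')‖) := by
  have a1 := h.src_le r hj h1 h2
  have a2 := h.nm_le r hj
  have a3 := mul_le_mul_of_nonneg_left (norm_slowD_y_le s (Γ.iW φ r) (v - v')) h.ok.A0
  have a0 : 0 ≤ k.C₁ := le_trans (by have := h.ok.c₁0; positivity) h.ok.le_C₁
  have a4 := mul_le_mul_of_nonneg_left a1 a0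
  have a5 := mul_le_mul_of_nonneg_right h.ok.sm (nm_nonneg σ (Γ.iW φ r) (v - v'))
  have a6 := mul_le_mul_of_nonneg_left a3 a0
  unfold Cst.C
  nlinarith [mul_nonneg a0 (norm_nonneg (W.C (Γ.iW φ r) * (F v - F v'))),
    mul_nonneg a0 (norm_nonneg (slowD s (W.C (Γ.iW φ r) * (v - v').y2))),
    mul_nonneg (mul_nonneg a0 h.ok.A0) (norm_nonneg (W.C (Γ.iW φ r) * (F v - F v'))),
    mul_nonneg (mul_nonneg a0 h.ok.A0) (norm_nonneg (tr 1 (W.C (Γ.iW φ r) * Γ.piJ μ (v - v'))))]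

/-- the fast component depends weakly on the slow data -/
theorem Box.ap_pi (h : Box k Γ μ s φ σ F) {v v' : EJ} (hj : Γ.IsJet (v - v'))
    (h1 : nm σ 1 v ≤ k.δ) (h2 : nm σ 1 v' ≤ k.δ) :
    ‖W.C (Γ.iW φ r) * Γ.piJ μ (v - v')‖ ≤ k.C * (‖tr 1 (W.C (Γ.iW φ r) * Γ.piJ μ (v - v'))‖ +
      ‖W.C (Γ.iW φ r) * (F v - F v')‖) + k.η * ‖slowD s (W.C (Γ.iW φ r) * (v - v').y2)‖ +
      k.A / k.c₁ * ‖slowD s (W.C (Γ.iW φ r) * (v - v').y)‖ := by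
  have a1 := h.src_le r hj h1 h2
  have a2 := h.ap r hj h1 h2
  have a3 := h.good.l_pi r hj
  have a4 := h.ok.le_C₁
  have a5 := h.ok.one_le_inv
  have a6 := h.ok.sm
  have a7 := h.ok.A0
  have a8 : 0 ≤ k.ε + 2 * k.e := add_nonneg h.ok.ε0 (mul_nonneg zero_le_two h.ok.e0)
  rw [show 1 / (2 * k.c₁) = 1 / k.c₁ / 2 by field_simp] at a3
  rw [Cst.η, div_eq_mul_one_div (_ * _) k.c₁, div_eq_mul_one_div k.A k.c₁]
  have hD := norm_nonneg (slowD s (W.C (Γ.iW φ r) * (v - v').y2))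
  have hY := norm_nonneg (slowD s (W.C (Γ.iW φ r) * (v - v').y))
  have hW := norm_nonneg (tr 1 (W.C (Γ.iW φ r) * Γ.piJ μ (v - v')))
  have hF := norm_nonneg (W.C (Γ.iW φ r) * (F v - F v'))
  generalize ‖slowD s (W.C (Γ.iW φ r) * (v - v').y2)‖ = D at *
  generalize ‖slowD s (W.C (Γ.iW φ r) * (v - v').y)‖ = Y at *
  generalize ‖tr 1 (W.C (Γ.iW φ r) * Γ.piJ μ (v - v'))‖ = O at *
  generalize ‖W.C (Γ.iW φ r) * (F v - F v')‖ = Q at *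
  generalize 1 / k.c₁ = i at *
  generalize k.ε + 2 * k.e = n at *
  have b1 : n * k.C ≤ 2 + k.A := by unfold Cst.C; nlinarith
  have b2 : n * nm σ (Γ.iW φ r) (v - v') ≤ n * k.C * D + (2 + k.A) * (O + Q) := by
    nlinarith [mul_le_mul_of_nonneg_left a2 a8, mul_le_mul_of_nonneg_right b1 (add_nonneg hW hF)]
  have b3 : ‖W.C (Γ.iW φ r) * Γ.src μ (v - v')‖ ≤ n * k.C * D + (3 + k.A) * (O + Q) + k.A * Y := by
    linarith
  have b4 := mul_le_mul_of_nonneg_left b3 (by linarith : 0 ≤ i / 2)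
  have b5 : 1 + i / 2 * (3 + k.A) ≤ k.C := by unfold Cst.C; nlinarith
  have b6 := mul_le_mul_of_nonneg_right b5 (add_nonneg hW hF)
  have b7 : 0 ≤ n * k.C * D * i := by have := h.ok.one_le_C; positivity
  have b8 : 0 ≤ k.A * Y * i := by positivity
  nlinarith

/-- selected modes, for instance those prescribed at the end -/
theorem Lin.ap_mult (h : Lin k Γ μ s φ σ) {j : EJ} (hj : Γ.IsJet j) {χ : ℤ → ℂ}
    (hχ : ∀ m, ‖χ m‖ ≤ 1) : ‖mult χ (W.C (Γ.iW φ r) * j.y2)‖ ≤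
      ‖mult χ (slowD s (W.C (Γ.iW φ r) * j.y2))‖ + k.K * ‖W.C (Γ.iW φ r) * Γ.piJ μ j‖ := by
  have a1 := h.good.l_y2 r (hj.mu hχ)
  have e : slowD s (mult χ (W.C (Γ.iW φ r) * j.y2)) = mult χ (slowD s (W.C (Γ.iW φ r) * j.y2)) := by
    ext1 m; rw [c_slowD, c_mult hχ, c_mult hχ, c_slowD]; rfl
  rw [h.good.piJ_mu hj hχ, EJ.mu_y2, C_mul_mult hχ, C_mul_mult hχ, e] at a1
  refine a1.trans ?_
  have := h.ok.K1
  gcongr
  exact (norm_mult_apply_le hχ _).trans_eq (one_mul _)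

theorem Lin.ap_y (h : Lin k Γ μ s φ σ) {j : EJ} (hj : Γ.IsJet j) : ‖W.C (Γ.iW φ r) * j.y‖ ≤
    ‖slowD s (W.C (Γ.iW φ r) * j.y)‖ + k.ρ * ‖W.C (Γ.iW φ r) * Γ.piJ μ j‖ := h.good.l_y r hj h.sm

/-- **uniqueness** -/
theorem Box.unique (h : Box k Γ μ s φ σ F) (hσ : ∀ t, 1 ≤ ‖σ t‖) {v v' : EJ}
    (hj : Γ.IsJet (v - v')) (h1 : nm σ 1 v ≤ k.δ) (h2 : nm σ 1 v' ≤ k.δ) (hF : F v = F v')
    (hd : slowD s v.y2 = slowD s v'.y2) (hω : tr 1 (Γ.piJ μ v) = tr 1 (Γ.piJ μ v')) : v = v' := by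
  have a1 := h.ap p0 hj h1 h2
  have e1 : slowD s (W.C (Γ.iW φ p0) * (v - v').y2) = 0 := by
    ext m
    have := congrArg (fun d : WD => d.c m) hd
    simp only [c_slowD] at this
    simp [this]
  have e2 : tr 1 (W.C (Γ.iW φ p0) * Γ.piJ μ (v - v')) = 0 := by
    rw [tr_mul, piJ_sub, map_sub, hω, sub_self, mul_zero]
  rw [e1, e2, hF, sub_self, mul_zero] at a1
  have a2 := (norm_le_nm (v - v') hσ).trans ((nm_one_le φ p0 σ (v - v')).trans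
    (mul_le_mul_of_nonneg_left a1 (norm_nonneg _)))
  simpa [sub_eq_zero] using a2

end box

end Vale.Agent.P218N.End
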