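import Mathlib

/-! The Banach algebra `W A = ℓ¹(ℤ; A)` of absolutely convergent Fourier series with coefficients
in a commutative Banach algebra `A`. -/

open Filter Topology

noncomputable section

namespace Vale.Agent.P218N.End

/-- `ℓ¹(ℤ; A)` -/
def W (A : Type*) [NormedAddCommGroup A] : Type _ := lp (fun _ : ℤ => A) 1

namespace W

section group
variable {A : Type*} [NormedAddCommGroup A]

instance : NormedAddCommGroup (W A) := inferInstanceAs (NormedAddCommGroup (lp (fun _ : ℤ => A) 1))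

instance [CompleteSpace A] : CompleteSpace (W A) :=
  inferInstanceAs (CompleteSpace (lp (fun _ : ℤ => A) 1))

instance [NormedSpace ℂ A] : NormedSpace ℂ (W A) :=
  inferInstanceAs (NormedSpace ℂ (lp (fun _ : ℤ => A) 1))

/-- the coefficients -/
def c (a : W A) : ℤ → A := (show lp (fun _ : ℤ => A) 1 from a)

theorem hasSum (a : W A) : HasSum (fun m => ‖a.c m‖) ‖a‖ := by
  have := lp.hasSum_norm (E := fun _ : ℤ => A) (p := 1) (by simp) a
  simp only [ENNReal.toReal_one, Real.rpow_one] at this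
  exact this

theorem sm (a : W A) : Summable fun m => ‖a.c m‖ := a.hasSum.summable

theorem norm_eq (a : W A) : ‖a‖ = ∑' m, ‖a.c m‖ := a.hasSum.tsum_eq.symm

@[ext] theorem ext {a b : W A} (h : ∀ m, a.c m = b.c m) : a = b := lp.ext (funext h)

/-- the element with given coefficients -/
def mk (f : ℤ → A) (hf : Summable fun m => ‖f m‖) : W A :=
  (⟨f, memℓp_gen (by simpa using hf)⟩ : lp (fun _ : ℤ => A) 1)

@[simp] theorem c_mk (f : ℤ → A) (hf : Summable fun m => ‖f m‖) : (mk f hf).c = f := rfl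

@[simp] theorem c_add (a b : W A) (m : ℤ) : (a + b).c m = a.c m + b.c m := rfl
@[simp] theorem c_sub (a b : W A) (m : ℤ) : (a - b).c m = a.c m - b.c m := rfl
@[simp] theorem c_neg (a : W A) (m : ℤ) : (-a).c m = -a.c m := rfl
@[simp] theorem c_zero (m : ℤ) : (0 : W A).c m = 0 := rfl
@[simp] theorem c_smul [NormedSpace ℂ A] (z : ℂ) (a : W A) (m : ℤ) : (z • a).c m = z • a.c m := rfl

theorem norm_c_le (a : W A) (m : ℤ) : ‖a.c m‖ ≤ ‖a‖ :=
  le_hasSum a.hasSum m fun _ _ => norm_nonneg _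

theorem norm_le_of_le {B : Type*} [NormedAddCommGroup B] {a : W A} {b : W B} {C : ℝ}
    (h : ∀ m, ‖a.c m‖ ≤ C * ‖b.c m‖) : ‖a‖ ≤ C * ‖b‖ :=
  hasSum_le h a.hasSum (b.hasSum.mul_left C)

theorem norm_le_of_hasSum {a : W A} {f : ℤ → ℝ} {s : ℝ} (hf : HasSum f s)
    (h : ∀ m, ‖a.c m‖ ≤ f m) : ‖a‖ ≤ s := hasSum_le h a.hasSum hf

theorem sum_norm_le (a : W A) (s : Finset ℤ) : ∑ m ∈ s, ‖a.c m‖ ≤ ‖a‖ :=
  sum_le_hasSum s (fun _ _ => norm_nonneg _) a.hasSum

theorem norm_le_of_sum_le {a : W A} {C : ℝ} (h : ∀ s : Finset ℤ, ∑ m ∈ s, ‖a.c m‖ ≤ C) :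
    ‖a‖ ≤ C := by
  rw [norm_eq]; exact a.sm.tsum_le_of_sum_le h

/-- a single mode -/
def one1 (n : ℤ) (x : A) : W A :=
  mk (fun m => if m = n then x else 0) (summable_of_ne_finset_zero (s := {n}) fun m hm => by
    simp only [Finset.mem_singleton] at hm
    simp [hm])

theorem c_one1 (n : ℤ) (x : A) (m : ℤ) : (one1 n x).c m = if m = n then x else 0 := rfl

@[simp] theorem norm_one1 (n : ℤ) (x : A) : ‖one1 n x‖ = ‖x‖ := by
  rw [norm_eq, tsum_eq_single n fun m hm => by simp [c_one1, hm]]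
  simp [c_one1]

end group

section linear
variable {A B : Type*} [NormedAddCommGroup A] [NormedSpace ℂ A] [NormedAddCommGroup B]
  [NormedSpace ℂ B]

/-- the coefficient maps -/
def cL (m : ℤ) : W A →L[ℂ] A :=
  LinearMap.mkContinuous ⟨⟨fun a => a.c m, fun _ _ => rfl⟩, fun _ _ => rfl⟩ 1 fun a => by
    rw [one_mul]; exact a.norm_c_le m

@[simp] theorem cL_apply (m : ℤ) (a : W A) : cL m a = a.c m := rfl

theorem norm_cL_le (m : ℤ) : ‖(cL m : W A →L[ℂ] A)‖ ≤ 1 :=
  LinearMap.mkContinuous_norm_le _ zero_le_one _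

/-- a single mode, as a linear map -/
def oneL (n : ℤ) : A →L[ℂ] W A :=
  LinearMap.mkContinuous
    ⟨⟨one1 n, fun x y => by ext m; simp only [c_one1, c_add]; split_ifs <;> simp⟩,
      fun z x => by ext m; simp only [c_one1, c_smul]; split_ifs <;> simp⟩ 1 fun a => by
    simp

@[simp] theorem oneL_apply (n : ℤ) (x : A) : oneL n x = one1 n x := rfl

open Classical in
/-- the operator acting by `T m` on the mode `m` (zero unless the `T m` are uniformly bounded) -/
def diag (T : ℤ → A →L[ℂ] B) : W A →L[ℂ] W B :=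
  if h : ∃ C : ℝ, ∀ m, ‖T m‖ ≤ C then
    LinearMap.mkContinuous
      ⟨⟨fun a => mk (fun m => T m (a.c m))
          (Summable.of_nonneg_of_le (fun _ => norm_nonneg _)
            (fun m => (T m).le_of_opNorm_le (h.choose_spec m) _) (a.sm.mul_left _)),
        fun a b => by ext m; simp⟩, fun z a => by ext m; simp⟩ h.choose fun a =>
      norm_le_of_le fun m => (T m).le_of_opNorm_le (h.choose_spec m) _
  else 0

theorem c_diag {T : ℤ → A →L[ℂ] B} {C : ℝ} (h : ∀ m, ‖T m‖ ≤ C) (a : W A) (m : ℤ) :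
    (diag T a).c m = T m (a.c m) := by
  unfold diag
  rw [dif_pos ⟨C, h⟩]
  rfl

theorem norm_diag_le {T : ℤ → A →L[ℂ] B} {C : ℝ} (h : ∀ m, ‖T m‖ ≤ C) : ‖diag T‖ ≤ C := by
  refine ContinuousLinearMap.opNorm_le_bound _ ((norm_nonneg _).trans (h 0)) fun a => ?_
  refine norm_le_of_le fun m => ?_
  rw [c_diag h]
  exact (T m).le_of_opNorm_le (h m) _

omit [NormedSpace ℂ A] in
theorem hasSum_one1 (a : W A) : HasSum (fun m => one1 m (a.c m)) a := by
  have h := lp.hasSum_single (E := fun _ : ℤ => A) (p := 1) (by simp) a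
  refine h.congr_fun fun m => ?_
  refine lp.ext (funext fun n => ?_)
  by_cases hn : n = m
  · subst hn
    rw [lp.single_apply_self]
    exact (if_pos rfl : (if n = n then a.c n else 0) = a.c n)
  · rw [lp.single_apply_ne _ _ _ hn]
    exact (if_neg hn : (if n = m then a.c m else 0) = 0)

end linear

section ring
variable {A : Type*} [NormedCommRing A] [CompleteSpace A]

/-- the change of variables `(n, m) ↦ (m, n - m)` -/
def shear : ℤ × ℤ ≃ ℤ × ℤ where
  toFun p := (p.2, p.1 - p.2)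
  invFun p := (p.1 + p.2, p.1)
  left_inv p := by simp
  right_inv p := by simp

omit [CompleteSpace A] in
theorem hasSum_shear (a b : W A) :
    HasSum (fun p : ℤ × ℤ => ‖a.c p.2‖ * ‖b.c (p.1 - p.2)‖) (‖a‖ * ‖b‖) := by
  have h0 : Summable fun p : ℤ × ℤ => ‖a.c p.1‖ * ‖b.c p.2‖ :=
    a.sm.mul_of_nonneg b.sm (fun _ => norm_nonneg _) fun _ => norm_nonneg _
  have h1 : HasSum (fun p : ℤ × ℤ => ‖a.c p.1‖ * ‖b.c p.2‖) (‖a‖ * ‖b‖) :=
    HasSum.mul (f := fun m => ‖a.c m‖) (g := fun m => ‖b.c m‖) a.hasSum b.hasSum h0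
  exact (shear.hasSum_iff (f := fun p : ℤ × ℤ => ‖a.c p.1‖ * ‖b.c p.2‖)).mpr h1

omit [CompleteSpace A] in
theorem summable_fib (a b : W A) (n : ℤ) : Summable fun m => ‖a.c m‖ * ‖b.c (n - m)‖ :=
  (hasSum_shear a b).summable.prod_factor n

omit [CompleteSpace A] in
theorem summable_fib' (a b : W A) (n : ℤ) : Summable fun m => ‖a.c m * b.c (n - m)‖ :=
  Summable.of_nonneg_of_le (fun _ => norm_nonneg _) (fun _ => norm_mul_le _ _) (summable_fib a b n)

omit [CompleteSpace A] in
theorem hasSum_fib (a b : W A) :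
    HasSum (fun n => ∑' m, ‖a.c m‖ * ‖b.c (n - m)‖) (‖a‖ * ‖b‖) :=
  (hasSum_shear a b).prod_fiberwise fun n => (summable_fib a b n).hasSum

omit [CompleteSpace A] in
theorem norm_conv_le (a b : W A) (n : ℤ) :
    ‖∑' m, a.c m * b.c (n - m)‖ ≤ ∑' m, ‖a.c m‖ * ‖b.c (n - m)‖ :=
  tsum_of_norm_bounded (summable_fib a b n).hasSum fun _ => norm_mul_le _ _

instance : Mul (W A) := ⟨fun a b => mk (fun n => ∑' m, a.c m * b.c (n - m))
  (Summable.of_nonneg_of_le (fun _ => norm_nonneg _) (norm_conv_le a b) (hasSum_fib a b).summable)⟩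

instance : One (W A) := ⟨one1 0 1⟩

omit [CompleteSpace A] in
theorem c_mul (a b : W A) (n : ℤ) : (a * b).c n = ∑' m, a.c m * b.c (n - m) := rfl

theorem hasSum_c_mul (a b : W A) (n : ℤ) :
    HasSum (fun m => a.c m * b.c (n - m)) ((a * b).c n) :=
  (summable_fib' a b n).of_norm.hasSum

omit [CompleteSpace A] in
theorem norm_mul_le' (a b : W A) : ‖a * b‖ ≤ ‖a‖ * ‖b‖ :=
  norm_le_of_hasSum (hasSum_fib a b) (norm_conv_le a b)

omit [CompleteSpace A] in
theorem one1_mul (k : ℤ) (x : A) (b : W A) (n : ℤ) : (one1 k x * b).c n = x * b.c (n - k) := by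
  rw [c_mul, tsum_eq_single k fun m hm => by simp [c_one1, hm]]
  simp [c_one1]

omit [CompleteSpace A] in
theorem mul_comm' (a b : W A) : a * b = b * a := by
  ext n
  rw [c_mul, c_mul, ← (Equiv.subLeft n).tsum_eq]
  refine tsum_congr fun m => ?_
  simp [mul_comm]

/-- pairing a convolution with a bounded sequence -/
theorem hasSum_pair (a b : W A) {χ : ℤ → A} {K : ℝ} (hχ : ∀ n, ‖χ n‖ ≤ K) :
    Summable (fun p : ℤ × ℤ => a.c p.1 * b.c p.2 * χ (p.1 + p.2)) ∧
    HasSum (fun n => (a * b).c n * χ n) (∑' p : ℤ × ℤ, a.c p.1 * b.c p.2 * χ (p.1 + p.2)) := by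
  have h0 : Summable fun p : ℤ × ℤ => ‖a.c p.1‖ * ‖b.c p.2‖ :=
    a.sm.mul_of_nonneg b.sm (fun _ => norm_nonneg _) fun _ => norm_nonneg _
  have h1 : Summable (fun p : ℤ × ℤ => a.c p.1 * b.c p.2 * χ (p.1 + p.2)) := by
    refine Summable.of_norm_bounded (h0.mul_right K) fun p => ?_
    refine (norm_mul_le _ _).trans ?_
    exact mul_le_mul (norm_mul_le _ _) (hχ _) (norm_nonneg _) (by positivity)
  refine ⟨h1, ?_⟩
  have h2 : HasSum (fun p : ℤ × ℤ => a.c p.2 * b.c (p.1 - p.2) * χ p.1)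
      (∑' p : ℤ × ℤ, a.c p.1 * b.c p.2 * χ (p.1 + p.2)) := by
    have := shear.hasSum_iff.mpr h1.hasSum
    refine this.congr_fun ?_
    intro p
    simp [shear]
  exact h2.prod_fiberwise fun n => (hasSum_c_mul a b n).mul_right _

theorem mul_assoc' (a b d : W A) : a * b * d = a * (b * d) := by
  ext n
  obtain ⟨h1, h2⟩ := hasSum_pair a b (χ := fun m => d.c (n - m)) fun m => d.norm_c_le _
  have h3 : HasSum (fun m => a.c m * (b * d).c (n - m))
      (∑' p : ℤ × ℤ, a.c p.1 * b.c p.2 * d.c (n - (p.1 + p.2))) := by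
    refine h1.hasSum.prod_fiberwise fun m => ?_
    have := (hasSum_c_mul b d (n - m)).mul_left (a.c m)
    refine this.congr_fun ?_
    intro k
    simp only [mul_assoc, sub_sub]
  exact h2.tsum_eq.trans h3.tsum_eq.symm

theorem mul_add' (a b d : W A) : a * (b + d) = a * b + a * d := by
  ext n
  refine (hasSum_c_mul _ _ n).unique ?_
  simpa [mul_add] using (hasSum_c_mul a b n).add (hasSum_c_mul a d n)

instance : NormedCommRing (W A) :=
  { (inferInstance : NormedAddCommGroup (W A)), (inferInstance : Mul (W A)),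
    (inferInstance : One (W A)) with
    mul_assoc := mul_assoc'
    one_mul := fun a => by ext n; exact (one1_mul 0 1 a n).trans (by simp)
    mul_one := fun a => by rw [mul_comm']; ext n; exact (one1_mul 0 1 a n).trans (by simp)
    zero_mul := fun a => by ext n; simp [c_mul]
    mul_zero := fun a => by ext n; simp [c_mul]
    left_distrib := mul_add'
    right_distrib := fun a b d => by rw [mul_comm', mul_add', mul_comm' d, mul_comm' d]
    mul_comm := mul_comm'
    norm_mul_le := norm_mul_le' }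

omit [CompleteSpace A] in
theorem c_one (m : ℤ) : (1 : W A).c m = if m = 0 then 1 else 0 := rfl

instance [NormOneClass A] : NormOneClass (W A) := ⟨(norm_one1 0 (1 : A)).trans norm_one⟩

omit [CompleteSpace A] in
theorem one1_mul_one1 (k l : ℤ) (x y : A) : one1 k x * one1 l y = one1 (k + l) (x * y) := by
  ext n
  rw [one1_mul, c_one1, c_one1]
  by_cases h : n = k + l
  · rw [if_pos h, if_pos (by omega)]
  · rw [if_neg h, if_neg (by omega), mul_zero]

variable [NormedAlgebra ℂ A]

instance : NormedAlgebra ℂ (W A) :=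
  { Algebra.ofModule (R := ℂ) (A := W A)
      (fun r a b => by
        ext n
        refine (hasSum_c_mul _ _ n).unique ?_
        simpa using (hasSum_c_mul a b n).const_smul r)
      (fun r a b => by
        ext n
        refine (hasSum_c_mul _ _ n).unique ?_
        simpa using (hasSum_c_mul a b n).const_smul r) with
    norm_smul_le := fun r a => norm_smul_le r a }

/-- the coefficients as `θ`-independent elements -/
def C : A →ₐ[ℂ] W A where
  toFun := one1 0
  map_one' := rfl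
  map_mul' x y := by rw [one1_mul_one1, add_zero]
  map_zero' := (oneL (A := A) 0).map_zero
  map_add' := (oneL (A := A) 0).map_add
  commutes' z := by
    rw [Algebra.algebraMap_eq_smul_one, Algebra.algebraMap_eq_smul_one]
    exact (oneL (A := A) 0).map_smul z 1

theorem C_apply (x : A) : C x = one1 0 x := rfl

@[simp] theorem norm_C (x : A) : ‖(C x : W A)‖ = ‖x‖ := norm_one1 0 x

@[simp] theorem c_C_mul (x : A) (b : W A) (n : ℤ) : (C x * b).c n = x * b.c n := by
  rw [C_apply, one1_mul, sub_zero]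

omit [CompleteSpace A] in
theorem norm_exp_smul (θ : ℝ) (m : ℤ) (x : A) :
    ‖Complex.exp (m * θ * Complex.I) • x‖ = ‖x‖ := by
  rw [norm_smul, ← Complex.ofReal_intCast, ← Complex.ofReal_mul,
    Complex.norm_exp_ofReal_mul_I, one_mul]

theorem summable_exp (θ : ℝ) (a : W A) :
    Summable fun m : ℤ => Complex.exp (m * θ * Complex.I) • a.c m :=
  Summable.of_norm_bounded a.sm fun m => (norm_exp_smul θ m _).le

/-- the sum of the Fourier series at the angle `θ` -/
def sumL (θ : ℝ) : W A →L[ℂ] A :=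
  LinearMap.mkContinuous
    ⟨⟨fun a => ∑' m : ℤ, Complex.exp (m * θ * Complex.I) • a.c m, fun a b => by
      simp only [c_add, smul_add]
      exact (summable_exp θ a).tsum_add (summable_exp θ b)⟩,
    fun z a => by
      simp only [c_smul, RingHom.id_apply, smul_comm _ z]
      exact (summable_exp θ a).tsum_const_smul z⟩ 1 fun a => by
    rw [one_mul]
    exact tsum_of_norm_bounded a.hasSum fun m => (norm_exp_smul θ m _).le

theorem hasSum_sumL (θ : ℝ) (a : W A) :
    HasSum (fun m : ℤ => Complex.exp (m * θ * Complex.I) • a.c m) (sumL θ a) :=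
  (summable_exp θ a).hasSum

theorem norm_sumL_le (θ : ℝ) (a : W A) : ‖sumL θ a‖ ≤ ‖a‖ :=
  (hasSum_sumL θ a).norm_le_of_bounded a.hasSum fun m => (norm_exp_smul θ m _).le

@[simp] theorem sumL_one1 (θ : ℝ) (n : ℤ) (x : A) :
    sumL θ (one1 n x) = Complex.exp (n * θ * Complex.I) • x := by
  rw [← (hasSum_sumL θ _).tsum_eq, tsum_eq_single n fun m hm => by simp [c_one1, hm]]
  simp [c_one1]

theorem sumL_mul (θ : ℝ) (a b : W A) : sumL θ (a * b) = sumL θ a * sumL θ b := by
  obtain ⟨h1, h2⟩ := hasSum_pair a b (χ := fun n => Complex.exp (n * θ * Complex.I) • (1 : A))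
    (K := ‖(1 : A)‖) fun n => (norm_exp_smul θ n _).le
  have h3 : HasSum (fun n : ℤ => (a * b).c n * Complex.exp (n * θ * Complex.I) • (1 : A))
      (sumL θ (a * b)) := by simpa using hasSum_sumL θ (a * b)
  rw [h3.unique h2]
  have e : ∀ p : ℤ × ℤ, a.c p.1 * b.c p.2 * Complex.exp (((p.1 + p.2 : ℤ) : ℂ) * θ * Complex.I) • (1 : A)
      = (Complex.exp (p.1 * θ * Complex.I) • a.c p.1) *
        (Complex.exp (p.2 * θ * Complex.I) • b.c p.2) := by
    intro p
    rw [smul_mul_smul_comm, ← Complex.exp_add, mul_smul_comm, mul_one]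
    congr 2
    push_cast
    ring
  simp only [e] at h1 ⊢
  exact ((hasSum_sumL θ a).mul (hasSum_sumL θ b) h1).tsum_eq

/-- the sum of the Fourier series, as an algebra map -/
def sumA (θ : ℝ) : W A →ₐ[ℂ] A where
  toFun := sumL θ
  map_one' := (sumL_one1 θ 0 1).trans (by simp)
  map_mul' := sumL_mul θ
  map_zero' := (sumL θ).map_zero
  map_add' := (sumL θ).map_add
  commutes' z := by
    rw [Algebra.algebraMap_eq_smul_one, Algebra.algebraMap_eq_smul_one, map_smul]
    congr 1
    exact (sumL_one1 θ 0 1).trans (by simp)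

theorem sumA_apply (θ : ℝ) (a : W A) : sumA θ a = sumL θ a := rfl

@[simp] theorem sumL_C (θ : ℝ) (x : A) : sumL θ (C x) = x := by
  rw [C_apply, sumL_one1]; simp

end ring

end W

end Vale.Agent.P218N.End
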