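import Vale.Agent.P218N.End.Est
import Vale.Agent.P218N.End.Wien

/-! The end problems: jets along a contour, the shrinker equation on cylindrical and conical
ends, Lagrangians and fluxes, the linear solver. -/

open Filter Topology Metric Set Complex
open scoped BoundedContinuousFunction

noncomputable section

namespace Vale.Agent.P218N.End

/-- functions of `(t, θ)`: `ℓ¹` in the Fourier modes, bounded continuous along the contour -/
abbrev WB : Type := W BC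

/-- data at a point of the contour -/
abbrev WD : Type := W ℂ

/-- the value at `(t, θ)` -/
def ev (f : WB) (t θ : ℝ) : ℂ := W.sumL θ f t

/-- the trace at the point `t` of the contour -/
def tr (t : ℝ) : WB →L[ℂ] WD := W.diag fun _ => BoundedContinuousFunction.evalCLM ℂ t

/-- functions of `θ` only -/
def cst : WD →L[ℂ] WB := W.diag fun _ => (ContinuousLinearMap.id ℂ ℂ).smulRight (1 : BC)

/-- the Fourier multiplier with a bounded symbol -/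
def mult {A : Type*} [NormedAddCommGroup A] [NormedSpace ℂ A] (σ : ℤ → ℂ) : W A →L[ℂ] W A :=
  W.diag fun m => σ m • ContinuousLinearMap.id ℂ A

/-- `1 + m²` -/
def br (m : ℤ) : ℝ := 1 + (m : ℝ) ^ 2

/-- Scaled jets `(y2, op, oq, pt)`: the modes are `(1 + m²) y_m`, `Ω y_m'`, `Ω y_m''`,
`i m y_m'`, where `' = d/dζ`. -/
abbrev EJ : Type := WB × WB × WB × WB

namespace EJ
variable (j : EJ)
/-- `(1 - ∂_θ²) y` -/
def y2 : WB := j.1
/-- `Ω ∂_ζ y` -/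
def op : WB := j.2.1
/-- `Ω ∂_ζ² y` -/
def oq : WB := j.2.2.1
/-- `∂_θ ∂_ζ y` -/
def pt : WB := j.2.2.2
/-- the function -/
def y : WB := mult (fun m => ((br m : ℝ) : ℂ)⁻¹) j.y2
/-- `∂_θ y` -/
def yt : WB := mult (fun m => m * I * ((br m : ℝ) : ℂ)⁻¹) j.y2
/-- `∂_θ² y` -/
def ytt : WB := mult (fun m => -(m : ℂ) ^ 2 * ((br m : ℝ) : ℂ)⁻¹) j.y2
end EJ

/-- `j` is the jet of a function along the contour -/
def Ctr.IsJet (Γ : Ctr) (j : EJ) : Prop := ∀ m : ℤ,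
  Γ.Der (j.y.c m) (Γ.io * j.op.c m) ∧ Γ.Der (Γ.io * j.op.c m) (Γ.io * j.oq.c m) ∧
    j.pt.c m = ((m : ℂ) * I) • (Γ.io * j.op.c m)

/-- A path `ζ = ze t` with speed `g`. -/
structure Path where
  ze : BC
  g : BC

/-- the pointwise inverse -/
def binv (a : BC) : BC := nem (fun z => z⁻¹) a

namespace Path
variable (γ : Path)

structure Ok : Prop where
  spt : Spt γ.g
  der : ∀ t, HasDerivAt γ.ze (γ.g t) t

/-- `ρ₀ = 2 + a (ζ - 2)` -/
def rho (a : ℂ) : BC := 2 + a • (γ.ze - 2)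

/-- the contour data of a cylindrical end, `Ω = ζ ρ₀` -/
def cyl (a : ℂ) : Ctr where
  g := γ.g
  Om := γ.ze * γ.rho a
  io := binv γ.ze * binv (γ.rho a)
  lo := binv γ.ze + a • binv (γ.rho a)

/-- the contour data of a conical end, `Ω = ζ²` -/
def cone : Ctr where
  g := γ.g
  Om := γ.ze * γ.ze
  io := binv γ.ze * binv γ.ze
  lo := (2 : ℂ) • binv γ.ze

end Path

/-! ### The equations, as polynomials over any commutative ring -/

section poly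
variable {R : Type*} [CommRing R]

/-- `Ω B²` for `B = y' + h (1 + y)`, `h = a / (2 ρ₀)`, `io = 1/Ω`, `Oh = Ω h = ζ a / 2` -/
def cylB (io h Oh y op : R) : R := io * op ^ 2 + 2 * h * op * (1 + y) + Oh * h * (1 + y) ^ 2

/-- `det g / ρ₀` -/
def cylD (io h Oh y yt op : R) : R := (1 + y) ^ 2 * (1 + 4 * cylB io h Oh y op) + yt ^ 2

/-- The shrinker equation for `X = (r cos θ, r sin θ, z)`, `ζ = z²`, `r = √ρ₀ (1 + y)`:
`ρ₀⁻¹ ⟨adj(g)^{ab} X_ab + det g X / 2, n⟩` with `n = r e - r_θ e^⊥ - r r_z e₃`; `iz = 1/ζ`. -/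
def cylE (a iz io h Oh y yt ytt op oq pt : R) : R :=
  ((1 + y) ^ 2 + yt ^ 2) * (1 + y) * (4 * oq + 8 * h * op - 4 * Oh * h * (1 + y) + 2 * iz * op +
      a * (1 + y))
    - 8 * (1 + y) * yt * (op + Oh * (1 + y)) * (pt + h * yt)
    + 8 * yt ^ 2 * cylB io h Oh y op
    + (1 + 4 * cylB io h Oh y op) * ((1 + y) * ytt - (1 + y) ^ 2 - 2 * yt ^ 2)
    + cylD io h Oh y yt op * (1 + y) * ((1 - a) * (1 + y) - op)

/-- `det g / ζ` on a conical end; `al = w + 2 ζ w'`, `be = ∂_l w` -/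
def coneD (ka w al be : R) : R := (1 - ka * w) ^ 2 * (1 + al ^ 2) + be ^ 2

/-- The shrinker equation for `X = r (γ + w n)`, `ζ = r²`, `∂_l = cc ∂_θ` the arc length
derivative on the link, `ka` its geodesic curvature (`γ'' = -γ + ka n`, `n' = -ka γ'`),
`kd = ∂_l ka`: `r⁻¹ ⟨adj(g)^{ab} X_ab + det g X / 2, N⟩`, `N = φ n - φ α γ - β γ'`;
`zp = ζ ∂_θ ∂_ζ w`. -/
def coneE (cc ka kd iz w wt wtt op oq zp : R) : R :=
  ((1 - ka * w) ^ 2 + (cc * wt) ^ 2) * (1 - ka * w) * (4 * oq + 6 * iz * op)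
    - 2 * (w + 2 * iz * op) * (cc * wt) * ((1 - ka * w) * (cc * wt + 2 * cc * zp) -
      cc * wt * (1 - ka * (w + 2 * iz * op)))
    + (1 + (w + 2 * iz * op) ^ 2) * ((1 - ka * w) ^ 2 * ka + (1 - ka * w) * (cc ^ 2 * wtt) +
      (1 - ka * w) ^ 2 * (w + 2 * iz * op) + cc * wt * (kd * w + 2 * ka * (cc * wt)))
    - coneD ka w (w + 2 * iz * op) (cc * wt) * (1 - ka * w) * op

end poly

namespace Path
variable (γ : Path)

/-- `h = a / (2 ρ₀)` -/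
def hh (a : ℂ) : BC := (a / 2) • binv (γ.rho a)
/-- `Ω h = ζ a / 2` -/
def Oh (a : ℂ) : BC := (a / 2) • γ.ze

/-- the equation on a cylindrical end -/
def Ecyl (a : ℂ) (j : EJ) : WB :=
  cylE (algebraMap ℂ WB a) (W.C (binv γ.ze)) (W.C (γ.cyl a).io) (W.C (γ.hh a)) (W.C (γ.Oh a))
    j.y j.yt j.ytt j.op j.oq j.pt

/-- the equation on a conical end -/
def Econe (cc : ℝ) (ka kd : WD) (j : EJ) : WB :=
  coneE (algebraMap ℂ WB cc) (cst ka) (cst kd) (W.C (binv γ.ze)) j.y j.yt j.ytt j.op j.oq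
    (W.C γ.ze * j.pt)

/-- solutions on a cylindrical end -/
def IsCyl (a : ℂ) (j : EJ) : Prop := (γ.cyl a).IsJet j ∧ γ.Ecyl a j = 0

/-- solutions on a conical end -/
def IsCone (cc : ℝ) (ka kd : WD) (j : EJ) : Prop := γ.cone.IsJet j ∧ γ.Econe cc ka kd j = 0

end Path

/-! ### Lagrangians (Gaussian area with respect to `dζ dθ`) and fluxes -/

/-- `h = a / (2 ρ₀)` etc. at a point -/
def rh (a ζ : ℂ) : ℂ := 2 + a * (ζ - 2)

/-- `det g / ρ₀` at a point -/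
def Dc (a ζ y yt op : ℂ) : ℂ := cylD (ζ * rh a ζ)⁻¹ (a / (2 * rh a ζ)) (a / 2 * ζ) y yt op

/-- the Gaussian area density on a cylindrical end -/
def lagCyl (a ζ y yt op : ℂ) : ℂ := Complex.sqrt (ζ * rh a ζ) / (2 * ζ) *
  Complex.sqrt (Dc a ζ y yt op) * Complex.exp (-(ζ + rh a ζ * (1 + y) ^ 2) / 4)

/-- the flux density `L_{r'} δr` for the variation `(δa, δy)` -/
def fluxCyl (a ζ y yt op da dy : ℂ) : ℂ := 2 * Complex.sqrt (ζ * rh a ζ) / ζ * (1 + y) ^ 2 *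
  (op + a / 2 * ζ * (1 + y)) / Complex.sqrt (Dc a ζ y yt op) *
  Complex.exp (-(ζ + rh a ζ * (1 + y) ^ 2) / 4) * (dy + (1 + y) * (ζ - 2) * da / (2 * rh a ζ))

/-- the Gaussian area density on a conical end -/
def lagCone (cc : ℝ) (ka ζ w wt op : ℂ) : ℂ := 1 / (2 * cc) *
  Complex.sqrt (coneD ka w (w + 2 * ζ⁻¹ * op) (cc * wt)) * Complex.exp (-(ζ * (1 + w ^ 2)) / 4)

/-- the flux density `L_{w'} δw` -/
def fluxCone (cc : ℝ) (ka ζ w wt op dw : ℂ) : ℂ := ζ / cc * (1 - ka * w) ^ 2 *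
  (w + 2 * ζ⁻¹ * op) / Complex.sqrt (coneD ka w (w + 2 * ζ⁻¹ * op) (cc * wt)) *
  Complex.exp (-(ζ * (1 + w ^ 2)) / 4) * dw

namespace Path
variable (γ : Path)

/-- the Gaussian area of the part of a cylindrical end along the path -/
def FCyl (a : ℂ) (j : EJ) : ℂ := ∫ t in (0 : ℝ)..1, γ.g t * ∫ θ in (0 : ℝ)..2 * Real.pi,
  lagCyl a (γ.ze t) (ev j.y t θ) (ev j.yt t θ) (ev j.op t θ)

/-- the flux through `ζ = ze t` -/
def FluxCyl (a : ℂ) (j : EJ) (t : ℝ) (da : ℂ) (dy : WB) : ℂ := ∫ θ in (0 : ℝ)..2 * Real.pi,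
  fluxCyl a (γ.ze t) (ev j.y t θ) (ev j.yt t θ) (ev j.op t θ) da (ev dy t θ)

def FCone (cc : ℝ) (ka : WD) (j : EJ) : ℂ := ∫ t in (0 : ℝ)..1, γ.g t *
  ∫ θ in (0 : ℝ)..2 * Real.pi,
    lagCone cc (W.sumL θ ka) (γ.ze t) (ev j.y t θ) (ev j.yt t θ) (ev j.op t θ)

def FluxCone (cc : ℝ) (ka : WD) (j : EJ) (t : ℝ) (dy : WB) : ℂ := ∫ θ in (0 : ℝ)..2 * Real.pi,
  fluxCone cc (W.sumL θ ka) (γ.ze t) (ev j.y t θ) (ev j.yt t θ) (ev j.op t θ) (ev dy t θ)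

end Path

/-! ### The linear solver -/

/-- the modes of a cylindrical end -/
def muCyl (m : ℤ) : ℝ := (m : ℝ) ^ 2 / 2 - 1
/-- the modes of a conical end -/
def muCone (cc : ℝ) (m : ℤ) : ℝ := cc ^ 2 * (m : ℝ) ^ 2 / 2
/-- modes `0, ±1` are prescribed at the end, the others at the start -/
def sdCyl (m : ℤ) : Icc (0 : ℝ) 1 := if |m| ≤ 1 then p1 else p0
/-- all modes are prescribed at the start -/
def sdAll (_ : ℤ) : Icc (0 : ℝ) 1 := p0

namespace Ctr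
variable (Γ : Ctr) (μ : ℤ → ℝ) (s : ℤ → Icc (0 : ℝ) 1)

/-- the fast components `π_m = Ω λ_m (y_m' + ν_m y_m) = λ_m op_m + μ_m y_m / 2` of a jet -/
def piJ (j : EJ) : WB := (1 / 4 : ℂ) • j.op +
  W.diag (fun m => if m = 0 then ContinuousLinearMap.mul ℂ BC (Γ.nuB (μ m)) else 0) j.op +
  W.diag (fun m => ContinuousLinearMap.mul ℂ BC (((m : ℂ) * I)⁻¹ • (Γ.Om * Γ.nuB (μ m)))) j.pt +
  mult (fun m => (μ m : ℂ) / 2 * ((br m : ℝ) : ℂ)⁻¹) j.y2

/-- the slow data: `(1 + m²) y_m` at the point `s m` -/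
def slowD : WB →L[ℂ] WD := W.diag fun m => BoundedContinuousFunction.evalCLM ℂ (s m : ℝ)

/-- the model operator `Ω (2 y'' - y'/2) - μ y` -/
def Mod (j : EJ) : WB := (2 : ℂ) • j.oq - (1 / 2 : ℂ) • j.op -
  mult (fun m => (μ m : ℂ) * ((br m : ℝ) : ℂ)⁻¹) j.y2

/-- the error term `e y` -/
def Err : WB →L[ℂ] WB :=
  W.diag fun m => ContinuousLinearMap.mul ℂ BC (((br m : ℝ) : ℂ)⁻¹ • Γ.ee (μ m))

/-- `π` from the source -/
def PiW : WB →L[ℂ] WB := W.diag fun m => Γ.Pi (μ m)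
/-- `π` from the terminal data -/
def PiD : WD →L[ℂ] WB := W.diag fun m => (ContinuousLinearMap.id ℂ ℂ).smulRight (Γ.hPi (μ m))
/-- `y2` from `π` -/
def YW : WB →L[ℂ] WB := W.diag fun m => ((br m : ℝ) : ℂ) • Γ.Ys (μ m) (s m)
/-- `y2` from the slow data -/
def YD : WD →L[ℂ] WB := W.diag fun m => (ContinuousLinearMap.id ℂ ℂ).smulRight (Γ.hY (μ m) (s m))
/-- multiplication by `1/λ_m` -/
def ilW : WB →L[ℂ] WB := W.diag fun m => ContinuousLinearMap.mul ℂ BC (Γ.il (μ m))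
/-- multiplication by `i m / (Ω λ_m)` -/
def ptW : WB →L[ℂ] WB :=
  W.diag fun m => ContinuousLinearMap.mul ℂ BC (((m : ℂ) * I) • (Γ.io * Γ.il (μ m)))

/-- the jet with source `f`, fast component `π` and function `y2` -/
def jetOf (f π y2 : WB) : EJ :=
  (y2, Γ.ilW μ (π - mult (fun m => (μ m : ℂ) / 2 * ((br m : ℝ) : ℂ)⁻¹) y2),
    (1 / 4 : ℂ) • Γ.ilW μ (π - mult (fun m => (μ m : ℂ) / 2 * ((br m : ℝ) : ℂ)⁻¹) y2) +
      mult (fun m => (μ m : ℂ) / 2 * ((br m : ℝ) : ℂ)⁻¹) y2 + (1 / 2 : ℂ) • f -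
      (1 / 2 : ℂ) • Γ.Err μ y2,
    Γ.ptW μ (π - mult (fun m => (μ m : ℂ) / 2 * ((br m : ℝ) : ℂ)⁻¹) y2))

/-- The solution of `Mod j = f - Err y2` with slow data `d` and fast terminal data `ω`. -/
def solve (f : WB) (d ω : WD) : EJ :=
  Γ.jetOf μ f (Γ.PiD μ ω + Γ.PiW μ f) (Γ.YD μ s d + Γ.YW μ s (Γ.PiD μ ω + Γ.PiW μ f))

/-- the hypotheses of the linear theory, for the weight `exp ∫ φ dζ` -/
structure Good (φ : BC) (c c₁ K : ℝ) : Prop where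
  ok : Γ.Ok
  adm : ∀ m, Γ.Adm (μ m) c
  c₁0 : 0 < c₁
  fm : ∀ m, Γ.FM (μ m) φ c₁
  sm : ∀ m, Γ.SM (μ m) φ (s m) (K / br m)
  mu_le : ∀ m, |μ m| ≤ K * br m
  le_mu : ∀ m : ℤ, (m : ℝ) ^ 2 ≤ K * (|μ m| + 1)
  io_le : ‖Γ.io‖ ≤ 1

end Ctr

end Vale.Agent.P218N.End
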