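import Vale.Agent.P218N.End.GeoA
import Vale.Agent.P218N.End.Defs

/-! The shrinker equation on cylindrical and conical ends: the algebra. -/

noncomputable section

namespace Vale.Agent.P218N.End

variable {K : Type*} [Field K] [CharZero K]

/-- The shrinker equation for `(r cos θ, r sin θ, z)` in the variables `ζ = z²` and `θ`;
`p = r_ζ`, `pp = r_ζζ`, `pt = r_ζθ`. -/
def radE (ζ r rt rtt p pp pt : K) : K :=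
  (rt ^ 2 + r ^ 2) * r * (2 * p + 4 * ζ * pp) - 8 * ζ * p * rt * r * pt + 8 * ζ * p ^ 2 * rt ^ 2 +
    (1 + 4 * ζ * p ^ 2) * (r * rtt - r ^ 2 - 2 * rt ^ 2) +
    ((1 + 4 * ζ * p ^ 2) * r ^ 2 + rt ^ 2) * (r ^ 2 - 2 * ζ * r * p) / 2

/-- The cylinder in the variables `(σ, θ)`, where `z = z σ`; normal `z1 (r e - r2 e^⊥) - r r1 e₃`. -/
theorem shrS_cyl {z z1 z11 r r1 r2 r11 r12 r22 p pp pt : K} (e1 : r1 = 2 * z * z1 * p)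
    (e11 : r11 = (2 * z * z1) ^ 2 * pp + (2 * z1 ^ 2 + 2 * z * z11) * p)
    (e12 : r12 = 2 * z * z1 * pt) :
    shrS (r1 ^ 2 + z1 ^ 2) (r1 * r2) (r2 ^ 2 + r ^ 2) (z1 * r * r11 - r * r1 * z11)
      (z1 * (r * r12 - r1 * r2)) (z1 * (r * (r22 - r) - 2 * r2 ^ 2)) (z1 * r ^ 2 - r * r1 * z) =
      z1 ^ 3 * radE (z ^ 2) r r2 r22 p pp pt := by
  subst e1 e11 e12
  unfold shrS radE
  ring

/-- `radE` for `r = sg (1 + y)`, `sg² = ρ = 2 + a (ζ - 2)` -/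
theorem radE_eq_cylE {a ζ ρ sg iz io h Oh y yt ytt y1 y2 pt : K} (hsg : sg ^ 2 = ρ)
    (hρ : ρ = 2 + a * (ζ - 2)) (hiz : iz * ζ = 1) (hio : io * (ζ * ρ) = 1) (hh : 2 * ρ * h = a)
    (hO : 2 * Oh = a * ζ) :
    radE ζ (sg * (1 + y)) (sg * yt) (sg * ytt) (sg * (y1 + h * (1 + y)))
      (sg * (y2 + 2 * h * y1 - h ^ 2 * (1 + y))) (sg * (pt + h * yt)) =
      ρ * cylE a iz io h Oh y yt ytt (ζ * ρ * y1) (ζ * ρ * y2) pt := by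
  obtain rfl : Oh = ρ * h * ζ := by linear_combination hO / 2 - ζ / 2 * hh
  have e : ∀ u ut utt p pp q : K, radE ζ (sg * u) (sg * ut) (sg * utt) (sg * p) (sg * pp) (sg * q) =
      ρ * (ρ * ((ut ^ 2 + u ^ 2) * u * (2 * p + 4 * ζ * pp) - 8 * ζ * p * ut * u * q +
        8 * ζ * p ^ 2 * ut ^ 2) + (1 + 4 * ζ * ρ * p ^ 2) * (u * utt - u ^ 2 - 2 * ut ^ 2) +
        ρ * ((1 + 4 * ζ * ρ * p ^ 2) * u ^ 2 + ut ^ 2) * (u ^ 2 - 2 * ζ * u * p) / 2) := by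
    intro u ut utt p pp q
    rw [← hsg]
    unfold radE
    ring
  have k1 : cylB io h (ρ * h * ζ) y (ζ * ρ * y1) = ζ * ρ * (y1 + h * (1 + y)) ^ 2 := by
    unfold cylB
    linear_combination ζ * ρ * y1 ^ 2 * hio
  have k2 : 2 * iz * (ζ * ρ * y1) = 2 * ρ * y1 := by linear_combination 2 * ρ * y1 * hiz
  rw [e]
  congr 1
  subst hh
  unfold cylE cylD
  rw [k1, k2]
  linear_combination ((1 + y) ^ 2 * ((1 + y) ^ 2 + yt ^ 2 +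
    4 * ζ * ρ * (1 + y) ^ 2 * (y1 + h * (1 + y)) ^ 2) / 2) * hρ

/-- The cone `ρ (γ + W n)` in the variables `(σ, θ)`, where `ρ = ρ σ`, `ζ = ρ²`; the normal is
`φ ρ1 n - φ (ρ1 W + ρ W1) γ - ρ1 cc² W2 γ'`, `φ = 1 - ka W`; `ka'` is the `θ`-derivative. -/
theorem shrS_cone {ρ ρ1 ρ11 W W1 W2 W11 W12 W22 wz wzz wzt l cc ka ka' iz : K} (hl : cc * l = 1)
    (hiz : iz * ρ ^ 2 = 1) (e1 : W1 = 2 * ρ * ρ1 * wz)
    (e11 : W11 = (2 * ρ * ρ1) ^ 2 * wzz + (2 * ρ1 ^ 2 + 2 * ρ * ρ11) * wz)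
    (e12 : W12 = 2 * ρ * ρ1 * wzt) :
    shrS (ρ1 ^ 2 + (ρ1 * W + ρ * W1) ^ 2) ((ρ1 * W + ρ * W1) * (ρ * W2))
      (ρ ^ 2 * (l ^ 2 * (1 - ka * W) ^ 2 + W2 ^ 2))
      ((1 - ka * W) * (ρ1 * (ρ11 * W + 2 * ρ1 * W1 + ρ * W11) - (ρ1 * W + ρ * W1) * ρ11))
      ((1 - ka * W) * ρ1 * (ρ1 * W2 + ρ * W12) - ρ1 * W2 * (ρ1 * (1 - ka * W) - ρ * ka * W1))
      (ρ * ((1 - ka * W) ^ 2 * l ^ 2 * (ρ1 * W + ρ * W1) + ρ1 * W2 * (2 * ka * W2 + W * ka') +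
        (1 - ka * W) * ρ1 * (l ^ 2 * ka * (1 - ka * W) + W22)))
      ((1 - ka * W) * ρ * (ρ1 * W - (ρ1 * W + ρ * W1))) =
      ρ1 ^ 3 * l ^ 2 * ρ * coneE cc ka (cc * ka') iz W W2 W22 (ρ ^ 4 * wz) (ρ ^ 4 * wzz)
        (ρ ^ 2 * wzt) := by
  have h1 : l ≠ 0 := right_ne_zero_of_mul_eq_one hl
  have h2 : ρ ≠ 0 := (pow_ne_zero_iff two_ne_zero).1 (right_ne_zero_of_mul_eq_one hiz)
  obtain rfl : iz = (ρ ^ 2)⁻¹ := eq_inv_of_mul_eq_one_left hiz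
  obtain rfl : cc = l⁻¹ := eq_inv_of_mul_eq_one_left hl
  subst e1 e11 e12
  unfold shrS coneE coneD
  field_simp
  ring

end Vale.Agent.P218N.End
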