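import Vale.Agent.P218N.Defs
import Vale.Agent.P218N.End.Defs

/-! Partial derivatives of the functions which describe the real ends; the equations in the
original variables. -/

open Filter Topology Set
open scoped RealInnerProductSpace ContDiff

noncomputable section

namespace Vale.Agent.P218N.End

open Vale.Agent.P218N.H

/-- the derivative in the first variable -/
def ds (v : ℝ × ℝ → ℝ) (p : ℝ × ℝ) : ℝ := fderiv ℝ v p (1, 0)

/-- the derivative in the angle -/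
def dt (v : ℝ × ℝ → ℝ) (p : ℝ × ℝ) : ℝ := fderiv ℝ v p (0, 1)

/-- smooth functions which are periodic in the angle -/
structure Per (v : ℝ × ℝ → ℝ) : Prop where
  smooth : ContDiff ℝ ∞ v
  per : ∀ s θ, v (s, θ + 2 * Real.pi) = v (s, θ)

namespace Per
variable {v : ℝ × ℝ → ℝ}

theorem dir (h : Per v) (e : ℝ × ℝ) : Per fun p => fderiv ℝ v p e := by
  refine ⟨(h.smooth.fderiv_right (m := ∞) (by simp)).clm_apply contDiff_const, fun s θ => ?_⟩
  have h1 : (fun p : ℝ × ℝ => v (p + (0, 2 * Real.pi))) = v := funext fun p => by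
    have := h.per p.1 p.2
    rwa [show (p.1, p.2 + 2 * Real.pi) = p + (0, 2 * Real.pi) from Prod.ext (by simp) rfl] at this
  have h2 := fderiv_comp_add_right (𝕜 := ℝ) (f := v) (x := (s, θ)) (0, 2 * Real.pi)
  rw [h1] at h2
  rw [h2, Prod.mk_add_mk, add_zero]

theorem ds (h : Per v) : Per (ds v) := h.dir _

theorem dt (h : Per v) : Per (dt v) := h.dir _

theorem hasFDerivAt (h : Per v) (p : ℝ × ℝ) : HasFDerivAt v (fderiv ℝ v p) p :=
  (h.smooth.differentiable (by simp) p).hasFDerivAt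

theorem hasDerivAt_dt (h : Per v) (s θ : ℝ) :
    HasDerivAt (fun θ => v (s, θ)) (End.dt v (s, θ)) θ :=
  (h.hasFDerivAt (s, θ)).comp_hasDerivAt θ ((hasDerivAt_const θ s).prodMk (hasDerivAt_id θ))

theorem hasDerivAt_ds (h : Per v) (s θ : ℝ) :
    HasDerivAt (fun s => v (s, θ)) (End.ds v (s, θ)) s :=
  (h.hasFDerivAt (s, θ)).comp_hasDerivAt s ((hasDerivAt_id s).prodMk (hasDerivAt_const s θ))

theorem dt_ds (h : Per v) : End.dt (End.ds v) = End.ds (End.dt v) := by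
  funext p
  have h1 : HasFDerivAt (fderiv ℝ v) (fderiv ℝ (fderiv ℝ v) p) p :=
    ((h.smooth.fderiv_right (m := 1) (by norm_cast)).differentiable (by simp) p).hasFDerivAt
  have h2 : ∀ a b : ℝ × ℝ, fderiv ℝ (fun q => fderiv ℝ v q a) p b =
      fderiv ℝ (fderiv ℝ v) p b a := fun a b => by
    rw [(h1.clm_apply (hasFDerivAt_const a p)).fderiv]
    simp
  exact (h2 _ _).trans ((second_derivative_symmetric h.hasFDerivAt h1 _ _).trans (h2 _ _).symm)

/-- a bound on compact ranges of the first variable -/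
theorem exists_bound (h : Per v) (a b : ℝ) : ∃ K, ∀ s ∈ Icc a b, ∀ θ, |v (s, θ)| ≤ K := by
  obtain ⟨K, hK⟩ := ((isCompact_Icc (a := a) (b := b)).prod (isCompact_Icc (a := (0 : ℝ))
    (b := 2 * Real.pi))).exists_bound_of_continuousOn h.smooth.continuous.continuousOn
  refine ⟨K, fun s hs θ => ?_⟩
  obtain ⟨θ', h1, h2⟩ := Function.Periodic.exists_mem_Ico₀ (f := fun θ => v (s, θ)) (h.per s)
    Real.two_pi_pos θ
  rw [h2]
  exact hK (s, θ') ⟨hs, Ico_subset_Icc_self h1⟩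

end Per

theorem _root_.Vale.Agent.P218N.Decays.toPer {v : ℝ × ℝ → ℝ} (h : Decays v) : Per v :=
  ⟨h.smooth, h.per⟩

theorem _root_.Vale.Agent.P218N.Decays.dir {v : ℝ × ℝ → ℝ} (h : Decays v) {e : ℝ × ℝ}
    (he : ‖e‖ ≤ 1) : Decays fun p => fderiv ℝ v p e := by
  refine ⟨(h.toPer.dir e).smooth, (h.toPer.dir e).per, fun k ε hε => ?_⟩
  obtain ⟨s₀, hs⟩ := h.small (k + 1) ε hε
  refine ⟨s₀, fun p hp => (norm_iteratedFDeriv_clm_apply_const (N := ∞)
    (h.smooth.fderiv_right (m := ∞) (by simp)).contDiffAt (by exact_mod_cast le_top)).trans ?_⟩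
  rw [norm_iteratedFDeriv_fderiv]
  exact (mul_le_of_le_one_left (norm_nonneg _) he).trans (hs p hp)

theorem _root_.Vale.Agent.P218N.Decays.ds {v : ℝ × ℝ → ℝ} (h : Decays v) : Decays (ds v) :=
  h.dir (by simp [Prod.norm_def])

theorem _root_.Vale.Agent.P218N.Decays.dt {v : ℝ × ℝ → ℝ} (h : Decays v) : Decays (dt v) :=
  h.dir (by simp [Prod.norm_def])

theorem _root_.Vale.Agent.P218N.Decays.abs_le {v : ℝ × ℝ → ℝ} (h : Decays v) {ε : ℝ}
    (hε : 0 < ε) : ∀ᶠ s₀ in atTop, ∀ p : ℝ × ℝ, s₀ ≤ p.1 → |v p| ≤ ε := by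
  obtain ⟨s₀, hs⟩ := h.small 0 ε hε
  filter_upwards [eventually_ge_atTop s₀] with s h1 p hp
  simpa only [norm_iteratedFDeriv_zero, Real.norm_eq_abs] using hs p (h1.trans hp)

/-- the geodesic curvature of the link -/
def kaL (γ n : ℝ → E3) (l : ℝ) (θ : ℝ) : ℝ := ⟪deriv (deriv γ) θ, n θ⟫ / l ^ 2

/-- the equation of a cylindrical end at the point `p = (z, θ)` -/
def CylEq (v : ℝ × ℝ → ℝ) (p : ℝ × ℝ) : Prop :=
  cylE (0 : ℝ) (p.1 ^ 2)⁻¹ (2 * p.1 ^ 2)⁻¹ 0 0 (v p) (dt v p) (dt (dt v) p) (p.1 * ds v p)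
    (ds (ds v) p / 2 - ds v p / (2 * p.1)) (dt (ds v) p / (2 * p.1)) = 0

/-- the equation of a conical end at the point `p = (log r, θ)` -/
def ConeEq (γ n : ℝ → E3) (l : ℝ) (h : ℝ × ℝ → ℝ) (p : ℝ × ℝ) : Prop :=
  coneE l⁻¹ (kaL γ n l p.2) (l⁻¹ * deriv (kaL γ n l) p.2) (Real.exp (2 * p.1))⁻¹ (h p) (dt h p)
    (dt (dt h) p) (Real.exp (2 * p.1) * ds h p / 2) (ds (ds h) p / 4 - ds h p / 2)
    (dt (ds h) p / 2) = 0

end Vale.Agent.P218N.End
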