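import Vale.Agent.P218N.End.GeoJ
import Vale.Agent.P218N.End.GeoR
import Vale.Agent.P218N.End.JSD

/-! The shrinker equation on cylindrical and conical ends. -/

open Filter Topology Set
open scoped RealInnerProductSpace ContDiff

noncomputable section

namespace Vale.Agent.P218N.End

open Vale.Agent.P218N.H

theorem inner_vec3 (a b c d e f : ℝ) :
    ⟪(!₂[a, b, c] : E3), !₂[d, e, f]⟫ = a * d + b * e + c * f := by
  simp [inner3]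

theorem vec3_eq (a b c : ℝ) : (!₂[a, b, c] : E3) =
    a • !₂[1, 0, 0] + b • !₂[0, 1, 0] + c • !₂[0, 0, 1] := by
  ext i
  fin_cases i <;> simp

theorem J2.vec3 {P : Type*} [NormedAddCommGroup P] [NormedSpace ℝ P] {a b p : P} {f g h : P → ℝ}
    {f0 f1 f2 f11 f12 f22 g0 g1 g2 g11 g12 g22 h0 h1 h2 h11 h12 h22 : ℝ}
    (hf : J2 a b f p f0 f1 f2 f11 f12 f22) (hg : J2 a b g p g0 g1 g2 g11 g12 g22)
    (hh : J2 a b h p h0 h1 h2 h11 h12 h22) :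
    J2 a b (fun q => (!₂[f q, g q, h q] : E3)) p !₂[f0, g0, h0] !₂[f1, g1, h1] !₂[f2, g2, h2]
      !₂[f11, g11, h11] !₂[f12, g12, h12] !₂[f22, g22, h22] := by
  have := ((hf.smul (J2.const a b p (!₂[1, 0, 0] : E3))).add
    (hg.smul (J2.const a b p (!₂[0, 1, 0] : E3)))).add (hh.smul (J2.const a b p (!₂[0, 0, 1] : E3)))
  simp only [smul_zero, add_zero, zero_add, ← vec3_eq] at this
  exact this

/-- the jet in terms of `ds` and `dt` -/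
theorem JP.of_cd {v : ℝ × ℝ → ℝ} {p : ℝ × ℝ} (hv : ContDiffAt ℝ 2 v p) :
    JP v p (v p) (ds v p) (dt v p) (ds (ds v) p) (dt (ds v) p) (dt (dt v) p) := by
  have h : ∀ a b : ℝ × ℝ, fderiv ℝ (fderiv ℝ v) p b a = fderiv ℝ (fun q => fderiv ℝ v q a) p b :=
    fun a b => by
      rw [((hasFDerivAt_fderiv_two hv).clm_apply (hasFDerivAt_const a p)).fderiv]
      simp
  exact (J2.self _ _ hv).congr rfl rfl rfl (h _ _) ((J2.self _ _ hv).e21.symm.trans (h _ _)) (h _ _)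

/-! ### Cylinders -/

section Cyl

variable {r z : ℝ × ℝ → ℝ} {p : ℝ × ℝ} {r0 r1 r2 r11 r12 r22 z0 z1 z11 c s : ℝ}

/-- the jet of `(r cos θ, r sin θ, z)` -/
theorem JP.cyl (hr : JP r p r0 r1 r2 r11 r12 r22) (hz : JP z p z0 z1 0 z11 0 0)
    (hc : c = Real.cos p.2) (hs : s = Real.sin p.2) :
    JP (fun q => (!₂[r q * Real.cos q.2, r q * Real.sin q.2, z q] : E3)) p !₂[r0 * c, r0 * s, z0]
      !₂[r1 * c, r1 * s, z1] !₂[r2 * c - r0 * s, r2 * s + r0 * c, 0] !₂[r11 * c, r11 * s, z11]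
      !₂[r12 * c - r1 * s, r12 * s + r1 * c, 0]
      !₂[r22 * c - 2 * r2 * s - r0 * c, r22 * s + 2 * r2 * c - r0 * s, 0] := by
  subst hc hs
  refine J2.vec3 ((hr.mul (JP.cos p)).congr rfl ?_ ?_ ?_ ?_ ?_)
    ((hr.mul (JP.sin p)).congr rfl ?_ ?_ ?_ ?_ ?_) hz <;> ring

/-- the normal `z1 (r e - r2 e^⊥) - r r1 e₃` -/
def cylNor (r0 r1 r2 z1 c s : ℝ) : E3 := !₂[z1 * (r0 * c + r2 * s), z1 * (r0 * s - r2 * c), -(r0 * r1)]

theorem cylNor_X1 (h : c ^ 2 + s ^ 2 = 1) : ⟪cylNor r0 r1 r2 z1 c s, !₂[r1 * c, r1 * s, z1]⟫ = 0 := by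
  rw [cylNor, inner_vec3]
  linear_combination z1 * r0 * r1 * h

theorem cylNor_X2 : ⟪cylNor r0 r1 r2 z1 c s, !₂[r2 * c - r0 * s, r2 * s + r0 * c, 0]⟫ = 0 := by
  rw [cylNor, inner_vec3]
  ring

theorem gram_cyl (h : c ^ 2 + s ^ 2 = 1) :
    gram !₂[r1 * c, r1 * s, z1] !₂[r2 * c - r0 * s, r2 * s + r0 * c, 0] =
      r0 ^ 2 * (r1 ^ 2 + z1 ^ 2) + z1 ^ 2 * r2 ^ 2 := by
  simp only [gram, inner_vec3]
  linear_combination (r0 ^ 2 * r1 ^ 2 * (c ^ 2 + s ^ 2 + 1) + z1 ^ 2 * (r0 ^ 2 + r2 ^ 2)) * h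

theorem shrP_cyl (h : c ^ 2 + s ^ 2 = 1) {P PP PT : ℝ} (e1 : r1 = 2 * z0 * z1 * P)
    (e11 : r11 = (2 * z0 * z1) ^ 2 * PP + (2 * z1 ^ 2 + 2 * z0 * z11) * P)
    (e12 : r12 = 2 * z0 * z1 * PT) :
    shrP !₂[r0 * c, r0 * s, z0] !₂[r1 * c, r1 * s, z1] !₂[r2 * c - r0 * s, r2 * s + r0 * c, 0]
      !₂[r11 * c, r11 * s, z11] !₂[r12 * c - r1 * s, r12 * s + r1 * c, 0]
      !₂[r22 * c - 2 * r2 * s - r0 * c, r22 * s + 2 * r2 * c - r0 * s, 0] (cylNor r0 r1 r2 z1 c s) =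
      z1 ^ 3 * radE (z0 ^ 2) r0 r2 r22 P PP PT := by
  rw [← shrS_cyl e1 e11 e12]
  simp only [shrP, cylNor, inner_vec3]
  congr 1
  · linear_combination r1 ^ 2 * h
  · linear_combination r1 * r2 * h
  · linear_combination (r2 ^ 2 + r0 ^ 2) * h
  · linear_combination z1 * r0 * r11 * h
  · linear_combination z1 * (r0 * r12 - r1 * r2) * h
  · linear_combination z1 * (r0 * (r22 - r0) - 2 * r2 ^ 2) * h
  · linear_combination z1 * r0 ^ 2 * h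

variable {w : E3 → ℝ}

/-- The equation of a radial graph over a cylinder; `P = r_ζ`, `PP = r_ζζ`, `PT = r_ζθ` for
`ζ = z²`. -/
theorem _root_.Vale.Agent.P218N.Shr.radE_eq_zero (hw : Shr w) (Q : E3 ≃ₗᵢ[ℝ] E3)
    (hr : JP r p r0 r1 r2 r11 r12 r22) (hz : JP z p z0 z1 0 z11 0 0)
    (h0 : ∀ᶠ q in 𝓝 p, w (Q !₂[r q * Real.cos q.2, r q * Real.sin q.2, z q]) = 0) (hr0 : r0 ≠ 0)
    (hz1 : z1 ≠ 0) {P PP PT : ℝ} (e1 : r1 = 2 * z0 * z1 * P)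
    (e11 : r11 = (2 * z0 * z1) ^ 2 * PP + (2 * z1 ^ 2 + 2 * z0 * z11) * P)
    (e12 : r12 = 2 * z0 * z1 * PT) : radE (z0 ^ 2) r0 r2 r22 P PP PT = 0 := by
  have h := Real.cos_sq_add_sin_sq p.2
  have hX := (JP.cyl hr hz rfl rfl).clm (Q.toContinuousLinearEquiv : E3 →L[ℝ] E3)
  have k := hX.shr (n := Q (cylNor r0 r1 r2 z1 (Real.cos p.2) (Real.sin p.2))) hw h0
    ((gram_map Q _ _).trans_ne (by rw [gram_cyl h]; positivity))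
    ((Q.inner_map_map _ _).trans (cylNor_X1 h)) ((Q.inner_map_map _ _).trans cylNor_X2)
  have k2 := (shrP_map Q _ _ _ _ _ _ _).symm.trans k
  rw [shrP_cyl h e1 e11 e12] at k2
  exact (mul_eq_zero.1 k2).resolve_left (pow_ne_zero 3 hz1)

/-- The equation in the variables `(z, θ)`. -/
theorem _root_.Vale.Agent.P218N.Shr.cylE_z (hw : Shr w) (Q : E3 ≃ₗᵢ[ℝ] E3) {v : ℝ × ℝ → ℝ}
    {v0 v1 v2 v11 v12 v22 : ℝ} (hv : JP v p v0 v1 v2 v11 v12 v22)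
    (h0 : ∀ᶠ q in 𝓝 p, w (cylPt Q v q) = 0) (hp : p.1 ≠ 0) (h1 : 1 + v0 ≠ 0) :
    cylE (0 : ℝ) (p.1 ^ 2)⁻¹ (2 * p.1 ^ 2)⁻¹ 0 0 v0 v2 v22 (p.1 * v1) (v11 / 2 - v1 / (2 * p.1))
      (v12 / (2 * p.1)) = 0 := by
  have hr := (J2.const _ _ p √2).mul ((J2.const _ _ p 1).add hv)
  have k := hw.radE_eq_zero Q hr (JP.fst p) h0 (mul_ne_zero (by positivity) h1) one_ne_zero
    (P := √2 * (v1 / (2 * p.1) + 0 * (1 + v0)))
    (PP := √2 * ((v11 - v1 / p.1) / (4 * p.1 ^ 2) + 2 * 0 * (v1 / (2 * p.1)) - 0 ^ 2 * (1 + v0)))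
    (PT := √2 * (v12 / (2 * p.1) + 0 * v2)) (by field_simp; ring) (by field_simp; ring)
    (by field_simp; ring)
  rw [show √2 * (0 + v2) + 0 * (1 + v0) = √2 * v2 by ring,
    show 0 * (1 + v0) + 2 * 0 * (0 + v2) + √2 * (0 + v22) = √2 * v22 by ring,
    radE_eq_cylE (a := 0) (ρ := 2) (iz := (p.1 ^ 2)⁻¹) (io := (2 * p.1 ^ 2)⁻¹) (Oh := 0)
      (Real.sq_sqrt zero_le_two) (by ring) (by field_simp) (by field_simp) (by ring) (by ring),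
    show p.1 ^ 2 * 2 * (v1 / (2 * p.1)) = p.1 * v1 by field_simp,
    show p.1 ^ 2 * 2 * ((v11 - v1 / p.1) / (4 * p.1 ^ 2)) = v11 / 2 - v1 / (2 * p.1) by
      field_simp; ring] at k
  exact (mul_eq_zero.1 k).resolve_left two_ne_zero

/-- The equation in the variables `(ζ, θ)`, for `r = √ρ₀ (1 + y)`, `ρ₀ = 2 + a (ζ - 2)`. -/
theorem _root_.Vale.Agent.P218N.Shr.cylE_zeta (hw : Shr w) (Q : E3 ≃ₗᵢ[ℝ] E3) (a : ℝ)
    {y : ℝ × ℝ → ℝ} {y0 y1 y2 y11 y12 y22 ρ : ℝ} (hy : JP y p y0 y1 y2 y11 y12 y22)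
    (h0 : ∀ᶠ q in 𝓝 p, w (Q !₂[√(2 + a * (q.1 - 2)) * (1 + y q) * Real.cos q.2,
      √(2 + a * (q.1 - 2)) * (1 + y q) * Real.sin q.2, √q.1]) = 0) (hp : 0 < p.1)
    (hρ : ρ = 2 + a * (p.1 - 2)) (hρ0 : 0 < ρ) (h1 : 1 + y0 ≠ 0) :
    cylE a p.1⁻¹ (p.1 * ρ)⁻¹ (a / (2 * ρ)) (a / 2 * p.1) y0 y2 y22 (p.1 * ρ * y1) (p.1 * ρ * y11)
      y12 = 0 := by
  have hc : JP (fun q => 2 + a * (q.1 - 2)) p ρ a 0 0 0 0 :=
    ((J2.const _ _ p 2).add ((J2.const _ _ p a).mul ((JP.fst p).add (J2.const _ _ p (-2))))).congr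
      hρ.symm (by ring) (by ring) (by ring) (by ring) (by ring)
  have hr := (J2.sqrt hc hρ0).mul ((J2.const _ _ p 1).add hy)
  have hs : √ρ ≠ 0 := by positivity
  have hz : √p.1 ≠ 0 := by positivity
  have e1 := Real.sq_sqrt hρ0.le
  have e2 := Real.sq_sqrt hp.le
  have k := hw.radE_eq_zero Q hr (JP.sqrt hp) h0 (mul_ne_zero hs h1) (by positivity)
    (P := √ρ * (y1 + a / (2 * ρ) * (1 + y0)))
    (PP := √ρ * (y11 + 2 * (a / (2 * ρ)) * y1 - (a / (2 * ρ)) ^ 2 * (1 + y0)))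
    (PT := √ρ * (y12 + a / (2 * ρ) * y2)) ?_ ?_ ?_
  · rw [show √ρ * (0 + y2) + 0 / (2 * √ρ) * (1 + y0) = √ρ * y2 by ring,
      show (0 / (2 * √ρ) - 0 * 0 / (4 * ρ * √ρ)) * (1 + y0) + 2 * (0 / (2 * √ρ)) * (0 + y2) +
        √ρ * (0 + y22) = √ρ * y22 by ring, e2,
      radE_eq_cylE (a := a) (iz := p.1⁻¹) (io := (p.1 * ρ)⁻¹) (Oh := a / 2 * p.1) e1 hρ
        (by field_simp) (by field_simp) (by field_simp) (by ring)] at k
    exact (mul_eq_zero.1 k).resolve_left hρ0.ne'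
  all_goals
    generalize √ρ = σ at *
    generalize √p.1 = τ at *
    rw [← e1]
    try rw [← e2]
    field_simp
    ring

/-- The equation of a cylindrical end of `S`. -/
theorem _root_.Vale.Agent.P218N.Shr.cylEq (hw : Shr w) (D : EndData w) (j : Fin D.b) {p : ℝ × ℝ}
    (hp : D.s₀ < p.1) (hp0 : p.1 ≠ 0) (h1 : 1 + D.v j p ≠ 0) : CylEq (D.v j) p :=
  hw.cylE_z (D.Q j) (JP.of_cd ((D.vdec j).smooth.contDiffAt.of_le (by norm_cast)))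
    ((continuous_fst.continuousAt.eventually (lt_mem_nhds hp)).mono (D.cyl_mem j)) hp0 h1

/-- The same in the variables `(ζ, θ)`, for `y (ζ, θ) = v (√ζ, θ)`. -/
theorem _root_.Vale.Agent.P218N.Shr.cylE_end (hw : Shr w) (D : EndData w) (j : Fin D.b)
    {p : ℝ × ℝ} {y : ℝ × ℝ → ℝ} (hy : ∀ q, y q = D.v j (√q.1, q.2)) (hp0 : 0 < p.1)
    (hp : D.s₀ < √p.1) (h1 : 1 + y p ≠ 0) :
    cylE (0 : ℝ) p.1⁻¹ (p.1 * 2)⁻¹ 0 0 (y p) (dt y p) (dt (dt y) p) (p.1 * 2 * ds y p)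
      (p.1 * 2 * ds (ds y) p) (dt (ds y) p) = 0 := by
  obtain rfl : y = _ := funext hy
  have hJ := JP.reparam (JP.sqrt hp0)
    (JP.of_cd (p := (√p.1, p.2)) ((D.vdec j).smooth.contDiffAt.of_le (by norm_cast)))
  have := hw.cylE_zeta (D.Q j) 0 (JP.of_cd hJ.cd) ?_ hp0 (ρ := 2) (by ring) two_pos h1
  · simpa using this
  · filter_upwards [(Real.continuous_sqrt.comp continuous_fst).continuousAt.eventually
      (lt_mem_nhds hp)] with q hq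
    simpa [cylPt] using D.cyl_mem j (√q.1, q.2) hq

end Cyl

/-! ### Cones -/

theorem inner_deriv_of_const {f g : ℝ → E3} {f' g' : E3} {θ c : ℝ} (hf : HasDerivAt f f' θ)
    (hg : HasDerivAt g g' θ) (h : ∀ t, ⟪f t, g t⟫ = c) : ⟪f θ, g'⟫ + ⟪f', g θ⟫ = 0 := by
  have h1 := hf.inner ℝ hg
  rw [funext h] at h1
  exact h1.unique (hasDerivAt_const θ c)

/-- inner products in an orthogonal frame -/
theorem inner_frame {g d n : E3} {l : ℝ} (gg : ⟪g, g⟫ = 1) (dd : ⟪d, d⟫ = l ^ 2) (nn : ⟪n, n⟫ = 1)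
    (gd : ⟪g, d⟫ = 0) (ng : ⟪n, g⟫ = 0) (nd : ⟪n, d⟫ = 0) (a b c a' b' c' : ℝ) :
    ⟪a • g + b • d + c • n, a' • g + b' • d + c' • n⟫ = a * a' + l ^ 2 * (b * b') + c * c' := by
  simp only [inner_add_left, inner_add_right, real_inner_smul_left, real_inner_smul_right, gg, dd,
    nn, gd, ng, nd, real_inner_comm g d, real_inner_comm n g, real_inner_comm n d]
  ring

end Vale.Agent.P218N.End

namespace Vale.Agent.P218N.Link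

open Vale.Agent.P218N.End Vale.Agent.P218N.H

variable {γ n : ℝ → E3} {l : ℝ} (h : Link γ n l) (θ : ℝ)
include h

theorem smooth_deriv : ContDiff ℝ ∞ (deriv γ) := h.smooth.iterate_deriv 1

theorem smooth_deriv2 : ContDiff ℝ ∞ (deriv (deriv γ)) := h.smooth_deriv.iterate_deriv 1

theorem hasDerivAt : HasDerivAt γ (deriv γ θ) θ := (h.smooth.differentiable (by simp) θ).hasDerivAt

theorem hasDerivAt2 : HasDerivAt (deriv γ) (deriv (deriv γ) θ) θ :=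
  (h.smooth_deriv.differentiable (by simp) θ).hasDerivAt

theorem gg : ⟪γ θ, γ θ⟫ = 1 := by rw [real_inner_self_eq_norm_sq, h.norm, one_pow]

theorem dd : ⟪deriv γ θ, deriv γ θ⟫ = l ^ 2 := by rw [real_inner_self_eq_norm_sq, h.speed]

theorem nn : ⟪n θ, n θ⟫ = 1 := by rw [real_inner_self_eq_norm_sq, h.nnorm, one_pow]

theorem gd : ⟪γ θ, deriv γ θ⟫ = 0 := by
  have := inner_deriv_of_const (h.hasDerivAt θ) (h.hasDerivAt θ) h.gg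
  rw [real_inner_comm (γ θ)] at this
  linarith

theorem inner_frame (a b c a' b' c' : ℝ) :
    ⟪a • γ θ + b • deriv γ θ + c • n θ, a' • γ θ + b' • deriv γ θ + c' • n θ⟫ =
      a * a' + l ^ 2 * (b * b') + c * c' :=
  End.inner_frame (h.gg θ) (h.dd θ) (h.nn θ) (h.gd θ) (h.orth θ) (h.orth' θ) ..

theorem eq_zero {u : E3} (u1 : ⟪u, γ θ⟫ = 0) (u2 : ⟪u, deriv γ θ⟫ = 0) (u3 : ⟪u, n θ⟫ = 0) :
    u = 0 := by
  refine eq_zero_of_orth ?_ ((h.nn θ).trans_ne one_ne_zero) (h.orth θ) (h.orth' θ) u1 u2 u3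
  rw [gram, h.gg, h.dd, h.gd]
  simpa using h.pos.ne'

theorem sq_mul_kaL : l ^ 2 * kaL γ n l θ = ⟪deriv (deriv γ) θ, n θ⟫ :=
  mul_div_cancel₀ _ (pow_ne_zero 2 h.pos.ne')

theorem smooth_kaL : ContDiff ℝ ∞ (kaL γ n l) := (h.smooth_deriv2.inner ℝ h.nsmooth).div_const _

theorem kaL_per : kaL γ n l (θ + 2 * Real.pi) = kaL γ n l θ := by
  have e : ∀ f : ℝ → E3, (∀ t, f (t + 2 * Real.pi) = f t) →
      ∀ t, deriv f (t + 2 * Real.pi) = deriv f t := fun f hf t => by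
    rw [← deriv_comp_add_const, funext hf]
  rw [kaL, kaL, h.nper, e _ (e _ h.per)]

/-- Frenet: `γ'' = l² (-γ + ka n)` -/
theorem frenet : deriv (deriv γ) θ = (-l ^ 2) • γ θ + (l ^ 2 * kaL γ n l θ) • n θ := by
  have h1 := inner_deriv_of_const (h.hasDerivAt θ) (h.hasDerivAt2 θ) h.gd
  have h2 := inner_deriv_of_const (h.hasDerivAt2 θ) (h.hasDerivAt2 θ) h.dd
  rw [real_inner_comm (deriv (deriv γ) θ), h.dd] at h1
  rw [real_inner_comm (deriv (deriv γ) θ)] at h2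
  refine sub_eq_zero.1 (h.eq_zero θ ?_ ?_ ?_) <;>
    simp only [inner_sub_left, inner_add_left, real_inner_smul_left, h.gg, h.nn, h.gd, h.orth,
      h.orth', real_inner_comm (n θ) (γ θ), h.sq_mul_kaL] <;> linarith

/-- Frenet: `n' = -ka γ'` -/
theorem hasDerivAt_n : HasDerivAt n ((-kaL γ n l θ) • deriv γ θ) θ := by
  have h0 : HasDerivAt n (deriv n θ) θ := (h.nsmooth.differentiable (by simp) θ).hasDerivAt
  have h1 := inner_deriv_of_const h0 (h.hasDerivAt θ) h.orth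
  have h2 := inner_deriv_of_const h0 (h.hasDerivAt2 θ) h.orth'
  have h3 := inner_deriv_of_const h0 h0 h.nn
  rw [h.orth'] at h1
  rw [real_inner_comm (deriv (deriv γ) θ), ← h.sq_mul_kaL] at h2
  rw [real_inner_comm (deriv n θ)] at h3
  refine h0.congr_deriv (sub_eq_zero.1 (h.eq_zero θ ?_ ?_ ?_)) <;>
    simp only [inner_sub_left, real_inner_smul_left, h.dd, h.gd, h.orth',
      real_inner_comm (γ θ) (deriv γ θ), real_inner_comm (n θ) (deriv γ θ)] <;> linarith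

theorem jet (p : ℝ × ℝ) : JP (fun q => γ q.2) p (γ p.2) 0 (deriv γ p.2) 0 0
    ((-l ^ 2) • γ p.2 + (l ^ 2 * kaL γ n l p.2) • n p.2) :=
  JP.of_snd (h.smooth.contDiffAt.of_le (by norm_cast)) (Eventually.of_forall h.hasDerivAt)
    ((h.hasDerivAt2 _).congr_deriv (h.frenet _))

theorem jet_n (p : ℝ × ℝ) : JP (fun q => n q.2) p (n p.2) 0 ((-kaL γ n l p.2) • deriv γ p.2) 0 0
    ((-kaL γ n l p.2) • ((-l ^ 2) • γ p.2 + (l ^ 2 * kaL γ n l p.2) • n p.2) +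
      (-deriv (kaL γ n l) p.2) • deriv γ p.2) :=
  JP.of_snd (φ1 := fun θ => (-kaL γ n l θ) • deriv γ θ) (h.nsmooth.contDiffAt.of_le (by norm_cast))
    (Eventually.of_forall h.hasDerivAt_n)
    ((h.smooth_kaL.differentiable (by simp) _).hasDerivAt.neg.smul
      ((h.hasDerivAt2 _).congr_deriv (h.frenet _)))

end Vale.Agent.P218N.Link

namespace Vale.Agent.P218N.End

open Vale.Agent.P218N.H

section Cone

variable {γ n : ℝ → E3} {l : ℝ} {ρ W : ℝ × ℝ → ℝ} {p : ℝ × ℝ}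
  {ρ0 ρ1 ρ11 W0 W1 W2 W11 W12 W22 ka ka' : ℝ} {g d m : E3}

/-- the jet of `ρ (γ + W n)` in the frame `g = γ`, `d = γ'`, `m = n` -/
theorem JP.cone (h : Link γ n l) (hρ : JP ρ p ρ0 ρ1 0 ρ11 0 0) (hW : JP W p W0 W1 W2 W11 W12 W22)
    (hg : g = γ p.2) (hd : d = deriv γ p.2) (hm : m = n p.2) (hk : ka = kaL γ n l p.2)
    (hk' : ka' = deriv (kaL γ n l) p.2) :
    JP (fun q => ρ q • (γ q.2 + W q • n q.2)) p (ρ0 • g + (0 : ℝ) • d + (ρ0 * W0) • m)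
      (ρ1 • g + (0 : ℝ) • d + (ρ1 * W0 + ρ0 * W1) • m)
      ((0 : ℝ) • g + (ρ0 * (1 - ka * W0)) • d + (ρ0 * W2) • m)
      (ρ11 • g + (0 : ℝ) • d + (ρ11 * W0 + 2 * ρ1 * W1 + ρ0 * W11) • m)
      ((0 : ℝ) • g + (ρ1 * (1 - ka * W0) - ρ0 * ka * W1) • d + (ρ1 * W2 + ρ0 * W12) • m)
      ((-(ρ0 * l ^ 2 * (1 - ka * W0))) • g + (-(ρ0 * (2 * ka * W2 + W0 * ka'))) • d +
        (ρ0 * (l ^ 2 * ka * (1 - ka * W0) + W22)) • m) := by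
  subst hg hd hm hk hk'
  refine (hρ.smul ((h.jet p).add (hW.smul (h.jet_n p)))).congr ?_ ?_ ?_ ?_ ?_ ?_ <;> module

/-- the normal `φ ρ1 n - φ (ρ1 W + ρ W1) γ - ρ1 l⁻² W2 γ'` -/
def coneNor (l ka ρ0 ρ1 W0 W1 W2 : ℝ) (g d m : E3) : E3 :=
  (-((1 - ka * W0) * (ρ1 * W0 + ρ0 * W1))) • g + (-(ρ1 * W2 / l ^ 2)) • d +
    ((1 - ka * W0) * ρ1) • m

variable (hl : l ≠ 0) (F : ∀ a b c a' b' c' : ℝ,
  ⟪a • g + b • d + c • m, a' • g + b' • d + c' • m⟫ = a * a' + l ^ 2 * (b * b') + c * c')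
include F

theorem coneNor_X1 : ⟪coneNor l ka ρ0 ρ1 W0 W1 W2 g d m,
    ρ1 • g + (0 : ℝ) • d + (ρ1 * W0 + ρ0 * W1) • m⟫ = 0 := by
  rw [coneNor, F]
  ring

include hl in
theorem coneNor_X2 : ⟪coneNor l ka ρ0 ρ1 W0 W1 W2 g d m,
    (0 : ℝ) • g + (ρ0 * (1 - ka * W0)) • d + (ρ0 * W2) • m⟫ = 0 := by
  rw [coneNor, F]
  field_simp
  ring

theorem gram_cone : gram (ρ1 • g + (0 : ℝ) • d + (ρ1 * W0 + ρ0 * W1) • m)
    ((0 : ℝ) • g + (ρ0 * (1 - ka * W0)) • d + (ρ0 * W2) • m) =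
    ρ0 ^ 2 * (l ^ 2 * (1 - ka * W0) ^ 2 * (ρ1 ^ 2 + (ρ1 * W0 + ρ0 * W1) ^ 2) + ρ1 ^ 2 * W2 ^ 2) := by
  simp only [gram, F]
  ring

include hl in
theorem shrP_cone (h0 : ρ0 ≠ 0) {wz wzz wzt : ℝ} (e1 : W1 = 2 * ρ0 * ρ1 * wz)
    (e11 : W11 = (2 * ρ0 * ρ1) ^ 2 * wzz + (2 * ρ1 ^ 2 + 2 * ρ0 * ρ11) * wz)
    (e12 : W12 = 2 * ρ0 * ρ1 * wzt) :
    shrP (ρ0 • g + (0 : ℝ) • d + (ρ0 * W0) • m) (ρ1 • g + (0 : ℝ) • d + (ρ1 * W0 + ρ0 * W1) • m)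
      ((0 : ℝ) • g + (ρ0 * (1 - ka * W0)) • d + (ρ0 * W2) • m)
      (ρ11 • g + (0 : ℝ) • d + (ρ11 * W0 + 2 * ρ1 * W1 + ρ0 * W11) • m)
      ((0 : ℝ) • g + (ρ1 * (1 - ka * W0) - ρ0 * ka * W1) • d + (ρ1 * W2 + ρ0 * W12) • m)
      ((-(ρ0 * l ^ 2 * (1 - ka * W0))) • g + (-(ρ0 * (2 * ka * W2 + W0 * ka'))) • d +
        (ρ0 * (l ^ 2 * ka * (1 - ka * W0) + W22)) • m) (coneNor l ka ρ0 ρ1 W0 W1 W2 g d m) =
      ρ1 ^ 3 * l ^ 2 * ρ0 * coneE l⁻¹ ka (l⁻¹ * ka') (ρ0 ^ 2)⁻¹ W0 W2 W22 (ρ0 ^ 4 * wz)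
        (ρ0 ^ 4 * wzz) (ρ0 ^ 2 * wzt) := by
  rw [← shrS_cone (inv_mul_cancel₀ hl) (inv_mul_cancel₀ (pow_ne_zero 2 h0)) e1 e11 e12]
  simp only [shrP, coneNor, F]
  congr 1 <;> field_simp <;> ring

omit F

variable {w : E3 → ℝ}

/-- The equation of a normal graph over a cone; `wz = W_ζ`, `wzz = W_ζζ`, `wzt = W_ζθ` for
`ζ = ρ²`. -/
theorem _root_.Vale.Agent.P218N.Shr.coneE_eq_zero (hw : Shr w) (h : Link γ n l)
    (hρ : JP ρ p ρ0 ρ1 0 ρ11 0 0) (hW : JP W p W0 W1 W2 W11 W12 W22)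
    (h0 : ∀ᶠ q in 𝓝 p, w (ρ q • (γ q.2 + W q • n q.2)) = 0) (hρ0 : ρ0 ≠ 0) (hρ1 : ρ1 ≠ 0)
    (hφ : 1 - kaL γ n l p.2 * W0 ≠ 0) {wz wzz wzt : ℝ} (e1 : W1 = 2 * ρ0 * ρ1 * wz)
    (e11 : W11 = (2 * ρ0 * ρ1) ^ 2 * wzz + (2 * ρ1 ^ 2 + 2 * ρ0 * ρ11) * wz)
    (e12 : W12 = 2 * ρ0 * ρ1 * wzt) :
    coneE l⁻¹ (kaL γ n l p.2) (l⁻¹ * deriv (kaL γ n l) p.2) (ρ0 ^ 2)⁻¹ W0 W2 W22 (ρ0 ^ 4 * wz)
      (ρ0 ^ 4 * wzz) (ρ0 ^ 2 * wzt) = 0 := by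
  have F := h.inner_frame p.2
  have hl := h.pos.ne'
  have k := (JP.cone h hρ hW rfl rfl rfl rfl rfl).shr hw h0 (by rw [gram_cone F]; positivity)
    (coneNor_X1 F) (coneNor_X2 hl F)
  rw [shrP_cone hl F hρ0 e1 e11 e12] at k
  exact (mul_eq_zero.1 k).resolve_left (by positivity)

/-- The equation in the variables `(log r, θ)`. -/
theorem _root_.Vale.Agent.P218N.Shr.coneE_s (hw : Shr w) (h : Link γ n l)
    (hW : JP W p W0 W1 W2 W11 W12 W22) (h0 : ∀ᶠ q in 𝓝 p, w (conePt γ n W q) = 0)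
    (hφ : 1 - kaL γ n l p.2 * W0 ≠ 0) :
    coneE l⁻¹ (kaL γ n l p.2) (l⁻¹ * deriv (kaL γ n l) p.2) (Real.exp (2 * p.1))⁻¹ W0 W2 W22
      (Real.exp (2 * p.1) * W1 / 2) (W11 / 4 - W1 / 2) (W12 / 2) = 0 := by
  have he := Real.exp_ne_zero p.1
  have k := hw.coneE_eq_zero h (JP.exp p) hW h0 he he hφ (wz := W1 / (2 * Real.exp p.1 ^ 2))
    (wzz := (W11 - 2 * W1) / (4 * Real.exp p.1 ^ 4)) (wzt := W12 / (2 * Real.exp p.1 ^ 2))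
    (by field_simp) (by field_simp; ring) (by field_simp)
  rw [show Real.exp (2 * p.1) = Real.exp p.1 ^ 2 by rw [two_mul, Real.exp_add, sq]]
  convert k using 2 <;> field_simp
  ring

/-- The equation in the variables `(ζ, θ)`, `ζ = r²`. -/
theorem _root_.Vale.Agent.P218N.Shr.coneE_zeta (hw : Shr w) (h : Link γ n l)
    (hW : JP W p W0 W1 W2 W11 W12 W22) (h0 : ∀ᶠ q in 𝓝 p, w (√q.1 • (γ q.2 + W q • n q.2)) = 0)
    (hp : 0 < p.1) (hφ : 1 - kaL γ n l p.2 * W0 ≠ 0) :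
    coneE l⁻¹ (kaL γ n l p.2) (l⁻¹ * deriv (kaL γ n l) p.2) p.1⁻¹ W0 W2 W22 (p.1 ^ 2 * W1)
      (p.1 ^ 2 * W11) (p.1 * W12) = 0 := by
  have hz : √p.1 ≠ 0 := by positivity
  have e2 := Real.sq_sqrt hp.le
  have k := hw.coneE_eq_zero h (JP.sqrt hp) hW h0 hz (by positivity) hφ (wz := W1) (wzz := W11)
    (wzt := W12) (by field_simp) ?_ (by field_simp)
  · rwa [show √p.1 ^ 4 = (√p.1 ^ 2) ^ 2 by ring, e2] at k
  · generalize √p.1 = τ at *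
    rw [← e2]
    field_simp
    ring

/-- The equation of a conical end of `S`. -/
theorem _root_.Vale.Agent.P218N.Shr.coneEq (hw : Shr w) (D : EndData w) (i : Fin D.a) {p : ℝ × ℝ}
    (hp : D.s₀ < p.1) (hφ : 1 - kaL (D.γ i) (D.n i) (D.l i) p.2 * D.h i p ≠ 0) :
    ConeEq (D.γ i) (D.n i) (D.l i) (D.h i) p :=
  hw.coneE_s (D.link i) (JP.of_cd ((D.hdec i).smooth.contDiffAt.of_le (by norm_cast)))
    ((continuous_fst.continuousAt.eventually (lt_mem_nhds hp)).mono (D.cone_mem i)) hφ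

/-- The same in the variables `(ζ, θ)`, for `y (ζ, θ) = h (log ζ / 2, θ)`. -/
theorem _root_.Vale.Agent.P218N.Shr.coneE_end (hw : Shr w) (D : EndData w) (i : Fin D.a)
    {p : ℝ × ℝ} {y : ℝ × ℝ → ℝ} (hy : ∀ q, y q = D.h i (Real.log q.1 / 2, q.2)) (hp0 : 0 < p.1)
    (hp : D.s₀ < Real.log p.1 / 2) (hφ : 1 - kaL (D.γ i) (D.n i) (D.l i) p.2 * y p ≠ 0) :
    coneE (D.l i)⁻¹ (kaL (D.γ i) (D.n i) (D.l i) p.2)
      ((D.l i)⁻¹ * deriv (kaL (D.γ i) (D.n i) (D.l i)) p.2) p.1⁻¹ (y p) (dt y p) (dt (dt y) p)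
      (p.1 ^ 2 * ds y p) (p.1 ^ 2 * ds (ds y) p) (p.1 * dt (ds y) p) = 0 := by
  obtain rfl : y = _ := funext hy
  have hJ := JP.reparam (JP.log hp0)
    (JP.of_cd (p := (Real.log p.1 / 2, p.2)) ((D.hdec i).smooth.contDiffAt.of_le (by norm_cast)))
  refine hw.coneE_zeta (D.link i) (JP.of_cd hJ.cd) ?_ hp0 hφ
  filter_upwards [(JP.log hp0).cd.continuousAt.eventually (lt_mem_nhds hp),
    continuous_fst.continuousAt.eventually (lt_mem_nhds hp0)] with q hq hq0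
  have := D.cone_mem i (Real.log q.1 / 2, q.2) hq
  rwa [conePt, Real.exp_half, Real.exp_log hq0] at this

end Cone

end Vale.Agent.P218N.End
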