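import Vale.Agent.P218N.End.JS

/-! The jets of the real ends are small far out; the curvature of the link. -/

open Filter Topology Metric Set Complex
open scoped BoundedContinuousFunction ContDiff

noncomputable section

namespace Vale.Agent.P218N.End

/-- division by a factor which tends to one -/
theorem tendsto_of_mul_eq {A ι : Type*} [NormedRing A] {l : Filter ι} {x U R : ι → A} {c : A}
    (hU : Tendsto U l (𝓝 1)) (hR : Tendsto R l (𝓝 c)) (h : ∀ᶠ i in l, x i * U i = R i) :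
    Tendsto x l (𝓝 c) := by
  have h1 : Tendsto (fun i => 2 * ‖R i - c * U i‖) l (𝓝 0) := by
    simpa using (hR.sub (hU.const_mul c)).norm.const_mul 2
  have h2 : ∀ᶠ i in l, ‖1 - U i‖ ≤ 1 / 2 := by
    have h3 : Tendsto (fun i => ‖1 - U i‖) l (𝓝 0) := by simpa using (hU.const_sub 1).norm
    exact h3.eventually (ge_mem_nhds (by norm_num))
  refine tendsto_iff_norm_sub_tendsto_zero.2
    (squeeze_zero' (Eventually.of_forall fun _ => norm_nonneg _) ?_ h1)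
  filter_upwards [h, h2] with i a b
  have e : x i - c = (R i - c * U i) + (x i - c) * (1 - U i) := by
    rw [← a]; noncomm_ring
  have h4 := norm_add_le (R i - c * U i) ((x i - c) * (1 - U i))
  rw [← e] at h4
  have h5 := (norm_mul_le (x i - c) (1 - U i)).trans (mul_le_mul_of_nonneg_left b (norm_nonneg _))
  linarith

section poly
variable {R : Type*} [CommRing R]

/-- the coefficient of `op` in the equation of a cylindrical end; `B = io op²` -/
def cylU (y yt B pt : R) : R := ((1 + y) ^ 2 * (1 + 4 * B) + yt ^ 2) * (1 + y) + 8 * (1 + y) * yt * pt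

/-- the other terms; `u = iz op` -/
def cylR (y yt ytt B u oq : R) : R := ((1 + y) ^ 2 + yt ^ 2) * (1 + y) * (4 * oq + 2 * u) +
  8 * yt ^ 2 * B + (1 + 4 * B) * ((1 + y) * ytt - (1 + y) ^ 2 - 2 * yt ^ 2) +
  ((1 + y) ^ 2 * (1 + 4 * B) + yt ^ 2) * (1 + y) ^ 2

theorem cylE_zero (iz io y yt ytt op oq pt : R) : cylE 0 iz io 0 0 y yt ytt op oq pt =
    cylR y yt ytt (io * op ^ 2) (iz * op) oq - op * cylU y yt (io * op ^ 2) pt := by
  unfold cylE cylD cylB cylR cylU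
  ring

/-- the coefficient of `op` in the equation of a conical end; `u = iz op` -/
def coneU (cc ka w wt u : R) : R := coneD ka w (w + 2 * u) (cc * wt) * (1 - ka * w)

/-- the other terms -/
def coneR (cc ka kd w wt wtt u oq zp : R) : R :=
  ((1 - ka * w) ^ 2 + (cc * wt) ^ 2) * (1 - ka * w) * (4 * oq + 6 * u)
    - 2 * (w + 2 * u) * (cc * wt) * ((1 - ka * w) * (cc * wt + 2 * cc * zp) -
      cc * wt * (1 - ka * (w + 2 * u)))
    + (1 + (w + 2 * u) ^ 2) * ((1 - ka * w) ^ 2 * ka + (1 - ka * w) * (cc ^ 2 * wtt) +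
      (1 - ka * w) ^ 2 * (w + 2 * u) + cc * wt * (kd * w + 2 * ka * (cc * wt)))

theorem coneE_split (cc ka kd iz w wt wtt op oq zp : R) : coneE cc ka kd iz w wt wtt op oq zp =
    coneR cc ka kd w wt wtt (iz * op) oq zp - op * coneU cc ka w wt (iz * op) := by
  unfold coneE coneR coneU coneD
  ring

end poly

theorem tendsto_C_mul {ι : Type*} {l : Filter ι} {w : ι → BC} {f : ι → WB} {K : ℝ}
    (hw : ∀ᶠ i in l, ‖w i‖ ≤ K) (hf : Tendsto f l (𝓝 0)) :
    Tendsto (fun i => W.C (w i) * f i) l (𝓝 0) := by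
  refine squeeze_zero_norm' (a := fun i => K * ‖f i‖) (hw.mono fun i h => ?_)
    (by simpa using hf.norm.const_mul K)
  exact (norm_mul_le _ _).trans (by rw [W.norm_C]; gcongr)

open End.Path End.Path.Real

namespace Cyl
variable {v : ℝ × ℝ → ℝ} (hv : Decays v)
include hv

theorem lft0 : Tendsto (fun γ : Path => lft γ.zc v) far (𝓝 0) :=
  hv.tendsto_lft (Eventually.of_forall rng_zc) far_zc

theorem y2 : Tendsto (fun γ => (jetC v γ).y2) far (𝓝 0) := by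
  simpa using! (lft0 hv).sub (lft0 hv.dt.dt)

theorem oq : Tendsto (fun γ => (jetC v γ).oq) far (𝓝 0) := by
  simpa only [add_zero] using! (tendsto_C_mul (w := fun _ => (1 / 2 : ℂ) • 1)
    (Eventually.of_forall fun _ => le_rfl) (lft0 hv.ds.ds)).add (tendsto_C_mul (w := fun γ : Path => -γ.dB) (K := 1 / 2)
      ((far_real 1).mono fun γ h => by rw [norm_neg]; exact h.norm_dB_le) (lft0 hv.ds))

theorem pt : Tendsto (fun γ => (jetC v γ).pt) far (𝓝 0) :=
  tendsto_C_mul ((far_real 1).mono fun _ h => h.norm_dB_le) (lft0 hv.ds.dt)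

omit hv in
theorem zB_pt (hv : Per v) {γ : Path} (h : γ.Real 1) :
    W.C γ.zB * (jetC v γ).pt = (1 / 2 : ℂ) • lft γ.zc (dt (ds v)) := ext_ev fun t θ => by
  have := h.zc_ne t
  rw [ev_mul, ev_C, hv.ev_jetC_pt h, zB_apply, ev_smul, hv.ds.dt.ev_lft (rng_zc γ)]
  push_cast
  field_simp

theorem zpt : Tendsto (fun γ : Path => W.C γ.zB * (jetC v γ).pt) far (𝓝 0) := by
  refine Tendsto.congr' ((far_real 1).mono fun γ h => (zB_pt hv.toPer h).symm) ?_
  simpa using (lft0 hv.ds.dt).const_smul (1 / 2 : ℂ)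

theorem op (he : ∀ᶠ s₀ in atTop, ∀ p : ℝ × ℝ, s₀ ≤ p.1 → CylEq v p) :
    Tendsto (fun γ => (jetC v γ).op) far (𝓝 0) := by
  obtain ⟨s₀, he⟩ := he.exists
  have hB : Tendsto (fun γ : Path => W.C (γ.cyl 0).io * (jetC v γ).op ^ 2) far (𝓝 0) := by
    refine Tendsto.congr' (f₁ := fun γ : Path => (1 / 2 : ℂ) • lft γ.zc (ds v) ^ 2)
      ((far_real 1).mono fun γ h => ext_ev fun t θ => ?_) ?_
    · have := h.zc_ne t
      rw [ev_mul, ev_C, ev_pow, hv.toPer.ev_jetC_op, h.cyl_io, h.zc_sq, ev_smul, ev_pow,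
        hv.toPer.ds.ev_lft (rng_zc γ)]
      push_cast
      field_simp
    · simpa using ((lft0 hv.ds).pow 2).const_smul (1 / 2 : ℂ)
  have hu : Tendsto (fun γ : Path => W.C (binv γ.ze) * (jetC v γ).op) far (𝓝 0) := by
    refine Tendsto.congr' (f₁ := fun γ : Path => (2 : ℂ) • (W.C γ.dB * lft γ.zc (ds v)))
      ((far_real 1).mono fun γ h => ext_ev fun t θ => ?_) ?_
    · have := h.zc_ne t
      rw [ev_mul, ev_C, hv.toPer.ev_jetC_op, h.binv_ze, h.zc_sq, ev_smul, ev_mul, ev_C,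
        hv.toPer.ds.ev_lft (rng_zc γ), h.dB_apply]
      push_cast
      field_simp
    · simpa using (tendsto_C_mul ((far_real 1).mono fun _ h => h.norm_dB_le)
        (lft0 hv.ds)).const_smul (2 : ℂ)
  have hy : Tendsto (fun γ => (jetC v γ).y) far (𝓝 0) := by
    simpa only [hv.toPer.jetC_y] using lft0 hv
  have hyt : Tendsto (fun γ => (jetC v γ).yt) far (𝓝 0) := by
    simpa only [hv.toPer.jetC_yt] using lft0 hv.dt
  have hytt : Tendsto (fun γ => (jetC v γ).ytt) far (𝓝 0) := by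
    simpa only [hv.toPer.jetC_ytt] using lft0 hv.dt.dt
  have c1 : Continuous fun p : WB × WB × WB × WB => cylU p.1 p.2.1 p.2.2.1 p.2.2.2 := by
    unfold cylU; fun_prop
  have c2 : Continuous fun p : (WB × WB × WB) × WB × WB × WB =>
      cylR p.1.1 p.1.2.1 p.1.2.2 p.2.1 p.2.2.1 p.2.2.2 := by unfold cylR; fun_prop
  refine tendsto_of_mul_eq
    ((c1.tendsto' (0, 0, 0, 0) 1 (by simp [cylU])).comp
      (hy.prodMk_nhds (hyt.prodMk_nhds (hB.prodMk_nhds (pt hv)))))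
    ((c2.tendsto' ((0, 0, 0), 0, 0, 0) 0 (by simp [cylR])).comp
      ((hy.prodMk_nhds (hyt.prodMk_nhds hytt)).prodMk_nhds
        (hB.prodMk_nhds (hu.prodMk_nhds (oq hv))))) ?_
  filter_upwards [far_real 1, far_zc s₀] with γ h h1
  have h2 := (hv.toPer.isCyl_jetC h fun t θ => he _ (h1 t)).2
  rw [Path.Ecyl, Path.hh, Path.Oh, zero_div, zero_smul, zero_smul, map_zero, map_zero,
    cylE_zero] at h2
  exact (sub_eq_zero.1 h2).symm

theorem jet (he : ∀ᶠ s₀ in atTop, ∀ p : ℝ × ℝ, s₀ ≤ p.1 → CylEq v p) :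
    Tendsto (jetC v) far (𝓝 0) :=
  (y2 hv).prodMk_nhds ((op hv he).prodMk_nhds ((oq hv).prodMk_nhds (pt hv)))

end Cyl

theorem norm_C_mul_le_of_le {w w' : BC} {K : ℝ} (h : ∀ t, ‖w t‖ ≤ K * ‖w' t‖) (hK : 0 ≤ K)
    (f : WB) : ‖W.C w * f‖ ≤ K * ‖W.C w' * f‖ := W.norm_le_of_le fun m => norm_BC_le fun t => by
  have := ((W.C w' * f).c m).norm_coe_le_norm t
  simp only [W.c_C_mul, BoundedContinuousFunction.mul_apply, norm_mul] at this ⊢
  calc _ ≤ K * ‖w' t‖ * ‖f.c m t‖ := by gcongr; exact h t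
    _ ≤ _ := by rw [mul_assoc]; gcongr

/-- The jets of a cylindrical end solve the equation and are small; `pt` may be scaled by any `σ`
with `|σ|² ≤ |Ω|`. -/
theorem jetC_small {v : ℝ × ℝ → ℝ} (hv : Decays v)
    (he : ∀ᶠ s₀ in atTop, ∀ p : ℝ × ℝ, s₀ ≤ p.1 → CylEq v p) {ε : ℝ} (hε : 0 < ε) :
    ∃ Z : ℝ, 1 ≤ Z ∧ ∀ γ : Path, γ.Real Z → γ.IsCyl 0 (jetC v γ) ∧ ‖jetC v γ‖ ≤ ε ∧
      ‖W.C γ.zB * (jetC v γ).pt‖ ≤ ε ∧
      ∀ σ : BC, (∀ t, ‖σ t‖ ^ 2 * ‖(γ.cyl 0).io t‖ ≤ 1) → ‖W.C σ * (jetC v γ).pt‖ ≤ ε := by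
  obtain ⟨s₀, he'⟩ := he.exists
  have h1 : ∀ᶠ γ in far, ‖jetC v γ‖ ≤ ε :=
    (Cyl.jet hv he).norm.eventually (ge_mem_nhds (by simpa using hε))
  have h2 : ∀ᶠ γ : Path in far, ‖W.C γ.zB * (jetC v γ).pt‖ ≤ ε / 2 :=
    (Cyl.zpt hv).norm.eventually (ge_mem_nhds (by simpa using hε))
  obtain ⟨Z, hZ⟩ := eventually_far.1 ((far_real 1).and ((far_zc s₀).and (h1.and h2)))
  refine ⟨max Z 1, le_max_right _ _, fun γ hγ => ?_⟩
  obtain ⟨a1, a2, a3, a4⟩ := hZ γ (hγ.mono (le_max_left _ _))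
  refine ⟨hv.toPer.isCyl_jetC a1 fun t θ => he' _ (a2 t), a3, by linarith, fun σ hσ => ?_⟩
  refine (norm_C_mul_le_of_le (w' := γ.zB) (fun t => ?_) zero_le_two _).trans (by linarith)
  have h3 := hσ t
  have h4 := a1.one_le_zc t
  rw [a1.cyl_io, a1.zc_sq, norm_inv, norm_mul, norm_pow, Complex.norm_real,
    Real.norm_of_nonneg (by linarith), mul_inv_le_iff₀ (mul_pos (by simp) (pow_pos (by linarith) 2))] at h3
  rw [zB_apply, Complex.norm_real, Real.norm_of_nonneg (by linarith)]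
  refine abs_le_of_sq_le_sq' ?_ (by linarith) |>.2
  simp only [Complex.norm_ofNat] at h3
  nlinarith

namespace Cone
variable {v : ℝ × ℝ → ℝ} (hv : Decays v)
include hv

theorem lft0 : Tendsto (fun γ : Path => lft γ.sc v) far (𝓝 0) :=
  hv.tendsto_lft ((far_real 1).mono fun _ h => h.rng_sc) far_sc

theorem y2 : Tendsto (fun γ => (jetK v γ).y2) far (𝓝 0) := by
  simpa using! (lft0 hv).sub (lft0 hv.dt.dt)

theorem oq : Tendsto (fun γ => (jetK v γ).oq) far (𝓝 0) := by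
  simpa only [add_zero] using! (tendsto_C_mul (w := fun _ => (1 / 4 : ℂ) • 1)
    (Eventually.of_forall fun _ => le_rfl) (lft0 hv.ds.ds)).add (tendsto_C_mul (w := fun _ => (-1 / 2 : ℂ) • 1)
      (Eventually.of_forall fun _ => le_rfl) (lft0 hv.ds))

omit hv in
theorem ze_pt (hv : Per v) {γ : Path} (h : γ.Real 1) :
    W.C γ.ze * (jetK v γ).pt = (1 / 2 : ℂ) • lft γ.sc (dt (ds v)) := ext_ev fun t θ => by
  have := h.ze_ne t
  rw [ev_mul, ev_C, hv.ev_jetK_pt h, ev_smul, hv.ds.dt.ev_lft h.rng_sc]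
  field_simp

theorem zpt : Tendsto (fun γ : Path => W.C γ.ze * (jetK v γ).pt) far (𝓝 0) := by
  refine Tendsto.congr' ((far_real 1).mono fun γ h => (ze_pt hv.toPer h).symm) ?_
  simpa using (lft0 hv.ds.dt).const_smul (1 / 2 : ℂ)

theorem pt : Tendsto (fun γ : Path => (jetK v γ).pt) far (𝓝 0) := by
  refine squeeze_zero_norm' ((far_real 1).mono fun γ h => ?_) (by simpa using (zpt hv).norm)
  simpa using norm_C_mul_le_of_le (w := 1) (w' := γ.ze) (K := 1)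
    (fun t => by simpa using h.one_le_norm t) zero_le_one (jetK v γ).pt

theorem op {c n : ℝ → H.E3} {l : ℝ} {ka kd : WD} (ha : ∀ θ, W.sumL θ ka = kaL c n l θ)
    (hd : ∀ θ, W.sumL θ kd = (l⁻¹ * deriv (kaL c n l) θ : ℝ))
    (he : ∀ᶠ s₀ in atTop, ∀ p : ℝ × ℝ, s₀ ≤ p.1 → ConeEq c n l v p) :
    Tendsto (fun γ => (jetK v γ).op) far (𝓝 (cst ka)) := by
  obtain ⟨s₀, he⟩ := he.exists
  have hu : Tendsto (fun γ : Path => W.C (binv γ.ze) * (jetK v γ).op) far (𝓝 0) := by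
    refine Tendsto.congr' (f₁ := fun γ : Path => (1 / 2 : ℂ) • lft γ.sc (ds v))
      ((far_real 1).mono fun γ h => ext_ev fun t θ => ?_) ?_
    · have := h.ze_ne t
      rw [ev_mul, ev_C, hv.toPer.ev_jetK_op h, h.binv_ze, ev_smul, hv.toPer.ds.ev_lft h.rng_sc]
      field_simp
    · simpa using (lft0 hv.ds).const_smul (1 / 2 : ℂ)
  have hy : Tendsto (fun γ => (jetK v γ).y) far (𝓝 0) :=
    (lft0 hv).congr' ((far_real 1).mono fun _ h => (hv.toPer.jetK_y h).symm)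
  have hyt : Tendsto (fun γ => (jetK v γ).yt) far (𝓝 0) :=
    (lft0 hv.dt).congr' ((far_real 1).mono fun _ h => (hv.toPer.jetK_yt h).symm)
  have hytt : Tendsto (fun γ => (jetK v γ).ytt) far (𝓝 0) :=
    (lft0 hv.dt.dt).congr' ((far_real 1).mono fun _ h => (hv.toPer.jetK_ytt h).symm)
  have c1 : Continuous fun p : WB × WB × WB =>
      coneU (algebraMap ℂ WB (l⁻¹ : ℝ)) (cst ka) p.1 p.2.1 p.2.2 := by
    unfold coneU coneD; fun_prop
  have c2 : Continuous fun p : (WB × WB × WB) × WB × WB × WB => coneR (algebraMap ℂ WB (l⁻¹ : ℝ))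
      (cst ka) (cst kd) p.1.1 p.1.2.1 p.1.2.2 p.2.1 p.2.2.1 p.2.2.2 := by unfold coneR; fun_prop
  refine tendsto_of_mul_eq
    ((c1.tendsto' (0, 0, 0) 1 (by simp [coneU, coneD])).comp (hy.prodMk_nhds (hyt.prodMk_nhds hu)))
    ((c2.tendsto' ((0, 0, 0), 0, 0, 0) _ (by simp [coneR])).comp
      ((hy.prodMk_nhds (hyt.prodMk_nhds hytt)).prodMk_nhds
        (hu.prodMk_nhds ((oq hv).prodMk_nhds (zpt hv))))) ?_
  filter_upwards [far_real 1, far_sc s₀] with γ h h1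
  have h2 := (hv.toPer.isCone_jetK h ha hd fun t θ => he _ (h1 t)).2
  rw [Path.Econe, coneE_split] at h2
  exact (sub_eq_zero.1 h2).symm

end Cone

/-! ### The curvature of the link -/

/-- smooth periodic functions of the angle as data -/
theorem toD_smooth {u : ℝ → ℝ} (hu : ContDiff ℝ ∞ u) (hp : ∀ θ, u (θ + 2 * Real.pi) = u θ) :
    (Summable fun m => ‖fd (fun θ => (u θ : ℂ)) m‖) ∧
      ∀ θ, W.sumL θ (toD fun θ => (u θ : ℂ)) = u θ := by
  have h : Per fun p : ℝ × ℝ => u p.2 := ⟨hu.comp contDiff_snd, fun _ θ => hp θ⟩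
  obtain ⟨K, hK⟩ := h.exists_fdom (σ := fun _ => 0) ⟨continuous_const, 0, 0, fun _ => by simp⟩
  exact ⟨hK.summable_fd 0, sumL_toD (hK.cont_t 0) (hK.per 0) (hK.summable_fd 0)⟩

/-- the curvature of the link -/
def kaD (c n : ℝ → H.E3) (l : ℝ) : WD := toD fun θ => (kaL c n l θ : ℂ)

/-- the derivative of the curvature with respect to arc length -/
def kdD (c n : ℝ → H.E3) (l : ℝ) : WD := toD fun θ => ((l⁻¹ * deriv (kaL c n l) θ : ℝ) : ℂ)

theorem periodic_deriv {F : Type*} [NormedAddCommGroup F] [NormedSpace ℝ F] {u : ℝ → F} {T : ℝ}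
    (hp : ∀ θ, u (θ + T) = u θ) (θ : ℝ) : deriv u (θ + T) = deriv u θ := by
  rw [← deriv_comp_add_const, funext hp]

namespace LinkD
variable {c n : ℝ → H.E3} {l : ℝ} (h : Link c n l)
include h

theorem smooth : ContDiff ℝ ∞ (kaL c n l) :=
  ((contDiff_infty_iff_deriv.1 (contDiff_infty_iff_deriv.1 h.smooth).2).2.inner ℝ
    h.nsmooth).div_const _

theorem per (θ : ℝ) : kaL c n l (θ + 2 * Real.pi) = kaL c n l θ := by
  rw [kaL, periodic_deriv (periodic_deriv h.per), h.nper, kaL]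

theorem sumL_ka (θ : ℝ) : W.sumL θ (kaD c n l) = kaL c n l θ := (toD_smooth (smooth h) (per h)).2 θ

theorem sumL_kd (θ : ℝ) : W.sumL θ (kdD c n l) = (l⁻¹ * deriv (kaL c n l) θ : ℝ) :=
  (toD_smooth (contDiff_const.mul (contDiff_infty_iff_deriv.1 (smooth h)).2)
    fun θ => by rw [periodic_deriv (per h)]).2 θ

theorem isRl_ka : W.IsRl (kaD c n l) := isRl_iff_WD.2 fun θ => by rw [sumL_ka h, ofReal_im]

theorem isRl_kd : W.IsRl (kdD c n l) := isRl_iff_WD.2 fun θ => by rw [sumL_kd h, ofReal_im]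

theorem c_kd (m : ℤ) : (kdD c n l).c m = ((l⁻¹ : ℝ) * (m * I)) * (kaD c n l).c m := by
  have h1 := c_of_hasDerivAt_sumL (d := ((l⁻¹ : ℝ) : ℂ) • kaD c n l) (d' := kdD c n l)
    (fun θ => by
      simp only [map_smul, sumL_ka h, sumL_kd h, smul_eq_mul, ofReal_mul]
      exact ((smooth h).differentiable (by simp) θ).hasDerivAt.ofReal_comp.const_mul _) m
  rw [h1, W.c_smul, smul_eq_mul, smul_eq_mul]
  ring

theorem exists_bound : ∃ K, ∀ θ, |kaL c n l θ| ≤ K :=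
  ⟨‖kaD c n l‖, fun θ => by
    rw [← Real.norm_eq_abs, ← Complex.norm_real, ← sumL_ka h]
    exact W.norm_sumL_le θ _⟩

end LinkD

/-- The jets of a conical end solve the equation; they are small up to `op`, which is close to the
curvature of the link. -/
theorem jetK_small {c n : ℝ → H.E3} {l : ℝ} (hl : Link c n l) {v : ℝ × ℝ → ℝ} (hv : Decays v)
    (he : ∀ᶠ s₀ in atTop, ∀ p : ℝ × ℝ, s₀ ≤ p.1 → ConeEq c n l v p) {ε : ℝ} (hε : 0 < ε) :
    ∃ Z : ℝ, 1 ≤ Z ∧ ∀ γ : Path, γ.Real Z →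
      γ.IsCone l⁻¹ (kaD c n l) (kdD c n l) (jetK v γ) ∧ ‖(jetK v γ).y2‖ ≤ ε ∧
      ‖(jetK v γ).op - cst (kaD c n l)‖ ≤ ε ∧ ‖(jetK v γ).oq‖ ≤ ε ∧
      ‖W.C γ.ze * (jetK v γ).pt‖ ≤ ε ∧ ‖(jetK v γ).pt‖ ≤ ε := by
  obtain ⟨s₀, he'⟩ := he.exists
  have k : ∀ {f : Path → WB}, Tendsto f far (𝓝 0) → ∀ᶠ γ in far, ‖f γ‖ ≤ ε := fun hf =>
    hf.norm.eventually (ge_mem_nhds (by simpa using hε))
  have h1 := tendsto_sub_nhds_zero_iff.2 (Cone.op hv (LinkD.sumL_ka hl) (LinkD.sumL_kd hl) he)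
  obtain ⟨Z, hZ⟩ := eventually_far.1 ((far_real 1).and ((far_sc s₀).and ((k (Cone.y2 hv)).and
    ((k h1).and ((k (Cone.oq hv)).and ((k (Cone.zpt hv)).and (k (Cone.pt hv))))))))
  refine ⟨max Z 1, le_max_right _ _, fun γ hγ => ?_⟩
  obtain ⟨a1, a2, a3⟩ := hZ γ (hγ.mono (le_max_left _ _))
  exact ⟨hv.toPer.isCone_jetK a1 (LinkD.sumL_ka hl) (LinkD.sumL_kd hl) fun t θ => he' _ (a2 t), a3⟩

end Vale.Agent.P218N.End
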