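import Vale.Agent.P218N.End.ApiBas
import Vale.Agent.P218N.End.JS2
import Vale.Agent.P218N.End.Ap
import Vale.Agent.P218N.End.Geo

/-! The real ends in the form which is used by the blocks CORE and GLUE. -/

open Filter Topology Metric Set Complex

noncomputable section

namespace Vale.Agent.P218N.End

open Vale.Agent.P218N.J Vale.Agent.P218N.J.PolyP End.Path End.Path.Real

namespace RE

variable {T T' Z : ℝ} {γ γ' : Path} {Γ Γ' : Ctr} {μ : ℤ → ℝ} {j j' : EJ} {t t' : ℝ}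
  {v : ℝ × ℝ → ℝ}

theorem real (h : γ.RealP T) (hZ : Z ≤ T) : γ.Real Z :=
  ⟨h.ok, h.im_ze, h.im, h.re, fun t => hZ.trans (h.T_le t)⟩

theorem sg_real {Q : ℝ} (h : T ≤ Q) : (sg T Q).RealP T := by
  have e : ∀ t, (sg T Q).g t = (((sp 0 t + sp 1 t + sp 2 t) * ((Q - T) / 3) : ℝ) : ℂ) := fun t => by
    rw [sg, pg_g]
    push_cast
    ring
  refine ⟨pg_ok, pg_zero, fun t => by rw [e, ofReal_im], fun t => ?_⟩
  rw [e, ofReal_re]
  exact mul_nonneg (add_nonneg (add_nonneg (sp_nonneg _ _) (sp_nonneg _ _)) (sp_nonneg _ _))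
    (by linarith)

theorem sg_surj {Q x : ℝ} (hx : x ∈ Icc T Q) : ∃ t, (sg T Q).ze t = x := by
  have h := sg_real (hx.1.trans hx.2)
  have h1 : (sg T Q).ze 1 = Q := pg_one
  obtain ⟨t, -, ht⟩ := intermediate_value_Icc (f := fun t => ((sg T Q).ze t).re) zero_le_one
    (continuous_re.comp (sg T Q).ze.continuous).continuousOn (a := 0) (b := 1)
    (show x ∈ _ by simpa [h.st, h1] using hx)
  exact ⟨t, by rw [h.ze_eq, ← ht]⟩

/-- the jets agree at two points -/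
def EqAt (j : EJ) (t : ℝ) (j' : EJ) (t' : ℝ) : Prop := tr t j.y2 = tr t' j'.y2 ∧
  tr t j.op = tr t' j'.op ∧ tr t j.oq = tr t' j'.oq ∧ tr t j.pt = tr t' j'.pt

theorem tr_ext {f f' : WB} (h : ∀ θ, ev f t θ = ev f' t' θ) : tr t f = tr t' f' :=
  W.ext_sumL fun θ => by rw [sumL_tr, sumL_tr, h]

theorem c_of_tr {f f' : WB} (h : tr t f = tr t' f') (m : ℤ) : f.c m t = f'.c m t' := by
  rw [← c_tr, h, c_tr]

theorem eqAt_jetC (hv : Per v) (h : γ.Real 1) (h' : γ'.Real 1) (e : γ.ze t = γ'.ze t') :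
    EqAt (jetC v γ) t (jetC v γ') t' := by
  have e1 : γ.zc t = γ'.zc t' := by rw [zc, e, zc]
  refine ⟨tr_ext fun θ => ?_, tr_ext fun θ => ?_, tr_ext fun θ => ?_, tr_ext fun θ => ?_⟩
  · simp only [EJ.y2_eq, ev_sub, hv.ev_jetC_y, hv.ev_jetC_ytt, e1]
  · rw [hv.ev_jetC_op, hv.ev_jetC_op, e1]
  · rw [hv.ev_jetC_oq h, hv.ev_jetC_oq h', e1]
  · rw [hv.ev_jetC_pt h, hv.ev_jetC_pt h', e1]

theorem eqAt_jetK (hv : Per v) (h : γ.Real 1) (h' : γ'.Real 1) (e : γ.ze t = γ'.ze t') :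
    EqAt (jetK v γ) t (jetK v γ') t' := by
  have e1 : γ.sc t = γ'.sc t' := by rw [sc, e, sc]
  refine ⟨tr_ext fun θ => ?_, tr_ext fun θ => ?_, tr_ext fun θ => ?_, tr_ext fun θ => ?_⟩
  · simp only [EJ.y2_eq, ev_sub, hv.ev_jetK_y h, hv.ev_jetK_ytt h, hv.ev_jetK_y h',
      hv.ev_jetK_ytt h', e1]
  · rw [hv.ev_jetK_op h, hv.ev_jetK_op h', e1, e]
  · rw [hv.ev_jetK_oq h, hv.ev_jetK_oq h', e1]
  · rw [hv.ev_jetK_pt h, hv.ev_jetK_pt h', e1, e]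

theorem EqAt.piJ (e : EqAt j t j' t') (h : Γ.PG μ) (h' : Γ'.PG μ) (hj : Γ.IsJet j)
    (hj' : Γ'.IsJet j') (hio : Γ.io t = Γ'.io t') : tr t (Γ.piJ μ j) = tr t' (Γ'.piJ μ j') := by
  ext m
  rw [c_tr, c_tr, h.c_piJ hj, h'.c_piJ hj', hio, c_of_tr e.2.1, EJ.c_y, EJ.c_y,
    BoundedContinuousFunction.smul_apply, BoundedContinuousFunction.smul_apply, c_of_tr e.1]

theorem cmp_of_eqAt {φ : ℝ → ℝ} (h : Sub φ γ γ') (e : ∀ t, EqAt j' t j (φ (cl t))) :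
    j' = j.cmp φ := by
  have hc : Continuous fun t => φ (cl t) := h.cont.comp_continuous continuous_cl cl_mem
  have k : ∀ {f' f : WB}, (∀ t, tr t f' = tr (φ (cl t)) f) → f' = cmpW φ f := fun hf =>
    ext_ct fun m t => by
      rw [c_of_tr (hf t), cmpW, W.c_diag_const, cmpB, dif_pos hc]
      rfl
  exact EJ.ext' (k fun t => (e t).1) (k fun t => (e t).2.1) (k fun t => (e t).2.2.1)
    (k fun t => (e t).2.2.2)

theorem sub_ze {φ : ℝ → ℝ} (h : Sub φ γ γ') (ho : γ'.Ok) (t : ℝ) : γ'.ze t = γ.ze (φ (cl t)) := by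
  rw [← h.eq _ (cl_mem t), ze_cl ho]

theorem sub_real {φ : ℝ → ℝ} (h : Sub φ γ γ') (h1 : γ.Real Z) (h2 : γ'.RealP T') : γ'.Real Z :=
  ⟨h2.ok, h2.im_ze, h2.im, h2.re, fun t => by rw [sub_ze h h2.ok]; exact h1.le _⟩

theorem wle_pt {f f' : WB} {w w' : BC} {A : ℝ} (hA : 0 ≤ A)
    (h : ∀ t, ∃ t', tr t f = tr t' f' ∧ ‖w t‖ ≤ A * ‖w' t'‖) :
    ‖W.C w * f‖ ≤ A * ‖W.C w' * f'‖ := W.norm_le_of_le fun m => norm_BC_le fun t => by
  obtain ⟨t', h1, h2⟩ := h t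
  have h3 := ((W.C w' * f').c m).norm_coe_le_norm t'
  rw [c_C_mul_apply, norm_mul] at h3 ⊢
  rw [c_of_tr h1]
  calc _ ≤ A * ‖w' t'‖ * ‖f'.c m t'‖ := by gcongr
    _ ≤ _ := by rw [mul_assoc]; gcongr

/-- The weighted norms only depend on the values at the points of the paths. -/
theorem nrm_le {w w' : BC} {A : ℝ} (hA : 0 ≤ A) (h : ∀ t, ∃ t', EqAt j t j' t' ∧
    tr t (Γ.piJ μ j) = tr t' (Γ'.piJ μ j') ∧ ‖w t‖ ≤ A * ‖w' t'‖) :
    Γ.nrm μ w j ≤ A * Γ'.nrm μ w' j' := by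
  have k : ∀ {x : ℝ}, x ≤ ‖j'.wt w'‖ → A * x ≤ A * Γ'.nrm μ w' j' := fun hx =>
    mul_le_mul_of_nonneg_left (hx.trans (le_max_left _ _)) hA
  refine max_le (EJ.norm_le _ ?_ ?_ ?_ ?_) ?_
  · exact (wle_pt hA fun t => (h t).imp fun _ a => ⟨a.1.1, a.2.2⟩).trans (k (j'.wt w').norm_y2_le)
  · exact (wle_pt hA fun t => (h t).imp fun _ a => ⟨a.1.2.1, a.2.2⟩).trans (k (j'.wt w').norm_op_le)
  · exact (wle_pt hA fun t => (h t).imp fun _ a => ⟨a.1.2.2.1, a.2.2⟩).trans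
      (k (j'.wt w').norm_oq_le)
  · exact (wle_pt hA fun t => (h t).imp fun _ a => ⟨a.1.2.2.2, a.2.2⟩).trans
      (k (j'.wt w').norm_pt_le)
  · exact (wle_pt hA fun t => (h t).imp fun _ a => ⟨a.2.1, a.2.2⟩).trans
      (mul_le_mul_of_nonneg_left (le_max_right _ _) hA)

/-- a bound for the fast components -/
theorem norm_piJ_le (h : Γ.PG μ) {K : ℝ} (hK : ∀ m, |μ m| ≤ K * br m) (hio : ∀ t, ‖Γ.io t‖ ≤ 1)
    {s : BC} (hs : ∀ t, ‖Γ.Om t‖ ≤ 2 * ‖s t‖ ^ 2) (hj : Γ.IsJet j) :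
    ‖Γ.piJ μ j‖ ≤ (1 + K) * (2 * ‖j.op‖ + ‖W.C s * j.pt‖ + ‖j.y2‖) := by
  have hK0 : 0 ≤ K := by simpa [br] using (abs_nonneg _).trans (hK 0)
  refine W.norm_le_of_hasSum ((((j.op.hasSum.mul_left 2).add (W.C s * j.pt).hasSum).add
    j.y2.hasSum).mul_left (1 + K)) fun m => norm_BC_le fun t => ?_
  have a1 := (j.op.c m).norm_coe_le_norm t
  have a2 := ((W.C s * j.pt).c m).norm_coe_le_norm t
  have a3 := (j.y2.c m).norm_coe_le_norm t
  have a4 : ‖(μ m : ℂ) / 2 * j.y.c m t‖ ≤ K * ‖j.y2.c m t‖ := by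
    rw [EJ.c_y, BoundedContinuousFunction.smul_apply, smul_eq_mul, ← mul_assoc, norm_mul, norm_mul,
      norm_inv_br, norm_div, Complex.norm_ofNat, norm_real, Real.norm_eq_abs]
    gcongr
    rw [mul_inv_le_iff₀ (br_pos m)]
    linarith [hK m, abs_nonneg (μ m)]
  have h2 : ‖Γ.Om t‖ * ‖Γ.io t‖ = 1 := by rw [← norm_mul, h.inv, norm_one]
  set n := ‖nu ((μ m : ℂ) / 2 * Γ.io t)‖ with hn
  have n0 : 0 ≤ n := norm_nonneg _
  have h3 : n ^ 2 ≤ |μ m| / 2 * ‖Γ.io t‖ := by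
    have b1 := congrArg norm (nu_mul_la ((μ m : ℂ) / 2 * Γ.io t))
    have b2 := norm_nu_le ((μ m : ℂ) / 2 * Γ.io t)
    simp only [norm_mul, norm_div, Complex.norm_real, Real.norm_eq_abs, Complex.norm_ofNat] at b1
    nlinarith
  have a5 : n * ‖j.op.c m t‖ ≤ (1 + K) * (‖j.op.c m t‖ + ‖(W.C s * j.pt).c m t‖) := by
    rcases eq_or_ne m 0 with rfl | hm
    · have b1 : n ≤ 1 + K := by
        have := hK 0
        simp only [br, Int.cast_zero] at this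
        refine abs_le_of_sq_le_sq' ?_ (by linarith) |>.2
        nlinarith [hio t, abs_nonneg (μ 0), norm_nonneg (Γ.io t)]
      gcongr
      exact le_add_of_nonneg_right (norm_nonneg _)
    · have h4 : (1 : ℝ) ≤ (m : ℝ) ^ 2 := by
        have : (1 : ℤ) ≤ m ^ 2 := by nlinarith [Int.one_le_abs hm, sq_abs m]
        exact_mod_cast this
      have h5 : |μ m| / 2 ≤ K * (m : ℝ) ^ 2 := by
        have := hK m
        unfold br at this
        nlinarith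
      have b1 : n ≤ (1 + K) * (‖s t‖ * (|(m : ℝ)| * ‖Γ.io t‖)) := by
        refine abs_le_of_sq_le_sq' ?_ (by positivity) |>.2
        calc n ^ 2 ≤ K * (m : ℝ) ^ 2 * ‖Γ.io t‖ * (‖Γ.Om t‖ * ‖Γ.io t‖) := by
              rw [h2, mul_one]; exact h3.trans (by gcongr)
          _ ≤ K * (m : ℝ) ^ 2 * ‖Γ.io t‖ * (2 * ‖s t‖ ^ 2 * ‖Γ.io t‖) := by gcongr; exact hs t
          _ = (2 * K) * (‖s t‖ * (|(m : ℝ)| * ‖Γ.io t‖)) ^ 2 := by
              rw [mul_pow, mul_pow, sq_abs]; ring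
          _ ≤ _ := by
              rw [mul_pow (1 + K)]
              gcongr
              nlinarith
      have b2 : ‖(W.C s * j.pt).c m t‖ = ‖s t‖ * (|(m : ℝ)| * ‖Γ.io t‖) * ‖j.op.c m t‖ := by
        rw [c_C_mul_apply, (hj m).2.2]
        simp only [BoundedContinuousFunction.smul_apply, BoundedContinuousFunction.mul_apply,
          smul_eq_mul, norm_mul, norm_I, norm_intCast]
        ring
      rw [b2]
      nlinarith [mul_le_mul_of_nonneg_right b1 (norm_nonneg (j.op.c m t)),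
        norm_nonneg (j.op.c m t)]
  rw [h.c_piJ hj, la_eq, add_mul]
  refine (norm_add_le_of_le (norm_add_le _ _) a4).trans ?_
  rw [norm_mul, norm_mul, ← hn, norm_div, norm_one, Complex.norm_ofNat]
  nlinarith [norm_nonneg (j.op.c m t), norm_nonneg (j.y2.c m t), mul_nonneg hK0 (sub_nonneg.2 a1),
    mul_nonneg hK0 (sub_nonneg.2 a2), mul_nonneg hK0 (sub_nonneg.2 a3),
    mul_nonneg hK0 (norm_nonneg (j.op.c m))]

/-- weights on real paths -/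
theorem norm_iW (h : γ.RealP T) (hg : Γ.g = γ.g) {φ : BC} {L L' : ℝ → ℝ}
    (hL : ∀ x, T ≤ x → HasDerivAt L (L' x) x) (hφ : ∀ t, φ t = L' (γ.ze t).re) (t : ℝ) :
    ‖Γ.iW φ p0 t‖ = Real.exp (L T - L (γ.ze t).re) := by
  have h1 : ∀ t, HasDerivAt (fun t => (L (γ.ze t).re : ℂ)) ((γ.g * φ) t) t := fun t => by
    refine ((hL _ (h.T_le t)).comp t (hasDerivAt_re h.ok t)).ofReal_comp.congr_deriv ?_
    rw [BoundedContinuousFunction.mul_apply, hφ, ofReal_mul, ← (real h le_rfl).g_eq, mul_comm]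
  rw [Ctr.norm_iW, hg, (h.ok.spt.mul φ).V_eq, intervalIntegral.integral_eq_sub_of_hasDerivAt
    (fun t _ => h1 t) ((γ.g * φ).continuous.intervalIntegrable _ _)]
  simp [p0, h.st]

/-! ### The decay on cylindrical ends -/

/-- the sum of a decaying and of a growing weight -/
def sw (η x : ℝ) : ℝ := x ^ (-(9 / 10) : ℝ) + η * x ^ (2 / 5 : ℝ)

/-- `x` times its logarithmic derivative -/
def sq (η x : ℝ) : ℝ := (-(9 / 10) * x ^ (-(9 / 10) : ℝ) + 2 / 5 * (η * x ^ (2 / 5 : ℝ))) / sw η x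

variable {η x : ℝ}

theorem sw_pos (hη : 0 ≤ η) (hx : 0 < x) : 0 < sw η x := by
  unfold sw
  positivity

theorem sq_mem (hη : 0 ≤ η) (hx : 0 < x) : -(9 / 10) ≤ sq η x ∧ sq η x ≤ 2 / 5 := by
  have h1 : 0 ≤ x ^ (-(9 / 10) : ℝ) := by positivity
  have h2 : 0 ≤ η * x ^ (2 / 5 : ℝ) := by positivity
  rw [sq, le_div_iff₀ (sw_pos hη hx), div_le_iff₀ (sw_pos hη hx), sw]
  constructor <;> linarith

theorem hasDerivAt_sw (hη : 0 ≤ η) (hx : 0 < x) :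
    HasDerivAt (fun x => Real.log (sw η x)) (sq η x / x) x := by
  refine (((Real.hasDerivAt_rpow_const (Or.inl hx.ne')).add ((Real.hasDerivAt_rpow_const
    (Or.inl hx.ne')).const_mul η)).log (sw_pos hη hx).ne').congr_deriv ?_
  rw [Real.rpow_sub_one hx.ne', Real.rpow_sub_one hx.ne', sq, div_right_comm]
  congr 1
  ring

theorem cyl_adm (h : γ.RealP T) (hT : 2 ≤ T) : AdmP (1 / 2) T T 0 γ :=
  h.admP hT (re_le γ) (by rw [norm_zero]; positivity)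

theorem cyl_pg (h : γ.RealP T) (hT : 256 ≤ T) : (γ.cyl 0).PG muCyl :=
  admP_pg' one_half_pos (h.one_le (by linarith)) (by linarith) (cyl_adm h (by linarith))

theorem Ecyl_zero (γ : Path) : γ.Ecyl 0 0 = 0 := by
  have e : (0 : EJ).y = 0 := map_zero _
  have e1 : (0 : EJ).yt = 0 := map_zero _
  have e2 : (0 : EJ).ytt = 0 := map_zero _
  have e3 : (0 : EJ).op = 0 := rfl
  have e4 : (0 : EJ).oq = 0 := rfl
  rw [Ecyl, e, e1, e2, e3, e4]
  simp [cylE, cylD, cylB, hh, Oh]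

theorem jetC_nrm (hv : Decays v) (he : ∀ᶠ s₀ in atTop, ∀ p : ℝ × ℝ, s₀ ≤ p.1 → CylEq v p) {δ : ℝ}
    (hδ : 0 < δ) : ∃ Z : ℝ, 256 ≤ Z ∧ ∀ (T : ℝ) (γ : Path), Z ≤ T → γ.RealP T →
      γ.IsCyl 0 (jetC v γ) ∧ (γ.cyl 0).nrm muCyl 1 (jetC v γ) ≤ δ := by
  obtain ⟨Z, -, h⟩ := jetC_small hv he (ε := δ / 8) (by positivity)
  refine ⟨max Z 256, le_max_right _ _, fun T γ hT hγ => ?_⟩
  obtain ⟨b1, b2⟩ := max_le_iff.1 hT
  obtain ⟨a1, a2, a3, -⟩ := h γ (real hγ b1)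
  have h1 : γ.Real 1 := real hγ (by linarith)
  refine ⟨a1, max_le (by rw [EJ.wt_one]; linarith) ?_⟩
  rw [map_one, one_mul]
  refine (norm_piJ_le (s := γ.zB) (cyl_pg hγ b2) muCyl_le (fun t => ?_) (fun t => ?_) a1.1).trans ?_
  · rw [h1.cyl_io, norm_inv, norm_mul, Complex.norm_ofNat]
    exact inv_le_one_of_one_le₀ (by linarith [h1.one_le_norm t])
  · rw [Real.cyl_Om, norm_mul, Complex.norm_ofNat, h1.zc_sq, zB_apply, norm_pow]
  · linarith [(jetC v γ).norm_op_le, (jetC v γ).norm_y2_le]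

theorem norm_fwd_le (s : ℤ → Icc (0 : ℝ) 1) (d : WD) : ‖fwd s d‖ ≤ ‖d‖ ∧ ‖bwd s d‖ ≤ ‖d‖ :=
  ⟨(norm_mult_apply_le (K := 1) (fun m => by split_ifs <;> simp) d).trans_eq (one_mul _),
    (norm_mult_apply_le (K := 1) (fun m => by split_ifs <;> simp) d).trans_eq (one_mul _)⟩

theorem dec (hF : FarCyl) (hv : Decays v)
    (he : ∀ᶠ s₀ in atTop, ∀ p : ℝ × ℝ, s₀ ≤ p.1 → CylEq v p) :
    ∃ Z C : ℝ, 256 ≤ Z ∧ ∀ (T : ℝ) (γ : Path), Z ≤ T → γ.RealP T → γ.IsCyl 0 (jetC v γ) ∧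
      (γ.cyl 0).nrm muCyl ((γ.cyl 0).iW (γ.pw 0 (-(9 / 10))) p0) (jetC v γ) ≤
        C * T ^ (-(9 / 10) : ℝ) := by
  obtain ⟨C, hC, h1⟩ := hF (1 / 2) one_half_pos
  obtain ⟨δ, hδ, K₀, h2⟩ := h1 1 one_pos
  obtain ⟨Z₁, hZ₁, h3⟩ := jetC_nrm hv he hδ
  obtain ⟨Z, z1, z2⟩ : ∃ Z, Z₁ ≤ Z ∧ K₀ ≤ Z := ⟨_, le_max_left _ _, le_max_right _ _⟩
  have z3 : 256 ≤ Z := hZ₁.trans z1
  refine ⟨Z, 2 / Z ^ (-(9 / 10) : ℝ) * (C * (5 * δ)), z3, fun T γ hT hγ => ?_⟩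
  have hj := (h3 T γ (z1.trans hT) hγ).1
  refine ⟨hj, ?_⟩
  have hP : ∀ t, (γ.ze t).re ≤ (γ.ze 1).re := fun t => (le_re_of_dir one_pos hγ.ok hγ.dir t).2
  have hTP := hγ.T_le 1
  generalize (γ.ze 1).re = P at hP hTP
  have p0' : 0 < P := by linarith
  obtain ⟨η, hη, e1⟩ : ∃ η : ℝ, 0 < η ∧ ∀ x, 0 < x → x ≤ P → sw η x ≤ 2 * x ^ (-(9 / 10) : ℝ) := by
    refine ⟨P ^ (-(13 / 10) : ℝ), by positivity, fun x a b => ?_⟩
    have : P ^ (-(13 / 10) : ℝ) * x ^ (2 / 5 : ℝ) ≤ x ^ (-(13 / 10) : ℝ) * x ^ (2 / 5 : ℝ) :=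
      mul_le_mul_of_nonneg_right (Real.rpow_le_rpow_of_nonpos a b (by norm_num)) (by positivity)
    rw [← Real.rpow_add a] at this
    norm_num at this
    rw [sw]
    linarith
  obtain ⟨Q, q1, q2⟩ := ((eventually_ge_atTop P).and (((tendsto_rpow_atTop
    (by norm_num : (0 : ℝ) < 2 / 5)).const_mul_atTop hη).eventually_ge_atTop 1)).exists
  have hΓ : (sg Z Q).RealP Z := sg_real (by linarith)
  have hs : ∀ x ∈ Icc Z Q, ∃ t, (sg Z Q).ze t = x := fun x => sg_surj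
  have hQ : (sg Z Q).ze 1 = Q := pg_one
  generalize sg Z Q = G at hΓ hs hQ
  have r1 : G.Real 1 := real hΓ (by linarith)
  have hc : Continuous fun t => (G.ze t).re := continuous_re.comp G.ze.continuous
  obtain ⟨φ, hφ⟩ : ∃ φ : BC, ∀ t, φ t = (sq η (G.ze t).re / (G.ze t).re : ℝ) := by
    have c1 : ∀ p : ℝ, Continuous fun t => (G.ze t).re ^ p := fun p =>
      hc.rpow_const fun t => Or.inl (r1.pos t).ne'
    refine ⟨mkB _, mkB_apply (continuous_ofReal.comp ((((continuous_const.mul (c1 _)).add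
      (continuous_const.mul (continuous_const.mul (c1 _)))).div ((c1 _).add
        (continuous_const.mul (c1 _))) fun t => (sw_pos hη.le (r1.pos t)).ne').div hc
          fun t => (r1.pos t).ne')) (C := 1) fun t => ?_⟩
    have := sq_mem hη.le (r1.pos t)
    rw [norm_real, norm_div, Real.norm_of_nonneg (r1.pos t).le, div_le_one (r1.pos t)]
    exact (abs_le.2 ⟨by linarith, by linarith⟩).trans (r1.le t)
  have hW : ∀ t, ‖(G.cyl 0).iW φ p0 t‖ = sw η Z / sw η (G.ze t).re := fun t => by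
    rw [norm_iW hΓ rfl (fun x hx => hasDerivAt_sw hη.le (by linarith)) hφ, Real.exp_sub,
      Real.exp_log (sw_pos hη.le (by linarith)), Real.exp_log (sw_pos hη.le (r1.pos t))]
  have hWC : (G.cyl 0).WC φ (-(19 / 20)) (19 / 40) 0 := fun t => by
    have a1 : (2 * (G.cyl 0).g t * (G.cyl 0).io t).re = (G.g t).re / (G.ze t).re := by
      have := r1.ze_ne t
      rw [← ofReal_re (_ / _), ofReal_div, ← r1.g_eq, ← r1.ze_eq, r1.cyl_io]
      congr 1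
      change 2 * G.g t * _ = _
      field_simp
    have a2 : ((G.cyl 0).g t * φ t).re = sq η (G.ze t).re * ((G.g t).re / (G.ze t).re) := by
      rw [hφ, re_mul_ofReal]
      change (G.g t).re * _ = _
      ring
    have a3 := sq_mem hη.le (r1.pos t)
    have a4 := div_nonneg (r1.g_nonneg t) (r1.pos t).le
    rw [a1, a2]
    constructor <;> nlinarith
  obtain ⟨b1, b2⟩ := h3 Z G z1 hΓ
  have b3 := (((h2 δ hδ le_rfl Z z2).1 Z 0 G sdCyl φ le_rfl (by rw [norm_zero]; positivity)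
    (cyl_adm hΓ (by linarith)) (Or.inl ⟨rfl, hWC⟩)).1 (jetC v G) 0 b1.1 Ctr.isJet_zero
    (by rwa [sub_zero]) (by
      have e : (G.cyl 0).piJ muCyl (0 - 0) = 0 := by rw [Ctr.piJ_sub, sub_self]
      rw [Ctr.nrm, e, EJ.wt_one]
      simpa using hδ.le)).1
  rw [sub_zero, b1.2, Ecyl_zero, Ctr.dsz, sub_zero, mul_zero, norm_zero, add_zero, hW, hQ,
    ofReal_re] at b3
  have b4 : ‖(jetC v G).y2‖ ≤ δ := ((jetC v G).norm_y2_le.trans
    (by rw [Ctr.nrm, EJ.wt_one]; exact le_max_left _ _)).trans b2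
  have b5 : ‖(G.cyl 0).piJ muCyl (jetC v G)‖ ≤ δ :=
    le_trans (by rw [Ctr.nrm, map_one, one_mul]; exact le_max_right _ _) b2
  have b6 : sw η Z / sw η Q ≤ 2 := by
    have c1 : Z ^ (-(9 / 10) : ℝ) ≤ 1 :=
      Real.rpow_le_one_of_one_le_of_nonpos (by linarith) (by norm_num)
    have c2 : 0 ≤ Q ^ (-(9 / 10) : ℝ) := Real.rpow_nonneg (by linarith) _
    rw [div_le_iff₀ (sw_pos hη.le (by linarith)), sw.eq_1 η Q]
    linarith [e1 Z (by linarith) (by linarith)]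
  have b7 : (G.cyl 0).nrm muCyl ((G.cyl 0).iW φ p0) (jetC v G) ≤ C * (5 * δ) := by
    refine b3.trans (mul_le_mul_of_nonneg_left ?_ (by linarith))
    have c1 := ((norm_fwd_le sdCyl _).1.trans (norm_tr_apply_le 0 _)).trans b4
    have c2 := ((norm_fwd_le sdCyl _).2.trans (norm_tr_apply_le 1 _)).trans b4
    have c3 := (norm_tr_apply_le 1 _).trans b5
    have c4 := mul_le_mul b6 (add_le_add c2 c3) (by positivity) zero_le_two
    linarith
  have r2 : γ.Real 1 := real hγ (by linarith)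
  have t0 : 0 < T := by linarith
  have z0 : 0 < Z ^ (-(9 / 10) : ℝ) := Real.rpow_pos_of_pos (by linarith) _
  rw [mul_right_comm]
  refine (nrm_le (by positivity) fun t => ?_).trans (mul_le_mul_of_nonneg_left b7 (by positivity))
  obtain ⟨t', ht'⟩ := hs (γ.ze t).re ⟨hT.trans (hγ.T_le t), (hP t).trans q1⟩
  rw [← hγ.ze_eq] at ht'
  have e := eqAt_jetC hv.toPer r2 r1 ht'.symm
  refine ⟨t', e, e.piJ (cyl_pg hγ (by linarith)) (cyl_pg hΓ z3) hj.1 b1.1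
    (by rw [r2.cyl_io, r1.cyl_io, ht']), ?_⟩
  have x0 := r2.pos t
  have c1 : ∀ t, γ.pw 0 (-(9 / 10)) t = ((-(9 / 10) * ((γ.ze t).re)⁻¹ : ℝ) : ℂ) := fun t => by
    have := r2.ze_ne t
    rw [pw, BoundedContinuousFunction.smul_apply, r2.cyl_io, ofReal_mul, ofReal_inv, ← r2.ze_eq,
      smul_eq_mul]
    field_simp
    ring
  rw [norm_iW hγ rfl (L := fun x => -(9 / 10) * Real.log x)
    (fun x hx => (Real.hasDerivAt_log (by linarith : 0 < x).ne').const_mul _) c1, hW, ht',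
    Real.exp_sub, mul_comm _ (Real.log T), mul_comm _ (Real.log _), ← Real.rpow_def_of_pos t0,
    ← Real.rpow_def_of_pos x0]
  have c2 : Z ^ (-(9 / 10) : ℝ) ≤ sw η Z :=
    le_add_of_nonneg_right (mul_nonneg hη.le (Real.rpow_nonneg (by linarith) _))
  calc _ = 2 / Z ^ (-(9 / 10) : ℝ) * T ^ (-(9 / 10) : ℝ) *
        (Z ^ (-(9 / 10) : ℝ) / (2 * (γ.ze t).re ^ (-(9 / 10) : ℝ))) := by field_simp
    _ ≤ _ := by
      gcongr
      · exact z0.le.trans c2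
      · exact sw_pos hη.le x0
      · exact e1 _ x0 (hP t)

end RE

open RE

/-- The jets of a real cylindrical end. -/
theorem cylEnd_of (hF : FarCyl) {v : ℝ × ℝ → ℝ} (hv : Decays v)
    (he : ∀ᶠ s₀ in atTop, ∀ p : ℝ × ℝ, s₀ ≤ p.1 → CylEq v p) : ∃ Z C : ℝ, 256 ≤ Z ∧
      CylEnd v (jetC v) (fun x => tr 0 (jetC v (sg x x)).y2)
        (fun x => tr 0 (((sg x x).cyl 0).piJ muCyl (jetC v (sg x x)))) Z C := by
  obtain ⟨Z, C, hZ, h⟩ := dec hF hv he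
  have r : ∀ {T : ℝ} {γ : Path}, Z ≤ T → γ.RealP T → γ.Real 1 := fun a b => real b (by linarith)
  refine ⟨Z, C, hZ, fun T γ a b => (h T γ a b).1, fun T γ _ _ => hv.toPer.ev_jetC_y,
    fun T γ a b t => ?_, fun T γ a b => (h T γ a b).2, fun T T' γ γ' φ a b c d => ?_,
    fun T γ a b t θ => ?_⟩
  · have a1 := a.trans (b.T_le t)
    have b1 := sg_real (le_refl (γ.ze t).re)
    have e0 : γ.ze t = (sg (γ.ze t).re (γ.ze t).re).ze 0 := (b.ze_eq t).trans b1.st.symm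
    have e := eqAt_jetC hv.toPer (r a b) (r a1 b1) e0
    exact ⟨e.1, e.piJ (cyl_pg b (by linarith)) (cyl_pg b1 (by linarith)) (h _ _ a b).1.1
      (h _ _ a1 b1).1.1 (by rw [(r a b).cyl_io, (r a1 b1).cyl_io, ← e0])⟩
  · exact cmp_of_eqAt d fun t =>
      eqAt_jetC hv.toPer (sub_real d (r a b) c) (r a b) (sub_ze d c.ok t)
  · have e := hv.toPer.isRl_jetC (r a b)
    exact ⟨isRl_iff_ev.1 e.y2 t θ, isRl_iff_ev.1 e.op t θ, isRl_iff_ev.1 e.oq t θ,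
      isRl_iff_ev.1 e.pt t θ⟩

/-- The jets of a real conical end. -/
theorem coneEnd_of {c n : ℝ → H.E3} {l : ℝ} (hl : Link c n l) {v : ℝ × ℝ → ℝ} (hv : Decays v)
    (he : ∀ᶠ s₀ in atTop, ∀ p : ℝ × ℝ, s₀ ≤ p.1 → ConeEq c n l v p) : ∃ Z B : ℝ, 1 ≤ Z ∧
      ConeEnd v (1 / l) (kaD c n l) (kdD c n l) (jetK v) (fun x => tr 0 (jetK v (sg x x)).y2)
        (fun x => tr 0 ((sg x x).cone.piJ (muCone (1 / l)) (jetK v (sg x x)))) Z B := by
  obtain ⟨Z, hZ, h⟩ := jetK_small hl hv he one_pos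
  have r : ∀ {T : ℝ} {γ : Path}, Z ≤ T → γ.RealP T → γ.Real 1 := fun a b => real b (by linarith)
  rw [one_div]
  refine ⟨Z, (1 + l⁻¹ ^ 2) * (2 * (‖kaD c n l‖ + 1) + 1 + 1), hZ,
    fun T γ a b => (h γ (real b a)).1, fun T γ a b => hv.toPer.ev_jetK_y (r a b),
    fun T γ a b t => ?_, fun δ hδ => ?_, fun T T' γ γ' φ a b c d => ?_,
    fun T γ a b t θ => ?_, LinkD.c_kd hl, isRl_iff_WD.1 (LinkD.isRl_ka hl)⟩
  · have a1 := a.trans (b.T_le t)
    have b1 := sg_real (le_refl (γ.ze t).re)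
    have e0 : γ.ze t = (sg (γ.ze t).re (γ.ze t).re).ze 0 := (b.ze_eq t).trans b1.st.symm
    have e := eqAt_jetK hv.toPer (r a b) (r a1 b1) e0
    exact ⟨e.1, e.piJ (b.cone_pg (by linarith) _) (b1.cone_pg (by linarith) _)
      (h _ (real b a)).1.1 (h _ (real b1 a1)).1.1
      (by rw [(r a b).cone_io, (r a1 b1).cone_io, ← e0])⟩
  · obtain ⟨Z', hZ', h'⟩ := jetK_small hl hv he (lt_min hδ one_pos)
    refine ⟨Z', fun T γ a b => ?_⟩
    obtain ⟨a1, a2, a3, a4, a5, a6⟩ := h' γ (real b a)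
    rw [le_min_iff] at a2 a3 a4 a5 a6
    have r1 : γ.Real 1 := real b (hZ'.trans a)
    have b1 : ‖(jetK v γ).op‖ ≤ ‖kaD c n l‖ + 1 := by
      have := norm_le_insert' (jetK v γ).op (cst (kaD c n l))
      rw [norm_cst_apply] at this
      linarith [a3.2]
    have b2 : ‖kaD c n l‖ + 1 ≤ (1 + l⁻¹ ^ 2) * (2 * (‖kaD c n l‖ + 1) + 1 + 1) := by
      nlinarith [norm_nonneg (kaD c n l), sq_nonneg l⁻¹,
        mul_nonneg (norm_nonneg (kaD c n l)) (sq_nonneg l⁻¹)]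
    have b3 := norm_nonneg (kaD c n l)
    refine ⟨⟨a1.1, a2.1, b1.trans b2, a4.1, a5.1⟩, max_le ?_ ?_⟩
    · rw [EJ.wt_one]
      exact EJ.norm_le _ (by linarith [a2.2]) (b1.trans b2) (by linarith [a4.2])
        (by linarith [a6.2])
    · rw [map_one, one_mul]
      refine (norm_piJ_le (s := γ.ze) (b.cone_pg (hZ'.trans a) _) (muCone_le _) (fun t => ?_)
        (fun t => ?_) a1.1).trans ?_
      · rw [r1.cone_io, norm_inv, norm_pow]
        exact inv_le_one_of_one_le₀ (one_le_pow₀ (r1.one_le_norm t))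
      · change ‖γ.ze t * γ.ze t‖ ≤ _
        rw [norm_mul]
        nlinarith [norm_nonneg (γ.ze t)]
      · gcongr
        · exact a5.2
        · exact a2.2
  · exact cmp_of_eqAt d fun t =>
      eqAt_jetK hv.toPer (sub_real d (r a b) c) (r a b) (sub_ze d c.ok t)
  · have e := hv.toPer.isRl_jetK (r a b)
    exact ⟨isRl_iff_ev.1 e.y2 t θ, isRl_iff_ev.1 e.op t θ, isRl_iff_ev.1 e.oq t θ,
      isRl_iff_ev.1 e.pt t θ⟩

variable {w : H.E3 → ℝ}

theorem eventually_cylEq (hw : Shr w) (D : EndData w) (j : Fin D.b) :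
    ∀ᶠ s₀ in atTop, ∀ p : ℝ × ℝ, s₀ ≤ p.1 → CylEq (D.v j) p := by
  filter_upwards [(D.vdec j).abs_le one_half_pos, eventually_gt_atTop D.s₀, eventually_gt_atTop 0]
    with s a b c p hp
  exact hw.cylEq D j (b.trans_le hp) (c.trans_le hp).ne'
    (by linarith [(abs_le.1 (a p hp)).1] : 0 < 1 + D.v j p).ne'

theorem eventually_coneEq (hw : Shr w) (D : EndData w) (i : Fin D.a) :
    ∀ᶠ s₀ in atTop, ∀ p : ℝ × ℝ, s₀ ≤ p.1 → ConeEq (D.γ i) (D.n i) (D.l i) (D.h i) p := by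
  obtain ⟨K, hK⟩ := LinkD.exists_bound (D.link i)
  have h0 : 0 < K + 1 := by linarith [(abs_nonneg _).trans (hK 0)]
  filter_upwards [(D.hdec i).abs_le (inv_pos.2 h0), eventually_gt_atTop D.s₀] with s a b p hp
  refine hw.coneEq D i (b.trans_le hp) (sub_pos.2 ((le_abs_self _).trans_lt ?_)).ne'
  rw [abs_mul]
  calc _ ≤ K * (K + 1)⁻¹ := mul_le_mul (hK _) (a p hp) (abs_nonneg _) ((abs_nonneg _).trans (hK 0))
    _ < 1 := by rw [mul_inv_lt_iff₀ h0]; linarith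

theorem cylEnd (hF : FarCyl) (hw : Shr w) (D : EndData w) (j : Fin D.b) :
    ∃ jS dS πS Z C, CylEnd (D.v j) jS dS πS Z C :=
  let ⟨Z, C, _, h⟩ := cylEnd_of hF (D.vdec j) (eventually_cylEq hw D j); ⟨_, _, _, Z, C, h⟩

theorem coneEnd (hw : Shr w) (D : EndData w) (i : Fin D.a) :
    ∃ ka kd jS dS πS Z B, ConeEnd (D.h i) (1 / D.l i) ka kd jS dS πS Z B :=
  let ⟨Z, B, _, h⟩ := coneEnd_of (D.link i) (D.hdec i) (eventually_coneEq hw D i)
  ⟨_, _, _, _, _, Z, B, h⟩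

end Vale.Agent.P218N.End
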