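import Vale.Agent.P218N.End.ApiBas

/-! Transfer of jets along a reparametrisation of a part of a path. -/

open Filter Topology Metric Set Complex

noncomputable section

namespace Vale.Agent.P218N.End

open Vale.Agent.P218N.J Vale.Agent.P218N.J.PolyP

namespace TrP

section fn
variable {z g y P : ℝ → ℂ} {c : ℝ}

theorem incr_le' (hc : 0 < c) (hz : ∀ t, HasDerivAt z (g t) t) (hd : ∀ t, c * ‖g t‖ ≤ (g t).re)
    (hy : ∀ t, HasDerivAt y (g t * P t) t) {u v ε : ℝ} {p : ℂ} (huv : u ≤ v)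
    (h : ∀ x ∈ Icc u v, ‖P x - p‖ ≤ ε * c) :
    ‖y v - y u - p * (z v - z u)‖ ≤ ε * ‖z v - z u‖ := by
  have hε : 0 ≤ ε := nonneg_of_mul_nonneg_left ((norm_nonneg _).trans (h u ⟨le_rfl, huv⟩)) hc
  have hf : ∀ x, HasDerivAt (fun x => y x - y u - p * (z x - z u)) (g x * (P x - p)) x := fun x =>
    (((hy x).sub_const _).sub (((hz x).sub_const _).const_mul p)).congr_deriv (by ring)
  have hB : ∀ x, HasDerivAt (fun x => ε * (z x - z u).re) (ε * (g x).re) x := fun x =>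
    (reCLM.hasFDerivAt.comp_hasDerivAt x ((hz x).sub_const (z u))).const_mul ε
  have := image_norm_le_of_norm_deriv_right_le_deriv_boundary
    (fun x _ => (hf x).continuousAt.continuousWithinAt) (fun x _ => (hf x).hasDerivWithinAt)
    (a := u) (b := v) (by simp) hB (fun x hx => by
      rw [norm_mul]
      calc _ ≤ ‖g x‖ * (ε * c) := by gcongr; exact h x (Ico_subset_Icc_self hx)
        _ = ε * (c * ‖g x‖) := by ring
        _ ≤ _ := by gcongr; exact hd x) (x := v) ⟨huv, le_rfl⟩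
  exact this.trans (by gcongr; exact re_le_norm _)

theorem incr_le (hc : 0 < c) (hz : ∀ t, HasDerivAt z (g t) t) (hd : ∀ t, c * ‖g t‖ ≤ (g t).re)
    (hy : ∀ t, HasDerivAt y (g t * P t) t) {u v ε : ℝ} {p : ℂ}
    (h : ∀ x ∈ uIcc u v, ‖P x - p‖ ≤ ε * c) :
    ‖y v - y u - p * (z v - z u)‖ ≤ ε * ‖z v - z u‖ := by
  rcases le_total u v with huv | huv
  · exact incr_le' hc hz hd hy huv (by rwa [uIcc_of_le huv] at h)
  · have := incr_le' hc hz hd hy huv (by rwa [uIcc_of_ge huv] at h)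
    rw [norm_sub_rev (z v), ← norm_neg]
    exact (congrArg norm (by ring)).trans_le this

/-- the chain rule with a merely continuous change of the parameter -/
theorem der_cmp (hc : 0 < c) (hz : ∀ t, HasDerivAt z (g t) t) (hd : ∀ t, c * ‖g t‖ ≤ (g t).re)
    (hy : ∀ t, HasDerivAt y (g t * P t) t) (hP : Continuous P) {ψ : ℝ → ℝ} (hψ : Continuous ψ)
    {g' : ℂ} {t : ℝ} (hz' : HasDerivAt (fun t => z (ψ t)) g' t) :
    HasDerivAt (fun t => y (ψ t)) (g' * P (ψ t)) t := by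
  have h1 : (fun s => y (ψ s) - y (ψ t) - P (ψ t) * (z (ψ s) - z (ψ t))) =o[𝓝 t]
      fun s => z (ψ s) - z (ψ t) := by
    refine Asymptotics.isLittleO_iff.2 fun ε hε => ?_
    obtain ⟨δ, hδ, h⟩ := Metric.continuousAt_iff.1 (hP.continuousAt (x := ψ t)) (ε * c)
      (mul_pos hε hc)
    filter_upwards [hψ.continuousAt.preimage_mem_nhds (ball_mem_nhds (ψ t) hδ)] with s hs
    refine incr_le hc hz hd hy fun x hx => ?_
    have := (convex_ball (ψ t) δ).ordConnected.uIcc_subset (mem_ball_self hδ) hs hx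
    exact (dist_eq_norm _ _).ge.trans (h this).le
  have h2 : HasDerivAt (fun s => y (ψ s) - P (ψ t) * z (ψ s)) 0 t := by
    rw [hasDerivAt_iff_isLittleO]
    refine (h1.trans_isBigO hz'.isBigO_sub).congr_left fun s => ?_
    simp only [smul_zero]
    ring
  simpa [mul_comm] using h2.fun_add (hz'.const_mul (P (ψ t)))

theorem int_cmp (hc : 0 < c) (hz : ∀ t, HasDerivAt z (g t) t) (hd : ∀ t, c * ‖g t‖ ≤ (g t).re)
    (hg : Continuous g) (hP : Continuous P) {ψ : ℝ → ℝ} (hψ : Continuous ψ) {g' : ℝ → ℂ}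
    (hg' : Continuous g') (hz' : ∀ t, HasDerivAt (fun t => z (ψ t)) (g' t) t) (t₀ t₁ : ℝ) :
    ∫ t in t₀..t₁, g' t * P (ψ t) = ∫ t in ψ t₀..ψ t₁, g t * P t := by
  have h1 : Continuous fun t => g t * P t := hg.mul hP
  rw [intervalIntegral.integral_eq_sub_of_hasDerivAt (fun t _ => der_cmp hc hz hd
    (fun t => (h1.integral_hasStrictDerivAt 0 t).hasDerivAt) hP hψ (hz' t))
    ((hg'.mul (hP.comp hψ)).intervalIntegrable _ _)]
  exact intervalIntegral.integral_interval_sub_left (h1.intervalIntegrable _ _)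
    (h1.intervalIntegrable _ _)

end fn

theorem Dc_near {a ζ y yt op : ℂ} (ha : ‖a‖ ≤ 1 / 128) (hΩ : 128 ≤ ‖Om a ζ‖) (hy : ‖y‖ ≤ 1 / 100)
    (hyt : ‖yt‖ ≤ 1 / 100) (hop : ‖op‖ ≤ 1 / 100) : ‖Dc a ζ y yt op - 1‖ ≤ 1 / 2 := by
  obtain ⟨h0, h0'⟩ : ζ ≠ 0 ∧ rh a ζ ≠ 0 :=
    mul_ne_zero_iff.1 fun h => by rw [Om, h, norm_zero] at hΩ; linarith
  have hx : ‖a * ζ‖ ^ 2 ≤ 1 / 8 * ‖Om a ζ‖ := by
    rcases le_total ‖a * ζ‖ 4 with h | h
    · nlinarith [norm_nonneg (a * ζ)]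
    have h1 : a * ζ = rh a ζ - 2 + 2 * a := by unfold rh; ring
    have h2 : ‖a * ζ‖ ≤ ‖rh a ζ‖ + 2 + 2 * ‖a‖ := by
      rw [h1]
      refine (norm_add_le _ _).trans (add_le_add ((norm_sub_le _ _).trans ?_) ?_)
      · rw [Complex.norm_two]
      · rw [norm_mul, Complex.norm_two]
    have h3 : ‖a * ζ‖ ≤ 1 / 128 * ‖ζ‖ := by
      rw [norm_mul]; exact mul_le_mul_of_nonneg_right ha (norm_nonneg _)
    have h4 : ‖a * ζ‖ ≤ 3 * ‖rh a ζ‖ := by linarith
    rw [Om, norm_mul ζ, sq]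
    refine (mul_le_mul h3 h4 (norm_nonneg _) (by positivity)).trans ?_
    nlinarith [mul_nonneg (norm_nonneg ζ) (norm_nonneg (rh a ζ))]
  have h1 : Dc a ζ y yt op - 1 = y * (1 + (1 + y)) +
      (1 + y) ^ 2 * ((2 * op + a * ζ * (1 + y)) ^ 2 / Om a ζ) + yt ^ 2 := by
    unfold Dc cylD cylB Om
    field_simp
    ring
  have h2 : ‖1 + y‖ ≤ 101 / 100 := (norm_add_le _ _).trans (by rw [norm_one]; linarith)
  have h2' : ‖1 + (1 + y)‖ ≤ 3 := (norm_add_le _ _).trans (by rw [norm_one]; linarith)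
  have h3 : ‖2 * op + a * ζ * (1 + y)‖ ≤ 2 / 100 + ‖a * ζ‖ * (101 / 100) := by
    refine (norm_add_le _ _).trans (add_le_add ?_ ?_)
    · rw [norm_mul, Complex.norm_two]; linarith
    · rw [norm_mul]; exact mul_le_mul_of_nonneg_left h2 (norm_nonneg _)
  have h4 : ‖(2 * op + a * ζ * (1 + y)) ^ 2 / Om a ζ‖ ≤ 3 / 10 := by
    rw [norm_div, norm_pow, div_le_iff₀ (by linarith)]
    refine (pow_le_pow_left₀ (norm_nonneg _) h3 2).trans ?_
    nlinarith [sq_nonneg (2 / 100 - ‖a * ζ‖ * (101 / 100))]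
  have h5 : ‖(1 + y) ^ 2‖ ≤ 11 / 10 := by
    rw [norm_pow]; nlinarith [norm_nonneg (1 + y)]
  have h6 : ‖yt ^ 2‖ ≤ 1 / 100 := by rw [norm_pow]; nlinarith [norm_nonneg yt]
  rw [h1]
  refine (norm_add₃_le).trans ?_
  rw [norm_mul, norm_mul]
  nlinarith [norm_nonneg y, norm_nonneg (1 + (1 + y)), norm_nonneg ((1 + y) ^ 2),
    norm_nonneg ((2 * op + a * ζ * (1 + y)) ^ 2 / Om a ζ)]

theorem cont_sqrt {X : Type} [TopologicalSpace X] {f : X → ℂ} (hf : Continuous f)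
    (h : ∀ x, ‖f x - 1‖ ≤ 1 / 2 ∨ f x ∈ slitPlane) : Continuous fun x => Complex.sqrt (f x) := by
  refine continuous_iff_continuousAt.2 fun x => (continuousAt_sqrt ?_).comp hf.continuousAt
  rcases h x with h | h
  · have := (abs_le.1 ((abs_re_le_norm _).trans h)).1
    rw [sub_re, one_re] at this
    exact Or.inl (by linarith)
  · exact h.imp le_of_lt id

theorem cont_lagCyl {X : Type} [TopologicalSpace X] {a : ℂ} {z y yt op : X → ℂ}
    (c0 : Continuous z) (c1 : Continuous y) (c2 : Continuous yt) (c3 : Continuous op)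
    (h : ∀ x, Om a (z x) ∈ slitPlane) (h' : ∀ x, ‖Dc a (z x) (y x) (yt x) (op x) - 1‖ ≤ 1 / 2) :
    Continuous fun x => lagCyl a (z x) (y x) (yt x) (op x) := by
  have c4 : Continuous fun x => rh a (z x) := by
    unfold rh
    fun_prop
  have h0 := fun x => slitPlane_ne_zero (h x)
  have c5 : Continuous fun x => (z x * rh a (z x))⁻¹ := (c0.mul c4).inv₀ h0
  have c6 : Continuous fun x => a / (2 * rh a (z x)) :=
    continuous_const.div (continuous_const.mul c4) fun x =>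
      mul_ne_zero two_ne_zero (right_ne_zero_of_mul (h0 x))
  refine (((cont_sqrt (c0.mul c4) fun p => Or.inr (h p)).div (continuous_const.mul c0)
    fun x => mul_ne_zero two_ne_zero (left_ne_zero_of_mul (h0 x))).mul
    (cont_sqrt ?_ fun x => Or.inl (h' x))).mul (by fun_prop)
  unfold Dc cylD cylB
  fun_prop

theorem cont_lagCone {X : Type} [TopologicalSpace X] {cc : ℝ} {k z y yt op : X → ℂ}
    (c0 : Continuous z) (c1 : Continuous y) (c2 : Continuous yt) (c3 : Continuous op)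
    (c4 : Continuous k) (h : ∀ x, z x ≠ 0)
    (h' : ∀ x, ‖coneD (k x) (y x) (y x + 2 * (z x)⁻¹ * op x) (cc * yt x) - 1‖ ≤ 1 / 2) :
    Continuous fun x => lagCone cc (k x) (z x) (y x) (yt x) (op x) := by
  have c5 : Continuous fun x => (z x)⁻¹ := c0.inv₀ h
  refine (continuous_const.mul (cont_sqrt ?_ fun x => Or.inl (h' x))).mul (by fun_prop)
  unfold coneD
  fun_prop

variable {φ : ℝ → ℝ} {γ γ' : Path} {c : ℝ}

theorem cmpB_apply (h : Continuous fun t => φ (cl t)) (f : BC) (t : ℝ) :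
    cmpB φ f t = f (φ (cl t)) := by
  unfold cmpB
  rw [dif_pos h]
  rfl

theorem c_cmpW (h : Continuous fun t => φ (cl t)) (f : WB) (m : ℤ) (t : ℝ) :
    (cmpW φ f).c m t = f.c m (φ (cl t)) := by
  rw [cmpW, W.c_diag_const, cmpB_apply h]

theorem tr_cmpW (h : Continuous fun t => φ (cl t)) (f : WB) (t : ℝ) :
    tr t (cmpW φ f) = tr (φ (cl t)) f := W.ext fun m => by rw [c_tr, c_tr, c_cmpW h]

theorem ev_cmpW (h : Continuous fun t => φ (cl t)) (f : WB) (t θ : ℝ) :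
    ev (cmpW φ f) t θ = ev f (φ (cl t)) θ := by rw [← sumL_tr, tr_cmpW h, sumL_tr]

theorem mult_cmpW (h : Continuous fun t => φ (cl t)) {σ : ℤ → ℂ} {K : ℝ} (hσ : ∀ m, ‖σ m‖ ≤ K)
    (f : WB) : mult σ (cmpW φ f) = cmpW φ (mult σ f) := ext_ct fun m t => by
  simp only [c_mult hσ, c_cmpW h, BoundedContinuousFunction.smul_apply]

theorem cmp_y (h : Continuous fun t => φ (cl t)) (j : EJ) : (j.cmp φ).y = cmpW φ j.y :=
  mult_cmpW h symb_y _

theorem cmp_yt (h : Continuous fun t => φ (cl t)) (j : EJ) : (j.cmp φ).yt = cmpW φ j.yt :=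
  mult_cmpW h symb_yt _

theorem cmp_ytt (h : Continuous fun t => φ (cl t)) (j : EJ) : (j.cmp φ).ytt = cmpW φ j.ytt :=
  mult_cmpW h symb_ytt _

theorem cmp_op (j : EJ) : (j.cmp φ).op = cmpW φ j.op := rfl
theorem cmp_oq (j : EJ) : (j.cmp φ).oq = cmpW φ j.oq := rfl
theorem cmp_pt (j : EJ) : (j.cmp φ).pt = cmpW φ j.pt := rfl

theorem piJ_cmp (h : Continuous fun t => φ (cl t)) {Γ Γ' : Ctr} {μ : ℤ → ℝ} (hp : Γ.PG μ)
    (hO : ∀ t, Γ'.Om t = Γ.Om (φ (cl t))) (hi : ∀ t, Γ'.io t = Γ.io (φ (cl t))) {j : EJ}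
    (hj : Γ.IsJet j) (hj' : Γ'.IsJet (j.cmp φ)) :
    Γ'.piJ μ (j.cmp φ) = cmpW φ (Γ.piJ μ j) := by
  have hp' : Γ'.PG μ := ⟨fun t => by rw [hO, hi, hp.inv], fun m t => hi t ▸ hp.slit m _, hp.mu⟩
  refine ext_ct fun m t => ?_
  rw [hp'.c_piJ hj', c_cmpW h, hp.c_piJ hj, cmp_y h, cmp_op, c_cmpW h, c_cmpW h, hi]

end TrP

open TrP

variable {φ : ℝ → ℝ} {γ γ' : Path} {c : ℝ}

theorem Sub.cont' (h : Sub φ γ γ') : Continuous fun t => φ (cl t) :=
  h.cont.comp_continuous continuous_cl cl_mem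

theorem Sub.ze (h : Sub φ γ γ') (ho : γ'.Ok) (t : ℝ) : γ'.ze t = γ.ze (φ (cl t)) := by
  rw [← ze_cl ho, h.eq _ (cl_mem t)]

theorem Sub.der (h : Sub φ γ γ') (ho : γ'.Ok) (t : ℝ) :
    HasDerivAt (fun t => γ.ze (φ (cl t))) (γ'.g t) t := funext (h.ze ho) ▸ ho.der t

theorem Sub.isJet (h : Sub φ γ γ') (hc : 0 < c) (ho : γ.Ok) (ho' : γ'.Ok)
    (hd : ∀ t, c * ‖γ.g t‖ ≤ (γ.g t).re) {Γ Γ' : Ctr} (hg : Γ.g = γ.g) (hg' : Γ'.g = γ'.g)
    (hi : ∀ t, Γ'.io t = Γ.io (φ (cl t))) {j : EJ} (hj : Γ.IsJet j) : Γ'.IsJet (j.cmp φ) := by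
  have key : ∀ {y P y' P' : BC}, Γ.Der y P → (∀ t, y' t = y (φ (cl t))) →
      (∀ t, P' t = P (φ (cl t))) → Γ'.Der y' P' := fun {y P y' P'} h1 h2 h3 t => by
    rw [show (y' : ℝ → ℂ) = _ from funext h2, h3, hg']
    exact der_cmp hc ho.der hd (hg ▸ h1) P.continuous h.cont' (h.der ho' t)
  have e : ∀ (f : WB) m t, (Γ'.io * (cmpW φ f).c m) t = (Γ.io * f.c m) (φ (cl t)) :=
    fun f m t => by simp only [BoundedContinuousFunction.mul_apply, hi, c_cmpW h.cont']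
  refine fun m => ⟨key (hj m).1 (fun t => by rw [cmp_y h.cont', c_cmpW h.cont']) (e _ m),
    key (hj m).2.1 (e _ m) (e _ m), BoundedContinuousFunction.ext fun t => ?_⟩
  rw [cmp_pt, c_cmpW h.cont', (hj m).2.2, BoundedContinuousFunction.smul_apply,
    BoundedContinuousFunction.smul_apply, cmp_op, e]

theorem trStmt : TrStmt := by
  intro φ γ γ' c hc ho ho' h hd hz
  have hψ := h.cont'
  have hze := h.ze ho'
  have hz' : ∀ t, 1 ≤ ‖γ'.ze t‖ := fun t => hze t ▸ hz _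
  have hiz : ∀ t, binv γ'.ze t = binv γ.ze (φ (cl t)) := fun t => by
    rw [binv_apply one_pos hz', binv_apply one_pos hz, hze]
  refine ⟨tr_cmpW hψ, fun f w w' A hA h1 h2 => W.norm_le_of_le fun m => norm_BC_le fun t => ?_,
    cmp_y hψ, fun a K T j hK ha hj => ?_, fun T cc ka kd j hT hr hj => ?_⟩
  · rw [c_C_mul_apply, c_cmpW hψ, norm_mul]
    calc _ ≤ A * ‖w (φ (cl t))‖ * ‖f.c m (φ (cl t))‖ := by
          gcongr
          exact (h2 t).trans (h1 _ (cl_mem t))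
      _ = A * ‖(W.C w * f).c m (φ (cl t))‖ := by rw [c_C_mul_apply, norm_mul, mul_assoc]
      _ ≤ _ := by gcongr; exact BoundedContinuousFunction.norm_coe_le_norm _ _
  · have hK0 := K_pos hc hK
    have v := admP_cv hz hK0 ha
    have v' : γ'.CV a := cv_of_big hz' hK0 fun t => hze t ▸ ha.big _
    have hi : ∀ t, (γ'.cyl a).io t = (γ.cyl a).io (φ (cl t)) := fun t => by rw [v'.io, v.io, hze]
    have hj' := h.isJet hc ho ho' hd (Γ := γ.cyl a) (Γ' := γ'.cyl a) rfl rfl hi hj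
    refine ⟨hj', ext_ev fun t θ => ?_, piJ_cmp hψ (admP_pg' hc hz hK ha)
      (fun t => by rw [γ'.cyl_Om, γ.cyl_Om, hze]) hi hj hj', fun hn _ hs _ t₀ h₀ t₁ h₁ => ?_⟩
    · rw [ev_cmpW hψ, Path.ev_Ecyl, Path.ev_Ecyl, hiz, hi, v'.hh, v.hh, γ'.Oh_apply, γ.Oh_apply,
        hze, cmp_y hψ, cmp_yt hψ, cmp_ytt hψ, cmp_op, cmp_oq, cmp_pt]
      simp only [ev_cmpW hψ]
    · have hP : Continuous fun t => ∫ θ in (0 : ℝ)..2 * Real.pi,
          lagCyl a (γ.ze t) (ev j.y t θ) (ev j.yt t θ) (ev j.op t θ) :=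
        intervalIntegral.continuous_parametric_intervalIntegral_of_continuous'
          (cont_lagCyl (γ.ze.continuous.comp continuous_fst) (continuous_ev j.y)
            (continuous_ev j.yt) (continuous_ev j.op) (fun p => ha.slit hc hK0 p.1) fun p =>
            Dc_near (hs.trans (one_div_le_one_div_of_le (by norm_num) (admP_K hc hK ha)))
              ((admP_K hc hK ha).trans (ha.big p.1))
              ((norm_ev_le _ _ _).trans (j.norm_y_le.trans hn))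
              ((norm_ev_le _ _ _).trans (j.norm_yt_le.trans hn))
              ((norm_ev_le _ _ _).trans (j.norm_op_le.trans hn))) _ _
      have := int_cmp hc ho.der hd γ.g.continuous hP hψ γ'.g.continuous (h.der ho') t₀ t₁
      rw [cl_of_mem h₀, cl_of_mem h₁] at this
      rw [Path.FCI, Path.FCI, ← this, cmp_y hψ, cmp_yt hψ, cmp_op]
      simp only [ev_cmpW hψ, hze]
  · have hi : ∀ t, γ'.cone.io t = γ.cone.io (φ (cl t)) := fun t => by
      change binv γ'.ze t * binv γ'.ze t = binv γ.ze _ * binv γ.ze _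
      rw [hiz]
    have hj' := h.isJet hc ho ho' hd (Γ := γ.cone) (Γ' := γ'.cone) rfl rfl hi hj
    refine ⟨hj', ext_ev fun t θ => ?_, piJ_cmp hψ (hr.cone_pg hT cc) (fun t => ?_) hi hj hj',
      fun hn t₀ h₀ t₁ h₁ => ?_⟩
    · rw [ev_cmpW hψ, Path.ev_Econe, Path.ev_Econe, hiz, hze, cmp_y hψ, cmp_yt hψ, cmp_ytt hψ,
        cmp_op, cmp_oq, cmp_pt]
      simp only [ev_cmpW hψ]
    · change γ'.ze t * γ'.ze t = γ.ze _ * γ.ze _
      rw [hze]
    · have hP : Continuous fun t => ∫ θ in (0 : ℝ)..2 * Real.pi,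
          lagCone cc (W.sumL θ ka) (γ.ze t) (ev j.y t θ) (ev j.yt t θ) (ev j.op t θ) :=
        intervalIntegral.continuous_parametric_intervalIntegral_of_continuous'
          (cont_lagCone (γ.ze.continuous.comp continuous_fst) (continuous_ev j.y)
            (continuous_ev j.yt) (continuous_ev j.op) ((W.continuous_sumL ka).comp continuous_snd)
            (fun p => norm_pos_iff.1 (one_pos.trans_le (hz p.1))) fun p => hn p.1 p.2) _ _
      have := int_cmp hc ho.der hd γ.g.continuous hP hψ γ'.g.continuous (h.der ho') t₀ t₁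
      rw [cl_of_mem h₀, cl_of_mem h₁] at this
      rw [Path.FKI, Path.FKI, ← this, cmp_y hψ, cmp_yt hψ, cmp_op]
      simp only [ev_cmpW hψ, hze]

end Vale.Agent.P218N.End
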