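import Vale.Agent.P218N.End.Ap

/-! Lipschitz estimates for the nonlinear terms. -/

open Filter Topology Metric Set Complex
open scoped BoundedContinuousFunction

noncomputable section

namespace Vale.Agent.P218N.End

/-- A family of scales: `ε` is the size of the small quantities (inverse weight `u`), `p` the size
of the differences (inverse weight `w`), `q` the size of the good differences (weight `u w`). -/
structure Scl (X R : Type*) [NormedCommRing R] where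
  u : X → R
  w : X → R
  ε : X → ℝ
  p : X → ℝ
  q : X → ℝ
  ε0 : ∀ x, 0 ≤ ε x
  p0 : ∀ x, 0 ≤ p x
  le : ∀ x, ε x * p x ≤ q x

namespace Scl
variable {X R : Type*} [NormedCommRing R] [NormOneClass R] (s : Scl X R)

omit [NormOneClass R] in
theorem q0 (x : X) : 0 ≤ s.q x := (mul_nonneg (s.ε0 x) (s.p0 x)).trans (s.le x)

omit [NormOneClass R] in
theorem n2 {a b : R} {A B : ℝ} (ha : ‖a‖ ≤ A) (hb : ‖b‖ ≤ B) : ‖a * b‖ ≤ A * B :=
  (norm_mul_le _ _).trans (mul_le_mul ha hb (norm_nonneg _) ((norm_nonneg _).trans ha))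

/-- bounded pairs with controlled difference -/
def B : Subring (X → R × R) where
  carrier := {f | ∃ C, 0 ≤ C ∧ ∀ x, ‖(f x).1‖ ≤ C ∧ ‖(f x).2‖ ≤ C ∧
    ‖s.w x * ((f x).1 - (f x).2)‖ ≤ C * s.p x}
  zero_mem' := ⟨0, le_rfl, fun x => by simp⟩
  one_mem' := ⟨1, zero_le_one, fun x => by simp [s.p0 x]⟩
  neg_mem' := by
    rintro f ⟨C, h0, h⟩
    refine ⟨C, h0, fun x => ⟨by simpa using (h x).1, by simpa using (h x).2.1, ?_⟩⟩
    rw [← norm_neg]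
    exact (congrArg norm (by simp only [Pi.neg_apply, Prod.fst_neg, Prod.snd_neg]; ring)).trans_le
      (h x).2.2
  add_mem' := by
    rintro f g ⟨C, h0, h⟩ ⟨D, k0, k⟩
    refine ⟨C + D, add_nonneg h0 k0, fun x => ⟨norm_add_le_of_le (h x).1 (k x).1,
      norm_add_le_of_le (h x).2.1 (k x).2.1, ?_⟩⟩
    rw [add_mul]
    exact (congrArg norm (by simp only [Pi.add_apply, Prod.fst_add, Prod.snd_add]; ring)).trans_le
      (norm_add_le_of_le (h x).2.2 (k x).2.2)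
  mul_mem' := by
    rintro f g ⟨C, h0, h⟩ ⟨D, k0, k⟩
    have h1 : C * D ≤ 2 * (C * D) := by nlinarith [mul_nonneg h0 k0]
    refine ⟨2 * (C * D), by positivity, fun x => ⟨(n2 (h x).1 (k x).1).trans h1,
      (n2 (h x).2.1 (k x).2.1).trans h1, ?_⟩⟩
    exact (congrArg norm (by simp only [Pi.mul_apply, Prod.fst_mul, Prod.snd_mul]; ring)).trans_le
      ((norm_add_le_of_le (n2 (h x).2.2 (k x).1) (n2 (h x).2.1 (k x).2.2)).trans_eq (by ring))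

/-- small pairs -/
def S : Ideal s.B where
  carrier := {f | ∃ C, 0 ≤ C ∧ ∀ x, ‖s.u x * (f.1 x).1‖ ≤ C * s.ε x ∧ ‖s.u x * (f.1 x).2‖ ≤ C * s.ε x}
  zero_mem' := ⟨0, le_rfl, fun x => by simp⟩
  add_mem' := by
    rintro f g ⟨C, h0, h⟩ ⟨D, k0, k⟩
    refine ⟨C + D, add_nonneg h0 k0, fun x => ?_⟩
    simp only [Subring.coe_add, Pi.add_apply, Prod.fst_add, Prod.snd_add, mul_add, add_mul]
    exact ⟨norm_add_le_of_le (h x).1 (k x).1, norm_add_le_of_le (h x).2 (k x).2⟩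
  smul_mem' := by
    rintro ⟨g, D, k0, k⟩ f ⟨C, h0, h⟩
    refine ⟨D * C, mul_nonneg k0 h0, fun x => ?_⟩
    simp only [smul_eq_mul, Subring.coe_mul, Pi.mul_apply, Prod.fst_mul, Prod.snd_mul,
      mul_left_comm (s.u x), mul_assoc]
    exact ⟨n2 (k x).1 (h x).1, n2 (k x).2.1 (h x).2⟩

/-- small pairs with a good difference -/
def G : Ideal s.B where
  carrier := {f | f ∈ s.S ∧ ∃ C, 0 ≤ C ∧ ∀ x,
    ‖s.u x * s.w x * ((f.1 x).1 - (f.1 x).2)‖ ≤ C * s.q x}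
  zero_mem' := ⟨s.S.zero_mem, 0, le_rfl, fun x => by simp⟩
  add_mem' := by
    rintro f g ⟨hf, C, h0, h⟩ ⟨hg, D, k0, k⟩
    refine ⟨s.S.add_mem hf hg, C + D, add_nonneg h0 k0, fun x => ?_⟩
    rw [add_mul]
    exact (congrArg norm (by
      simp only [Subring.coe_add, Pi.add_apply, Prod.fst_add, Prod.snd_add]; ring)).trans_le
      (norm_add_le_of_le (h x) (k x))
  smul_mem' := by
    rintro g f ⟨hf, C, h0, h⟩
    refine ⟨s.S.smul_mem g hf, ?_⟩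
    obtain ⟨g, D, k0, k⟩ := g
    obtain ⟨L, l0, l⟩ := hf
    refine ⟨D * C + D * L, by positivity, fun x => ?_⟩
    refine (congrArg norm (by
      simp only [smul_eq_mul, Subring.coe_mul, Pi.mul_apply, Prod.fst_mul, Prod.snd_mul]
      ring)).trans_le ((norm_add_le_of_le (n2 (k x).1 (h x)) (n2 (k x).2.2 (l x).2)).trans ?_)
    nlinarith [mul_le_mul_of_nonneg_left (s.le x) (mul_nonneg k0 l0)]

variable {s}

theorem mul_mem_G {f g : s.B} (hf : f ∈ s.S) (hg : g ∈ s.S) : f * g ∈ s.G := by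
  refine ⟨s.S.mul_mem_left f hg, ?_⟩
  obtain ⟨f, C, h0, h⟩ := f
  obtain ⟨g, D, k0, k⟩ := g
  obtain ⟨L, l0, l⟩ := hf
  obtain ⟨M, m0, m⟩ := hg
  refine ⟨C * M + L * D, by positivity, fun x => ?_⟩
  refine (congrArg norm (by
    simp only [Subring.coe_mul, Pi.mul_apply, Prod.fst_mul, Prod.snd_mul]
    ring)).trans_le ((norm_add_le_of_le (n2 (h x).2.2 (m x).1) (n2 (l x).2 (k x).2.2)).trans ?_)
  nlinarith [mul_le_mul_of_nonneg_left (s.le x) (mul_nonneg h0 m0),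
    mul_le_mul_of_nonneg_left (s.le x) (mul_nonneg l0 k0)]

/-- a variable -/
def var {f f' : X → R} {A : ℝ} (hA : 1 ≤ A)
    (h : ∀ x, ‖f x‖ ≤ A ∧ ‖f' x‖ ≤ A ∧ ‖s.w x * (f x - f' x)‖ ≤ s.p x) : s.B :=
  ⟨fun x => (f x, f' x), A, zero_le_one.trans hA, fun x => ⟨(h x).1, (h x).2.1,
    (h x).2.2.trans (le_mul_of_one_le_left (s.p0 x) hA)⟩⟩

/-- a coefficient -/
def con {f : X → R} {A : ℝ} (hA : 1 ≤ A) (h : ∀ x, ‖f x‖ ≤ A) : s.B :=
  var (f := f) (f' := f) hA fun x => ⟨h x, h x, by simpa using s.p0 x⟩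

theorem var_mem_S {f f' : X → R} {A : ℝ} (hA : 1 ≤ A) (h) (h1 : ∀ x, ‖s.u x * f x‖ ≤ s.ε x ∧
    ‖s.u x * f' x‖ ≤ s.ε x) : var (s := s) (f := f) (f' := f') hA h ∈ s.S :=
  ⟨1, zero_le_one, fun x => by rw [one_mul]; exact h1 x⟩

theorem con_mem_G {f : X → R} {A : ℝ} (hA : 1 ≤ A) (h) (h1 : ∀ x, ‖s.u x * f x‖ ≤ s.ε x) :
    con (s := s) (f := f) hA h ∈ s.G :=
  ⟨var_mem_S hA _ fun x => ⟨h1 x, h1 x⟩, 0, le_rfl, fun x => by simp [con, var]⟩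

/-- evaluation of the first component -/
def e1 (x : X) : s.B →+* R := (RingHom.fst R R).comp ((Pi.evalRingHom _ x).comp s.B.subtype)
/-- evaluation of the second component -/
def e2 (x : X) : s.B →+* R := (RingHom.snd R R).comp ((Pi.evalRingHom _ x).comp s.B.subtype)

theorem G_bound {f : s.B} (h : f ∈ s.G) : ∃ C, 0 ≤ C ∧ ∀ x,
    ‖s.u x * s.w x * (e1 x f - e2 x f)‖ ≤ C * s.q x ∧ ‖s.u x * e1 x f‖ ≤ C * s.ε x := by
  obtain ⟨⟨C, h0, h1⟩, D, k0, k⟩ := h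
  refine ⟨C + D, add_nonneg h0 k0, fun x => ⟨(k x).trans ?_, (h1 x).1.trans ?_⟩⟩
  · nlinarith [s.q0 x]
  · nlinarith [s.ε0 x]

end Scl

/-! ### The cylindrical equation -/

section poly
variable {R : Type*} [CommRing R]

/-- the nonlinear part of `cylE`, with `hO = Oh * h` and `po = Oh * pt` -/
def cylN (a iz io h hO : R) (x : Fin 7 → R) : R :=
  ((1 + x 0) ^ 2 + x 1 ^ 2) * (1 + x 0) * (4 * x 4 + 8 * h * x 3 - 4 * hO * (1 + x 0) +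
      2 * iz * x 3 + a * (1 + x 0))
    - 8 * (1 + x 0) * x 1 * (x 3 * (x 5 + h * x 1) + (1 + x 0) * (x 6 + hO * x 1))
    + 8 * x 1 ^ 2 * (io * x 3 ^ 2 + 2 * h * x 3 * (1 + x 0) + hO * (1 + x 0) ^ 2)
    + (1 + 4 * (io * x 3 ^ 2 + 2 * h * x 3 * (1 + x 0) + hO * (1 + x 0) ^ 2)) *
      ((1 + x 0) * x 2 - (1 + x 0) ^ 2 - 2 * x 1 ^ 2)
    + ((1 + x 0) ^ 2 * (1 + 4 * (io * x 3 ^ 2 + 2 * h * x 3 * (1 + x 0) + hO * (1 + x 0) ^ 2)) +
      x 1 ^ 2) * (1 + x 0) * ((1 - a) * (1 + x 0) - x 3)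
    - (4 * x 4 - x 3 + x 2 + 2 * x 0)

theorem cylE_eq (a iz io h Oh y yt ytt op oq pt : R) : cylE a iz io h Oh y yt ytt op oq pt =
    cylN a iz io h (Oh * h) ![y, yt, ytt, op, oq, pt, Oh * pt] + (4 * oq - op + ytt + 2 * y) := by
  simp only [cylE, cylD, cylB, cylN, Matrix.cons_val]
  ring

theorem map_cylN {S : Type*} [CommRing S] (φ : R →+* S) (a iz io h hO : R) (x : Fin 7 → R) :
    φ (cylN a iz io h hO x) = cylN (φ a) (φ iz) (φ io) (φ h) (φ hO) fun i => φ (x i) := by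
  simp only [cylN, map_add, map_sub, map_mul, map_pow, map_one, map_ofNat]

theorem cylN_zero {x : Fin 7 → R} (h : ∀ i j, x i * x j = 0) : cylN 0 0 0 0 0 x = 0 := by
  unfold cylN
  linear_combination 12 * h 0 4 + (4 * (3 + x 0) * x 4 + 5 + 4 * x 0 + x 0 ^ 2 - (3 + x 0) * x 3) *
    h 0 0 + (4 * (1 + x 0) * x 4 - 2 + (1 + x 0) ^ 2 - (1 + x 0) * x 3) * h 1 1 -
    8 * (1 + x 0) * x 5 * h 1 3 - 8 * (1 + x 0) ^ 2 * h 1 6 + h 0 2 - 3 * h 0 3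

/-- the nonlinear part of `coneE` -/
def coneN (cc ka kd iz : R) (x : Fin 6 → R) : R :=
  coneE cc ka kd iz (x 0) (x 1) (x 2) (x 3) (x 4) (x 5) - (4 * x 4 - x 3 + cc ^ 2 * x 2) - ka

theorem map_coneN {S : Type*} [CommRing S] (φ : R →+* S) (cc ka kd iz : R) (x : Fin 6 → R) :
    φ (coneN cc ka kd iz x) = coneN (φ cc) (φ ka) (φ kd) (φ iz) fun i => φ (x i) := by
  simp only [coneN, map_coneE, map_add, map_sub, map_mul, map_pow, map_ofNat]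

theorem coneN_zero (cc ka kd : R) {x : Fin 6 → R} (h0 : x 0 = 0) (h : x 1 * x 1 = 0) :
    coneN cc ka kd 0 x = 0 := by
  unfold coneN coneE coneD
  rw [h0]
  linear_combination (cc ^ 2 * (4 * x 4 + 2 * ka - x 3)) * h

end poly

/-- the data of the estimate for `cylN` -/
structure CylD (R : Type*) [NormedCommRing R] where
  u : R
  w : R
  b : Fin 5 → R
  x : Fin 7 → R
  x' : Fin 7 → R
  ε : ℝ
  p : ℝ
  hb : ∀ i, ‖b i‖ ≤ 1 ∧ ‖u * b i‖ ≤ ε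
  hx : ∀ i, ‖x i‖ ≤ 1 ∧ ‖x' i‖ ≤ 1 ∧ ‖w * (x i - x' i)‖ ≤ p
  hs : ∀ i, ‖u * x i‖ ≤ ε ∧ ‖u * x' i‖ ≤ ε

theorem cylN_lip (R : Type*) [NormedCommRing R] [NormOneClass R] : ∃ C, 0 ≤ C ∧ ∀ d : CylD R,
    ‖d.u * d.w * (cylN (d.b 0) (d.b 1) (d.b 2) (d.b 3) (d.b 4) d.x -
      cylN (d.b 0) (d.b 1) (d.b 2) (d.b 3) (d.b 4) d.x')‖ ≤ C * (d.ε * d.p) ∧
    ‖d.u * cylN (d.b 0) (d.b 1) (d.b 2) (d.b 3) (d.b 4) d.x‖ ≤ C * d.ε := by
  let s : Scl (CylD R) R := ⟨CylD.u, CylD.w, CylD.ε, CylD.p, fun d => d.ε * d.p,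
    fun d => (norm_nonneg _).trans (d.hb 0).2, fun d => (norm_nonneg _).trans (d.hx 0).2.2,
    fun _ => le_rfl⟩
  let b : Fin 5 → s.B := fun i => Scl.con le_rfl fun d => (d.hb i).1
  let x : Fin 7 → s.B := fun i => Scl.var le_rfl fun d => d.hx i
  have hb : ∀ i, Ideal.Quotient.mk s.G (b i) = 0 := fun i =>
    Ideal.Quotient.eq_zero_iff_mem.2 (Scl.con_mem_G _ _ fun d => (d.hb i).2)
  have h : cylN (b 0) (b 1) (b 2) (b 3) (b 4) x ∈ s.G := by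
    rw [← Ideal.Quotient.eq_zero_iff_mem, map_cylN, hb, hb, hb, hb, hb]
    exact cylN_zero fun i j => by
      rw [← map_mul, Ideal.Quotient.eq_zero_iff_mem]
      exact Scl.mul_mem_G (Scl.var_mem_S _ _ fun d => d.hs i) (Scl.var_mem_S _ _ fun d => d.hs j)
  obtain ⟨C, h0, h1⟩ := Scl.G_bound h
  refine ⟨C, h0, fun d => ?_⟩
  have := h1 d
  rw [map_cylN, map_cylN] at this
  exact this

/-- the data of the estimate for `coneN` -/
structure ConeD (R : Type*) [NormedCommRing R] (A : ℝ) where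
  u : R
  w : R
  b : Fin 4 → R
  x : Fin 6 → R
  x' : Fin 6 → R
  ε : ℝ
  p : ℝ
  q : ℝ
  hb : ∀ i, ‖b i‖ ≤ A
  hz : ‖u * b 3‖ ≤ ε
  hx : ∀ i, ‖x i‖ ≤ A ∧ ‖x' i‖ ≤ A ∧ ‖w * (x i - x' i)‖ ≤ p
  h0 : ‖u * x 0‖ ≤ ε ∧ ‖u * x' 0‖ ≤ ε
  h1 : ‖u * x 1‖ ≤ ε ∧ ‖u * x' 1‖ ≤ ε
  hq : ‖u * w * (x 0 - x' 0)‖ ≤ q

theorem coneN_lip (R : Type*) [NormedCommRing R] [NormOneClass R] {A : ℝ} (hA : 1 ≤ A) :
    ∃ C, 0 ≤ C ∧ ∀ d : ConeD R A,
    ‖d.u * d.w * (coneN (d.b 0) (d.b 1) (d.b 2) (d.b 3) d.x -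
      coneN (d.b 0) (d.b 1) (d.b 2) (d.b 3) d.x')‖ ≤ C * (d.ε * d.p + d.q) ∧
    ‖d.u * coneN (d.b 0) (d.b 1) (d.b 2) (d.b 3) d.x‖ ≤ C * d.ε := by
  let s : Scl (ConeD R A) R := ⟨ConeD.u, ConeD.w, ConeD.ε, ConeD.p, fun d => d.ε * d.p + d.q,
    fun d => (norm_nonneg _).trans d.hz, fun d => (norm_nonneg _).trans (d.hx 0).2.2,
    fun d => le_add_of_nonneg_right ((norm_nonneg _).trans d.hq)⟩
  let b : Fin 4 → s.B := fun i => Scl.con hA fun d => d.hb i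
  let x : Fin 6 → s.B := fun i => Scl.var hA fun d => d.hx i
  have hb : b 3 ∈ s.G := Scl.con_mem_G _ _ fun d => d.hz
  have hx0 : x 0 ∈ s.G := ⟨Scl.var_mem_S _ _ fun d => d.h0, 1, zero_le_one, fun d =>
    d.hq.trans (by rw [one_mul]; exact le_add_of_nonneg_left (mul_nonneg (s.ε0 d) (s.p0 d)))⟩
  have hx1 : x 1 ∈ s.S := Scl.var_mem_S _ _ fun d => d.h1
  have h : coneN (b 0) (b 1) (b 2) (b 3) x ∈ s.G := by
    rw [← Ideal.Quotient.eq_zero_iff_mem, map_coneN, Ideal.Quotient.eq_zero_iff_mem.2 hb]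
    refine coneN_zero _ _ _ (Ideal.Quotient.eq_zero_iff_mem.2 hx0) ?_
    rw [← map_mul, Ideal.Quotient.eq_zero_iff_mem]
    exact Scl.mul_mem_G hx1 hx1
  obtain ⟨C, h0, h1⟩ := Scl.G_bound h
  refine ⟨C, h0, fun d => ?_⟩
  have := h1 d
  rw [map_coneN, map_coneN] at this
  exact this

end Vale.Agent.P218N.End
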