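import Vale.Agent.P218N.End.Nice
import Vale.Agent.P218N.End.NL

/-! The end problems on cylindrical and conical ends; linearised problems. -/

open Filter Topology Metric Set Complex
open scoped BoundedContinuousFunction

noncomputable section

namespace Vale.Agent.P218N.End
open Ctr

theorem c_Mod_of {μ : ℤ → ℝ} {K : ℝ} (h : ∀ m, |μ m| ≤ K * br m) (j : EJ) (m : ℤ) :
    (Mod μ j).c m = (2 : ℂ) • j.oq.c m - (1 / 2 : ℂ) • j.op.c m - (μ m : ℂ) • j.y.c m := by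
  have h1 : ∀ m, ‖(μ m : ℂ) * ((br m : ℝ) : ℂ)⁻¹‖ ≤ K := fun m => by
    rw [norm_mul, norm_inv_br, Complex.norm_real, Real.norm_eq_abs, mul_inv_le_iff₀ (br_pos m)]
    exact h m
  simp only [Ctr.Mod, W.c_sub, W.c_smul, c_mult h1, EJ.c_y, smul_smul]

theorem two_Mod_cyl (j : EJ) : (2 : ℂ) • Mod muCyl j = 4 * j.oq - j.op + j.ytt + 2 * j.y := by
  rw [← map_ofNat (algebraMap ℂ WB) 4, ← map_ofNat (algebraMap ℂ WB) 2, ← Algebra.smul_def,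
    ← Algebra.smul_def]
  ext m t
  simp only [W.c_smul, W.c_add, W.c_sub, c_Mod_of abs_muCyl_le, EJ.c_ytt, EJ.c_yt, muCyl,
    BoundedContinuousFunction.add_apply, BoundedContinuousFunction.sub_apply,
    BoundedContinuousFunction.smul_apply, smul_eq_mul]
  push_cast
  linear_combination (-(m : ℂ) ^ 2 * j.y.c m t) * I_mul_I

theorem two_Mod_cone (cc : ℝ) (j : EJ) : (2 : ℂ) • Mod (muCone cc) j =
    4 * j.oq - j.op + algebraMap ℂ WB cc ^ 2 * j.ytt := by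
  rw [← map_ofNat (algebraMap ℂ WB) 4, ← map_pow, ← Algebra.smul_def, ← Algebra.smul_def]
  ext m t
  simp only [W.c_smul, W.c_add, W.c_sub, c_Mod_of (abs_muCone_le cc), EJ.c_ytt, EJ.c_yt, muCone,
    BoundedContinuousFunction.add_apply, BoundedContinuousFunction.sub_apply,
    BoundedContinuousFunction.smul_apply, smul_eq_mul]
  push_cast
  linear_combination (-(cc : ℂ) ^ 2 * (m : ℂ) ^ 2 * j.y.c m t) * I_mul_I

namespace Path
variable (γ : Path)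

/-- the nonlinear part on a cylindrical end -/
def Ncyl (a : ℂ) (j : EJ) : WB := γ.Ecyl a j - (2 : ℂ) • Mod muCyl j

/-- the nonlinear part on a conical end -/
def Ncone (cc : ℝ) (ka kd : WD) (j : EJ) : WB :=
  γ.Econe cc ka kd j - (2 : ℂ) • Mod (muCone cc) j - cst ka

/-- the variables on a cylindrical end -/
def vC (a : ℂ) (j : EJ) : Fin 7 → WB := ![j.y, j.yt, j.ytt, j.op, j.oq, j.pt, W.C (γ.Oh a) * j.pt]

/-- the variables on a conical end -/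
def vK (j : EJ) : Fin 6 → WB := ![j.y, j.yt, j.ytt, j.op, j.oq, W.C γ.ze * j.pt]

/-- the small coefficients on a cylindrical end -/
def bC (a : ℂ) : Fin 5 → BC := ![a • 1, binv γ.ze, (γ.cyl a).io, γ.hh a, γ.Oh a * γ.hh a]

theorem Ncyl_eq (a : ℂ) (j : EJ) : γ.Ncyl a j = cylN (W.C (γ.bC a 0)) (W.C (γ.bC a 1))
    (W.C (γ.bC a 2)) (W.C (γ.bC a 3)) (W.C (γ.bC a 4)) (γ.vC a j) := by
  rw [Ncyl, Ecyl, cylE_eq, two_Mod_cyl, add_sub_cancel_right, ← map_mul,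
    ← (W.C : BC →ₐ[ℂ] WB).commutes, Algebra.algebraMap_eq_smul_one]
  rfl

theorem Ncone_eq (cc : ℝ) (ka kd : WD) (j : EJ) : γ.Ncone cc ka kd j =
    coneN (algebraMap ℂ WB cc) (cst ka) (cst kd) (W.C (binv γ.ze)) (γ.vK j) := by
  rw [Ncone, two_Mod_cone]; rfl

theorem vC_sub (a : ℂ) (j j' : EJ) (i : Fin 7) : γ.vC a j i - γ.vC a j' i = γ.vC a (j - j') i := by
  fin_cases i <;> simp [vC, mul_sub]

theorem vK_sub (j j' : EJ) (i : Fin 6) : γ.vK j i - γ.vK j' i = γ.vK (j - j') i := by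
  fin_cases i <;> simp [vK, mul_sub]

variable {γ}

theorem vC_le {a : ℂ} {σ : BC} (h1 : ∀ t, 1 ≤ ‖σ t‖) (h2 : ∀ t, ‖γ.Oh a t‖ ≤ ‖σ t‖) (w : BC)
    (j : EJ) (i : Fin 7) : ‖W.C w * γ.vC a j i‖ ≤ nm σ w j := by
  fin_cases i
  exacts [y_le_nm σ w j, yt_le_nm σ w j, ytt_le_nm σ w j, op_le_nm σ w j, oq_le_nm σ w j,
    (EJ.norm_pt_le (EJ.wt w j)).trans (norm_wt_le_nm w j h1), pt_le_nm' w j h2]

theorem vK_le (w : BC) (j : EJ) (i : Fin 6) : ‖W.C w * γ.vK j i‖ ≤ nm γ.ze w j := by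
  fin_cases i
  exacts [y_le_nm _ w j, yt_le_nm _ w j, ytt_le_nm _ w j, op_le_nm _ w j, oq_le_nm _ w j,
    pt_le_nm _ w j]

theorem Nice.bC_le {c δ : ℝ} {a : ℂ} (h : γ.Nice c δ a) (i : Fin 5) : ‖γ.bC a i‖ ≤ 4 * δ := by
  have := h.δ0
  fin_cases i
  · exact (norm_smul a (1 : BC)).trans_le (by rw [norm_one]; linarith [h.sm])
  · exact h.norm_iz.trans (by linarith)
  · exact h.norm_io.trans (by linarith)
  · exact h.norm_hh.trans (by linarith)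
  · exact h.norm_Oh_hh

/-- the residual of the base surface -/
theorem Nice.Ecyl_zero {c δ : ℝ} {a : ℂ} (h : γ.Nice c δ a) :
    γ.Ecyl a 0 = W.C ((-(a ^ 2 * (1 + a))) • γ.Z a) := by
  refine ext_ev fun t θ => ?_
  have e1 : (0 : EJ).y = 0 := map_zero _
  have e2 : (0 : EJ).yt = 0 := map_zero _
  have e3 : (0 : EJ).ytt = 0 := map_zero _
  have e4 : (0 : EJ).op = 0 := rfl
  have e5 : (0 : EJ).oq = 0 := rfl
  have e6 : (0 : EJ).pt = 0 := rfl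
  have := h.rh_ne t
  rw [ev_Ecyl, e1, e2, e3, e4, e5, e6, ev_zero, ev_C, BoundedContinuousFunction.smul_apply,
    h.Z_apply, h.hh_apply, Oh_apply, smul_eq_mul]
  unfold cylE cylD cylB
  field_simp
  ring

end Path

/-- the nonlinear terms on a cylindrical end; `u` is the inverse weight of the small quantities -/
theorem Ncyl_lip : ∃ N, 0 ≤ N ∧ ∀ (γ : Path) (a : ℂ) (σ u w : BC) (j j' : EJ) (ε : ℝ),
    (∀ t, 1 ≤ ‖σ t‖) → (∀ t, ‖γ.Oh a t‖ ≤ ‖σ t‖) →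
    (∀ i, ‖γ.bC a i‖ ≤ 1 ∧ ‖u * γ.bC a i‖ ≤ ε) → nm σ 1 j ≤ 1 → nm σ 1 j' ≤ 1 →
    nm σ u j ≤ ε → nm σ u j' ≤ ε →
    ‖W.C (u * w) * (γ.Ncyl a j - γ.Ncyl a j')‖ ≤ N * (ε * nm σ w (j - j')) ∧
      ‖W.C u * γ.Ncyl a j‖ ≤ N * ε := by
  obtain ⟨N, h0, h⟩ := cylN_lip WB
  refine ⟨N, h0, fun γ a σ u w j j' ε h1 h2 hb hj hj' hu hu' => ?_⟩
  have h3 : ∀ j i, ‖γ.vC a j i‖ ≤ nm σ 1 j := fun j i => by
    simpa using Path.vC_le h1 h2 1 j i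
  rw [γ.Ncyl_eq, γ.Ncyl_eq, map_mul]
  exact h ⟨W.C u, W.C w, fun i => W.C (γ.bC a i), γ.vC a j, γ.vC a j', ε, nm σ w (j - j'),
    fun i => by rw [← map_mul, W.norm_C, W.norm_C]; exact hb i,
    fun i => ⟨(h3 j i).trans hj, (h3 j' i).trans hj', by
      rw [γ.vC_sub]; exact Path.vC_le h1 h2 w _ i⟩,
    fun i => ⟨(Path.vC_le h1 h2 u j i).trans hu, (Path.vC_le h1 h2 u j' i).trans hu'⟩⟩

/-- the nonlinear terms on a conical end -/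
theorem Ncone_lip {A : ℝ} (hA : 1 ≤ A) : ∃ N, 0 ≤ N ∧ ∀ (γ : Path) (cc : ℝ) (ka kd : WD)
    (u w : BC) (j j' : EJ) (ε : ℝ), |cc| ≤ A → ‖ka‖ ≤ A → ‖kd‖ ≤ A → ‖binv γ.ze‖ ≤ A →
    ‖u * binv γ.ze‖ ≤ ε → nm γ.ze 1 j ≤ A → nm γ.ze 1 j' ≤ A →
    ‖W.C u * j.y2‖ ≤ ε → ‖W.C u * j'.y2‖ ≤ ε →
    ‖W.C (u * w) * (γ.Ncone cc ka kd j - γ.Ncone cc ka kd j')‖ ≤
      N * (ε * nm γ.ze w (j - j') + ‖W.C (u * w) * (j - j').y‖) ∧
      ‖W.C u * γ.Ncone cc ka kd j‖ ≤ N * ε := by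
  obtain ⟨N, h0, h⟩ := coneN_lip WB hA
  refine ⟨N, h0, fun γ cc ka kd u w j j' ε h1 h2 h3 h4 h5 hj hj' hu hu' => ?_⟩
  have h6 : ∀ j i, ‖γ.vK j i‖ ≤ nm γ.ze 1 j := fun j i => by simpa using Path.vK_le 1 j i
  rw [γ.Ncone_eq, γ.Ncone_eq, map_mul]
  exact h ⟨W.C u, W.C w, ![algebraMap ℂ WB cc, cst ka, cst kd, W.C (binv γ.ze)], γ.vK j, γ.vK j',
    ε, nm γ.ze w (j - j'), ‖W.C u * W.C w * (j - j').y‖, fun i => by
      fin_cases i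
      exacts [(norm_algebraMap' WB (cc : ℂ)).trans_le (by simpa using h1),
        (norm_cst_apply ka).trans_le h2, (norm_cst_apply kd).trans_le h3, (W.norm_C _).trans_le h4],
    by change ‖W.C u * W.C _‖ ≤ ε; rwa [← map_mul, W.norm_C],
    fun i => ⟨(h6 j i).trans hj, (h6 j' i).trans hj', by rw [γ.vK_sub]; exact Path.vK_le w _ i⟩,
    ⟨(y_le_y2 u j).trans hu, (y_le_y2 u j').trans hu'⟩,
    ⟨(yt_le_y2 u j).trans hu, (yt_le_y2 u j').trans hu'⟩, by rw [γ.vK_sub]; rfl⟩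

theorem Cst.ok_of {k : Cst} (h1 : 0 < k.c₁) (h2 : k.c₁ ≤ 1) (h3 : 1 ≤ k.K) (h4 : 0 ≤ k.e)
    (h5 : 0 ≤ k.ε) (h6 : 0 ≤ k.A) (h7 : 0 < k.δ) (h8 : k.A * k.ρ ≤ k.c₁) (h9 : k.η ≤ 1) : k.Ok := by
  refine ⟨h1, h2, h3, h4, h5, h6, h7, h8, ?_⟩
  have a0 : 0 ≤ k.C₁ := by unfold Cst.C₁; positivity
  have a1 : 0 ≤ k.C₁ * (k.ε + 2 * k.e) := by positivity
  rw [Cst.η, div_le_one h1, Cst.C] at h9
  nlinarith [mul_nonneg a1 h6]

theorem Cst.K_le_C {k : Cst} (h : k.Ok) : k.K ≤ k.C := by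
  have h1 := h.one_le_inv
  have h2 : k.K ≤ k.K ^ 3 := by simpa using pow_le_pow_right₀ h.K1 (by norm_num : 1 ≤ 3)
  have h3 : k.K ≤ k.C₁ := by unfold Cst.C₁; nlinarith [h.K1]
  unfold Cst.C
  nlinarith [h.A0, h.K1]

/-- **the end problem on a cylindrical end** -/
theorem box_cyl {c : ℝ} (hc : 0 < c) (hc1 : c ≤ 1) : ∃ C L : ℝ, 1 ≤ L ∧ ∀ δ, 0 < δ → L * δ ≤ 1 →
    ∃ k : Cst, k.Ok ∧ k.C = C ∧ k.η ≤ L * δ ∧ k.A = 0 ∧ k.δ = δ ∧
    ∀ (γ : Path) (a : ℂ) (σ : BC) (j₀ : EJ) (g : WB) (s : ℤ → Icc (0 : ℝ) 1) (φ : BC),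
      γ.Nice c δ a → γ.Sg a σ → nm σ 1 j₀ ≤ δ → (γ.cyl a).Typ s φ →
      Box k (γ.cyl a) muCyl s φ σ fun v => γ.Ecyl a (j₀ + v) - g := by
  obtain ⟨N, N0, hN⟩ := Ncyl_lip
  let k : ℝ → Cst := fun δ => ⟨c, c / 20, 640 / c, 640 / c, 8 / c * (5 * δ) * (640 / c), N * (4 * δ),
    0, δ⟩
  have hη : ∀ δ, (k δ).η = (k 1).η * δ := fun δ => by simp only [k, Cst.η, Cst.C, Cst.C₁]; ring
  have hη0 : 0 ≤ (k 1).η := by simp only [k, Cst.η, Cst.C, Cst.C₁]; positivity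
  have hL : 1 ≤ 2560 / c ^ 2 := by rw [le_div_iff₀ (by positivity)]; nlinarith
  refine ⟨(k 1).C, (k 1).η + 2560 / c ^ 2, by linarith, fun δ h0 h1 => ?_⟩
  have h2 : δ ≤ c ^ 2 / 2560 := by
    have : 2560 / c ^ 2 * δ ≤ 1 := by nlinarith
    rw [div_mul_eq_mul_div, div_le_one (by positivity)] at this
    linarith
  have h3 : (k δ).η ≤ ((k 1).η + 2560 / c ^ 2) * δ := by rw [hη]; nlinarith
  have hK : 1 ≤ 640 / c := by rw [le_div_iff₀ hc]; linarith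
  have ok : (k δ).Ok := Cst.ok_of (by positivity : 0 < c / 20) (by change c / 20 ≤ 1; linarith) hK
    (by positivity : 0 ≤ 8 / c * (5 * δ) * (640 / c)) (by positivity : 0 ≤ N * (4 * δ)) le_rfl h0
    (by change 0 * _ ≤ c / 20; rw [zero_mul]; positivity) (h3.trans h1)
  refine ⟨k δ, ok, rfl, h3, rfl, rfl, fun γ a σ j₀ g s φ h hσ hj ht => ?_⟩
  have hG := h.adm0.good_cyl h.cyl_ok (h.norm_io.trans h2) (h.norm_lo.trans (by nlinarith)) ht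
  refine ⟨⟨ok, hG, fun m => (hG.sm m).mono (div_le_self (by positivity) (one_le_br m)), ?_, hσ.sq⟩,
    fun v v' hv hv' w => ?_⟩
  · have := h.norm_lo
    change 8 / c * _ * (640 / c) ≤ 8 / c * (5 * δ) * (640 / c)
    gcongr
  · have b1 : ∀ v, nm σ 1 v ≤ δ → nm σ 1 (j₀ + v) ≤ 4 * δ := fun v hv => by
      linarith [nm_add_le σ 1 j₀ v]
    have b2 : 4 * δ ≤ 1 := by linarith [h.δ1]
    have b3 := (hN γ a σ 1 w (j₀ + v) (j₀ + v') (4 * δ) hσ.one hσ.oh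
      (fun i => ⟨(h.bC_le i).trans b2, by rw [one_mul]; exact h.bC_le i⟩) ((b1 v hv).trans b2)
      ((b1 v' hv').trans b2) (b1 v hv) (b1 v' hv')).1
    rw [one_mul, add_sub_add_left_eq_sub, Path.Ncyl, Path.Ncyl, sub_sub_sub_comm, ← smul_sub,
      ← Mod_sub, add_sub_add_left_eq_sub, ← mul_assoc N] at b3
    rw [sub_sub_sub_cancel_right]
    exact b3.trans_eq (by change _ = _ + 0 * _; rw [zero_mul, add_zero])

/-- **the end problem on a conical end** -/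
theorem box_cone {c cc A : ℝ} (hc : 0 < c) (hc1 : c ≤ 1) (hcc : cc ≠ 0) (hA : 0 ≤ A) :
    ∃ C L : ℝ, 1 ≤ L ∧ ∀ δ Λ, 0 < δ → L * δ ≤ 1 → L ≤ Λ →
    ∃ k : Cst, k.Ok ∧ k.C = C ∧ k.η ≤ L * δ ∧ k.A / k.c₁ ≤ L ∧ k.ρ = 4 / (c * Λ) ∧ k.δ = δ ∧
    ∀ (γ : Path) (ka kd : WD) (j₀ : EJ) (g : WB) (φ : BC), γ.NiceK c δ → ‖ka‖ ≤ A → ‖kd‖ ≤ A →
      ‖j₀.y2‖ ≤ δ → nm γ.ze 1 j₀ ≤ A →
      (∀ t, 2 * Λ * (γ.g t * γ.cone.io t).re ≤ (γ.g t * φ t).re) →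
      (∀ t, (γ.g t * φ t).re ≤ 1 / 5 * (γ.g t).re) →
      Box k γ.cone (muCone cc) sdAll φ γ.ze fun v => γ.Econe cc ka kd (j₀ + v) - g := by
  have ha := abs_nonneg cc
  obtain ⟨N, N0, hN⟩ := Ncone_lip (A := A + 1 + |cc|) (by linarith)
  let k : ℝ → ℝ → Cst := fun δ Λ => ⟨c, c / 20, Kcone c cc, 4 / (c * Λ),
    8 / c * (2 * δ) * Kcone c cc, N * (2 * δ), N, δ⟩
  have hK : 1 ≤ Kcone c cc := by
    have : 4 ≤ 4 / c := by rw [le_div_iff₀ hc]; linarith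
    have : 0 ≤ 2 / cc ^ 2 := by positivity
    unfold Kcone
    nlinarith [sq_nonneg cc]
  have hη : ∀ δ Λ, (k δ Λ).η = (k 1 1).η * δ := fun δ Λ => by
    simp only [k, Cst.η, Cst.C, Cst.C₁]; ring
  have hη0 : 0 ≤ (k 1 1).η := by simp only [k, Cst.η, Cst.C, Cst.C₁]; positivity
  have hL : 1 ≤ 960 / c ^ 2 := by rw [le_div_iff₀ (by positivity)]; nlinarith
  have hN0 : 0 ≤ 80 * N / c ^ 2 := by positivity
  refine ⟨(k 1 1).C, (k 1 1).η + 960 / c ^ 2 + 80 * N / c ^ 2, by linarith, fun δ Λ h0 h1 hΛ => ?_⟩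
  have h2 : 2 * δ ≤ c ^ 2 / 480 := by
    have : 960 / c ^ 2 * δ ≤ 1 := by nlinarith
    rw [div_mul_eq_mul_div, div_le_one (by positivity)] at this
    linarith
  have h3 : (k δ Λ).η ≤ ((k 1 1).η + 960 / c ^ 2 + 80 * N / c ^ 2) * δ := by rw [hη]; nlinarith
  have Λ1 : 1 ≤ Λ := by linarith
  have h4 : 80 * N ≤ Λ * c ^ 2 := by rw [← div_le_iff₀ (by positivity)]; linarith
  have ok : (k δ Λ).Ok := Cst.ok_of (by positivity : 0 < c / 20) (by change c / 20 ≤ 1; linarith) hK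
    (by positivity : 0 ≤ 8 / c * (2 * δ) * Kcone c cc) (by positivity : 0 ≤ N * (2 * δ)) N0 h0
    (by
      change N * (4 / (c * Λ)) ≤ c / 20
      rw [mul_div_assoc', div_le_div_iff₀ (by positivity) (by norm_num)]
      linarith) (h3.trans h1)
  refine ⟨k δ Λ, ok, rfl, h3, ?_, rfl, rfl, fun γ ka kd j₀ g φ h hka hkd hj hA' hφ hφ' => ?_⟩
  · refine le_trans ?_ (le_add_of_nonneg_left (by linarith))
    change N / (c / 20) ≤ _
    rw [div_le_div_iff₀ (by positivity) (by positivity)]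
    nlinarith [mul_nonneg N0 hc.le]
  have hδ := h.δ1
  have hG := h.adm0.good_cone h.cone_ok (h.norm_io.trans (by nlinarith)) (h.norm_lo.trans h2) hcc
    (fun t => le_trans (by
      have := h.adm0.x_nonneg t
      change _ ≤ 2 * Λ * (γ.cone.g t * _).re
      nlinarith) (hφ t)) hφ'
  refine ⟨⟨ok, hG, fun m => h.adm0.sm_grow (muCone_nonneg cc m) (by linarith) hφ, ?_, h.sg⟩,
    fun v v' hv hv' w => ?_⟩
  · have := h.norm_lo
    change 8 / c * _ * Kcone c cc ≤ 8 / c * (2 * δ) * Kcone c cc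
    gcongr
  · have b1 : ∀ v, nm γ.ze 1 v ≤ δ → nm γ.ze 1 (j₀ + v) ≤ A + 1 + |cc| := fun v hv => by
      linarith [nm_add_le γ.ze 1 j₀ v]
    have b2 : ∀ v, nm γ.ze 1 v ≤ δ → ‖W.C 1 * (j₀ + v).y2‖ ≤ 2 * δ := fun v hv => by
      have := y2_le_nm γ.ze 1 v
      rw [map_one, one_mul] at this ⊢
      rw [EJ.add_y2]
      linarith [norm_add_le j₀.y2 v.y2]
    have b3 := (hN γ cc ka kd 1 w (j₀ + v) (j₀ + v') (2 * δ) (by linarith) (by linarith)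
      (by linarith) (by linarith [h.norm_iz]) (by rw [one_mul]; linarith [h.norm_iz]) (b1 v hv)
      (b1 v' hv') (b2 v hv) (b2 v' hv')).1
    rw [one_mul, add_sub_add_left_eq_sub, Path.Ncone, Path.Ncone, sub_sub_sub_cancel_right,
      sub_sub_sub_comm, ← smul_sub, ← Mod_sub, add_sub_add_left_eq_sub, mul_add, ← mul_assoc N] at b3
    rw [sub_sub_sub_cancel_right]
    exact b3

/-! ### Linear problems -/

/-- a linear end problem -/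
structure LBox (k : Cst) (Γ : Ctr) (μ : ℤ → ℝ) (s : ℤ → Icc (0 : ℝ) 1) (φ σ : BC)
    (L : EJ →L[ℂ] WB) : Prop extends Lin k Γ μ s φ σ where
  lip : ∀ (v : EJ) (w : BC), ‖W.C w * (L v - (2 : ℂ) • Mod μ v)‖ ≤
    k.ε * nm σ w v + k.A * ‖W.C w * v.y‖

section lin
variable {k : Cst} {Γ : Ctr} {μ : ℤ → ℝ} {s : ℤ → Icc (0 : ℝ) 1} {φ σ : BC} {F : EJ → WB}
  {L : EJ →L[ℂ] WB}

theorem Mod_smul (μ : ℤ → ℝ) (z : ℂ) (j : EJ) : Mod μ (z • j) = z • Mod μ j := by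
  simp only [Ctr.Mod, EJ.smul_oq, EJ.smul_op, EJ.smul_y2, map_smul, smul_sub, smul_comm z]

/-- the linearisation of an end problem -/
theorem Box.lbox (h : Box k Γ μ s φ σ F) (hF : HasFDerivAt F L 0) : LBox k Γ μ s φ σ L := by
  refine ⟨h.toLin, fun v w => ?_⟩
  have h1 : HasDerivAt (fun z : ℂ => z • v) v 0 := by simpa using (hasDerivAt_id (0 : ℂ)).smul_const v
  have h2 : HasDerivAt (fun z : ℂ => W.C w * (F (z • v) - z • (2 : ℂ) • Mod μ v))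
      (W.C w * (L v - (2 : ℂ) • Mod μ v)) 0 := by
    refine HasDerivAt.const_mul _ (HasDerivAt.fun_sub (hF.comp_hasDerivAt_of_eq 0 h1 (by simp)) ?_)
    simpa using (hasDerivAt_id (0 : ℂ)).smul_const ((2 : ℂ) • Mod μ v)
  have h3 : ∀ᶠ z : ℂ in 𝓝 0, nm σ 1 (z • v) < k.δ := ((continuous_nm σ 1).continuousAt.comp
    h1.continuousAt).eventually (gt_mem_nhds (by simpa using h.ok.δ0))
  refine h2.le_of_lip' (add_nonneg (mul_nonneg h.ok.ε0 (nm_nonneg _ _ _))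
    (mul_nonneg h.ok.A0 (norm_nonneg _))) (h3.mono fun z hz => ?_)
  have h4 := h.lip _ 0 hz.le (by simpa using h.ok.δ0.le) w
  rw [sub_zero, Mod_smul, nm_smul, EJ.smul_y, mul_smul_comm z, norm_smul, smul_comm] at h4
  rw [← mul_sub, zero_smul, zero_smul, sub_zero, sub_zero, sub_right_comm]
  exact h4.trans_eq (by ring)

theorem hasFDerivAt_shift {E : EJ → WB} (hE : Differentiable ℂ E) (j₀ : EJ) (g : WB) :
    HasFDerivAt (fun v => E (j₀ + v) - g) (fderiv ℂ E j₀) 0 := by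
  have h := ((hE (j₀ + 0)).hasFDerivAt.comp 0 ((hasFDerivAt_id (0 : EJ)).const_add j₀)).sub_const g
  rwa [ContinuousLinearMap.comp_id, add_zero] at h

theorem LBox.box (h : LBox k Γ μ s φ σ L) {δ : ℝ} (hδ : 0 < δ) (g : WB) :
    Box { k with δ := δ } Γ μ s φ σ fun v => L v - g :=
  ⟨⟨⟨h.ok.c₁0, h.ok.c₁1, h.ok.K1, h.ok.e0, h.ok.ε0, h.ok.A0, hδ, h.ok.Aρ, h.ok.sm⟩, h.good, h.sm,
    h.lo, h.sg⟩, fun v v' _ _ w => by
      rw [sub_sub_sub_cancel_right, ← map_sub]; exact h.lip _ w⟩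

variable (r : Icc (0 : ℝ) 1)

theorem LBox.ap (h : LBox k Γ μ s φ σ L) {v : EJ} (hj : Γ.IsJet v) :
    nm σ (Γ.iW φ r) v ≤ k.C * (‖slowD s (W.C (Γ.iW φ r) * v.y2)‖ +
      ‖tr 1 (W.C (Γ.iW φ r) * Γ.piJ μ v)‖ + ‖W.C (Γ.iW φ r) * L v‖) := by
  have h0 := nm_nonneg σ 1 v
  have := (h.box (δ := nm σ 1 v + 1) (by linarith) 0).ap r (v := v) (v' := 0) (by rwa [sub_zero])
    (by simp) (by rw [nm_zero]; change 0 ≤ nm σ 1 v + 1; linarith)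
  simp only [sub_zero, map_zero] at this
  exact this

theorem LBox.ap_pi (h : LBox k Γ μ s φ σ L) {v : EJ} (hj : Γ.IsJet v) :
    ‖W.C (Γ.iW φ r) * Γ.piJ μ v‖ ≤ k.C * (‖tr 1 (W.C (Γ.iW φ r) * Γ.piJ μ v)‖ +
      ‖W.C (Γ.iW φ r) * L v‖) + k.η * ‖slowD s (W.C (Γ.iW φ r) * v.y2)‖ +
      k.A / k.c₁ * ‖slowD s (W.C (Γ.iW φ r) * v.y)‖ := by
  have h0 := nm_nonneg σ 1 v
  have := (h.box (δ := nm σ 1 v + 1) (by linarith) 0).ap_pi r (v := v) (v' := 0)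
    (by rwa [sub_zero]) (by simp) (by rw [nm_zero]; change 0 ≤ nm σ 1 v + 1; linarith)
  simp only [sub_zero, map_zero] at this
  exact this

theorem LBox.unique (h : LBox k Γ μ s φ σ L) (hσ : ∀ t, 1 ≤ ‖σ t‖) {v v' : EJ}
    (hj : Γ.IsJet (v - v')) (hL : L v = L v') (hd : slowD s v.y2 = slowD s v'.y2)
    (hω : tr 1 (Γ.piJ μ v) = tr 1 (Γ.piJ μ v')) : v = v' := by
  have h0 := nm_nonneg σ 1 v
  have h1 := nm_nonneg σ 1 v'
  exact (h.box (δ := nm σ 1 v + nm σ 1 v' + 1) (by linarith) 0).unique hσ hj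
    (by change _ ≤ _ + _ + _; linarith) (by change _ ≤ _ + _ + _; linarith) (by rw [hL]) hd hω

theorem LBox.exists_sol (h : LBox k Γ μ s φ σ L) (g : WB) (d ω : WD) :
    ∃ v, Γ.IsJet v ∧ L v = g ∧ slowD s v.y2 = d ∧ tr 1 (Γ.piJ μ v) = ω ∧
      nm σ (Γ.iW φ r) v ≤ k.C * dsz s (Γ.iW φ r) d ω g := by
  have h0 : 0 ≤ ‖Γ.Wt φ r‖ * (k.C * dsz s (Γ.iW φ r) d ω (L 0 - g)) :=
    mul_nonneg (norm_nonneg _) (mul_nonneg (zero_le_one.trans h.ok.one_le_C) (dsz_nonneg _ _ _ _ _))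
  obtain ⟨v, h1, h2, h3, h4, h5, -⟩ := (h.box (add_pos_of_nonneg_of_pos h0 one_pos) g).exists_sol r
    (d := d) (ω := ω) (le_add_of_nonneg_right zero_le_one)
  refine ⟨v, h1, sub_eq_zero.1 h2, h3, h4, h5.trans_eq ?_⟩
  simp only [dsz, map_zero, zero_sub, mul_neg, norm_neg]
  rfl

theorem Ctr.IsJet.smul {j : EJ} (h : Γ.IsJet j) (z : ℂ) : Γ.IsJet (z • j) := by
  have e : ∀ f : WB, mult (fun _ => z) f = z • f := fun f =>
    W.ext fun m => c_mult (K := ‖z‖) (fun _ => le_rfl) f m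
  have := h.mu (χ := fun _ => z) fun _ => le_rfl
  simp only [EJ.mu, e] at this
  exact this

theorem piJ_smul (z : ℂ) (j : EJ) : Γ.piJ μ (z • j) = z • Γ.piJ μ j := by
  simp only [piJ, EJ.smul_pt, EJ.smul_op, EJ.smul_y2, map_smul, smul_add, smul_comm z]

theorem piJ_add (j j' : EJ) : Γ.piJ μ (j + j') = Γ.piJ μ j + Γ.piJ μ j' := by
  simp only [piJ, EJ.add_pt, EJ.add_op, EJ.add_y2, map_add, smul_add]; abel

/-- the solution operator of a linear problem -/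
theorem LBox.exists_inv (h : LBox k Γ μ s φ σ L) (hσ : ∀ t, 1 ≤ ‖σ t‖) :
    ∃ G : WB × WD × WD →L[ℂ] EJ, ∀ x, Γ.IsJet (G x) ∧ L (G x) = x.1 ∧
      slowD s (G x).y2 = x.2.1 ∧ tr 1 (Γ.piJ μ (G x)) = x.2.2 := by
  choose G h1 h2 h3 h4 h5 using fun x : WB × WD × WD => h.exists_sol p0 x.1 x.2.1 x.2.2
  have hC := zero_le_one.trans h.ok.one_le_C
  refine ⟨LinearMap.mkContinuous ⟨⟨G, fun x y => ?_⟩, fun z x => ?_⟩
    (‖Γ.Wt φ p0‖ * (k.C * (‖Γ.iW φ p0‖ * 3))) fun x => ?_, fun x => ⟨h1 x, h2 x, h3 x, h4 x⟩⟩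
  · refine h.unique hσ ((h1 _).sub ((h1 x).add (h1 y))) ?_ ?_ ?_
    · rw [map_add, h2, h2, h2]; rfl
    · rw [EJ.add_y2, map_add, h3, h3, h3]; rfl
    · rw [piJ_add, map_add, h4, h4, h4]; rfl
  · refine h.unique hσ ((h1 _).sub ((h1 x).smul z)) ?_ ?_ ?_
    · rw [RingHom.id_apply, map_smul, h2, h2]; rfl
    · rw [RingHom.id_apply, EJ.smul_y2, map_smul, h3, h3]; rfl
    · rw [RingHom.id_apply, piJ_smul, map_smul, h4, h4]; rfl
  · change ‖G x‖ ≤ _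
    refine (norm_le_nm (G x) hσ).trans ((nm_one_le (Γ := Γ) φ p0 σ (G x)).trans ?_)
    rw [mul_assoc, mul_assoc, mul_assoc]
    refine mul_le_mul_of_nonneg_left ((h5 x).trans (mul_le_mul_of_nonneg_left
      ((dsz_le _ _ _ _ _).trans (mul_le_mul_of_nonneg_left ?_ (norm_nonneg _))) hC)) (norm_nonneg _)
    linarith [norm_fst_le x, (norm_fst_le x.2).trans (norm_snd_le x),
      (norm_snd_le x.2).trans (norm_snd_le x)]

end lin

end Vale.Agent.P218N.End
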