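import Vale.Agent.P218N.End.Ev

/-! Derivatives of the functions given by elements of `WB`; jets on real segments. -/

open Filter Topology Metric Set Complex
open scoped BoundedContinuousFunction

noncomputable section

namespace Vale.Agent.P218N.End

/-! ### Partial derivatives -/

theorem hasDerivAt_exp_mode (m : ℤ) (θ : ℝ) :
    HasDerivAt (fun θ : ℝ => Complex.exp (m * θ * I)) (Complex.exp (m * θ * I) * (m * I)) θ := by
  have h := (((hasDerivAt_id θ).ofReal_comp.const_mul (m : ℂ)).mul_const I).cexp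
  simpa using h

theorem hasDerivAt_sumL {d d' : WD} (h : ∀ m : ℤ, d'.c m = ((m : ℂ) * I) • d.c m) (θ : ℝ) :
    HasDerivAt (fun θ : ℝ => W.sumL θ d) (W.sumL θ d') θ := by
  have h1 := hasDerivAt_tsum (g := fun (m : ℤ) (θ : ℝ) => Complex.exp (m * θ * I) • d.c m)
    (g' := fun (m : ℤ) (θ : ℝ) => Complex.exp (m * θ * I) • d'.c m) d'.sm
    (fun m θ => by
      refine ((hasDerivAt_exp_mode m θ).smul_const (d.c m)).congr_deriv ?_
      rw [h, smul_smul])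
    (fun m θ => (W.norm_exp_smul θ m _).le) (W.summable_exp 0 d) θ
  exact h1

theorem hasDerivAt_ev_theta {a b : WB} (h : ∀ m : ℤ, b.c m = ((m : ℂ) * I) • a.c m) (t θ : ℝ) :
    HasDerivAt (fun θ => ev a t θ) (ev b t θ) θ := by
  simpa only [sumL_tr] using hasDerivAt_sumL (d := tr t a) (d' := tr t b)
    (fun m => by rw [c_tr, c_tr, h]; rfl) θ

theorem hasDerivAt_ev_t' {g : BC} {a b : WB}
    (h : ∀ m t, HasDerivAt (a.c m) (g t * b.c m t) t) (t θ : ℝ) :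
    HasDerivAt (fun t => ev a t θ) (g t * ev b t θ) t := by
  have h1 := hasDerivAt_tsum (g := fun (m : ℤ) (t : ℝ) => Complex.exp (m * θ * I) * a.c m t)
    (g' := fun (m : ℤ) (t : ℝ) => g t * (Complex.exp (m * θ * I) * b.c m t))
    (b.sm.mul_left ‖g‖)
    (fun m t => ((h m t).const_mul _).congr_deriv (by ring))
    (fun m t => by
      rw [norm_mul]
      refine mul_le_mul (g.norm_coe_le_norm t) ?_ (norm_nonneg _) (norm_nonneg _)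
      exact (W.norm_exp_smul θ m (b.c m t)).le.trans ((b.c m).norm_coe_le_norm t))
    (hasSum_ev a 0 θ).summable t
  simpa only [tsum_mul_left, ← ev_eq_tsum] using h1

theorem hasDerivAt_ev_t {Γ : Ctr} {a b : WB} (h : ∀ m, Γ.Der (a.c m) (b.c m)) (t θ : ℝ) :
    HasDerivAt (fun t => ev a t θ) (Γ.g t * ev b t θ) t := hasDerivAt_ev_t' h t θ

/-- the integral form of the derivative along the contour -/
theorem ev_sub_eq_integral {Γ : Ctr} {a b : WB} (h : ∀ m, Γ.Der (a.c m) (b.c m)) (s t θ : ℝ) :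
    ev a t θ - ev a s θ = ∫ x in s..t, Γ.g x * ev b x θ :=
  (intervalIntegral.integral_eq_sub_of_hasDerivAt (fun x _ => hasDerivAt_ev_t h x θ)
    (Continuous.intervalIntegrable (by fun_prop) _ _)).symm

/-- Conversely, pointwise derivatives give the derivatives of the modes. -/
theorem der_of_ev {Γ : Ctr} {a b : WB}
    (h : ∀ t θ, HasDerivAt (fun t => ev a t θ) (Γ.g t * ev b t θ) t) (m : ℤ) :
    Γ.Der (a.c m) (b.c m) := by
  have h1 : ∀ t, a.c m t = a.c m 0 + ∫ x in (0 : ℝ)..t, Γ.g x * b.c m x := fun t => by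
    let L : BC →L[ℂ] ℂ := (intI 0 t).comp (ContinuousLinearMap.mul ℂ BC Γ.g)
    have h2 : tr t a = tr 0 a + W.diag (fun _ => L) b := W.ext_sumL fun θ => by
      rw [map_add, sumL_tr, sumL_tr, W.sumL_diag_const, ← sub_eq_iff_eq_add']
      exact (intervalIntegral.integral_eq_sub_of_hasDerivAt (fun x _ => h x θ)
        (Continuous.intervalIntegrable (by fun_prop) _ _)).symm
    have h3 := congrArg (fun d : WD => d.c m) h2
    simp only [W.c_add, c_tr, W.c_diag_const] at h3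
    exact h3
  intro t
  rw [show (a.c m : ℝ → ℂ) = _ from funext h1]
  exact (((Γ.g * b.c m).continuous.integral_hasStrictDerivAt 0 t).hasDerivAt).const_add _

/-- Conversely, a pointwise `θ`-derivative gives the relation between the modes. -/
theorem c_of_hasDerivAt_sumL {d d' : WD}
    (h : ∀ θ, HasDerivAt (fun θ : ℝ => W.sumL θ d) (W.sumL θ d') θ) (m : ℤ) :
    d'.c m = ((m : ℂ) * I) • d.c m := by
  have h1 : ∀ θ : ℝ, HasDerivAt (fun θ : ℝ => W.sumL θ d * Complex.exp (-(m * θ * I)))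
      (W.sumL θ d' * Complex.exp (-(m * θ * I)) -
        m * I * (W.sumL θ d * Complex.exp (-(m * θ * I)))) θ := fun θ => by
    have h2 := hasDerivAt_exp_mode (-m) θ
    simp only [Int.cast_neg, neg_mul] at h2
    exact ((h θ).mul h2).congr_deriv (by ring)
  have c1 := W.continuous_sumL d
  have c2 := W.continuous_sumL d'
  have h3 := intervalIntegral.integral_eq_sub_of_hasDerivAt (a := 0) (b := 2 * Real.pi)
    (fun θ _ => h1 θ) (Continuous.intervalIntegrable (by fun_prop) _ _)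
  have h4 : Complex.exp (-(m * ((2 * Real.pi : ℝ) : ℂ) * I)) = 1 := by
    rw [← Complex.exp_int_mul_two_pi_mul_I (-m)]
    congr 1
    push_cast
    ring
  have h5 := W.sumL_add_two_pi 0 d
  rw [zero_add] at h5
  rw [h4, h5, intervalIntegral.integral_sub (Continuous.intervalIntegrable (by fun_prop) _ _)
    (Continuous.intervalIntegrable (by fun_prop) _ _), intervalIntegral.integral_const_mul] at h3
  simp only [Complex.ofReal_zero, mul_zero, zero_mul, neg_zero, Complex.exp_zero, sub_self] at h3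
  rw [c_eq_integral_WD, c_eq_integral_WD, smul_eq_mul]
  linear_combination (2 * Real.pi : ℂ)⁻¹ * h3

theorem c_of_hasDerivAt_ev {a b : WB} (h : ∀ t θ, HasDerivAt (fun θ => ev a t θ) (ev b t θ) θ)
    (m : ℤ) : b.c m = ((m : ℂ) * I) • a.c m := by
  ext t
  simpa using c_of_hasDerivAt_sumL (d := tr t a) (d' := tr t b) (by simpa using h t) m

theorem EJ.hasDerivAt_y_theta (j : EJ) (t θ : ℝ) :
    HasDerivAt (fun θ => ev j.y t θ) (ev j.yt t θ) θ := hasDerivAt_ev_theta j.c_yt t θ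

theorem EJ.hasDerivAt_yt_theta (j : EJ) (t θ : ℝ) :
    HasDerivAt (fun θ => ev j.yt t θ) (ev j.ytt t θ) θ := hasDerivAt_ev_theta j.c_ytt t θ

/-! ### Joint derivatives -/

/-- the real linear form with the values `u.1`, `u.2` on the basis vectors -/
def d2 : (ℂ × ℂ) →L[ℝ] (ℝ × ℝ) →L[ℝ] ℂ :=
  (ContinuousLinearMap.smulRightL ℝ (ℝ × ℝ) ℂ (ContinuousLinearMap.fst ℝ ℝ ℝ)).coprod
    (ContinuousLinearMap.smulRightL ℝ (ℝ × ℝ) ℂ (ContinuousLinearMap.snd ℝ ℝ ℝ))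

@[simp] theorem d2_apply (u : ℂ × ℂ) (w : ℝ × ℝ) : d2 u w = w.1 * u.1 + w.2 * u.2 := by
  simp [d2]

theorem norm_d2_le (u : ℂ × ℂ) : ‖d2 u‖ ≤ ‖u.1‖ + ‖u.2‖ := by
  refine ContinuousLinearMap.opNorm_le_bound _ (by positivity) fun w => ?_
  rw [d2_apply, add_mul]
  refine (norm_add_le _ _).trans (add_le_add ?_ ?_) <;> rw [norm_mul, Complex.norm_real, mul_comm]
  · exact mul_le_mul_of_nonneg_left (norm_fst_le w) (norm_nonneg _)
  · exact mul_le_mul_of_nonneg_left (norm_snd_le w) (norm_nonneg _)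

theorem hasStrictFDerivAt_of_partials {F F1 F2 : ℝ × ℝ → ℂ} {u : ℝ × ℝ}
    (h1 : ∀ᶠ v in 𝓝 u, HasDerivAt (fun x => F (x, v.2)) (F1 v) v.1)
    (h2 : ∀ᶠ v in 𝓝 u, HasDerivAt (fun x => F (v.1, x)) (F2 v) v.2)
    (c1 : ContinuousAt F1 u) (c2 : ContinuousAt F2 u) :
    HasStrictFDerivAt F (d2 (F1 u, F2 u)) u := by
  let L := ContinuousLinearMap.smulRightL ℝ ℝ ℂ (1 : ℝ →L[ℝ] ℝ)
  have h := hasStrictFDerivAt_uncurry_coprod (𝕜 := ℝ) (u := u) (f := fun x y => F (x, y))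
    (f₁ := fun x y => L (F1 (x, y))) (f₂ := fun x y => L (F2 (x, y)))
    (h1.mono fun v hv => hv.hasFDerivAt) (h2.mono fun v hv => hv.hasFDerivAt)
    (L.continuous.continuousAt.comp c1) (L.continuous.continuousAt.comp c2)
  refine HasStrictFDerivAt.congr_fderiv h ?_
  ext <;> simp [L, Function.HasUncurry.uncurry]

theorem hasFDerivAt_ev {Γ : Ctr} {a b b' : WB} (h : ∀ m, Γ.Der (a.c m) (b.c m))
    (h' : ∀ m : ℤ, b'.c m = ((m : ℂ) * I) • a.c m) (p : ℝ × ℝ) :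
    HasFDerivAt (fun p : ℝ × ℝ => ev a p.1 p.2)
      (d2 (Γ.g p.1 * ev b p.1 p.2, ev b' p.1 p.2)) p :=
  (hasStrictFDerivAt_of_partials (F := fun p : ℝ × ℝ => ev a p.1 p.2)
    (F1 := fun p => Γ.g p.1 * ev b p.1 p.2) (F2 := fun p => ev b' p.1 p.2)
    (Eventually.of_forall fun v => hasDerivAt_ev_t h v.1 v.2)
    (Eventually.of_forall fun v => hasDerivAt_ev_theta h' v.1 v.2)
    (Continuous.continuousAt (by fun_prop)) (Continuous.continuousAt (by fun_prop))).hasFDerivAt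

namespace Ctr
variable (Γ : Ctr) (j : EJ)

/-- `∂_ζ y` -/
def jP : WB := W.C Γ.io * j.op
/-- `∂_ζ² y` -/
def jQ : WB := W.C Γ.io * j.oq

@[simp] theorem ev_jP (t θ : ℝ) : ev (Γ.jP j) t θ = Γ.io t * ev j.op t θ := by simp [jP]
@[simp] theorem ev_jQ (t θ : ℝ) : ev (Γ.jQ j) t θ = Γ.io t * ev j.oq t θ := by simp [jQ]
theorem c_jP (m : ℤ) : (Γ.jP j).c m = Γ.io * j.op.c m := W.c_C_mul _ _ m
theorem c_jQ (m : ℤ) : (Γ.jQ j).c m = Γ.io * j.oq.c m := W.c_C_mul _ _ m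

theorem norm_ev_jP_le (t θ : ℝ) : ‖ev (Γ.jP j) t θ‖ ≤ ‖Γ.io t‖ * ‖j‖ := by
  rw [ev_jP, norm_mul]
  exact mul_le_mul_of_nonneg_left ((norm_ev_le _ _ _).trans j.norm_op_le) (norm_nonneg _)

theorem norm_ev_jQ_le (t θ : ℝ) : ‖ev (Γ.jQ j) t θ‖ ≤ ‖Γ.io t‖ * ‖j‖ := by
  rw [ev_jQ, norm_mul]
  exact mul_le_mul_of_nonneg_left ((norm_ev_le _ _ _).trans j.norm_oq_le) (norm_nonneg _)

theorem Ok.Om_jP {Γ : Ctr} (ho : Γ.Ok) (j : EJ) : W.C Γ.Om * Γ.jP j = j.op := by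
  rw [jP, ← mul_assoc, ← map_mul, ho.inv, map_one, one_mul]

theorem Ok.Om_jQ {Γ : Ctr} (ho : Γ.Ok) (j : EJ) : W.C Γ.Om * Γ.jQ j = j.oq := by
  rw [jQ, ← mul_assoc, ← map_mul, ho.inv, map_one, one_mul]

variable {Γ j}

theorem Der.smul {y P : BC} (h : Γ.Der y P) (z : ℂ) : Γ.Der (z • y) (z • P) := fun t =>
  ((h t).const_mul z).congr_deriv (by simp [mul_left_comm])

theorem isJet_iff : Γ.IsJet j ↔ (∀ m, Γ.Der (j.y.c m) ((Γ.jP j).c m)) ∧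
    (∀ m, Γ.Der ((Γ.jP j).c m) ((Γ.jQ j).c m)) ∧
    ∀ m : ℤ, j.pt.c m = ((m : ℂ) * I) • (Γ.jP j).c m := by
  simp only [IsJet, c_jP, c_jQ, forall_and]

/-- the pointwise description of jets -/
theorem isJet_of_ev
    (h1 : ∀ t θ, HasDerivAt (fun t => ev j.y t θ) (Γ.g t * ev (Γ.jP j) t θ) t)
    (h2 : ∀ t θ, HasDerivAt (fun t => ev (Γ.jP j) t θ) (Γ.g t * ev (Γ.jQ j) t θ) t)
    (h3 : ∀ t θ, HasDerivAt (fun θ => ev (Γ.jP j) t θ) (ev j.pt t θ) θ) : Γ.IsJet j :=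
  isJet_iff.2 ⟨der_of_ev h1, der_of_ev h2, c_of_hasDerivAt_ev h3⟩

namespace IsJet

theorem der_y (h : Γ.IsJet j) (m : ℤ) : Γ.Der (j.y.c m) ((Γ.jP j).c m) := (isJet_iff.1 h).1 m
theorem der_P (h : Γ.IsJet j) (m : ℤ) : Γ.Der ((Γ.jP j).c m) ((Γ.jQ j).c m) :=
  (isJet_iff.1 h).2.1 m
theorem c_pt (h : Γ.IsJet j) (m : ℤ) : j.pt.c m = ((m : ℂ) * I) • (Γ.jP j).c m :=
  (isJet_iff.1 h).2.2 m
theorem der_yt (h : Γ.IsJet j) (m : ℤ) : Γ.Der (j.yt.c m) (j.pt.c m) := by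
  rw [j.c_yt, h.c_pt]; exact (h.der_y m).smul _

theorem hasDerivAt_y_t (h : Γ.IsJet j) (t θ : ℝ) :
    HasDerivAt (fun t => ev j.y t θ) (Γ.g t * ev (Γ.jP j) t θ) t := hasDerivAt_ev_t h.der_y t θ
theorem hasDerivAt_P_t (h : Γ.IsJet j) (t θ : ℝ) :
    HasDerivAt (fun t => ev (Γ.jP j) t θ) (Γ.g t * ev (Γ.jQ j) t θ) t :=
  hasDerivAt_ev_t h.der_P t θ
theorem hasDerivAt_P_theta (h : Γ.IsJet j) (t θ : ℝ) :
    HasDerivAt (fun θ => ev (Γ.jP j) t θ) (ev j.pt t θ) θ := hasDerivAt_ev_theta h.c_pt t θ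
theorem hasDerivAt_yt_t (h : Γ.IsJet j) (t θ : ℝ) :
    HasDerivAt (fun t => ev j.yt t θ) (Γ.g t * ev j.pt t θ) t := hasDerivAt_ev_t h.der_yt t θ

theorem hasFDerivAt_y (h : Γ.IsJet j) (p : ℝ × ℝ) : HasFDerivAt (fun p : ℝ × ℝ => ev j.y p.1 p.2)
    (d2 (Γ.g p.1 * ev (Γ.jP j) p.1 p.2, ev j.yt p.1 p.2)) p := hasFDerivAt_ev h.der_y j.c_yt p
theorem hasFDerivAt_yt (h : Γ.IsJet j) (p : ℝ × ℝ) : HasFDerivAt (fun p : ℝ × ℝ => ev j.yt p.1 p.2)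
    (d2 (Γ.g p.1 * ev j.pt p.1 p.2, ev j.ytt p.1 p.2)) p := hasFDerivAt_ev h.der_yt j.c_ytt p
theorem hasFDerivAt_P (h : Γ.IsJet j) (p : ℝ × ℝ) :
    HasFDerivAt (fun p : ℝ × ℝ => ev (Γ.jP j) p.1 p.2)
      (d2 (Γ.g p.1 * ev (Γ.jQ j) p.1 p.2, ev j.pt p.1 p.2)) p := hasFDerivAt_ev h.der_P h.c_pt p

/-- `∂_θ op = Ω pt` -/
theorem hasDerivAt_op_theta (h : Γ.IsJet j) (ho : Γ.Ok) (t θ : ℝ) :
    HasDerivAt (fun θ => ev j.op t θ) (Γ.Om t * ev j.pt t θ) θ := by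
  have h1 := (h.hasDerivAt_P_theta t θ).const_mul (Γ.Om t)
  have e : ∀ θ, Γ.Om t * ev (Γ.jP j) t θ = ev j.op t θ := fun θ => by
    rw [← ho.Om_jP j, ev_mul, ev_C]
  simpa only [e] using h1

end IsJet

/-! ### Real segments -/

/-- On the open set `U` the function `tt` parametrises the contour by `x = √ζ`. -/
structure Seg (Γ : Ctr) (tt : ℝ → ℝ) (U : Set ℝ) : Prop where
  isOpen : IsOpen U
  der : ∀ x ∈ U, ∃ τ : ℝ, HasDerivAt tt τ x ∧ Γ.g (tt x) * τ = 2 * x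

end Ctr

theorem Path.Ok.seg {γ : Path} (ho : γ.Ok) {Γ : Ctr} (hg : Γ.g = γ.g) {tt : ℝ → ℝ} {U : Set ℝ}
    (hU : IsOpen U) (hd : ∀ x ∈ U, DifferentiableAt ℝ tt x)
    (hz : ∀ x ∈ U, γ.ze (tt x) = (x : ℂ) ^ 2) : Γ.Seg tt U := by
  refine ⟨hU, fun x hx => ⟨deriv tt x, (hd x hx).hasDerivAt, ?_⟩⟩
  have h1 := (ho.der (tt x)).scomp x (hd x hx).hasDerivAt
  have h2 : HasDerivAt (fun x : ℝ => (x : ℂ) ^ 2) (2 * x) x := by
    exact ((hasDerivAt_id x).ofReal_comp.fun_pow 2).congr_deriv (by simp)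
  have h3 := h1.unique (h2.congr_of_eventuallyEq
    (Filter.mem_of_superset (hU.mem_nhds hx) fun y hy => hz y hy))
  rw [hg, ← h3, mul_comm]
  rfl

/-- The inverse parametrisation exists where `ζ = z²` with `z' > 0`. -/
theorem exists_inv_param {z z' : ℝ → ℝ} {J : Set ℝ} (hJ : IsOpen J) (hc : Convex ℝ J)
    (hz : ∀ t ∈ J, HasDerivAt z (z' t) t) (hz' : ContinuousOn z' J) (hp : ∀ t ∈ J, 0 < z' t) :
    ∃ tt : ℝ → ℝ, IsOpen (z '' J) ∧ (∀ t ∈ J, tt (z t) = t) ∧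
      ∀ x ∈ z '' J, tt x ∈ J ∧ z (tt x) = x ∧ HasDerivAt tt (z' (tt x))⁻¹ x := by
  have hs : ∀ t ∈ J, HasStrictDerivAt z (z' t) t := fun t ht =>
    hasStrictDerivAt_of_hasDerivAt_of_continuousAt
      (Filter.mem_of_superset (hJ.mem_nhds ht) hz) (hz'.continuousAt (hJ.mem_nhds ht))
  have hm : StrictMonoOn z J := strictMonoOn_of_deriv_pos hc
    (fun t ht => (hz t ht).continuousAt.continuousWithinAt) fun t ht => by
      rw [(hz t (interior_subset ht)).deriv]; exact hp t (interior_subset ht)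
  have hl : ∀ t ∈ J, Function.invFunOn z J (z t) = t := fun t ht => hm.injOn.leftInvOn_invFunOn ht
  refine ⟨Function.invFunOn z J, ?_, hl, ?_⟩
  · rw [isOpen_iff_mem_nhds]
    rintro _ ⟨t, ht, rfl⟩
    rw [← (hs t ht).map_nhds_eq (hp t ht).ne']
    exact Filter.image_mem_map (hJ.mem_nhds ht)
  · rintro _ ⟨t, ht, rfl⟩
    rw [hl t ht]
    exact ⟨ht, rfl, ((hs t ht).to_local_left_inverse (hp t ht).ne'
      (Filter.mem_of_superset (hJ.mem_nhds ht) hl)).hasDerivAt⟩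

theorem Path.Ok.exists_seg {γ : Path} (ho : γ.Ok) {z z' : ℝ → ℝ} {J : Set ℝ} (hJ : IsOpen J)
    (hc : Convex ℝ J) (hz : ∀ t ∈ J, HasDerivAt z (z' t) t) (hz' : ContinuousOn z' J)
    (hp : ∀ t ∈ J, 0 < z' t) (hze : ∀ t ∈ J, γ.ze t = ((z t : ℝ) : ℂ) ^ 2) :
    ∃ tt : ℝ → ℝ, (∀ t ∈ J, tt (z t) = t) ∧ (∀ x ∈ z '' J, tt x ∈ J ∧ z (tt x) = x) ∧
      ∀ Γ : Ctr, Γ.g = γ.g → Γ.Seg tt (z '' J) := by
  obtain ⟨tt, h1, h2, h3⟩ := exists_inv_param hJ hc hz hz' hp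
  refine ⟨tt, h2, fun x hx => ⟨(h3 x hx).1, (h3 x hx).2.1⟩, fun Γ hg => ?_⟩
  exact ho.seg hg h1 (fun x hx => (h3 x hx).2.2.differentiableAt) fun x hx => by
    rw [hze _ (h3 x hx).1, (h3 x hx).2.1]

/-- the function in the coordinates `(x, θ)` -/
def evx (f : WB) (tt : ℝ → ℝ) (p : ℝ × ℝ) : ℂ := ev f (tt p.1) p.2

namespace Ctr.Seg
variable {Γ : Ctr} {tt : ℝ → ℝ} {U : Set ℝ} {j : EJ} {a b b' : WB}

theorem continuousAt (hs : Γ.Seg tt U) {x : ℝ} (hx : x ∈ U) : ContinuousAt tt x :=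
  let ⟨_, h, _⟩ := hs.der x hx; h.continuousAt

theorem continuousAt_evx (hs : Γ.Seg tt U) (f : WB) {p : ℝ × ℝ} (hp : p.1 ∈ U) :
    ContinuousAt (evx f tt) p := by
  have h : ContinuousAt (fun v : ℝ × ℝ => (tt v.1, v.2)) p :=
    ((hs.continuousAt hp).comp continuousAt_fst).prodMk continuousAt_snd
  have h2 : ContinuousAt (fun v : ℝ × ℝ => ev2 f (tt v.1, v.2)) p :=
    (ev2 f).continuous.continuousAt.comp h
  simp only [ev2_apply] at h2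
  unfold evx
  exact h2

theorem ev_mem (hs : Γ.Seg tt U) {p : ℝ × ℝ} (hp : p.1 ∈ U) : ∀ᶠ v in 𝓝 p, v.1 ∈ U :=
  continuousAt_fst.preimage_mem_nhds (hs.isOpen.mem_nhds hp)

theorem hasDerivAt_x (hs : Γ.Seg tt U) (h : ∀ m, Γ.Der (a.c m) (b.c m)) {x : ℝ} (hx : x ∈ U)
    (θ : ℝ) : HasDerivAt (fun x => ev a (tt x) θ) (2 * x * ev b (tt x) θ) x := by
  obtain ⟨τ, h1, h2⟩ := hs.der x hx
  refine ((hasDerivAt_ev_t h (tt x) θ).scomp x h1).congr_deriv ?_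
  rw [← h2, Complex.real_smul]
  ring

theorem hasFDerivAt (hs : Γ.Seg tt U) (h : ∀ m, Γ.Der (a.c m) (b.c m))
    (h' : ∀ m : ℤ, b'.c m = ((m : ℂ) * I) • a.c m) {p : ℝ × ℝ} (hp : p.1 ∈ U) :
    HasFDerivAt (evx a tt) (d2 (2 * p.1 * evx b tt p, evx b' tt p)) p :=
  (hasStrictFDerivAt_of_partials (F := evx a tt) (F1 := fun p => 2 * p.1 * evx b tt p)
    (F2 := evx b' tt) ((hs.ev_mem hp).mono fun v hv => hs.hasDerivAt_x h hv v.2)
    (Eventually.of_forall fun v => hasDerivAt_ev_theta h' (tt v.1) v.2)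
    (ContinuousAt.mul (Continuous.continuousAt (by fun_prop)) (hs.continuousAt_evx b hp))
    (hs.continuousAt_evx b' hp)).hasFDerivAt

theorem contDiffAt_one (hs : Γ.Seg tt U) (h : ∀ m, Γ.Der (a.c m) (b.c m))
    (h' : ∀ m : ℤ, b'.c m = ((m : ℂ) * I) • a.c m) {p : ℝ × ℝ} (hp : p.1 ∈ U) :
    ContDiffAt ℝ 1 (evx a tt) p := by
  refine contDiffAt_one_iff.2 ⟨fun p => d2 (2 * p.1 * evx b tt p, evx b' tt p), {v | v.1 ∈ U},
    hs.ev_mem hp, fun v hv => ContinuousAt.continuousWithinAt ?_, fun v hv => hs.hasFDerivAt h h' hv⟩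
  exact d2.continuous.continuousAt.comp
    ((ContinuousAt.mul (Continuous.continuousAt (by fun_prop))
      (hs.continuousAt_evx b hv)).prodMk (hs.continuousAt_evx b' hv))

/-- `Y_x = 2 x P` -/
theorem hasDerivAt_y (hs : Γ.Seg tt U) (h : Γ.IsJet j) {x : ℝ} (hx : x ∈ U) (θ : ℝ) :
    HasDerivAt (fun x => ev j.y (tt x) θ) (2 * x * ev (Γ.jP j) (tt x) θ) x :=
  hs.hasDerivAt_x h.der_y hx θ

/-- `Y_xx = 4 x² Q + 2 P` -/
theorem hasDerivAt_yx (hs : Γ.Seg tt U) (h : Γ.IsJet j) {x : ℝ} (hx : x ∈ U) (θ : ℝ) :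
    HasDerivAt (fun x : ℝ => 2 * x * ev (Γ.jP j) (tt x) θ)
      (4 * x ^ 2 * ev (Γ.jQ j) (tt x) θ + 2 * ev (Γ.jP j) (tt x) θ) x := by
  refine (((hasDerivAt_id x).ofReal_comp.const_mul 2).mul
    (hs.hasDerivAt_x h.der_P hx θ)).congr_deriv ?_
  simp only [id, Complex.ofReal_one]
  ring

/-- `Y_θx = 2 x pt` -/
theorem hasDerivAt_yt (hs : Γ.Seg tt U) (h : Γ.IsJet j) {x : ℝ} (hx : x ∈ U) (θ : ℝ) :
    HasDerivAt (fun x => ev j.yt (tt x) θ) (2 * x * ev j.pt (tt x) θ) x :=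
  hs.hasDerivAt_x h.der_yt hx θ

theorem hasFDerivAt_y (hs : Γ.Seg tt U) (h : Γ.IsJet j) {p : ℝ × ℝ} (hp : p.1 ∈ U) :
    HasFDerivAt (evx j.y tt) (d2 (2 * p.1 * evx (Γ.jP j) tt p, evx j.yt tt p)) p :=
  hs.hasFDerivAt h.der_y j.c_yt hp

theorem hasFDerivAt_yt (hs : Γ.Seg tt U) (h : Γ.IsJet j) {p : ℝ × ℝ} (hp : p.1 ∈ U) :
    HasFDerivAt (evx j.yt tt) (d2 (2 * p.1 * evx j.pt tt p, evx j.ytt tt p)) p :=
  hs.hasFDerivAt h.der_yt j.c_ytt hp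

theorem hasFDerivAt_P (hs : Γ.Seg tt U) (h : Γ.IsJet j) {p : ℝ × ℝ} (hp : p.1 ∈ U) :
    HasFDerivAt (evx (Γ.jP j) tt) (d2 (2 * p.1 * evx (Γ.jQ j) tt p, evx j.pt tt p)) p :=
  hs.hasFDerivAt h.der_P h.c_pt hp

theorem hasFDerivAt_yx (hs : Γ.Seg tt U) (h : Γ.IsJet j) {p : ℝ × ℝ} (hp : p.1 ∈ U) :
    HasFDerivAt (fun p : ℝ × ℝ => 2 * p.1 * evx (Γ.jP j) tt p)
      (d2 (4 * p.1 ^ 2 * evx (Γ.jQ j) tt p + 2 * evx (Γ.jP j) tt p, 2 * p.1 * evx j.pt tt p)) p := by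
  have h1 : HasFDerivAt (fun p : ℝ × ℝ => ((p.1 : ℝ) : ℂ))
      (Complex.ofRealCLM.comp (ContinuousLinearMap.fst ℝ ℝ ℝ)) p :=
    (Complex.ofRealCLM.comp (ContinuousLinearMap.fst ℝ ℝ ℝ)).hasFDerivAt
  refine ((h1.const_mul 2).mul (hs.hasFDerivAt_P h hp)).congr_fderiv ?_
  ext <;> simp
  ring

theorem contDiffAt_two (hs : Γ.Seg tt U) (h : Γ.IsJet j) {p : ℝ × ℝ} (hp : p.1 ∈ U) :
    ContDiffAt ℝ 2 (evx j.y tt) p := by
  refine (contDiffAt_succ_iff_hasFDerivAt (n := 1)).2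
    ⟨fun p => d2 (2 * p.1 * evx (Γ.jP j) tt p, evx j.yt tt p),
      ⟨{v | v.1 ∈ U}, hs.ev_mem hp, fun v hv => hs.hasFDerivAt_y h hv⟩, ?_⟩
  refine d2.contDiff.contDiffAt.comp p (ContDiffAt.prodMk (ContDiffAt.mul ?_ ?_) ?_)
  · exact contDiffAt_const.mul (Complex.ofRealCLM.contDiff.comp contDiff_fst).contDiffAt
  · exact hs.contDiffAt_one h.der_P h.c_pt hp
  · exact hs.contDiffAt_one h.der_yt j.c_ytt hp

theorem contDiffOn_two (hs : Γ.Seg tt U) (h : Γ.IsJet j) :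
    ContDiffOn ℝ 2 (evx j.y tt) (U ×ˢ univ) := fun _ hp =>
  (hs.contDiffAt_two h hp.1).contDiffWithinAt

theorem fderiv_y (hs : Γ.Seg tt U) (h : Γ.IsJet j) {p : ℝ × ℝ} (hp : p.1 ∈ U) :
    fderiv ℝ (evx j.y tt) p = d2 (2 * p.1 * evx (Γ.jP j) tt p, evx j.yt tt p) :=
  (hs.hasFDerivAt_y h hp).fderiv

/-- the second derivative -/
theorem fderiv_fderiv_y (hs : Γ.Seg tt U) (h : Γ.IsJet j) {p : ℝ × ℝ} (hp : p.1 ∈ U)
    (v w : ℝ × ℝ) : fderiv ℝ (fderiv ℝ (evx j.y tt)) p v w =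
      v.1 * w.1 * (4 * p.1 ^ 2 * evx (Γ.jQ j) tt p + 2 * evx (Γ.jP j) tt p) +
        (v.1 * w.2 + v.2 * w.1) * (2 * p.1 * evx j.pt tt p) + v.2 * w.2 * evx j.ytt tt p := by
  have h1 := d2.hasFDerivAt.comp p ((hs.hasFDerivAt_yx h hp).prodMk (hs.hasFDerivAt_yt h hp))
  have h2 := h1.congr_of_eventuallyEq (f₁ := fderiv ℝ (evx j.y tt))
    ((hs.ev_mem hp).mono fun v hv => hs.fderiv_y h hv)
  rw [h2.fderiv]
  simp
  ring

end Ctr.Seg

/-! ### Bounds -/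

section bounds
variable (Γ : Ctr) (j : EJ) (t θ x : ℝ)

theorem norm_ev_y_le : ‖ev j.y t θ‖ ≤ ‖j‖ := (norm_ev_le _ _ _).trans j.norm_y_le
theorem norm_ev_yt_le : ‖ev j.yt t θ‖ ≤ ‖j‖ := (norm_ev_le _ _ _).trans j.norm_yt_le
theorem norm_ev_ytt_le : ‖ev j.ytt t θ‖ ≤ ‖j‖ := (norm_ev_le _ _ _).trans j.norm_ytt_le
theorem norm_ev_op_le : ‖ev j.op t θ‖ ≤ ‖j‖ := (norm_ev_le _ _ _).trans j.norm_op_le
theorem norm_ev_oq_le : ‖ev j.oq t θ‖ ≤ ‖j‖ := (norm_ev_le _ _ _).trans j.norm_oq_le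
theorem norm_ev_pt_le : ‖ev j.pt t θ‖ ≤ ‖j‖ := (norm_ev_le _ _ _).trans j.norm_pt_le

theorem norm_yx_le : ‖2 * x * ev (Γ.jP j) t θ‖ ≤ 2 * |x| * ‖Γ.io t‖ * ‖j‖ := by
  rw [norm_mul, norm_mul, Complex.norm_real, Real.norm_eq_abs, Complex.norm_two, mul_assoc (2 * _)]
  exact mul_le_mul_of_nonneg_left (Γ.norm_ev_jP_le j t θ) (by positivity)

theorem norm_yxx_le : ‖4 * x ^ 2 * ev (Γ.jQ j) t θ + 2 * ev (Γ.jP j) t θ‖ ≤
    (4 * x ^ 2 + 2) * ‖Γ.io t‖ * ‖j‖ := by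
  refine (norm_add_le _ _).trans ?_
  rw [norm_mul, norm_mul, norm_mul, norm_pow, Complex.norm_real, Real.norm_eq_abs, sq_abs,
    Complex.norm_two, Complex.norm_ofNat]
  have h1 := Γ.norm_ev_jP_le j t θ
  have h2 := mul_le_mul_of_nonneg_left (Γ.norm_ev_jQ_le j t θ) (by positivity : 0 ≤ 4 * x ^ 2)
  nlinarith

theorem norm_yxt_le : ‖2 * x * ev j.pt t θ‖ ≤ 2 * |x| * ‖j‖ := by
  rw [norm_mul, norm_mul, Complex.norm_real, Real.norm_eq_abs, Complex.norm_two]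
  exact mul_le_mul_of_nonneg_left (norm_ev_pt_le j t θ) (by positivity)

end bounds

end Vale.Agent.P218N.End
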