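import Vale.Agent.P218N.End.Bas

/-! The linear solver on the ends: existence, representation, linearity. -/

open Filter Topology Metric Set Complex
open scoped BoundedContinuousFunction

noncomputable section

namespace Vale.Agent.P218N.End

namespace Ctr
variable {Γ : Ctr} {μ : ℤ → ℝ} {s : ℤ → Icc (0 : ℝ) 1} {φ : BC} {c c₁ K : ℝ}

theorem norm_le_of_iW (φ : BC) (r : Icc (0 : ℝ) 1) (x : BC) :
    ‖x‖ ≤ ‖Γ.Wt φ r‖ * ‖Γ.iW φ r * x‖ := by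
  conv_lhs => rw [← one_mul x, ← Wt_mul_iW (Γ := Γ) φ r, mul_assoc]
  exact norm_mul_le _ _

theorem opNorm_le_of_iW {T : BC →L[ℂ] BC} {C : ℝ} (hC : 0 ≤ C) (r : Icc (0 : ℝ) 1)
    (h : ∀ f, ‖Γ.iW φ r * T f‖ ≤ C * ‖Γ.iW φ r * f‖) : ‖T‖ ≤ ‖Γ.Wt φ r‖ * C * ‖Γ.iW φ r‖ :=
  ContinuousLinearMap.opNorm_le_bound _ (by positivity) fun f =>
    calc ‖T f‖ ≤ ‖Γ.Wt φ r‖ * (C * (‖Γ.iW φ r‖ * ‖f‖)) := by
          refine (norm_le_of_iW (Γ := Γ) φ r _).trans (mul_le_mul_of_nonneg_left ((h f).trans ?_)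
            (norm_nonneg _))
          exact mul_le_mul_of_nonneg_left (norm_mul_le _ _) hC
      _ = _ := by ring

namespace Good

theorem K0 (h : Γ.Good μ s φ c c₁ K) : 0 < K := by
  have := (h.sm 0).1
  simpa [br] using this

theorem nPi (h : Γ.Good μ s φ c c₁ K) (m : ℤ) :
    ‖Γ.Pi (μ m)‖ ≤ ‖Γ.Wt φ p0‖ * (1 / (2 * c₁)) * ‖Γ.iW φ p0‖ :=
  opNorm_le_of_iW (by have := h.c₁0; positivity) p0 (norm_Pi h.ok (h.fm m) h.c₁0 p0)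

theorem nhPi (h : Γ.Good μ s φ c c₁ K) (m : ℤ) :
    ‖(ContinuousLinearMap.id ℂ ℂ).smulRight (Γ.hPi (μ m))‖ ≤ ‖Γ.Wt φ p0‖ * ‖Γ.iW φ p0‖ :=
  (norm_smulRight_le _).trans ((norm_le_of_iW (Γ := Γ) φ p0 _).trans (mul_le_mul_of_nonneg_left
    ((norm_hPi h.ok (h.fm m) h.c₁0 p0).trans ((Γ.iW φ p0).norm_coe_le_norm _)) (norm_nonneg _)))

theorem nYs (h : Γ.Good μ s φ c c₁ K) (m : ℤ) :
    ‖((br m : ℝ) : ℂ) • Γ.Ys (μ m) (s m)‖ ≤ ‖Γ.Wt φ p0‖ * K * ‖Γ.iW φ p0‖ := by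
  have h1 := opNorm_le_of_iW (h.sm m).1.le p0 (norm_Ys h.ok (h.sm m) p0)
  have h2 := br_pos m
  rw [norm_smul, Complex.norm_real, Real.norm_of_nonneg h2.le]
  refine (mul_le_mul_of_nonneg_left h1 h2.le).trans_eq ?_
  field_simp

theorem nhY (h : Γ.Good μ s φ c c₁ K) (m : ℤ) :
    ‖(ContinuousLinearMap.id ℂ ℂ).smulRight (Γ.hY (μ m) (s m))‖ ≤ ‖Γ.Wt φ p0‖ * ‖Γ.iW φ p0‖ :=
  (norm_smulRight_le _).trans ((norm_le_of_iW (Γ := Γ) φ p0 _).trans (mul_le_mul_of_nonneg_left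
    ((norm_hY h.ok (h.sm m) p0).trans ((Γ.iW φ p0).norm_coe_le_norm _)) (norm_nonneg _)))

theorem nmu (h : Γ.Good μ s φ c c₁ K) (m : ℤ) : ‖(μ m : ℂ) * ((br m : ℝ) : ℂ)⁻¹‖ ≤ K := by
  rw [norm_mul, norm_inv_br, Complex.norm_real, Real.norm_eq_abs, mul_inv_le_iff₀ (br_pos m)]
  exact h.mu_le m

theorem nmu2 (h : Γ.Good μ s φ c c₁ K) (m : ℤ) :
    ‖(μ m : ℂ) / 2 * ((br m : ℝ) : ℂ)⁻¹‖ ≤ K / 2 := by
  rw [div_mul_eq_mul_div, norm_div, Complex.norm_ofNat]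
  linarith [h.nmu m]

theorem nee (h : Γ.Good μ s φ c c₁ K) (m : ℤ) :
    ‖((br m : ℝ) : ℂ)⁻¹ • Γ.ee (μ m)‖ ≤ 8 / c * ‖Γ.lo‖ * K := by
  have h0 := (h.adm m).c0
  rw [norm_smul, norm_inv_br, inv_mul_le_iff₀ (br_pos m)]
  refine (h.adm m).norm_ee.trans ?_
  calc _ ≤ 8 / c * ‖Γ.lo‖ * (K * br m) := by gcongr; exact h.mu_le m
    _ = _ := by ring

/-- the symbol of `∂_θ ∂_ζ`, multiplied by a function of size `b √|Ω|` -/
theorem npt (h : Γ.Good μ s φ c c₁ K) {σ : BC} {b : ℝ} (hb : 0 ≤ b)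
    (hσ : ∀ t, ‖σ t‖ ^ 2 * ‖Γ.io t‖ ≤ b ^ 2) (m : ℤ) :
    ‖σ * (((m : ℂ) * I) • (Γ.io * Γ.il (μ m)))‖ ≤ b * √(66 * K) := norm_BC_le fun t => by
  have hK := h.K0
  refine le_of_sq_le_sq ?_ (by positivity)
  rw [mul_pow, Real.sq_sqrt (by positivity)]
  have a1 : ‖Γ.il (μ m) t‖ ≤ 8 := ((Γ.il _).norm_coe_le_norm t).trans (h.adm m).norm_il
  have a2 : ‖Γ.io t‖ ≤ 1 := (Γ.io.norm_coe_le_norm t).trans h.io_le
  have a3 : |μ m| * ‖Γ.io t‖ * ‖Γ.il (μ m) t‖ ^ 2 ≤ 2 := by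
    have b1 := norm_le_la_sq (Γ.kk (μ m) t)
    rw [← (h.adm m).laB_apply] at b1
    have b2 : ‖Γ.kk (μ m) t‖ = |μ m| / 2 * ‖Γ.io t‖ := by simp [kk_apply]
    have b3 : ‖Γ.laB (μ m) t‖ * ‖Γ.il (μ m) t‖ = 1 := by rw [← norm_mul, (h.adm m).la_il, norm_one]
    calc _ = 2 * (‖Γ.kk (μ m) t‖ * ‖Γ.il (μ m) t‖ ^ 2) := by rw [b2]; ring
      _ ≤ 2 * (‖Γ.laB (μ m) t‖ ^ 2 * ‖Γ.il (μ m) t‖ ^ 2) := by gcongr
      _ = 2 := by rw [← mul_pow, b3]; norm_num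
  have a4 : ‖Γ.io t‖ * ‖Γ.il (μ m) t‖ ^ 2 ≤ 1 * 8 ^ 2 := by gcongr
  have a5 : (m : ℝ) ^ 2 * (‖Γ.io t‖ * ‖Γ.il (μ m) t‖ ^ 2) ≤ 66 * K := by
    calc _ ≤ K * (|μ m| + 1) * (‖Γ.io t‖ * ‖Γ.il (μ m) t‖ ^ 2) := by gcongr; exact h.le_mu m
      _ ≤ _ := by nlinarith
  simp only [BoundedContinuousFunction.mul_apply, BoundedContinuousFunction.smul_apply, smul_eq_mul,
    norm_mul, Complex.norm_I, Complex.norm_intCast, mul_one, mul_pow, sq_abs]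
  calc _ = ‖σ t‖ ^ 2 * ‖Γ.io t‖ * ((m : ℝ) ^ 2 * (‖Γ.io t‖ * ‖Γ.il (μ m) t‖ ^ 2)) := by ring
    _ ≤ _ := by gcongr; exact hσ t

theorem npt1 (h : Γ.Good μ s φ c c₁ K) (m : ℤ) :
    ‖((m : ℂ) * I) • (Γ.io * Γ.il (μ m))‖ ≤ √(66 * K) := by
  simpa using h.npt (σ := 1) zero_le_one
    (fun t => by simpa using (Γ.io.norm_coe_le_norm t).trans h.io_le) m

theorem nOn (h : Γ.Good μ s φ c c₁ K) (m : ℤ) :
    ‖((m : ℂ) * I)⁻¹ • (Γ.Om * Γ.nuB (μ m))‖ ≤ √(‖Γ.Om‖ * K) := norm_BC_le fun t => by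
  have hK := h.K0
  rcases eq_or_ne m 0 with rfl | hm
  · simp; positivity
  refine Real.le_sqrt_of_sq_le ?_
  have h1 : Γ.Om t * Γ.io t = 1 := congrArg (fun f : BC => f t) h.ok.inv
  have h2 : ‖Γ.Om t‖ * ‖Γ.io t‖ = 1 := by rw [← norm_mul, h1, norm_one]
  have h3 : ‖Γ.nuB (μ m) t‖ ^ 2 ≤ |μ m| / 2 * ‖Γ.io t‖ := by
    have b1 := congrArg norm ((h.adm m).nu_la t)
    have b2 := norm_nu_le (Γ.kk (μ m) t)
    rw [← (h.adm m).laB_apply, ← (h.adm m).nuB_apply] at b2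
    simp only [norm_mul, norm_div, Complex.norm_real, Real.norm_eq_abs, Complex.norm_ofNat] at b1
    nlinarith [norm_nonneg (Γ.nuB (μ m) t)]
  have h4 : (1 : ℝ) ≤ (m : ℝ) ^ 2 := by
    have : (1 : ℤ) ≤ m ^ 2 := by nlinarith [Int.one_le_abs hm, sq_abs m]
    exact_mod_cast this
  have h5 : |μ m| / 2 ≤ K * (m : ℝ) ^ 2 := by
    have := h.mu_le m
    unfold br at this
    nlinarith
  simp only [BoundedContinuousFunction.mul_apply, BoundedContinuousFunction.smul_apply, smul_eq_mul,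
    norm_mul, norm_inv, Complex.norm_I, Complex.norm_intCast, mul_one, mul_pow, inv_pow, sq_abs]
  rw [inv_mul_le_iff₀ (by positivity)]
  calc _ ≤ ‖Γ.Om t‖ ^ 2 * (K * (m : ℝ) ^ 2 * ‖Γ.io t‖) := by
        gcongr
        exact h3.trans (by gcongr)
    _ = (m : ℝ) ^ 2 * (‖Γ.Om t‖ * K) * (‖Γ.Om t‖ * ‖Γ.io t‖) := by ring
    _ ≤ _ := by rw [h2, mul_one]; gcongr; exact Γ.Om.norm_coe_le_norm t

/-! ### Coefficients -/

theorem c_PiW (h : Γ.Good μ s φ c c₁ K) (f : WB) (m : ℤ) :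
    (Γ.PiW μ f).c m = Γ.Pi (μ m) (f.c m) := W.c_diag h.nPi f m
theorem c_PiD (h : Γ.Good μ s φ c c₁ K) (d : WD) (m : ℤ) :
    (Γ.PiD μ d).c m = d.c m • Γ.hPi (μ m) := W.c_diag h.nhPi d m
theorem c_YW (h : Γ.Good μ s φ c c₁ K) (f : WB) (m : ℤ) :
    (Γ.YW μ s f).c m = ((br m : ℝ) : ℂ) • Γ.Ys (μ m) (s m) (f.c m) := W.c_diag h.nYs f m
theorem c_YD (h : Γ.Good μ s φ c c₁ K) (d : WD) (m : ℤ) :
    (Γ.YD μ s d).c m = d.c m • Γ.hY (μ m) (s m) := W.c_diag h.nhY d m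
theorem c_ilW (h : Γ.Good μ s φ c c₁ K) (f : WB) (m : ℤ) :
    (Γ.ilW μ f).c m = Γ.il (μ m) * f.c m :=
  W.c_diag (fun m => (norm_mulL_le _).trans (h.adm m).norm_il) f m
theorem c_ptW (h : Γ.Good μ s φ c c₁ K) (f : WB) (m : ℤ) :
    (Γ.ptW μ f).c m = ((m : ℂ) * I) • (Γ.io * Γ.il (μ m)) * f.c m :=
  W.c_diag (fun m => (norm_mulL_le _).trans (h.npt1 m)) f m
theorem c_Err (h : Γ.Good μ s φ c c₁ K) (f : WB) (m : ℤ) :
    (Γ.Err μ f).c m = ((br m : ℝ) : ℂ)⁻¹ • Γ.ee (μ m) * f.c m :=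
  W.c_diag (fun m => (norm_mulL_le _).trans (h.nee m)) f m

theorem c_Mod (h : Γ.Good μ s φ c c₁ K) (j : EJ) (m : ℤ) : (Mod μ j).c m =
    (2 : ℂ) • j.oq.c m - (1 / 2 : ℂ) • j.op.c m - (μ m : ℂ) • j.y.c m := by
  simp only [Mod, W.c_sub, W.c_smul, c_mult h.nmu, EJ.c_y, smul_smul]

theorem c_Err' (h : Γ.Good μ s φ c c₁ K) (j : EJ) (m : ℤ) :
    (Γ.Err μ j.y2).c m = Γ.ee (μ m) * j.y.c m := by
  rw [h.c_Err, EJ.c_y, smul_mul_assoc, mul_smul_comm]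

theorem c_piJ (h : Γ.Good μ s φ c c₁ K) {j : EJ} (hj : Γ.IsJet j) (m : ℤ) :
    (Γ.piJ μ j).c m = Γ.laB (μ m) * j.op.c m + ((μ m : ℂ) / 2) • j.y.c m := by
  have e1 := W.c_diag (T := fun m : ℤ => if m = 0 then ContinuousLinearMap.mul ℂ BC (Γ.nuB (μ m))
    else 0) (C := ‖Γ.nuB (μ 0)‖) (fun m => by
      split_ifs with a
      · rw [a]; exact norm_mulL_le _
      · simp) j.op m
  have e2 := W.c_diag (T := fun m : ℤ => ContinuousLinearMap.mul ℂ BC (((m : ℂ) * I)⁻¹ •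
    (Γ.Om * Γ.nuB (μ m)))) (fun m => (norm_mulL_le _).trans (h.nOn m)) j.pt m
  simp only [piJ, W.c_add, W.c_smul, e1, e2, c_mult h.nmu2, (hj m).2.2, EJ.c_y, smul_smul]
  congr 1
  ext t
  have h1 : Γ.Om t * Γ.io t = 1 := congrArg (fun f : BC => f t) h.ok.inv
  have h2 := (h.adm m).la_eq t
  split_ifs with a
  · subst a
    simp only [ContinuousLinearMap.mul_apply', BoundedContinuousFunction.add_apply,
      BoundedContinuousFunction.smul_apply, BoundedContinuousFunction.mul_apply, smul_eq_mul, h2]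
    simp
    ring
  · have h3 : ((m : ℂ) * I)⁻¹ * (m * I) = 1 :=
      inv_mul_cancel₀ (mul_ne_zero (Int.cast_ne_zero.2 a) Complex.I_ne_zero)
    simp only [ContinuousLinearMap.mul_apply', BoundedContinuousFunction.add_apply,
      BoundedContinuousFunction.smul_apply, BoundedContinuousFunction.mul_apply, smul_eq_mul, h2,
      zero_apply, BoundedContinuousFunction.coe_zero, Pi.zero_apply]
    linear_combination (Γ.nuB (μ m) t * j.op.c m t * (Γ.Om t * Γ.io t)) * h3 +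
      (Γ.nuB (μ m) t * j.op.c m t) * h1

theorem c_jetOf (h : Γ.Good μ s φ c c₁ K) (f π y2 : WB) (m : ℤ) :
    (Γ.jetOf μ f π y2).op.c m = Γ.OP (μ m) (π.c m) ((Γ.jetOf μ f π y2).y.c m) ∧
    (Γ.jetOf μ f π y2).oq.c m = Γ.OQ (μ m) (f.c m) (π.c m) ((Γ.jetOf μ f π y2).y.c m) ∧
    (Γ.jetOf μ f π y2).pt.c m = ((m : ℂ) * I) • (Γ.io * (Γ.jetOf μ f π y2).op.c m) := by
  simp only [EJ.c_y, jetOf, EJ.op, EJ.oq, EJ.pt, EJ.y2, W.c_add, W.c_sub, W.c_smul, h.c_ilW,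
    h.c_ptW, h.c_Err, c_mult h.nmu2, OP, OQ, smul_smul, smul_mul_assoc, mul_smul_comm, mul_assoc,
    and_self]

theorem c_solve_y (h : Γ.Good μ s φ c c₁ K) (f : WB) (d ω : WD) (m : ℤ) :
    (Γ.solve μ s f d ω).y.c m = (((br m : ℝ) : ℂ)⁻¹ * d.c m) • Γ.hY (μ m) (s m) +
      Γ.Ys (μ m) (s m) (ω.c m • Γ.hPi (μ m) + Γ.Pi (μ m) (f.c m)) := by
  simp only [EJ.c_y, solve, jetOf, EJ.y2, W.c_add, h.c_YD, h.c_YW, h.c_PiD, h.c_PiW, smul_add,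
    smul_smul, inv_mul_cancel₀ (br_ne m), one_smul]

theorem io_OP (h : Γ.Good μ s φ c c₁ K) (m : ℤ) (π y : BC) :
    Γ.io * Γ.OP (μ m) π y = Γ.PP (μ m) π y := by
  rw [← (h.adm m).Om_PP h.ok, ← mul_assoc, mul_comm Γ.io, h.ok.inv, one_mul]

/-- the solver produces jets -/
theorem isJet_solve (h : Γ.Good μ s φ c c₁ K) (f : WB) (d ω : WD) :
    Γ.IsJet (Γ.solve μ s f d ω) := fun m => by
  obtain ⟨h1, h2, h3⟩ := h.c_jetOf f (Γ.PiD μ ω + Γ.PiW μ f)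
    (Γ.YD μ s d + Γ.YW μ s (Γ.PiD μ ω + Γ.PiW μ f)) m
  have h4 := (h.adm m).solves h.ok (s m) (f.c m) (ω.c m) (((br m : ℝ) : ℂ)⁻¹ * d.c m)
  rw [← h.c_solve_y] at h4
  rw [W.c_add, h.c_PiD, h.c_PiW] at h1 h2
  refine ⟨?_, ?_, h3⟩
  · unfold solve; rw [h1, h.io_OP]; exact h4.1
  · unfold solve; rw [h1, h2, h.io_OP]; exact h4.2

/-- the model equation -/
theorem Mod_solve (h : Γ.Good μ s φ c c₁ K) (f : WB) (d ω : WD) :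
    Mod μ (Γ.solve μ s f d ω) = f - Γ.Err μ (Γ.solve μ s f d ω).y2 := by
  ext1 m
  obtain ⟨h1, h2, -⟩ := h.c_jetOf f (Γ.PiD μ ω + Γ.PiW μ f)
    (Γ.YD μ s d + Γ.YW μ s (Γ.PiD μ ω + Γ.PiW μ f)) m
  rw [h.c_Mod, W.c_sub, h.c_Err']
  unfold solve
  rw [h1, h2]
  exact model _ _ _

theorem slowD_solve (h : Γ.Good μ s φ c c₁ K) (f : WB) (d ω : WD) :
    slowD s (Γ.solve μ s f d ω).y2 = d := by
  ext1 m
  rw [c_slowD, EJ.c_y2, h.c_solve_y]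
  simp [hY, Ys, mul_inv_cancel_left₀ (br_ne m)]

theorem piJ_solve (h : Γ.Good μ s φ c c₁ K) (f : WB) (d ω : WD) :
    Γ.piJ μ (Γ.solve μ s f d ω) = Γ.PiD μ ω + Γ.PiW μ f := by
  ext1 m
  rw [h.c_piJ (h.isJet_solve f d ω)]
  obtain ⟨h1, -, -⟩ := h.c_jetOf f (Γ.PiD μ ω + Γ.PiW μ f)
    (Γ.YD μ s d + Γ.YW μ s (Γ.PiD μ ω + Γ.PiW μ f)) m
  unfold solve
  rw [h1]
  ext t
  simp only [OP, BoundedContinuousFunction.add_apply, BoundedContinuousFunction.sub_apply,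
    BoundedContinuousFunction.smul_apply, BoundedContinuousFunction.mul_apply, smul_eq_mul]
  linear_combination ((Γ.PiD μ ω + Γ.PiW μ f).c m t - (μ m : ℂ) / 2 * (Γ.jetOf μ f
    (Γ.PiD μ ω + Γ.PiW μ f) (Γ.YD μ s d + Γ.YW μ s (Γ.PiD μ ω + Γ.PiW μ f))).y.c m t) *
    (h.adm m).la_il t

theorem tr_piJ_solve (h : Γ.Good μ s φ c c₁ K) (f : WB) (d ω : WD) :
    tr 1 (Γ.piJ μ (Γ.solve μ s f d ω)) = ω := by
  ext1 m
  rw [h.piJ_solve, c_tr, W.c_add, h.c_PiD, h.c_PiW]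
  have e1 : Γ.hPi (μ m) 1 = 1 := by
    rw [hPi, ex_apply, show (1 : ℝ) = p1 from rfl, V_self, Complex.exp_zero]
  have e2 : Γ.Pi (μ m) (f.c m) 1 = 0 := Sol_self p1 _ _
  simp [e1, e2]

/-- **representation** of all jets by the solver -/
theorem repr (h : Γ.Good μ s φ c c₁ K) {j : EJ} (hj : Γ.IsJet j) :
    j = Γ.solve μ s (Mod μ j + Γ.Err μ j.y2) (slowD s j.y2) (tr 1 (Γ.piJ μ j)) := by
  have hO : ∀ x : BC, Γ.Om * (Γ.io * x) = x := fun x => by rw [← mul_assoc, h.ok.inv, one_mul]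
  have key : ∀ m, (Γ.piJ μ j).c m = (Γ.PiD μ (tr 1 (Γ.piJ μ j)) +
      Γ.PiW μ (Mod μ j + Γ.Err μ j.y2)).c m ∧
      j.y.c m = j.y.c m (s m) • Γ.hY (μ m) (s m) + Γ.Ys (μ m) (s m) ((Γ.piJ μ j).c m) ∧
      j.op.c m = Γ.OP (μ m) ((Γ.piJ μ j).c m) (j.y.c m) ∧
      j.oq.c m = Γ.OQ (μ m) ((Mod μ j + Γ.Err μ j.y2).c m) ((Γ.piJ μ j).c m) (j.y.c m) := by
    intro m
    obtain ⟨a1, a2, a3, a4⟩ := (h.adm m).repr h.ok (s m) (hj m).1 (hj m).2.1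
      (f := (Mod μ j + Γ.Err μ j.y2).c m) (π := (Γ.piJ μ j).c m) (by
        rw [W.c_add, h.c_Mod, h.c_Err', mul_sub, mul_smul_comm, mul_smul_comm, hO, hO]) (by
        rw [h.c_piJ hj]
        ext t
        have h1 : Γ.Om t * Γ.io t = 1 := congrArg (fun f : BC => f t) h.ok.inv
        simp only [BoundedContinuousFunction.add_apply, BoundedContinuousFunction.smul_apply,
          BoundedContinuousFunction.mul_apply, smul_eq_mul]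
        linear_combination (-(Γ.laB (μ m) t * j.op.c m t) - (μ m : ℂ) / 2 * j.y.c m t) * h1 -
          (Γ.Om t * j.y.c m t) * (h.adm m).nu_la t)
    refine ⟨?_, a2, ?_, ?_⟩
    · rw [W.c_add, h.c_PiD, h.c_PiW, c_tr]; exact a1
    · rw [← (h.adm m).Om_PP h.ok, ← a3, hO]
    · rw [← a4, hO]
  have e1 : Γ.PiD μ (tr 1 (Γ.piJ μ j)) + Γ.PiW μ (Mod μ j + Γ.Err μ j.y2) = Γ.piJ μ j :=
    W.ext fun m => (key m).1.symm
  have e2 : Γ.YD μ s (slowD s j.y2) + Γ.YW μ s (Γ.piJ μ j) = j.y2 := by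
    ext1 m
    rw [W.c_add, h.c_YD, h.c_YW, c_slowD, EJ.c_y2]
    conv_rhs => rw [(key m).2.1]
    rw [smul_add, smul_smul]
    rfl
  unfold solve
  rw [e1, e2]
  have e3 : (Γ.jetOf μ (Mod μ j + Γ.Err μ j.y2) (Γ.piJ μ j) j.y2).y = j.y := rfl
  have e4 : j.op = (Γ.jetOf μ (Mod μ j + Γ.Err μ j.y2) (Γ.piJ μ j) j.y2).op := W.ext fun m => by
    rw [(h.c_jetOf _ _ _ m).1, e3]; exact (key m).2.2.1
  refine Prod.ext rfl (Prod.ext e4 (Prod.ext (W.ext fun m => ?_) (W.ext fun m => ?_)))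
  · exact ((key m).2.2.2).trans (by rw [← e3]; exact (h.c_jetOf _ _ _ m).2.1.symm)
  · exact ((hj m).2.2).trans (by rw [e4]; exact (h.c_jetOf _ _ _ m).2.2.symm)

end Good

variable (Γ μ s) in
/-- the solver as a continuous linear map of `(f, d, ω)` -/
def solveL : WB × WD × WD →L[ℂ] EJ :=
  let f : WB × WD × WD →L[ℂ] WB := ContinuousLinearMap.fst ℂ _ _
  let d : WB × WD × WD →L[ℂ] WD := (ContinuousLinearMap.fst ℂ _ _).comp (ContinuousLinearMap.snd ℂ _ _)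
  let ω : WB × WD × WD →L[ℂ] WD := (ContinuousLinearMap.snd ℂ _ _).comp (ContinuousLinearMap.snd ℂ _ _)
  let π := (Γ.PiD μ).comp ω + (Γ.PiW μ).comp f
  let y := (Γ.YD μ s).comp d + (Γ.YW μ s).comp π
  let my := (mult fun m => (μ m : ℂ) / 2 * ((br m : ℝ) : ℂ)⁻¹).comp y
  y.prod (((Γ.ilW μ).comp (π - my)).prod
    (((1 / 4 : ℂ) • (Γ.ilW μ).comp (π - my) + my + (1 / 2 : ℂ) • f -
      (1 / 2 : ℂ) • (Γ.Err μ).comp y).prod ((Γ.ptW μ).comp (π - my))))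

theorem solveL_apply (f : WB) (d ω : WD) : Γ.solveL μ s (f, d, ω) = Γ.solve μ s f d ω := rfl

theorem solve_sub (f f' : WB) (d d' ω ω' : WD) : Γ.solve μ s (f - f') (d - d') (ω - ω') =
    Γ.solve μ s f d ω - Γ.solve μ s f' d' ω' := (Γ.solveL μ s).map_sub (f, d, ω) (f', d', ω')

theorem IsJet.sub {j j' : EJ} (h : Γ.IsJet j) (h' : Γ.IsJet j') : Γ.IsJet (j - j') := fun m => by
  refine ⟨fun t => ?_, fun t => ?_, ?_⟩
  · rw [EJ.sub_y, EJ.sub_op, W.c_sub, W.c_sub, mul_sub]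
    exact HasDerivAt.congr_deriv (((h m).1 t).sub ((h' m).1 t)) (by simp [mul_sub])
  · rw [EJ.sub_oq, EJ.sub_op, W.c_sub, W.c_sub, mul_sub, mul_sub]
    exact HasDerivAt.congr_deriv (((h m).2.1 t).sub ((h' m).2.1 t)) (by simp [mul_sub])
  · rw [EJ.sub_pt, EJ.sub_op, W.c_sub, W.c_sub, (h m).2.2, (h' m).2.2, mul_sub, smul_sub]

end Ctr

end Vale.Agent.P218N.End
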