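import Vale.Agent.P218N.End.Api
import Vale.Agent.P218N.End.EvD
import Vale.Agent.P218N.End.Solver

/-! Basic facts about admissible paths and the fast components of jets. -/

open Filter Topology Metric Set Complex
open scoped ComplexConjugate

noncomputable section

namespace Vale.Agent.P218N.End.AB

open Vale.Agent.P218N.J

variable {c K T : ℝ} {a : ℂ} {γ : Path}

theorem hasDerivAt_re (ho : γ.Ok) (t : ℝ) : HasDerivAt (fun t => (γ.ze t).re) (γ.g t).re t :=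
  Complex.reCLM.hasFDerivAt.comp_hasDerivAt t (ho.der t)

theorem ze_neg (ho : γ.Ok) {t : ℝ} (ht : t ≤ 0) : γ.ze t = γ.ze 0 := by
  have h := intervalIntegral.integral_eq_sub_of_hasDerivAt (a := 0) (b := t) (fun x _ => ho.der x)
    (γ.g.continuous.intervalIntegrable _ _)
  have h1 := ho.spt.V_eq p0 t
  rw [V_apply, show cl t = 0 from max_eq_left ((min_le_left _ _).trans ht)] at h1
  change ∫ x in (0 : ℝ)..0, γ.g x = ∫ x in (0 : ℝ)..t, γ.g x at h1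
  rw [intervalIntegral.integral_same, h] at h1
  exact sub_eq_zero.1 h1.symm

theorem re_g (h : AdmP c K T a γ) (t : ℝ) : c * ‖γ.g t‖ ≤ (γ.g t).re := by
  obtain ⟨u, -, hu, -, hg⟩ := h.dir t
  have h1 := congrArg re hg
  rw [re_ofReal_mul] at h1
  rw [h1, mul_comm]
  exact mul_le_mul_of_nonneg_left hu (norm_nonneg _)

theorem c_le_one (h : AdmP c K T a γ) : c ≤ 1 := by
  obtain ⟨u, h1, hu, -, -⟩ := h.dir 0
  exact hu.trans ((re_le_norm u).trans_eq h1)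

theorem mono_re (hc : 0 < c) (h : AdmP c K T a γ) : Monotone fun t => (γ.ze t).re :=
  monotone_of_deriv_nonneg (fun t => (hasDerivAt_re h.ok t).differentiableAt) fun t => by
    rw [(hasDerivAt_re h.ok t).deriv]
    exact (mul_nonneg hc.le (norm_nonneg _)).trans (re_g h t)

theorem T_le (hc : 0 < c) (h : AdmP c K T a γ) (t : ℝ) : T ≤ (γ.ze t).re := by
  rcases le_total t 0 with ht | ht
  · rw [ze_neg h.ok ht, h.st, ofReal_re]
  · simpa only [h.st, ofReal_re] using mono_re hc h ht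

theorem T_le_norm (hc : 0 < c) (h : AdmP c K T a γ) (t : ℝ) : T ≤ ‖γ.ze t‖ :=
  (T_le hc h t).trans (re_le_norm _)

theorem slit (hc : 0 < c) (hK : 0 < K) (h : AdmP c K T a γ) (t : ℝ) :
    Om a (γ.ze t) ∈ slitPlane := by
  obtain ⟨u, -, hu, hO, -⟩ := h.dir t
  have h1 := mul_pos hc (hK.trans_le (h.big t))
  by_contra hn
  rw [mem_slitPlane_iff, not_or, not_lt, not_not] at hn
  rw [mul_re, hn.2, mul_zero, sub_zero, conj_re] at hO
  nlinarith [mul_nonneg (hc.le.trans hu) (neg_nonneg.2 hn.1)]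

theorem Om_ne (hK : 0 < K) (h : AdmP c K T a γ) (t : ℝ) : Om a (γ.ze t) ≠ 0 :=
  norm_pos_iff.1 (hK.trans_le (h.big t))

theorem ze_ne (hK : 0 < K) (h : AdmP c K T a γ) (t : ℝ) : γ.ze t ≠ 0 :=
  left_ne_zero_of_mul (Om_ne hK h t)

theorem rh_ne (hK : 0 < K) (h : AdmP c K T a γ) (t : ℝ) : rh a (γ.ze t) ≠ 0 :=
  right_ne_zero_of_mul (Om_ne hK h t)

theorem binv_ze (hc : 0 < c) (hT : 0 < T) (h : AdmP c K T a γ) (t : ℝ) :
    binv γ.ze t = (γ.ze t)⁻¹ := binv_apply hT (T_le_norm hc h) t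

theorem rho_apply (a : ℂ) (γ : Path) (t : ℝ) : γ.rho a t = rh a (γ.ze t) := rfl

theorem Om_apply (a : ℂ) (γ : Path) (t : ℝ) : (γ.cyl a).Om t = Om a (γ.ze t) := rfl

theorem Oh_apply (a : ℂ) (γ : Path) (t : ℝ) : γ.Oh a t = a / 2 * γ.ze t := rfl

theorem binv_rho (hK : 0 < K) (h : AdmP c K T a γ) (t : ℝ) :
    binv (γ.rho a) t = (rh a (γ.ze t))⁻¹ := by
  have hp : 0 < ‖γ.ze‖ + 1 := by positivity
  refine binv_apply (c := K / (‖γ.ze‖ + 1)) (by positivity) (fun t => ?_) t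
  have h1 := h.big t
  rw [Om, norm_mul] at h1
  rw [rho_apply, div_le_iff₀ hp]
  nlinarith [γ.ze.norm_coe_le_norm t, norm_nonneg (rh a (γ.ze t))]

theorem hh_apply (hK : 0 < K) (h : AdmP c K T a γ) (t : ℝ) :
    γ.hh a t = a / 2 * (rh a (γ.ze t))⁻¹ := by
  rw [← binv_rho hK h]; rfl

theorem io_apply (hc : 0 < c) (hK : 0 < K) (hT : 0 < T) (h : AdmP c K T a γ) (t : ℝ) :
    (γ.cyl a).io t = (Om a (γ.ze t))⁻¹ := by
  change binv γ.ze t * binv (γ.rho a) t = _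
  rw [binv_ze hc hT h, binv_rho hK h, Om, mul_inv]

theorem lo_apply (hc : 0 < c) (hK : 0 < K) (hT : 0 < T) (h : AdmP c K T a γ) (t : ℝ) :
    (γ.cyl a).lo t = (γ.ze t)⁻¹ + a * (rh a (γ.ze t))⁻¹ := by
  change binv γ.ze t + a * binv (γ.rho a) t = _
  rw [binv_ze hc hT h, binv_rho hK h]

theorem norm_io_le (hc : 0 < c) (hK : 0 < K) (hT : 0 < T) (h : AdmP c K T a γ) :
    ‖(γ.cyl a).io‖ ≤ 1 / K := norm_BC_le fun t => by
  rw [io_apply hc hK hT h, norm_inv, ← one_div]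
  exact one_div_le_one_div_of_le hK (h.big t)

theorem hasDerivAt_rh (ho : γ.Ok) (a : ℂ) (t : ℝ) :
    HasDerivAt (fun t => rh a (γ.ze t)) (a * γ.g t) t :=
  (((ho.der t).sub_const 2).const_mul a).const_add 2

theorem hasDerivAt_Om (ho : γ.Ok) (a : ℂ) (t : ℝ) :
    HasDerivAt (fun t => Om a (γ.ze t)) (γ.g t * (rh a (γ.ze t) + a * γ.ze t)) t :=
  ((ho.der t).mul (hasDerivAt_rh ho a t)).congr_deriv (by ring)

theorem cyl_ok (hc : 0 < c) (hK : 0 < K) (hT : 0 < T) (h : AdmP c K T a γ) : (γ.cyl a).Ok := by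
  refine ⟨h.ok.spt, ?_, fun t => ?_⟩
  · ext t
    change Om a (γ.ze t) * (γ.cyl a).io t = 1
    rw [io_apply hc hK hT h, mul_inv_cancel₀ (Om_ne hK h t)]
  · rw [show ((γ.cyl a).io : ℝ → ℂ) = _ from funext (io_apply hc hK hT h), lo_apply hc hK hT h]
    refine ((hasDerivAt_Om h.ok a t).inv (Om_ne hK h t)).congr_deriv ?_
    have h1 := ze_ne hK h t
    have h2 := rh_ne hK h t
    change _ = -(γ.g t * _ * _)
    unfold Om
    field_simp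

theorem re_dir_inv {u O : ℂ} (hO : O ≠ 0) (h : c * ‖O‖ ≤ (conj u * O).re) :
    c * ‖O⁻¹‖ ≤ (u * O⁻¹).re := by
  have h0 : 0 < ‖O‖ := norm_pos_iff.2 hO
  have e : (u * O⁻¹).re = (conj u * O).re / ‖O‖ ^ 2 := by
    rw [Complex.inv_def, Complex.sq_norm, ← mul_assoc, re_mul_ofReal, div_eq_mul_inv]
    congr 1
    simp [mul_re]
  rw [e, norm_inv, le_div_iff₀ (by positivity)]
  calc c * ‖O‖⁻¹ * ‖O‖ ^ 2 = c * ‖O‖ := by field_simp
    _ ≤ _ := h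

theorem adm0 (hc : 0 < c) (hK : 0 < K) (hT : 0 < T) (h : AdmP c K T a γ) : (γ.cyl a).Adm0 c :=
  ⟨hc, fun t => by
    obtain ⟨u, h1, h2, h3, h4⟩ := h.dir t
    exact ⟨u, h1, h2, by rw [io_apply hc hK hT h]; exact re_dir_inv (Om_ne hK h t) h3, h4⟩⟩

theorem muCyl_cases (m : ℤ) : 0 ≤ muCyl m ∨ |muCyl m| ≤ 1 := by
  rcases le_total 0 (muCyl m) with h | h
  · exact Or.inl h
  · refine Or.inr ?_
    rw [abs_of_nonpos h, muCyl]
    nlinarith [sq_nonneg (m : ℝ)]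

theorem muCyl_le (m : ℤ) : |muCyl m| ≤ 1 * br m := by
  rw [abs_le, muCyl, br]
  constructor <;> nlinarith [sq_nonneg (m : ℝ)]

theorem le_muCyl (m : ℤ) : (m : ℝ) ^ 2 ≤ 2 * (|muCyl m| + 1) := by
  have := le_abs_self (muCyl m)
  unfold muCyl at *
  linarith

theorem adm (hc : 0 < c) (hK : 128 / c ≤ K) (hT : 0 < T) (h : AdmP c K T a γ) (m : ℤ) :
    (γ.cyl a).Adm (muCyl m) c := by
  have hK0 : 0 < K := lt_of_lt_of_le (by positivity) hK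
  refine (adm0 hc hK0 hT h).adm ((muCyl_cases m).imp_right fun h1 => ?_)
  calc _ ≤ 1 * (1 / K) := by gcongr; exact norm_io_le hc hK0 hT h
    _ ≤ c / 128 := by
      rw [one_mul, div_le_div_iff₀ hK0 (by norm_num)]
      rw [div_le_iff₀ hc] at hK
      linarith

/-! ### The fast components -/

section fast

variable {Γ : Ctr} {μ : ℤ → ℝ} {L : ℝ}

theorem nmu2 (h : ∀ m, |μ m| ≤ L * br m) (m : ℤ) :
    ‖(μ m : ℂ) / 2 * ((br m : ℝ) : ℂ)⁻¹‖ ≤ L / 2 := by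
  have : ‖(μ m : ℂ) * ((br m : ℝ) : ℂ)⁻¹‖ ≤ L := by
    rw [norm_mul, norm_inv_br, Complex.norm_real, Real.norm_eq_abs, mul_inv_le_iff₀ (br_pos m)]
    exact h m
  rw [div_mul_eq_mul_div, norm_div, Complex.norm_ofNat]
  linarith

theorem nOn (ho : Γ.Ok) (ha : ∀ m, Γ.Adm (μ m) c) (h : ∀ m, |μ m| ≤ L * br m) (m : ℤ) :
    ‖((m : ℂ) * I)⁻¹ • (Γ.Om * Γ.nuB (μ m))‖ ≤ √(‖Γ.Om‖ * L) := norm_BC_le fun t => by
  have hK : 0 ≤ L := by simpa [br] using (abs_nonneg _).trans (h 0)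
  rcases eq_or_ne m 0 with rfl | hm
  · simp; positivity
  refine Real.le_sqrt_of_sq_le ?_
  have h1 : Γ.Om t * Γ.io t = 1 := congrArg (fun f : BC => f t) ho.inv
  have h2 : ‖Γ.Om t‖ * ‖Γ.io t‖ = 1 := by rw [← norm_mul, h1, norm_one]
  have h3 : ‖Γ.nuB (μ m) t‖ ^ 2 ≤ |μ m| / 2 * ‖Γ.io t‖ := by
    have b1 := congrArg norm ((ha m).nu_la t)
    have b2 := norm_nu_le (Γ.kk (μ m) t)
    rw [← (ha m).laB_apply, ← (ha m).nuB_apply] at b2
    simp only [norm_mul, norm_div, Complex.norm_real, Real.norm_eq_abs, Complex.norm_ofNat] at b1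
    nlinarith [norm_nonneg (Γ.nuB (μ m) t)]
  have h4 : (1 : ℝ) ≤ (m : ℝ) ^ 2 := by
    have : (1 : ℤ) ≤ m ^ 2 := by nlinarith [Int.one_le_abs hm, sq_abs m]
    exact_mod_cast this
  have h5 : |μ m| / 2 ≤ L * (m : ℝ) ^ 2 := by
    have := h m
    unfold br at this
    nlinarith
  simp only [BoundedContinuousFunction.mul_apply, BoundedContinuousFunction.smul_apply, smul_eq_mul,
    norm_mul, norm_inv, Complex.norm_I, Complex.norm_intCast, mul_one, mul_pow, inv_pow, sq_abs]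
  rw [inv_mul_le_iff₀ (by positivity)]
  calc _ ≤ ‖Γ.Om t‖ ^ 2 * (L * (m : ℝ) ^ 2 * ‖Γ.io t‖) := by
        gcongr
        exact h3.trans (by gcongr)
    _ = (m : ℝ) ^ 2 * (‖Γ.Om t‖ * L) * (‖Γ.Om t‖ * ‖Γ.io t‖) := by ring
    _ ≤ _ := by rw [h2, mul_one]; gcongr; exact Γ.Om.norm_coe_le_norm t

/-- the modes of the fast components -/
theorem c_piJ (ho : Γ.Ok) (ha : ∀ m, Γ.Adm (μ m) c) (h : ∀ m, |μ m| ≤ L * br m) {j : EJ}
    (hj : Γ.IsJet j) (m : ℤ) :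
    (Γ.piJ μ j).c m = Γ.laB (μ m) * j.op.c m + ((μ m : ℂ) / 2) • j.y.c m := by
  have e1 := W.c_diag (T := fun m : ℤ => if m = 0 then ContinuousLinearMap.mul ℂ BC (Γ.nuB (μ m))
    else 0) (C := ‖Γ.nuB (μ 0)‖) (fun m => by
      split_ifs with a
      · rw [a]; exact norm_mulL_le _
      · simp) j.op m
  have e2 := W.c_diag (T := fun m : ℤ => ContinuousLinearMap.mul ℂ BC (((m : ℂ) * I)⁻¹ •
    (Γ.Om * Γ.nuB (μ m)))) (fun m => (norm_mulL_le _).trans (nOn ho ha h m)) j.pt m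
  simp only [Ctr.piJ, W.c_add, W.c_smul, e1, e2, c_mult (nmu2 h), (hj m).2.2, EJ.c_y, smul_smul]
  congr 1
  ext t
  have h1 : Γ.Om t * Γ.io t = 1 := congrArg (fun f : BC => f t) ho.inv
  have h2 := (ha m).la_eq t
  split_ifs with a
  · subst a
    simp only [ContinuousLinearMap.mul_apply', BoundedContinuousFunction.add_apply,
      BoundedContinuousFunction.smul_apply, BoundedContinuousFunction.mul_apply, smul_eq_mul, h2]
    simp
    ring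
  · have h3 : ((m : ℂ) * I)⁻¹ * (m * I) = 1 :=
      inv_mul_cancel₀ (mul_ne_zero (Int.cast_ne_zero.2 a) Complex.I_ne_zero)
    simp only [ContinuousLinearMap.mul_apply', BoundedContinuousFunction.add_apply,
      BoundedContinuousFunction.smul_apply, BoundedContinuousFunction.mul_apply, smul_eq_mul, h2,
      zero_apply, BoundedContinuousFunction.coe_zero, Pi.zero_apply]
    linear_combination (Γ.nuB (μ m) t * j.op.c m t * (Γ.Om t * Γ.io t)) * h3 +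
      (Γ.nuB (μ m) t * j.op.c m t) * h1

/-- the modes of the fast components at a point -/
theorem c_piJ_apply (ho : Γ.Ok) (ha : ∀ m, Γ.Adm (μ m) c) (h : ∀ m, |μ m| ≤ L * br m) {j : EJ}
    (hj : Γ.IsJet j) (m : ℤ) (t : ℝ) : (Γ.piJ μ j).c m t =
      la ((μ m : ℂ) / 2 * Γ.io t) * j.op.c m t +
        (μ m : ℂ) / 2 * ((br m : ℝ) : ℂ)⁻¹ * j.y2.c m t := by
  rw [c_piJ ho ha h hj, EJ.c_y, ← Ctr.kk_apply, ← (ha m).laB_apply, mul_assoc]
  rfl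

/-- the symbol of `∂_θ ∂_ζ` at a point, multiplied by a number of size `b √|Ω|` -/
theorem npt {z io : ℂ} {b ν M : ℝ} {m : ℤ} (hb : 0 ≤ b) (hz : ‖z‖ ^ 2 * ‖io‖ ≤ b ^ 2)
    (hio : ‖io‖ ≤ 1) (hM : 0 ≤ M) (hm : (m : ℝ) ^ 2 ≤ M * (|ν| + 1)) :
    ‖z * (m * I * io * (la ((ν : ℂ) / 2 * io))⁻¹)‖ ≤ b * √(66 * M) := by
  refine le_of_sq_le_sq ?_ (by positivity)
  rw [mul_pow, Real.sq_sqrt (by positivity)]
  have a1 := Ctr.ila_le ((ν : ℂ) / 2 * io)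
  have b1 := norm_le_la_sq ((ν : ℂ) / 2 * io)
  have b3 : ‖la ((ν : ℂ) / 2 * io)‖ * ‖(la ((ν : ℂ) / 2 * io))⁻¹‖ = 1 := by
    rw [← norm_mul, mul_inv_cancel₀ (la_ne _), norm_one]
  have b2 : ‖(ν : ℂ) / 2 * io‖ = |ν| / 2 * ‖io‖ := by simp
  generalize (la ((ν : ℂ) / 2 * io))⁻¹ = il at *
  have a3 : |ν| * ‖io‖ * ‖il‖ ^ 2 ≤ 2 := by
    calc _ = 2 * (‖(ν : ℂ) / 2 * io‖ * ‖il‖ ^ 2) := by rw [b2]; ring
      _ ≤ 2 * (‖la ((ν : ℂ) / 2 * io)‖ ^ 2 * ‖il‖ ^ 2) := by gcongr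
      _ = 2 := by rw [← mul_pow, b3]; norm_num
  have a4 : ‖io‖ * ‖il‖ ^ 2 ≤ 1 * 8 ^ 2 := by gcongr
  have a5 : (m : ℝ) ^ 2 * (‖io‖ * ‖il‖ ^ 2) ≤ 66 * M := by
    calc _ ≤ M * (|ν| + 1) * (‖io‖ * ‖il‖ ^ 2) := by gcongr
      _ ≤ _ := by nlinarith
  simp only [norm_mul, Complex.norm_I, Complex.norm_intCast, mul_one, mul_pow, sq_abs]
  calc _ = ‖z‖ ^ 2 * ‖io‖ * ((m : ℝ) ^ 2 * (‖io‖ * ‖il‖ ^ 2)) := by ring
    _ ≤ _ := by gcongr

/-- `∂_θ ∂_ζ y` is smaller than the fast and the slow data by the factor `√|Ω|` -/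
theorem norm_smul_pt_le (ho : Γ.Ok) (ha : ∀ m, Γ.Adm (μ m) c) (h : ∀ m, |μ m| ≤ L * br m)
    {M : ℝ} (hM : 0 ≤ M) (hm : ∀ m : ℤ, (m : ℝ) ^ 2 ≤ M * (|μ m| + 1)) {j : EJ} (hj : Γ.IsJet j)
    (t : ℝ) (hio : ‖Γ.io t‖ ≤ 1) {z : ℂ} {b : ℝ} (hb : 0 ≤ b) (hz : ‖z‖ ^ 2 * ‖Γ.io t‖ ≤ b ^ 2) :
    ‖z • tr t j.pt‖ ≤ b * √(66 * M) * (‖tr t (Γ.piJ μ j)‖ + L / 2 * ‖tr t j.y2‖) := by
  refine W.norm_le_of_hasSum (((tr t (Γ.piJ μ j)).hasSum.add
    ((tr t j.y2).hasSum.mul_left (L / 2))).mul_left _) fun m => ?_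
  have e : (z • tr t j.pt).c m = z * (m * I * Γ.io t * (la ((μ m : ℂ) / 2 * Γ.io t))⁻¹) *
      ((tr t (Γ.piJ μ j)).c m - (μ m : ℂ) / 2 * ((br m : ℝ) : ℂ)⁻¹ * (tr t j.y2).c m) := by
    rw [W.c_smul, c_tr, c_tr, c_tr, c_piJ_apply ho ha h hj, (hj m).2.2]
    have := la_ne ((μ m : ℂ) / 2 * Γ.io t)
    simp only [BoundedContinuousFunction.smul_apply, BoundedContinuousFunction.mul_apply,
      smul_eq_mul]
    generalize la ((μ m : ℂ) / 2 * Γ.io t) = l at *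
    field_simp
    ring
  rw [e, norm_mul]
  refine mul_le_mul (npt hb hz hio hM (hm m)) ((norm_sub_le _ _).trans ?_) (norm_nonneg _)
    (by positivity)
  rw [norm_mul]
  gcongr
  exact nmu2 h m

end fast

theorem norm_smul_pt_cyl (hc : 0 < c) (hK : 128 / c ≤ K) (hT : 0 < T) (h : AdmP c K T a γ)
    {j : EJ} (hj : (γ.cyl a).IsJet j) (t : ℝ) {z : ℂ} {b : ℝ} (hb : 0 ≤ b)
    (hz : ‖z‖ ^ 2 ≤ b ^ 2 * ‖Om a (γ.ze t)‖) :
    ‖z • tr t j.pt‖ ≤ 12 * b * (‖tr t ((γ.cyl a).piJ muCyl j)‖ + ‖tr t j.y2‖) := by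
  have hK0 : 0 < K := lt_of_lt_of_le (by positivity) hK
  have hK1 : 1 ≤ K := le_trans (by rw [le_div_iff₀ hc]; linarith [c_le_one h]) hK
  have hO : 0 < ‖Om a (γ.ze t)‖ := hK0.trans_le (h.big t)
  refine (norm_smul_pt_le (cyl_ok hc hK0 hT h) (adm hc hK hT h) muCyl_le zero_le_two le_muCyl hj t
    ?_ hb ?_).trans ?_
  · rw [io_apply hc hK0 hT h, norm_inv]
    exact inv_le_one_of_one_le₀ (hK1.trans (h.big t))
  · rw [io_apply hc hK0 hT h, norm_inv, mul_inv_le_iff₀ hO]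
    exact hz
  · have h1 : √(66 * 2 : ℝ) ≤ 12 := Real.sqrt_le_iff.2 ⟨by norm_num, by norm_num⟩
    rw [mul_comm 12 b]
    gcongr
    linarith [norm_nonneg (tr t j.y2)]

/-! ### The slow variable -/

theorem hasDerivAt_sE (hc : 0 < c) (hK : 0 < K) (hT : 0 < T) (h : AdmP c K T a γ) (t : ℝ) :
    HasDerivAt (fun t => sE a (γ.ze t)) (γ.g t * ((2 - 2 * a) * (Om a (γ.ze t))⁻¹)) t := by
  have h0 : γ.ze t ∈ slitPlane := Or.inl (hT.trans_le (T_le hc h t))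
  refine ((((h.ok.der t).clog_real h0).const_mul 2).sub
    ((hasDerivAt_Om h.ok a t).clog_real (slit hc hK h t))).congr_deriv ?_
  have h1 := ze_ne hK h t
  have h2 := rh_ne hK h t
  unfold Om
  field_simp
  unfold rh
  ring

theorem uu_eq {ζ : ℂ} (h : Om a ζ ≠ 0) : uu a ζ = Real.exp (sE a ζ).re := by
  have h1 : 0 < ‖ζ‖ := norm_pos_iff.2 (left_ne_zero_of_mul h)
  have h2 : 0 < ‖rh a ζ‖ := norm_pos_iff.2 (right_ne_zero_of_mul h)
  have e : (sE a ζ).re = Real.log ‖ζ‖ - Real.log ‖rh a ζ‖ := by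
    rw [sE, sub_re, show (2 : ℂ) = (2 : ℝ) from rfl, re_ofReal_mul, log_re, log_re, Om, norm_mul,
      Real.log_mul h1.ne' h2.ne']
    ring
  rw [e, Real.exp_sub, Real.exp_log h1, Real.exp_log h2, uu, norm_div]

/-- the speed of `log |ζ / ρ₀|` -/
theorem speed_le (hK : 0 < K) (ha : ‖a‖ ≤ c / 2) (h : AdmP c K T a γ) (t : ℝ) :
    c * (‖γ.g t‖ / ‖Om a (γ.ze t)‖) ≤ (γ.g t * ((2 - 2 * a) * (Om a (γ.ze t))⁻¹)).re := by
  obtain ⟨u, h1, -, h3, h4⟩ := h.dir t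
  have h5 := re_dir_inv (Om_ne hK h t) h3
  have h6 : (u * (a * (Om a (γ.ze t))⁻¹)).re ≤ c / 2 * ‖(Om a (γ.ze t))⁻¹‖ := by
    refine (re_le_norm _).trans ?_
    rw [norm_mul, norm_mul, h1, one_mul]
    gcongr
  have e : (u * ((2 - 2 * a) * (Om a (γ.ze t))⁻¹)).re =
      2 * (u * (Om a (γ.ze t))⁻¹).re - 2 * (u * (a * (Om a (γ.ze t))⁻¹)).re := by
    rw [show u * ((2 - 2 * a) * (Om a (γ.ze t))⁻¹) = (2 : ℝ) * (u * (Om a (γ.ze t))⁻¹) -
      (2 : ℝ) * (u * (a * (Om a (γ.ze t))⁻¹)) by push_cast; ring, sub_re, re_ofReal_mul,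
      re_ofReal_mul]
  rw [Ctr.re_dir h4, e, div_eq_mul_inv, ← norm_inv, mul_left_comm]
  exact mul_le_mul_of_nonneg_left (by linarith) (norm_nonneg _)

end Vale.Agent.P218N.End.AB
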