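import Vale.Agent.P218N.End.Box
import Vale.Agent.P218N.End.ApiAB

/-! The far problems in the form of the interface. -/

open Filter Topology Metric Set Complex
open scoped BoundedContinuousFunction ComplexConjugate

noncomputable section

namespace Vale.Agent.P218N.End
open Ctr Vale.Agent.P218N.J

theorem nind (p : Prop) [Decidable p] : ‖(if p then 1 else 0 : ℂ)‖ ≤ 1 := by split_ifs <;> simp
theorem nind' (p : Prop) [Decidable p] : ‖(if p then 0 else 1 : ℂ)‖ ≤ 1 := by split_ifs <;> simp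

theorem p1_ne_p0 : p1 ≠ p0 := fun h => one_ne_zero (congrArg Subtype.val h)

theorem c_fwd (s : ℤ → Icc (0 : ℝ) 1) (d : WD) (m : ℤ) :
    (fwd s d).c m = if s m = p0 then d.c m else 0 := by
  rw [fwd, c_mult fun _ => nind _]; split_ifs <;> simp

theorem c_bwd (s : ℤ → Icc (0 : ℝ) 1) (d : WD) (m : ℤ) :
    (bwd s d).c m = if s m = p0 then 0 else d.c m := by
  rw [bwd, c_mult fun _ => nind' _]; split_ifs <;> simp

theorem norm_fwd_le (s : ℤ → Icc (0 : ℝ) 1) (d : WD) : ‖fwd s d‖ ≤ ‖d‖ :=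
  (norm_mult_apply_le (fun _ => nind _) d).trans_eq (one_mul _)

theorem norm_bwd_le (s : ℤ → Icc (0 : ℝ) 1) (d : WD) : ‖bwd s d‖ ≤ ‖d‖ :=
  (norm_mult_apply_le (fun _ => nind' _) d).trans_eq (one_mul _)

theorem Ctr.dsz_nonneg (Γ : Ctr) (s : ℤ → Icc (0 : ℝ) 1) (φ : BC) (d ω : WD) (f : WB) :
    0 ≤ Γ.dsz s φ d ω f := by unfold Ctr.dsz; positivity

theorem Ctr.nrm_nonneg (Γ : Ctr) (μ : ℤ → ℝ) (w : BC) (j : EJ) : 0 ≤ Γ.nrm μ w j :=
  (norm_nonneg _).trans (le_max_left _ _)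

theorem Ctr.nrm_one_le (Γ : Ctr) (μ : ℤ → ℝ) (φ : BC) (r : Icc (0 : ℝ) 1) (j : EJ) :
    Γ.nrm μ 1 j ≤ ‖Γ.Wt φ r‖ * Γ.nrm μ (Γ.iW φ r) j := by
  have h0 := norm_nonneg (Γ.Wt φ r)
  refine max_le ?_ ?_
  · rw [← nm_one]
    refine (nm_one_le (Γ := Γ) φ r 1 j).trans ?_
    rw [nm_one]
    exact mul_le_mul_of_nonneg_left (le_max_left _ _) h0
  · rw [← Wt_mul_iW (Γ := Γ) φ r, map_mul, mul_assoc]
    exact (norm_C_mul_le _ _).trans (mul_le_mul_of_nonneg_left (le_max_right _ _) h0)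

theorem Ctr.nrm_add_le (Γ : Ctr) (μ : ℤ → ℝ) (w : BC) (j j' : EJ) :
    Γ.nrm μ w (j + j') ≤ Γ.nrm μ w j + Γ.nrm μ w j' := by
  refine max_le ?_ ?_
  · rw [← nm_one]
    refine (nm_add_le 1 w j j').trans ?_
    rw [nm_one, nm_one]
    exact add_le_add (le_max_left _ _) (le_max_left _ _)
  · rw [piJ_add, mul_add]
    exact (norm_add_le _ _).trans (add_le_add (le_max_right _ _) (le_max_right _ _))

/-- the constant of the interface -/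
def Cst.D (k : Cst) : ℝ := (1 + k.C) * (k.C + k.η + k.A / k.c₁) + 1

theorem Cst.Ok.Ac0 {k : Cst} (h : k.Ok) : 0 ≤ k.A / k.c₁ := div_nonneg h.A0 h.c₁0.le

theorem Cst.Ok.le_D {k : Cst} (h : k.Ok) : k.C + k.η + k.A / k.c₁ ≤ k.D := by
  have := h.one_le_C
  have := h.η0
  have := h.Ac0
  unfold Cst.D
  nlinarith

section box
variable {k : Cst} {Γ : Ctr} {μ : ℤ → ℝ} {s : ℤ → Icc (0 : ℝ) 1} {φ σ : BC} {F : EJ → WB}

theorem Lin.side (h : Lin k Γ μ s φ σ) (m : ℤ) : s m = p0 ∨ s m = p1 :=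
  (h.sm m).2.imp And.left And.left

theorem Lin.slowD_eq (h : Lin k Γ μ s φ σ) (f : WB) :
    slowD s f = fwd s (tr 0 f) + bwd s (tr 1 f) := by
  ext1 m
  rw [W.c_add, c_fwd, c_bwd, c_slowD, c_tr, c_tr]
  rcases h.side m with e | e <;> rw [e]
  · rw [if_pos rfl, if_pos rfl, add_zero]; rfl
  · rw [if_neg p1_ne_p0, if_neg p1_ne_p0, zero_add]; rfl

theorem tr_C_mul (t : ℝ) (w : BC) (f : WB) : tr t (W.C w * f) = w t • tr t f := by ext m; simp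

theorem iW_p0 (Γ : Ctr) (φ : BC) : Γ.iW φ p0 0 = 1 := iW_self φ p0

theorem Lin.slowD_iW (h : Lin k Γ μ s φ σ) (f : WB) : slowD s (W.C (Γ.iW φ p0) * f) =
    fwd s (tr 0 f) + Γ.iW φ p0 1 • bwd s (tr 1 f) := by
  rw [h.slowD_eq, tr_C_mul, tr_C_mul, iW_p0, one_smul, map_smul]

theorem Lin.slowD_le (h : Lin k Γ μ s φ σ) (f : WB) : ‖slowD s (W.C (Γ.iW φ p0) * f)‖ ≤
    ‖fwd s (tr 0 f)‖ + ‖Γ.iW φ p0 1‖ * ‖bwd s (tr 1 f)‖ := by
  rw [h.slowD_iW, ← norm_smul]; exact norm_add_le _ _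

theorem Lin.nm_le_nrm (h : Lin k Γ μ s φ σ) {j : EJ} (hj : Γ.IsJet j) (w : BC) :
    nm σ w j ≤ 14 * k.C ^ 2 * Γ.nrm μ w j := by
  have hK := h.ok.K1
  have hC := Cst.K_le_C h.ok
  have h1 : ‖j.wt w‖ ≤ Γ.nrm μ w j := le_max_left _ _
  have h0 := (norm_nonneg _).trans h1
  have h2 : Γ.nrm μ w j ≤ 14 * k.C ^ 2 * Γ.nrm μ w j := le_mul_of_one_le_left h0 (by nlinarith)
  have h3 := h.good.l_core (j := j) w (h.good.npt zero_le_one (fun t => by simpa using h.sg t))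
    (x := W.C σ * j.pt) fun m => by
      rw [W.c_C_mul, (hj m).2.2, (h.good.modes hj m).2.2, OP]
      simp only [mul_smul_comm, smul_mul_assoc, mul_assoc]
  have h4 : √(66 * k.K) ≤ 9 * k.C := Real.sqrt_le_iff.2 ⟨by linarith, by nlinarith⟩
  have h5 : ‖W.C w * j.y2‖ ≤ Γ.nrm μ w j := (EJ.norm_y2_le (j.wt w)).trans h1
  have h7 : 0 ≤ k.C := by linarith
  have h6 : ‖W.C w * Γ.piJ μ j‖ ≤ Γ.nrm μ w j := le_max_right _ _
  refine End.nm_le (h5.trans h2) ((EJ.norm_op_le (j.wt w)).trans (h1.trans h2))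
    ((EJ.norm_oq_le (j.wt w)).trans (h1.trans h2)) (h3.trans ?_)
  calc _ ≤ 1 * (9 * k.C) * Γ.nrm μ w j + 1 * (9 * k.C) * (k.C / 2) * Γ.nrm μ w j := by
        gcongr
    _ ≤ _ := by nlinarith [mul_nonneg h0 (by nlinarith : 0 ≤ 19 / 2 * k.C ^ 2 - 9 * k.C)]

theorem Box.ap_nrm (h : Box k Γ μ s φ σ F) (hσ : ∀ t, 1 ≤ ‖σ t‖) {v v' u : EJ} (e : v - v' = u)
    (hj : Γ.IsJet u) (h1 : nm σ 1 v ≤ k.δ) (h2 : nm σ 1 v' ≤ k.δ) :
    Γ.nrm μ (Γ.iW φ p0) u ≤ k.D * (‖fwd s (tr 0 u.y2)‖ +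
      Γ.dsz s φ (tr 1 u.y2) (tr 1 (Γ.piJ μ u)) (F v - F v')) ∧
    ‖tr 0 (Γ.piJ μ u)‖ + ‖bwd s (tr 0 u.y2)‖ ≤ (1 + k.C) * k.η * ‖fwd s (tr 0 u.y2)‖ +
      (1 + k.C) * (k.A / k.c₁) * ‖tr 0 u.y‖ +
      k.D * Γ.dsz s φ (tr 1 u.y2) (tr 1 (Γ.piJ μ u)) (F v - F v') := by
  subst e
  have a1 := h.ap p0 hj h1 h2
  have a2 := h.ap_pi p0 hj h1 h2
  have a3 := h.slowD_le (v - v').y2
  have a4 := norm_slowD_y_le s (Γ.iW φ p0) (v - v')
  have a5 := h.slowD_le (v - v').y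
  have a6 : ‖bwd s (tr 1 (v - v').y)‖ ≤ ‖bwd s (tr 1 (v - v').y2)‖ := by
    rw [← one_mul ‖bwd s (tr 1 (v - v').y2)‖]
    refine W.norm_le_of_le fun m => ?_
    rw [c_bwd, c_bwd, c_tr, c_tr, EJ.c_y]
    split_ifs
    · simp
    · exact (norm_mul_le _ _).trans (mul_le_mul_of_nonneg_right (sym0_le m) (norm_nonneg _))
  have a7 := h.ap_mult p0 hj (χ := fun m => if s m = p0 then 0 else 1) fun _ => nind' _
  have a8 : ‖bwd s (tr 0 (v - v').y2)‖ ≤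
      ‖mult (fun m => if s m = p0 then 0 else 1) (W.C (Γ.iW φ p0) * (v - v').y2)‖ := by
    refine le_trans (le_of_eq ?_) (norm_tr_apply_le 0 _)
    rw [tr_mult fun _ => nind' _, tr_C_mul, iW_p0, one_smul]; rfl
  have a9 : mult (fun m => if s m = p0 then 0 else 1) (slowD s (W.C (Γ.iW φ p0) * (v - v').y2)) =
      Γ.iW φ p0 1 • bwd s (tr 1 (v - v').y2) := by
    rw [h.slowD_iW]
    ext1 m
    change (bwd s _).c m = _
    rw [c_bwd, W.c_add, W.c_smul, c_fwd, c_bwd]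
    split_ifs <;> simp
  have b1 := norm_tr_apply_le 0 (W.C (Γ.iW φ p0) * Γ.piJ μ (v - v'))
  have b2 := norm_wt_le_nm (Γ.iW φ p0) (v - v') hσ
  have b3 := norm_fwd_le s (tr 0 (v - v').y)
  have b4 := mul_le_mul_of_nonneg_left a6 (norm_nonneg (Γ.iW φ p0 1))
  rw [a9, norm_smul] at a7
  rw [tr_C_mul, iW_p0, one_smul] at b1
  rw [norm_tr_C_mul] at a1 a2
  have c1 := h.ok.one_le_C
  have c2 := h.ok.η0
  have c3 := h.ok.Ac0
  have c4 := h.ok.le_D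
  have c5 := mul_le_mul_of_nonneg_right (Cst.K_le_C h.ok)
    (norm_nonneg (W.C (Γ.iW φ p0) * Γ.piJ μ (v - v')))
  have c6 : k.D = (1 + k.C) * (k.C + k.η + k.A / k.c₁) + 1 := rfl
  rw [Ctr.dsz, mul_add ‖Γ.iW φ p0 1‖, nrm, max_le_iff]
  have hO := mul_nonneg (norm_nonneg (Γ.iW φ p0 1)) (norm_nonneg (tr 1 (Γ.piJ μ (v - v'))))
  have hB := mul_nonneg (norm_nonneg (Γ.iW φ p0 1)) (norm_nonneg (bwd s (tr 1 (v - v').y2)))
  have hQ := norm_nonneg (W.C (Γ.iW φ p0) * (F v - F v'))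
  have hD := norm_nonneg (fwd s (tr 0 (v - v').y2))
  generalize ‖Γ.iW φ p0 1‖ * ‖tr 1 (Γ.piJ μ (v - v'))‖ = O at *
  generalize ‖Γ.iW φ p0 1‖ * ‖bwd s (tr 1 (v - v').y2)‖ = B at *
  generalize ‖W.C (Γ.iW φ p0) * (F v - F v')‖ = Q at *
  generalize ‖fwd s (tr 0 (v - v').y2)‖ = D at *
  generalize ‖W.C (Γ.iW φ p0) * Γ.piJ μ (v - v')‖ = P at *
  generalize k.A / k.c₁ = a at *
  have d1 := mul_le_mul_of_nonneg_left a3 c2
  have d2 := mul_le_mul_of_nonneg_left (a4.trans a3) c3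
  have d3 : a * ‖slowD s (W.C (Γ.iW φ p0) * (v - v').y)‖ ≤ a * (‖tr 0 (v - v').y‖ + B) :=
    mul_le_mul_of_nonneg_left (by linarith) c3
  have d4 := mul_le_mul_of_nonneg_right c4 (by positivity : 0 ≤ D + (B + O + Q))
  refine ⟨⟨?_, ?_⟩, ?_⟩
  · have := mul_le_mul_of_nonneg_left a3 (zero_le_one.trans c1)
    nlinarith [mul_nonneg (add_nonneg c2 c3) (by positivity : 0 ≤ D + (B + O + Q))]
  · nlinarith [mul_nonneg (add_nonneg c2 c3) (add_nonneg hO hQ),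
      mul_nonneg (zero_le_one.trans c1) (add_nonneg hD hB)]
  · have e1 : P ≤ k.η * D + a * ‖tr 0 (v - v').y‖ + (k.C + k.η + a) * (B + O + Q) := by
      nlinarith [mul_nonneg (add_nonneg c2 c3) (add_nonneg hO hQ),
        mul_nonneg (zero_le_one.trans c1) hB]
    have e2 := mul_le_mul_of_nonneg_left e1 (by linarith : 0 ≤ 1 + k.C)
    rw [c6]
    linarith

theorem Box.shift (h : Box k Γ μ s φ σ F) {u : EJ} (hu : nm σ 1 u ≤ k.δ / 2) (f : WB) :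
    Box { k with δ := k.δ / 2 } Γ μ s φ σ fun v => F (u + v) - f :=
  ⟨⟨⟨h.ok.c₁0, h.ok.c₁1, h.ok.K1, h.ok.e0, h.ok.ε0, h.ok.A0, half_pos h.ok.δ0, h.ok.Aρ, h.ok.sm⟩,
    h.good, h.sm, h.lo, h.sg⟩, fun v v' h1 h2 w => by
      have b : ∀ v, nm σ 1 v ≤ k.δ / 2 → nm σ 1 (u + v) ≤ k.δ := fun v hv => by
        linarith [nm_add_le σ 1 u v]
      have := h.lip _ _ (b v h1) (b v' h2) w
      rwa [add_sub_add_left_eq_sub, ← sub_sub_sub_cancel_right (F _) (F _) f] at this⟩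

theorem Box.apfor {E : EJ → WB} {j₀ : EJ} (h : Box k Γ μ s φ σ fun v => E (j₀ + v) - 0)
    (hσ : ∀ t, 1 ≤ ‖σ t‖) (h0 : Γ.IsJet j₀) {δ C ε A : ℝ} (hδ : 14 * k.C ^ 2 * δ ≤ k.δ)
    (hC : k.D ≤ C) (hε : (1 + k.C) * k.η ≤ ε) (hA : (1 + k.C) * (k.A / k.c₁) ≤ A) :
    APfor Γ μ s φ E j₀ δ C ε A := fun j₁ j₂ h1 h2 h3 h4 => by
  have b : ∀ j, Γ.IsJet j → Γ.nrm μ 1 (j - j₀) ≤ δ → nm σ 1 (j - j₀) ≤ k.δ := fun j a a' =>
    (h.nm_le_nrm (a.sub h0) 1).trans ((mul_le_mul_of_nonneg_left a' (by positivity)).trans hδ)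
  obtain ⟨a1, a2⟩ := h.ap_nrm hσ (sub_sub_sub_cancel_right j₁ j₂ j₀) (h1.sub h2) (b _ h1 h3)
    (b _ h2 h4)
  simp only [add_sub_cancel, sub_zero] at a1 a2
  have := Γ.dsz_nonneg s φ (tr 1 (j₁ - j₂).y2) (tr 1 (Γ.piJ μ (j₁ - j₂))) (E j₁ - E j₂)
  exact ⟨a1.trans (by gcongr), a2.trans (by gcongr)⟩

/-- the a priori estimate for the modes selected by `χ` -/
theorem Box.ap_mu (h : Box k Γ μ s φ σ F) (hσ : ∀ t, 1 ≤ ‖σ t‖) (hA : k.A = 0) {v v' : EJ}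
    (hj : Γ.IsJet (v - v')) (h1 : nm σ 1 v ≤ k.δ) (h2 : nm σ 1 v' ≤ k.δ) {χ : ℤ → ℂ}
    (hχ : ∀ m, ‖χ m‖ ≤ 1) (e : EJ.mu χ (v - v') = v - v') (hF : mult χ (F v - F v') = 0) :
    Γ.nrm μ (Γ.iW φ p0) (v - v') ≤ k.C * (‖fwd s (tr 0 (v - v').y2)‖ + ‖Γ.iW φ p0 1‖ *
      (‖bwd s (tr 1 (v - v').y2)‖ + ‖tr 1 (Γ.piJ μ (v - v'))‖)) := by
  have a1 := h.err h1 h2 (Γ.iW φ p0)
  have a2 := h.nm_le p0 hj
  have a3 := h.good.l_pi p0 hj
  have a4 := h.slowD_le (v - v').y2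
  have a5 := norm_mult_apply_le hχ
    (W.C (Γ.iW φ p0) * (Γ.src μ (v - v') - (1 / 2 : ℂ) • (F v - F v')))
  have a6 := norm_wt_le_nm (Γ.iW φ p0) (v - v') hσ
  rw [← C_mul_mult hχ, map_sub, map_smul, hF, smul_zero, sub_zero, ← h.good.src_mu _ hχ, e] at a5
  rw [hA] at a1
  rw [norm_tr_C_mul] at a2 a3
  rw [show 1 / (2 * k.c₁) = 1 / k.c₁ / 2 by field_simp [h.ok.c₁0.ne']] at a3
  have c1 := h.ok.le_C₁
  have c2 := h.ok.one_le_inv
  have c3 := mul_le_mul_of_nonneg_right h.ok.sm (nm_nonneg σ (Γ.iW φ p0) (v - v'))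
  have c4 : k.C = 4 * k.C₁ := by rw [Cst.C, hA]; ring
  rw [mul_add ‖Γ.iW φ p0 1‖, nrm, max_le_iff, c4]
  have hO := mul_nonneg (norm_nonneg (Γ.iW φ p0 1)) (norm_nonneg (tr 1 (Γ.piJ μ (v - v'))))
  have hB := mul_nonneg (norm_nonneg (Γ.iW φ p0 1)) (norm_nonneg (bwd s (tr 1 (v - v').y2)))
  have hD := norm_nonneg (fwd s (tr 0 (v - v').y2))
  generalize ‖Γ.iW φ p0 1‖ * ‖tr 1 (Γ.piJ μ (v - v'))‖ = O at *
  generalize ‖Γ.iW φ p0 1‖ * ‖bwd s (tr 1 (v - v').y2)‖ = B at *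
  generalize ‖fwd s (tr 0 (v - v').y2)‖ = D at *
  generalize ‖W.C (Γ.iW φ p0) * Γ.src μ (v - v')‖ = Q at *
  generalize 1 / k.c₁ = i at *
  have c0 : 0 ≤ k.C₁ := by linarith
  have d1 : k.C₁ * Q ≤ nm σ (Γ.iW φ p0) (v - v') / 4 := by
    nlinarith [mul_le_mul_of_nonneg_left (a5.trans (by linarith : _ ≤ (k.ε + 2 * k.e) / 2 *
      nm σ (Γ.iW φ p0) (v - v'))) c0]
  have d2 := mul_le_mul_of_nonneg_left a4 c0
  have d3 : nm σ (Γ.iW φ p0) (v - v') ≤ 2 * k.C₁ * (D + (B + O)) := by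
    nlinarith [mul_nonneg c0 (by positivity : 0 ≤ D + (B + O))]
  have d4 : Q ≤ D + (B + O) := le_of_mul_le_mul_left
    (by nlinarith [mul_nonneg c0 (by positivity : 0 ≤ D + (B + O))]) (by linarith : 0 < k.C₁)
  constructor
  · nlinarith [mul_nonneg c0 (by positivity : 0 ≤ D + (B + O))]
  · nlinarith [mul_le_mul_of_nonneg_left d4 (by linarith : 0 ≤ i / 2),
      mul_le_mul_of_nonneg_right c1 (by positivity : 0 ≤ D + (B + O)),
      mul_nonneg (zero_le_one.trans c2) (by positivity : 0 ≤ D + (B + O))]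

end box

theorem exfor_of {X : Type} [NormedAddCommGroup X] [NormedSpace ℂ X] {U : Set X} {k : Cst}
    {Γ : X → Ctr} {μ : ℤ → ℝ} {s : ℤ → Icc (0 : ℝ) 1} {φ σ : X → BC} {E : X → EJ → WB}
    {j₀ : X → EJ} {δ C : ℝ} (hΓ : Ctr.Hol Γ U) (hφ : ContinuousOn φ U)
    (hE : ∀ v : X → EJ, DifferentiableOn ℂ v U → DifferentiableOn ℂ (fun x => E x (v x)) U)
    (h : ∀ x ∈ U, Box k (Γ x) μ s (φ x) (σ x) fun v => E x (j₀ x + v) - 0)
    (hσ : ∀ x ∈ U, ∀ t, 1 ≤ ‖σ x t‖) (h0 : ∀ x ∈ U, (Γ x).IsJet (j₀ x))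
    (hδ : 14 * k.C ^ 2 * δ ≤ k.δ) (hC : k.D ≤ C) : EXfor U Γ μ s φ E j₀ δ C := by
  intro j₁ f d₀ d₁ ω hj hf hd₀ hd₁ hω hs
  have hB : ∀ x ∈ U, Box { k with δ := k.δ / 2 } (Γ x) μ s (φ x) (σ x)
      fun v => E x (j₁ x + v) - f x := fun x hx => by
    have := (h x hx).shift (u := j₁ x - j₀ x) (((h x hx).nm_le_nrm ((hs x hx).1.sub (h0 x hx)) 1).trans
      ((mul_le_mul_of_nonneg_left (hs x hx).2.1 (by positivity)).trans (by linarith))) (f x)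
    simpa only [add_sub_assoc', add_sub_cancel_left, sub_zero, ← add_assoc] using this
  have e1 : ∀ x, fwd s (fwd s (d₀ x) + bwd s (d₁ x)) = fwd s (d₀ x) := fun x => by
    ext1 m; simp only [c_fwd, c_bwd, W.c_add]; split_ifs <;> simp
  have e2 : ∀ x, bwd s (fwd s (d₀ x) + bwd s (d₁ x)) = bwd s (d₁ x) := fun x => by
    ext1 m; simp only [c_fwd, c_bwd, W.c_add]; split_ifs <;> simp
  obtain ⟨v, h1, h2⟩ := exists_sol (d := fun x => fwd s (d₀ x) + bwd s (d₁ x)) p0 hΓ hφ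
    (fun v hv => (hE _ (hj.fun_add hv)).fun_sub hf)
    ((DifferentiableOn.clm hd₀ _).fun_add (DifferentiableOn.clm hd₁ _)) hω hB fun x hx => by
      have a1 := (h x hx).slowD_le (cst (fwd s (d₀ x) + bwd s (d₁ x)))
      have ok := (h x hx).ok
      have a2 : k.C ≤ C := by linarith [ok.le_D, ok.η0, ok.Ac0]
      have a3 := (hs x hx).2.2
      have a4 : δ ≤ k.δ := by
        have : 0 ≤ δ := by linarith [(hs x hx).2.1, (Γ x).nrm_nonneg μ 1 (j₁ x - j₀ x)]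
        nlinarith [ok.one_le_C, mul_nonneg this (sq_nonneg (k.C - 1))]
      rw [tr_cst, tr_cst, e1, e2] at a1
      refine le_trans ?_ (a3.trans (by change _ ≤ k.δ / 2; linarith))
      rw [mul_comm C, mul_assoc, add_zero]
      refine mul_le_mul_of_nonneg_left (mul_le_mul a2 ?_ (End.dsz_nonneg _ _ _ _ _)
        (by linarith [ok.one_le_C])) (norm_nonneg _)
      unfold End.dsz Ctr.dsz
      linarith
  refine ⟨v, h1, fun x hx => ?_⟩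
  obtain ⟨a1, a2, a3, a4, -, a6⟩ := h2 x hx
  have b1 : fwd s (tr 0 (v x).y2) = fwd s (d₀ x) := by
    rw [← e1, ← a3, (h x hx).slowD_eq]
    ext1 m; simp only [c_fwd, c_bwd, W.c_add]; split_ifs <;> simp
  have b2 : bwd s (tr 1 (v x).y2) = bwd s (d₁ x) := by
    rw [← e2, ← a3, (h x hx).slowD_eq]
    ext1 m; simp only [c_fwd, c_bwd, W.c_add]; split_ifs <;> simp
  refine ⟨a1, sub_eq_zero.1 a2, b1, b2, a4, ?_⟩
  have b3 := ((hB x hx).ap_nrm (hσ x hx) (sub_zero (v x)) a1 a6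
    (by rw [nm_zero]; exact (hB x hx).ok.δ0.le)).1
  rw [Ctr.dsz, b1, b2, a4, a2, zero_sub, mul_neg, norm_neg, add_zero] at b3
  have b4 := (Γ x).nrm_one_le μ (φ x) p0 (v x)
  have b5 := (Γ x).nrm_add_le μ 1 (j₁ x - j₀ x) (v x)
  have b6 := (hs x hx).2.2
  rw [mul_comm C, mul_assoc] at b6
  have b7 := mul_le_mul_of_nonneg_left (b3.trans (mul_le_mul_of_nonneg_right hC (by positivity)))
    (norm_nonneg ((Γ x).Wt (φ x) p0))
  rw [add_sub_right_comm]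
  unfold Ctr.dsz at b6
  linarith [(hs x hx).2.1]

theorem nice_of_admP {c K T δ : ℝ} {a : ℂ} {γ : Path} (hc : 0 < c) (h : AdmP c K T a γ)
    (hT : K ≤ T) (ha : ‖a‖ ≤ 1 / K) (h0 : 0 < δ) (h1 : δ ≤ 1 / 10) (hK : 1 / δ ≤ K) :
    γ.Nice c δ a := by
  have h2 : 1 ≤ δ * K := by rwa [div_le_iff₀' h0] at hK
  refine ⟨h.ok, hc, h1, h.dir, fun t => h2.trans ?_, fun t => h2.trans ?_, ha.trans ?_⟩
  · exact mul_le_mul_of_nonneg_left (hT.trans (AB.T_le_norm hc h t)) h0.le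
  · exact mul_le_mul_of_nonneg_left (h.big t) h0.le
  · rwa [div_le_iff₀ ((one_div_pos.2 h0).trans_le hK)]

theorem Ctr.TypW.typ {Γ : Ctr} {s : ℤ → Icc (0 : ℝ) 1} {φ : BC} {c : ℝ} (h : Γ.TypW s φ)
    (ha : Γ.Adm0 c) (hio : ‖Γ.io‖ ≤ c / 10) : Γ.Typ s φ := by
  have e : ∀ t, (2 * Γ.g t * Γ.io t).re = 2 * (Γ.g t * Γ.io t).re := fun t => by
    rw [mul_assoc, show (2 : ℂ) = (2 : ℝ) from rfl, re_ofReal_mul]
  have h0 := ha.x_nonneg
  rcases h with ⟨rfl, h⟩ | ⟨rfl, h⟩ | ⟨rfl, h⟩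
  · exact ha.typB hio (fun t => by linarith [(h t).1, e t]) fun t => by linarith [(h t).2, e t]
  · exact ha.typF hio (fun t => by linarith [(h t).1, e t]) fun t => by
      linarith [(h t).2, e t, h0 t]
  · exact ha.typA (fun t => by linarith [(h t).1, e t, h0 t]) fun t => by linarith [(h t).2, e t]

theorem Path.RealP.niceK {γ : Path} {T δ : ℝ} (h : γ.RealP T) (h0 : 0 < δ) (h1 : δ ≤ 1 / 10)
    (hT : 1 / δ ≤ T) : γ.NiceK 1 δ := by
  refine ⟨h.ok, one_pos, h1, fun t => ⟨1, norm_one, le_rfl, ?_, by rw [mul_one]; exact h.g_eq t⟩,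
    fun t => ?_⟩
  · rw [map_one, one_mul, one_mul, h.ze_eq, ← ofReal_mul, ofReal_re, norm_real,
      Real.norm_of_nonneg (mul_self_nonneg _)]
  · rw [div_le_iff₀' h0] at hT
    exact hT.trans (mul_le_mul_of_nonneg_left ((h.T_le t).trans (re_le_norm _)) h0.le)

theorem sub_ns (f : WB) : f - mult (fun m => if m = 0 then 0 else 1) f = W.C (f.c 0) := by
  ext1 m
  rw [W.c_sub, c_mult fun _ => nind' _, W.C_apply, W.c_one1]
  split_ifs with a <;> simp [a]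

theorem ns_C (x : BC) : mult (fun m => if m = 0 then 0 else 1) (W.C x : WB) = 0 := by
  ext1 m
  rw [c_mult fun _ => nind' _, W.C_apply, W.c_one1]
  split_ifs with a <;> simp

theorem mult_C {σ : ℤ → ℂ} {K : ℝ} (h : ∀ m, ‖σ m‖ ≤ K) (x : BC) :
    mult σ (W.C x : WB) = W.C (σ 0 • x) := by
  ext1 m
  rw [c_mult h, W.C_apply, W.C_apply, W.c_one1, W.c_one1]
  split_ifs with a <;> simp [a]

/-- the equation preserves rotational symmetry -/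
theorem Ecyl_sym (γ : Path) (a : ℂ) (j : EJ) : ∃ x, γ.Ecyl a (j - j.ns) = W.C x := by
  have e : j - j.ns = (W.C (j.y2.c 0), W.C (j.op.c 0), W.C (j.oq.c 0), W.C (j.pt.c 0)) :=
    Prod.ext (sub_ns _) (Prod.ext (sub_ns _) (Prod.ext (sub_ns _) (sub_ns _)))
  rw [e, Path.Ecyl, ← (W.C : BC →ₐ[ℂ] WB).commutes]
  simp only [EJ.y, EJ.yt, EJ.ytt, EJ.y2, EJ.op, EJ.oq, EJ.pt, mult_C sym0_le, mult_C sym1_le,
    mult_C sym2_le]
  exact ⟨_, (map_cylE W.C _ _ _ _ _ _ _ _ _ _ _).symm⟩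

theorem nm_mu_le (σ w : BC) (j : EJ) {χ : ℤ → ℂ} (h : ∀ m, ‖χ m‖ ≤ 1) :
    nm σ w (EJ.mu χ j) ≤ nm σ w j := by
  have b : ∀ f : WB, ‖W.C w * mult χ f‖ ≤ ‖W.C w * f‖ := fun f => by
    rw [C_mul_mult h]; exact (norm_mult_apply_le h _).trans_eq (one_mul _)
  refine nm_le ((b _).trans (y2_le_nm σ w j)) ((b _).trans (op_le_nm σ w j))
    ((b _).trans (oq_le_nm σ w j)) ?_
  rw [EJ.mu_pt, C_mul_mult h]
  exact (b _).trans (pt_le_nm σ w j)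

theorem EJ.sub_ns (j : EJ) : j - j.ns = EJ.mu (fun m => if m = 0 then 1 else 0) j := by
  have b : ∀ f : WB, f - mult (fun m => if m = 0 then 0 else 1) f =
      mult (fun m => if m = 0 then 1 else 0) f := fun f => by
    ext1 m
    rw [W.c_sub, c_mult fun _ => nind' _, c_mult fun _ => nind _]
    split_ifs <;> simp
  exact Prod.ext (b _) (Prod.ext (b _) (Prod.ext (b _) (b _)))

theorem EJ.ns_ns (j : EJ) : EJ.mu (fun m => if m = 0 then 0 else 1) j.ns = j.ns := by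
  have b : ∀ f : WB, mult (fun m => if m = 0 then 0 else 1)
      (mult (fun m => if m = 0 then 0 else 1) f) = mult (fun m => if m = 0 then 0 else 1) f :=
    fun f => by
      ext1 m
      rw [c_mult fun _ => nind' _, c_mult fun _ => nind' _]
      split_ifs <;> simp
  exact Prod.ext (b _) (Prod.ext (b _) (Prod.ext (b _) (b _)))

theorem Box.apns {k : Cst} {γ : Path} {a : ℂ} {φ σ : BC}
    (h : Box k (γ.cyl a) muCyl sdF φ σ fun v => γ.Ecyl a (0 + v) - 0) (hσ : ∀ t, 1 ≤ ‖σ t‖)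
    (hA : k.A = 0) {j : EJ} (hj : γ.IsCyl a j) (h1 : nm σ 1 j ≤ k.δ) :
    (γ.cyl a).nrm muCyl ((γ.cyl a).iW φ p0) j.ns ≤ k.C * (‖nsD (tr 0 j.y2)‖ +
      ‖(γ.cyl a).iW φ p0 1‖ * ‖nsD (tr 1 ((γ.cyl a).piJ muCyl j))‖) := by
  have hχ : ∀ m : ℤ, ‖(if m = 0 then 0 else 1 : ℂ)‖ ≤ 1 := fun _ => nind' _
  have e : j - (j - j.ns) = EJ.mu (fun m => if m = 0 then 0 else 1) j := sub_sub_cancel _ _
  obtain ⟨x, hx⟩ := Ecyl_sym γ a j
  have a1 := h.ap_mu hσ hA (v := j) (v' := j - j.ns) (by rw [e]; exact hj.1.mu hχ) h1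
    (by rw [EJ.sub_ns]; exact (nm_mu_le σ 1 j fun _ => nind _).trans h1) hχ
    (by rw [sub_sub_cancel, EJ.ns_ns])
    (by simp only [zero_add, sub_zero, hj.2, hx, zero_sub, map_neg, ns_C, neg_zero])
  have a2 : bwd sdF (tr 1 (mult (fun m => if m = 0 then 0 else 1) j.y2)) = 0 := by
    ext1 m
    rw [c_bwd, c_tr, c_mult hχ, sdF]
    split_ifs with b b' <;> simp_all
  rw [e, h.good.piJ_mu hj.1 hχ, EJ.mu_y2, a2, norm_zero, zero_add, tr_mult hχ, tr_mult hχ] at a1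
  have := h.ok.one_le_C
  exact a1.trans (mul_le_mul_of_nonneg_left (add_le_add (norm_fwd_le _ _) le_rfl) (by linarith))

/-- the choice of the constants -/
theorem far_const {C L ε : ℝ} (hC : 1 ≤ C) (hL : 1 ≤ L) (hε : 0 < ε) {b : ℝ} (hb : 0 < b) :
    ∃ δ > 0, L * δ ≤ 1 ∧ δ ≤ b ∧ (1 + C) * (L * δ) ≤ ε := by
  refine ⟨min b (min 1 ε / ((1 + C) * L)), by positivity, ?_, min_le_left _ _, ?_⟩ <;>
    have h1 := (le_div_iff₀ (by positivity)).1 (min_le_right b (min 1 ε / ((1 + C) * L))) <;>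
    have h2 : 0 < min b (min 1 ε / ((1 + C) * L)) := by positivity
  · nlinarith [min_le_left 1 ε, mul_pos h2 (by positivity : 0 < C * L)]
  · linarith [min_le_right 1 ε]

theorem farCyl : FarCyl := by
  intro c hc
  rcases le_or_gt c 1 with hc1 | hc1
  swap
  · refine ⟨1, le_rfl, fun ε _ => ⟨1, one_pos, 0, fun δ _ _ K _ => ⟨fun T a γ s φ _ _ h =>
      absurd (AB.c_le_one h) hc1.not_ge, fun X _ _ U T a γ s φ _ _ _ _ _ h => ?_⟩⟩⟩
    obtain rfl : U = ∅ := eq_empty_of_forall_notMem fun x hx =>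
      absurd (AB.c_le_one (h x hx).2.2.1) hc1.not_ge
    exact ⟨fun _ _ _ _ _ _ _ _ _ _ _ => ⟨0, differentiableOn_empty, fun _ h => h.elim⟩,
      fun _ _ => differentiableOn_empty⟩
  obtain ⟨C, L, hL, hB⟩ := box_cyl hc hc1
  have hC : 1 ≤ C := by
    obtain ⟨k, ok, e, -⟩ := hB (1 / L) (by positivity) (by field_simp; rfl)
    exact e ▸ ok.one_le_C
  refine ⟨(1 + C) * (C + 1) + 1, by nlinarith, fun ε hε => ?_⟩
  obtain ⟨δ', h0, h1, h2, h3⟩ := far_const hC hL hε (by positivity : 0 < c / 10)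
  obtain ⟨k, ok, rfl, hη, hA, hδ, hk⟩ := hB δ' h0 h1
  refine ⟨δ' / (14 * k.C ^ 2), by positivity, 1 / δ', fun δ _ hδ₀ K hK => ?_⟩
  have b1 : 14 * k.C ^ 2 * δ ≤ k.δ := by rwa [le_div_iff₀' (by positivity), ← hδ] at hδ₀
  have b2 : k.D ≤ (1 + k.C) * (k.C + 1) + 1 := by
    rw [Cst.D, hA, zero_div, add_zero]
    gcongr
    linarith
  have b3 : ∀ {T a γ s φ}, K ≤ T → ‖a‖ ≤ 1 / K → AdmP c K T a γ → (γ.cyl a).TypW s φ →
      γ.Nice c δ' a ∧ Box k (γ.cyl a) muCyl s φ (γ.sg a) fun v => γ.Ecyl a (0 + v) - 0 :=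
    fun a1 a2 a3 a4 =>
      have n := nice_of_admP hc a3 a1 a2 h0 (by linarith) hK
      ⟨n, hk _ _ _ _ _ _ _ n n.sg_sg (by rw [nm_zero]; exact h0.le)
        (a4.typ n.adm0 (n.norm_io.trans h2))⟩
  refine ⟨fun T a γ s φ a1 a2 a3 a4 => ?_, fun X _ _ U T a γ s φ hU ha hz hg hφ h => ?_⟩
  · obtain ⟨n, b⟩ := b3 a1 a2 a3 a4
    refine ⟨b.apfor n.sg_sg.one isJet_zero b1 b2
      ((mul_le_mul_of_nonneg_left hη (by linarith)).trans h3) (by simp [hA]), ?_⟩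
    rintro j hj a5 rfl
    refine (b.apns n.sg_sg.one hA hj ((b.nm_le_nrm hj.1 1).trans
      ((mul_le_mul_of_nonneg_left a5 (by positivity)).trans b1))).trans
      (mul_le_mul_of_nonneg_right (by nlinarith) (by positivity))
  · have b := fun x hx => b3 (h x hx).1 (h x hx).2.1 (h x hx).2.2.1 (h x hx).2.2.2
    have hγ : Path.Hol γ U := ⟨hU, hz, hg⟩
    have hn := fun x hx => (b x hx).1
    exact ⟨exfor_of (hγ.cyl ha hn) hφ.continuousOn (fun v hv => hγ.Ecyl ha hn hv)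
      (fun x hx => (b x hx).2) (fun x hx => (hn x hx).sg_sg.one) (fun _ _ => isJet_zero) b1 b2,
      fun j hj => (hγ.cyl ha hn).piJ (fun x hx => (b x hx).2.good) hj⟩

theorem farCone : FarCone := by
  intro cc ka kd B hcc
  obtain ⟨C, L, hL, hB⟩ := box_cone (A := |B| + 1 + ‖ka‖ + ‖kd‖) one_pos le_rfl hcc.ne'
    (by positivity)
  have hC : 1 ≤ C := by
    obtain ⟨k, ok, e, -⟩ := hB (1 / L) L (by positivity) (by field_simp; rfl) le_rfl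
    exact e ▸ ok.one_le_C
  refine ⟨(1 + C) * (C + 1 + L) + 1, by nlinarith, fun ε hε => ?_⟩
  obtain ⟨δ', h0, h1, h2, h3⟩ := far_const hC hL hε (by positivity : (0 : ℝ) < 1 / 10)
  have h4 : δ' / (14 * C ^ 2) ≤ δ' := div_le_self h0.le (by nlinarith)
  refine ⟨δ' / (14 * C ^ 2), by positivity, L, fun δ _ hδ₀ Λ hΛ => ⟨1 / δ', ?_⟩⟩
  intro T γ j₀ φ hT hγ hj hφ
  obtain ⟨k, ok, rfl, hη, hA, -, hδ, hk⟩ := hB δ' Λ h0 h1 hΛ
  have b1 : 14 * k.C ^ 2 * δ ≤ k.δ := by rwa [le_div_iff₀' (by positivity), ← hδ] at hδ₀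
  have b2 : k.D ≤ (1 + k.C) * (k.C + 1 + L) + 1 := by
    rw [Cst.D]
    gcongr
    linarith
  have n := hγ.niceK h0 h2 hT
  have p1 := norm_nonneg ka
  have p2 := norm_nonneg kd
  have p3 := abs_nonneg B
  have e : ∀ t, (2 * γ.cone.g t * γ.cone.io t).re = 2 * (γ.g t * γ.cone.io t).re := fun t => by
    rw [mul_assoc, show (2 : ℂ) = (2 : ℝ) from rfl, re_ofReal_mul]; rfl
  have b := hk γ ka kd j₀ 0 φ n (by linarith) (by linarith) (hj.y2.trans h4)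
    (nm_le (by rw [map_one, one_mul]; linarith [hj.y2])
      (by rw [map_one, one_mul]; linarith [hj.op, le_abs_self B])
      (by rw [map_one, one_mul]; linarith [hj.oq]) (by rw [map_one, one_mul]; linarith [hj.pt]))
    (fun t => by
      have := (hφ t).1
      rw [e] at this
      exact (by ring : _ = _).trans_le this)
    fun t => (hφ t).2.trans_eq (by rw [zero_mul, zero_add]; rfl)
  refine ⟨b.apfor n.one_le hj.jet b1 b2 ((mul_le_mul_of_nonneg_left hη (by linarith)).trans h3)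
    ((mul_le_mul_of_nonneg_left hA (by linarith)).trans (by nlinarith)), fun X _ _ U hU => ?_⟩
  exact exfor_of (Ctr.Hol.const _ hU) continuousOn_const
    (fun v hv => (γ.differentiable_Econe cc ka kd).comp_differentiableOn hv) (fun _ _ => b)
    (fun _ _ => n.one_le) (fun _ _ => hj.jet) b1 b2

end Vale.Agent.P218N.End
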