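import Vale.Agent.P218N.End.GeoA

/-! Jets of order two in two directions. -/

open Filter Topology
open scoped RealInnerProductSpace ContDiff

noncomputable section

namespace Vale.Agent.P218N.End

open Vale.Agent.P218.H313 Vale.Agent.P218N.H

section Jet

variable {P P' F : Type*} [NormedAddCommGroup P] [NormedSpace ℝ P] [NormedAddCommGroup P']
  [NormedSpace ℝ P'] [NormedAddCommGroup F] [NormedSpace ℝ F]

/-- `f` is `C²` at `p`, with the value `v`, the derivatives `v1`, `v2` in the directions `a`, `b`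
and the second derivatives `v11`, `v12`, `v22`. -/
structure J2 (a b : P) (f : P → F) (p : P) (v v1 v2 v11 v12 v22 : F) : Prop where
  cd : ContDiffAt ℝ 2 f p
  e0 : f p = v
  e1 : fderiv ℝ f p a = v1
  e2 : fderiv ℝ f p b = v2
  e11 : fderiv ℝ (fderiv ℝ f) p a a = v11
  e12 : fderiv ℝ (fderiv ℝ f) p a b = v12
  e22 : fderiv ℝ (fderiv ℝ f) p b b = v22

theorem hasFDerivAt_fderiv_two {f : P → F} {p : P} (hf : ContDiffAt ℝ 2 f p) :
    HasFDerivAt (fderiv ℝ f) (fderiv ℝ (fderiv ℝ f) p) p :=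
  ((hf.fderiv_right (m := 1) (by norm_num)).differentiableAt (by simp)).hasFDerivAt

theorem eventually_diff_two {f : P → F} {p : P} (hf : ContDiffAt ℝ 2 f p) :
    ∀ᶠ q in 𝓝 p, DifferentiableAt ℝ f q :=
  (hf.eventually (by simp)).mono fun _ hq => hq.differentiableAt (by simp)

/-- the second derivative from a formula for the first derivative -/
theorem snd_of_eventually {f g : P → F} {p v : P} {L : P →L[ℝ] F} (hf : ContDiffAt ℝ 2 f p)
    (h : ∀ᶠ q in 𝓝 p, fderiv ℝ f q v = g q) (hg : HasFDerivAt g L p) (u : P) :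
    fderiv ℝ (fderiv ℝ f) p u v = L u := by
  have h1 := (hasFDerivAt_fderiv_two hf).clm_apply (hasFDerivAt_const v p)
  have h2 : HasFDerivAt (fun q => fderiv ℝ f q v) L p := hg.congr_of_eventuallyEq h
  have h3 := congrArg (fun M : P →L[ℝ] F => M u) (h1.unique h2)
  simpa using h3

theorem snd_comp {ψ : P → P'} {f : P' → F} {p : P} (hψ : ContDiffAt ℝ 2 ψ p)
    (hf : ContDiffAt ℝ 2 f (ψ p)) (u v : P) :
    fderiv ℝ (fderiv ℝ fun q => f (ψ q)) p u v =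
      fderiv ℝ (fderiv ℝ f) (ψ p) (fderiv ℝ ψ p u) (fderiv ℝ ψ p v) +
        fderiv ℝ f (ψ p) (fderiv ℝ (fderiv ℝ ψ) p u v) := by
  have h1 : HasFDerivAt ψ (fderiv ℝ ψ p) p := (hψ.differentiableAt (by simp)).hasFDerivAt
  have h2 := ((hasFDerivAt_fderiv_two hf).comp p h1).clm_apply
    ((hasFDerivAt_fderiv_two hψ).clm_apply (hasFDerivAt_const v p))
  rw [snd_of_eventually (f := fun q => f (ψ q)) (hf.comp p hψ) ?_ h2]
  · simp [add_comm]
  · filter_upwards [eventually_diff_two hψ, h1.continuousAt.eventually (eventually_diff_two hf)]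
      with q q1 q2
    exact congrArg (fun L : P →L[ℝ] F => L v) (fderiv_comp q q2 q1)

theorem snd_smul {c : P → ℝ} {f : P → F} {p : P} (hc : ContDiffAt ℝ 2 c p)
    (hf : ContDiffAt ℝ 2 f p) (u v : P) :
    fderiv ℝ (fderiv ℝ fun q => c q • f q) p u v =
      fderiv ℝ (fderiv ℝ c) p u v • f p + fderiv ℝ c p u • fderiv ℝ f p v +
        fderiv ℝ c p v • fderiv ℝ f p u + c p • fderiv ℝ (fderiv ℝ f) p u v := by
  have h1 : HasFDerivAt c (fderiv ℝ c p) p := (hc.differentiableAt (by simp)).hasFDerivAt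
  have h2 : HasFDerivAt f (fderiv ℝ f p) p := (hf.differentiableAt (by simp)).hasFDerivAt
  have h3 := (h1.smul ((hasFDerivAt_fderiv_two hf).clm_apply (hasFDerivAt_const v p))).add
    (((hasFDerivAt_fderiv_two hc).clm_apply (hasFDerivAt_const v p)).smul h2)
  rw [snd_of_eventually (f := fun q => c q • f q) (hc.smul hf) ?_ h3]
  · simp
    abel
  · filter_upwards [eventually_diff_two hc, eventually_diff_two hf] with q q1 q2
    rw [fderiv_fun_smul q1 q2]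
    simp

theorem snd_add {f g : P → F} {p : P} (hf : ContDiffAt ℝ 2 f p) (hg : ContDiffAt ℝ 2 g p)
    (u v : P) : fderiv ℝ (fderiv ℝ fun q => f q + g q) p u v =
      fderiv ℝ (fderiv ℝ f) p u v + fderiv ℝ (fderiv ℝ g) p u v := by
  have h3 := ((hasFDerivAt_fderiv_two hf).clm_apply (hasFDerivAt_const v p)).add
    ((hasFDerivAt_fderiv_two hg).clm_apply (hasFDerivAt_const v p))
  rw [snd_of_eventually (hf.add hg) ?_ h3]
  · simp
  · filter_upwards [eventually_diff_two hf, eventually_diff_two hg] with q q1 q2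
    rw [fderiv_fun_add q1 q2]
    simp

theorem snd_clm (L : P →L[ℝ] F) (p u v : P) : fderiv ℝ (fderiv ℝ L) p u v = 0 := by
  have : fderiv ℝ L = fun _ => L := funext fun _ => L.fderiv
  rw [this]
  simp

namespace J2

variable {a b p : P} {f g : P → F} {v v1 v2 v11 v12 v22 u u1 u2 u11 u12 u22 : F}

theorem self (a b : P) (hf : ContDiffAt ℝ 2 f p) : J2 a b f p (f p) (fderiv ℝ f p a)
    (fderiv ℝ f p b) (fderiv ℝ (fderiv ℝ f) p a a) (fderiv ℝ (fderiv ℝ f) p a b)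
    (fderiv ℝ (fderiv ℝ f) p b b) := ⟨hf, rfl, rfl, rfl, rfl, rfl, rfl⟩

theorem congr (h : J2 a b f p v v1 v2 v11 v12 v22) (h0 : v = u) (h1 : v1 = u1) (h2 : v2 = u2)
    (h11 : v11 = u11) (h12 : v12 = u12) (h22 : v22 = u22) : J2 a b f p u u1 u2 u11 u12 u22 := by
  subst h0 h1 h2 h11 h12 h22
  exact h

theorem of_eventuallyEq (h : J2 a b f p v v1 v2 v11 v12 v22) (e : g =ᶠ[𝓝 p] f) :
    J2 a b g p v v1 v2 v11 v12 v22 := by
  have e1 : fderiv ℝ g =ᶠ[𝓝 p] fderiv ℝ f := e.fderiv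
  have e2 := e1.fderiv_eq (𝕜 := ℝ)
  have e3 := e1.self_of_nhds
  exact ⟨h.cd.congr_of_eventuallyEq e, e.self_of_nhds.trans h.e0, e3 ▸ h.e1, e3 ▸ h.e2, e2 ▸ h.e11,
    e2 ▸ h.e12, e2 ▸ h.e22⟩

theorem e21 (h : J2 a b f p v v1 v2 v11 v12 v22) : fderiv ℝ (fderiv ℝ f) p b a = v12 :=
  ((h.cd.isSymmSndFDerivAt (by simp)).eq b a).trans h.e12

theorem const (a b p : P) (c : F) : J2 a b (fun _ => c) p c 0 0 0 0 0 :=
  ⟨contDiffAt_const, rfl, by simp, by simp, by simp, by simp, by simp⟩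

theorem lin (a b p : P) (L : P →L[ℝ] F) : J2 a b L p (L p) (L a) (L b) 0 0 0 :=
  ⟨L.contDiff.contDiffAt, rfl, by rw [L.fderiv], by rw [L.fderiv], snd_clm L _ _ _,
    snd_clm L _ _ _, snd_clm L _ _ _⟩

theorem add (hf : J2 a b f p v v1 v2 v11 v12 v22) (hg : J2 a b g p u u1 u2 u11 u12 u22) :
    J2 a b (fun q => f q + g q) p (v + u) (v1 + u1) (v2 + u2) (v11 + u11) (v12 + u12)
      (v22 + u22) := by
  have h := fderiv_fun_add (hf.cd.differentiableAt (by simp)) (hg.cd.differentiableAt (by simp))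
  refine ⟨hf.cd.add hg.cd, by rw [hf.e0, hg.e0], ?_, ?_, ?_, ?_, ?_⟩
  · rw [h, add_apply, hf.e1, hg.e1]
  · rw [h, add_apply, hf.e2, hg.e2]
  · rw [snd_add hf.cd hg.cd, hf.e11, hg.e11]
  · rw [snd_add hf.cd hg.cd, hf.e12, hg.e12]
  · rw [snd_add hf.cd hg.cd, hf.e22, hg.e22]

theorem smul {c : P → ℝ} {c0 c1 c2 c11 c12 c22 : ℝ} (hc : J2 a b c p c0 c1 c2 c11 c12 c22)
    (hf : J2 a b f p v v1 v2 v11 v12 v22) :
    J2 a b (fun q => c q • f q) p (c0 • v) (c0 • v1 + c1 • v) (c0 • v2 + c2 • v)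
      (c11 • v + c1 • v1 + c1 • v1 + c0 • v11) (c12 • v + c1 • v2 + c2 • v1 + c0 • v12)
      (c22 • v + c2 • v2 + c2 • v2 + c0 • v22) := by
  have h := fderiv_fun_smul (hc.cd.differentiableAt (by simp)) (hf.cd.differentiableAt (by simp))
  refine ⟨hc.cd.smul hf.cd, by rw [hf.e0, hc.e0], ?_, ?_, ?_, ?_, ?_⟩
  · simp [h, hf.e0, hc.e0, hf.e1, hc.e1]
  · simp [h, hf.e0, hc.e0, hf.e2, hc.e2]
  · rw [snd_smul hc.cd hf.cd, hf.e0, hc.e0, hf.e1, hc.e1, hf.e11, hc.e11]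
  · rw [snd_smul hc.cd hf.cd, hf.e0, hc.e0, hf.e1, hc.e1, hf.e2, hc.e2, hf.e12, hc.e12]
  · rw [snd_smul hc.cd hf.cd, hf.e0, hc.e0, hf.e2, hc.e2, hf.e22, hc.e22]

theorem mul {c d : P → ℝ} {c0 c1 c2 c11 c12 c22 d0 d1 d2 d11 d12 d22 : ℝ}
    (hc : J2 a b c p c0 c1 c2 c11 c12 c22) (hd : J2 a b d p d0 d1 d2 d11 d12 d22) :
    J2 a b (fun q => c q * d q) p (c0 * d0) (c0 * d1 + c1 * d0) (c0 * d2 + c2 * d0)
      (c11 * d0 + 2 * c1 * d1 + c0 * d11) (c12 * d0 + c1 * d2 + c2 * d1 + c0 * d12)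
      (c22 * d0 + 2 * c2 * d2 + c0 * d22) :=
  (hc.smul hd).congr rfl rfl rfl (by simp only [smul_eq_mul]; ring) rfl
    (by simp only [smul_eq_mul]; ring)

/-- the chain rule -/
theorem comp {ψ : P → P'} {x x1 x2 x11 x12 x22 : P'} {φ : P' → F}
    (hψ : J2 a b ψ p x x1 x2 x11 x12 x22) (hφ : ContDiffAt ℝ 2 φ x) :
    J2 a b (fun q => φ (ψ q)) p (φ x) (fderiv ℝ φ x x1) (fderiv ℝ φ x x2)
      (fderiv ℝ (fderiv ℝ φ) x x1 x1 + fderiv ℝ φ x x11)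
      (fderiv ℝ (fderiv ℝ φ) x x1 x2 + fderiv ℝ φ x x12)
      (fderiv ℝ (fderiv ℝ φ) x x2 x2 + fderiv ℝ φ x x22) := by
  obtain ⟨h, rfl, rfl, rfl, rfl, rfl, rfl⟩ := hψ
  have h1 := fderiv_comp p (hφ.differentiableAt (by simp)) (h.differentiableAt (by simp))
  exact ⟨hφ.comp p h, rfl, congrArg (fun L : P →L[ℝ] F => L a) h1,
    congrArg (fun L : P →L[ℝ] F => L b) h1, snd_comp h hφ _ _, snd_comp h hφ _ _, snd_comp h hφ _ _⟩

theorem clm {G : Type*} [NormedAddCommGroup G] [NormedSpace ℝ G] (L : F →L[ℝ] G)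
    (hf : J2 a b f p v v1 v2 v11 v12 v22) :
    J2 a b (fun q => L (f q)) p (L v) (L v1) (L v2) (L v11) (L v12) (L v22) := by
  refine (hf.comp L.contDiff.contDiffAt).congr rfl ?_ ?_ ?_ ?_ ?_ <;>
    simp only [snd_clm, L.fderiv, zero_add]

/-- composition with a function of one variable -/
theorem comp1 {c : P → ℝ} {c0 c1 c2 c11 c12 c22 : ℝ} {φ φ1 : ℝ → F} {φ2 : F}
    (hc : J2 a b c p c0 c1 c2 c11 c12 c22) (hφ : ContDiffAt ℝ 2 φ c0)
    (h1 : ∀ᶠ x in 𝓝 c0, HasDerivAt φ (φ1 x) x) (h2 : HasDerivAt φ1 φ2 c0) :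
    J2 a b (fun q => φ (c q)) p (φ c0) (c1 • φ1 c0) (c2 • φ1 c0) ((c1 * c1) • φ2 + c11 • φ1 c0)
      ((c1 * c2) • φ2 + c12 • φ1 c0) ((c2 * c2) • φ2 + c22 • φ1 c0) := by
  have k1 : ∀ᶠ x in 𝓝 c0, ∀ t, fderiv ℝ φ x t = t • φ1 x :=
    h1.mono fun x hx t => by rw [hx.hasFDerivAt.fderiv]; simp
  have k2 : ∀ s t, fderiv ℝ (fderiv ℝ φ) c0 s t = (s * t) • φ2 := fun s t => by
    rw [snd_of_eventually hφ (k1.mono fun x hx => hx t) (h2.const_smul t).hasFDerivAt]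
    simp [mul_smul]
  refine (hc.comp hφ).congr rfl ?_ ?_ ?_ ?_ ?_ <;> simp only [k2, k1.self_of_nhds]

theorem prodMk {G : Type*} [NormedAddCommGroup G] [NormedSpace ℝ G] {g : P → G}
    {u u1 u2 u11 u12 u22 : G} (hf : J2 a b f p v v1 v2 v11 v12 v22)
    (hg : J2 a b g p u u1 u2 u11 u12 u22) :
    J2 a b (fun q => (f q, g q)) p (v, u) (v1, u1) (v2, u2) (v11, u11) (v12, u12) (v22, u22) := by
  have := (hf.clm (ContinuousLinearMap.inl ℝ F G)).add (hg.clm (ContinuousLinearMap.inr ℝ F G))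
  simpa using this

end J2

end Jet

/-- jets in the plane, in the directions of the coordinates -/
abbrev JP {F : Type*} [NormedAddCommGroup F] [NormedSpace ℝ F] (f : ℝ × ℝ → F) (p : ℝ × ℝ)
    (v v1 v2 v11 v12 v22 : F) : Prop := J2 (1, 0) (0, 1) f p v v1 v2 v11 v12 v22

section Plane

variable {F : Type*} [NormedAddCommGroup F] [NormedSpace ℝ F] {p : ℝ × ℝ}

theorem JP.fst (p : ℝ × ℝ) : JP (fun q => q.1) p p.1 1 0 0 0 0 :=
  J2.lin _ _ p (ContinuousLinearMap.fst ℝ ℝ ℝ)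

theorem JP.snd (p : ℝ × ℝ) : JP (fun q => q.2) p p.2 0 1 0 0 0 :=
  J2.lin _ _ p (ContinuousLinearMap.snd ℝ ℝ ℝ)

/-- a function of the first variable -/
theorem JP.of_fst {φ φ1 : ℝ → F} {φ2 : F} (hφ : ContDiffAt ℝ 2 φ p.1)
    (h1 : ∀ᶠ x in 𝓝 p.1, HasDerivAt φ (φ1 x) x) (h2 : HasDerivAt φ1 φ2 p.1) :
    JP (fun q => φ q.1) p (φ p.1) (φ1 p.1) 0 φ2 0 0 := by
  simpa using (JP.fst p).comp1 hφ h1 h2

/-- a function of the second variable -/
theorem JP.of_snd {φ φ1 : ℝ → F} {φ2 : F} (hφ : ContDiffAt ℝ 2 φ p.2)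
    (h1 : ∀ᶠ x in 𝓝 p.2, HasDerivAt φ (φ1 x) x) (h2 : HasDerivAt φ1 φ2 p.2) :
    JP (fun q => φ q.2) p (φ p.2) 0 (φ1 p.2) 0 0 φ2 := by
  simpa using (JP.snd p).comp1 hφ h1 h2

/-- change of the first variable -/
theorem JP.reparam {f : ℝ × ℝ → F} {z : ℝ × ℝ → ℝ} {z0 z1 z11 : ℝ} {v v1 v2 v11 v12 v22 : F}
    (hz : JP z p z0 z1 0 z11 0 0) (hf : JP f (z0, p.2) v v1 v2 v11 v12 v22) :
    JP (fun q => f (z q, q.2)) p v (z1 • v1) v2 ((z1 * z1) • v11 + z11 • v1) (z1 • v12) v22 := by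
  have e : ∀ t : ℝ, ((t, 0) : ℝ × ℝ) = t • ((1, 0) : ℝ × ℝ) := fun t => by simp
  refine ((hz.prodMk (JP.snd p)).comp hf.cd).congr hf.e0 ?_ hf.e2 ?_ ?_ ?_
  · rw [e z1, map_smul, hf.e1]
  · rw [e z1, e z11, map_smul, map_smul, map_smul, smul_apply, hf.e1, hf.e11, smul_smul]
  · rw [e z1, map_smul, smul_apply, hf.e12, Prod.mk_zero_zero, map_zero, add_zero]
  · rw [hf.e22, Prod.mk_zero_zero, map_zero, add_zero]

theorem JP.cos (p : ℝ × ℝ) :
    JP (fun q => Real.cos q.2) p (Real.cos p.2) 0 (-Real.sin p.2) 0 0 (-Real.cos p.2) :=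
  JP.of_snd (φ1 := fun x => -Real.sin x) Real.contDiff_cos.contDiffAt
    (Eventually.of_forall Real.hasDerivAt_cos) (Real.hasDerivAt_sin _).neg

theorem JP.sin (p : ℝ × ℝ) :
    JP (fun q => Real.sin q.2) p (Real.sin p.2) 0 (Real.cos p.2) 0 0 (-Real.sin p.2) :=
  JP.of_snd Real.contDiff_sin.contDiffAt (Eventually.of_forall Real.hasDerivAt_sin)
    (Real.hasDerivAt_cos _)

theorem JP.exp (p : ℝ × ℝ) :
    JP (fun q => Real.exp q.1) p (Real.exp p.1) (Real.exp p.1) 0 (Real.exp p.1) 0 0 :=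
  JP.of_fst Real.contDiff_exp.contDiffAt (Eventually.of_forall Real.hasDerivAt_exp)
    (Real.hasDerivAt_exp _)

/-- the square root of a positive function -/
theorem J2.sqrt {P : Type*} [NormedAddCommGroup P] [NormedSpace ℝ P] {a b p : P} {c : P → ℝ}
    {c0 c1 c2 c11 c12 c22 : ℝ} (hc : J2 a b c p c0 c1 c2 c11 c12 c22) (h : 0 < c0) :
    J2 a b (fun q => √(c q)) p (√c0) (c1 / (2 * √c0)) (c2 / (2 * √c0))
      (c11 / (2 * √c0) - c1 * c1 / (4 * c0 * √c0)) (c12 / (2 * √c0) - c1 * c2 / (4 * c0 * √c0))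
      (c22 / (2 * √c0) - c2 * c2 / (4 * c0 * √c0)) := by
  have hs : √c0 ≠ 0 := (Real.sqrt_pos.2 h).ne'
  have h2 : HasDerivAt (fun x => 1 / (2 * √x)) (-(1 / (4 * c0 * √c0))) c0 := by
    have := ((Real.hasDerivAt_sqrt h.ne').const_mul 2).inv (mul_ne_zero two_ne_zero hs)
    simp only [one_div]
    refine this.congr_deriv ?_
    rw [mul_pow, Real.sq_sqrt h.le]
    field_simp
    norm_num
  refine (hc.comp1 (Real.contDiffAt_sqrt h.ne')
    ((lt_mem_nhds h).mono fun x hx => Real.hasDerivAt_sqrt hx.ne') h2).congr rfl ?_ ?_ ?_ ?_ ?_ <;>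
    simp only [smul_eq_mul] <;> ring

theorem JP.sqrt (h : 0 < p.1) :
    JP (fun q => √q.1) p (√p.1) (1 / (2 * √p.1)) 0 (-(1 / (4 * p.1 * √p.1))) 0 0 :=
  (J2.sqrt (JP.fst p) h).congr rfl rfl (by simp) (by simp) (by simp) (by simp)

theorem JP.log (h : 0 < p.1) :
    JP (fun q => Real.log q.1 / 2) p (Real.log p.1 / 2) (1 / (2 * p.1)) 0 (-(1 / (2 * p.1 ^ 2)))
      0 0 := by
  refine JP.of_fst (φ := fun x => Real.log x / 2) (φ1 := fun x => 1 / (2 * x))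
    ((Real.contDiffAt_log.2 h.ne').div_const 2) ((lt_mem_nhds h).mono fun x hx => ?_) ?_
  · refine ((Real.hasDerivAt_log hx.ne').div_const 2).congr_deriv ?_
    field_simp
  · have := ((hasDerivAt_id p.1).const_mul 2).inv (mul_ne_zero two_ne_zero h.ne')
    simp only [one_div]
    refine this.congr_deriv ?_
    simp only [id]
    field_simp

/-- partial derivatives as ordinary derivatives -/
theorem hasDerivAt_fst {f : ℝ × ℝ → F} (hf : DifferentiableAt ℝ f p) :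
    HasDerivAt (fun t => f (t, p.2)) (fderiv ℝ f p (1, 0)) p.1 :=
  hf.hasFDerivAt.comp_hasDerivAt_of_eq p.1 ((hasDerivAt_id p.1).prodMk (hasDerivAt_const p.1 p.2))
    rfl

theorem hasDerivAt_snd {f : ℝ × ℝ → F} (hf : DifferentiableAt ℝ f p) :
    HasDerivAt (fun t => f (p.1, t)) (fderiv ℝ f p (0, 1)) p.2 :=
  hf.hasFDerivAt.comp_hasDerivAt_of_eq p.2 ((hasDerivAt_const p.2 p.1).prodMk (hasDerivAt_id p.2))
    rfl

theorem hasDerivAt_fderiv_fst {f : ℝ × ℝ → F} (hf : ContDiffAt ℝ 2 f p) (v : ℝ × ℝ) :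
    HasDerivAt (fun t => fderiv ℝ f (t, p.2) v) (fderiv ℝ (fderiv ℝ f) p (1, 0) v) p.1 := by
  simpa using (hasDerivAt_fst (hasFDerivAt_fderiv_two hf).differentiableAt).clm_apply
    (hasDerivAt_const p.1 v)

theorem hasDerivAt_fderiv_snd {f : ℝ × ℝ → F} (hf : ContDiffAt ℝ 2 f p) (v : ℝ × ℝ) :
    HasDerivAt (fun t => fderiv ℝ f (p.1, t) v) (fderiv ℝ (fderiv ℝ f) p (0, 1) v) p.2 := by
  simpa using (hasDerivAt_snd (hasFDerivAt_fderiv_two hf).differentiableAt).clm_apply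
    (hasDerivAt_const p.2 v)

end Plane

/-- The shrinker equation for a jet. -/
theorem J2.shr {P : Type*} [NormedAddCommGroup P] [NormedSpace ℝ P] {a b p : P} {w : E3 → ℝ}
    {X : P → E3} {X0 X1 X2 X11 X12 X22 n : E3} (hw : Shr w) (hX : J2 a b X p X0 X1 X2 X11 X12 X22)
    (h0 : ∀ᶠ q in 𝓝 p, w (X q) = 0) (hg : gram X1 X2 ≠ 0) (n1 : ⟪n, X1⟫ = 0) (n2 : ⟪n, X2⟫ = 0) :
    shrP X0 X1 X2 X11 X12 X22 n = 0 := by
  obtain ⟨h, rfl, rfl, rfl, rfl, rfl, rfl⟩ := hX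
  exact hw.shrP_eq_zero h h0 a b hg n1 n2

/-- The mean curvature for a jet. -/
theorem J2.shrP_eq {P : Type*} [NormedAddCommGroup P] [NormedSpace ℝ P] {a b p : P} {w : E3 → ℝ}
    {X : P → E3} {X0 X1 X2 X11 X12 X22 n : E3} (hw : ContDiff ℝ ∞ w) (hne : grad w X0 ≠ 0)
    (hX : J2 a b X p X0 X1 X2 X11 X12 X22) (h0 : ∀ᶠ q in 𝓝 p, w (X q) = 0) (hg : gram X1 X2 ≠ 0)
    (n1 : ⟪n, X1⟫ = 0) (n2 : ⟪n, X2⟫ = 0) : shrP X0 X1 X2 X11 X12 X22 n =
      -gram X1 X2 * ⟪n, nuW w X0⟫ * (tr (AW w X0) - ⟪X0, nuW w X0⟫ / 2) := by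
  obtain ⟨h, rfl, rfl, rfl, rfl, rfl, rfl⟩ := hX
  exact shrP_normal hw hne h h0 a b hg n1 n2

end Vale.Agent.P218N.End
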