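import Vale.Agent.P218N.End.EvD

/-! Complex conjugation on `W A`; reality. -/

open Filter Topology Metric Set Complex
open scoped BoundedContinuousFunction ComplexConjugate

noncomputable section

namespace Vale.Agent.P218N.End

namespace W

section group
variable {A B : Type*} [NormedAddCommGroup A] [StarAddMonoid A] [NormedStarGroup A]
  [NormedAddCommGroup B] [StarAddMonoid B] [NormedStarGroup B]

theorem hasSum_cj (a : W A) : HasSum (fun m => ‖star (a.c (-m))‖) ‖a‖ := by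
  simp only [norm_star]
  exact (Equiv.neg ℤ).hasSum_iff.2 a.hasSum

/-- the conjugate function -/
def cj (a : W A) : W A := mk (fun m => star (a.c (-m))) (hasSum_cj a).summable

@[simp] theorem c_cj (a : W A) (m : ℤ) : (cj a).c m = star (a.c (-m)) := rfl

@[simp] theorem norm_cj (a : W A) : ‖cj a‖ = ‖a‖ := (cj a).hasSum.unique (hasSum_cj a)

@[simp] theorem cj_cj (a : W A) : cj (cj a) = a := by ext m; simp

@[simp] theorem cj_add (a b : W A) : cj (a + b) = cj a + cj b := by ext m; simp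
@[simp] theorem cj_sub (a b : W A) : cj (a - b) = cj a - cj b := by ext m; simp
@[simp] theorem cj_neg (a : W A) : cj (-a) = -cj a := by ext m; simp
@[simp] theorem cj_zero : cj (0 : W A) = 0 := by ext m; simp

theorem cj_one1 (n : ℤ) (x : A) : cj (one1 n x) = one1 (-n) (star x) := by
  ext m
  rw [c_cj, c_one1, c_one1]
  by_cases h : m = -n
  · rw [if_pos h, if_pos (by omega)]
  · rw [if_neg h, if_neg (by omega), star_zero]

theorem isometry_cj : Isometry (cj : W A → W A) :=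
  Isometry.of_dist_eq fun a b => by rw [dist_eq_norm, dist_eq_norm, ← cj_sub, norm_cj]

theorem continuous_cj : Continuous (cj : W A → W A) := isometry_cj.continuous

theorem cj_inj {a b : W A} (h : cj a = cj b) : a = b := isometry_cj.injective h

/-- real elements -/
def IsRl (a : W A) : Prop := cj a = a

theorem isClosed_isRl : IsClosed {a : W A | IsRl a} := isClosed_eq continuous_cj continuous_id

theorem IsRl.add {a b : W A} (ha : IsRl a) (hb : IsRl b) : IsRl (a + b) := by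
  rw [IsRl, cj_add, ha, hb]
theorem IsRl.sub {a b : W A} (ha : IsRl a) (hb : IsRl b) : IsRl (a - b) := by
  rw [IsRl, cj_sub, ha, hb]
theorem IsRl.neg {a : W A} (ha : IsRl a) : IsRl (-a) := by rw [IsRl, cj_neg, ha]
theorem isRl_zero : IsRl (0 : W A) := cj_zero

variable [NormedSpace ℂ A] [NormedSpace ℂ B]

@[simp] theorem cj_smul [StarModule ℂ A] (z : ℂ) (a : W A) : cj (z • a) = conj z • cj a := by
  ext m; simp

theorem IsRl.smul [StarModule ℂ A] {a : W A} (ha : IsRl a) (r : ℝ) : IsRl ((r : ℂ) • a) := by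
  rw [IsRl, cj_smul, ha, Complex.conj_ofReal]

/-- conjugation as a conjugate linear map -/
def cjL [StarModule ℂ A] : W A →L⋆[ℂ] W A :=
  LinearMap.mkContinuous ⟨⟨cj, cj_add⟩, cj_smul⟩ 1 fun a => by simp

@[simp] theorem cjL_apply [StarModule ℂ A] (a : W A) : cjL a = cj a := rfl

theorem bdd_of_star {T T' : ℤ → A →L[ℂ] B} (h : ∀ m x, star (T (-m) x) = T' m (star x)) {K : ℝ}
    (hK : ∀ m, ‖T m‖ ≤ K) (m : ℤ) : ‖T' m‖ ≤ K := by
  refine ContinuousLinearMap.opNorm_le_bound _ ((norm_nonneg _).trans (hK 0)) fun y => ?_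
  rw [← star_star y, ← h, norm_star, norm_star (star y)]
  exact (T _).le_of_opNorm_le (hK _) _

theorem cj_diag {T T' : ℤ → A →L[ℂ] B} (h : ∀ m x, star (T (-m) x) = T' m (star x)) (a : W A) :
    cj (diag T a) = diag T' (cj a) := by
  by_cases hT : ∃ K, ∀ m, ‖T m‖ ≤ K
  · obtain ⟨K, hK⟩ := hT
    ext m
    rw [c_cj, c_diag hK, c_diag (bdd_of_star h hK), h, c_cj]
  · have hT' : ¬ ∃ K, ∀ m, ‖T' m‖ ≤ K := fun ⟨K, hK⟩ => hT ⟨K, bdd_of_star (T := T') (T' := T)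
      (fun m x => by rw [← star_star x, ← h, star_star, star_star, neg_neg]) hK⟩
    unfold diag
    rw [dif_neg hT, dif_neg hT']
    exact cj_zero

end group

section ring
variable {A : Type*} [NormedCommRing A] [CompleteSpace A] [NormedAlgebra ℂ A] [StarRing A]
  [NormedStarGroup A] [StarModule ℂ A]

theorem sumL_cj (θ : ℝ) (a : W A) : sumL θ (cj a) = star (sumL θ a) := by
  refine (hasSum_sumL θ _).unique ?_
  refine ((Equiv.neg ℤ).hasSum_iff.2 (hasSum_sumL θ a).star).congr_fun fun m => ?_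
  simp [← Complex.exp_conj]

@[simp] theorem cj_mul (a b : W A) : cj (a * b) = cj a * cj b :=
  ext_sumL fun θ => by rw [sumL_cj, sumL_mul, sumL_mul, sumL_cj, sumL_cj, star_mul']

omit [StarModule ℂ A] in
@[simp] theorem cj_C (x : A) : cj (C x) = C (star x) := cj_one1 0 x

omit [StarModule ℂ A] [NormedAlgebra ℂ A] [CompleteSpace A] in
@[simp] theorem cj_one : cj (1 : W A) = 1 := (cj_one1 0 1).trans (by rw [star_one]; rfl)

/-- conjugation as a ring map -/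
def cjR : W A →+* W A where
  toFun := cj
  map_one' := cj_one
  map_mul' := cj_mul
  map_zero' := cj_zero
  map_add' := cj_add

theorem cjR_apply (a : W A) : cjR a = cj a := rfl

@[simp] theorem cj_pow (a : W A) (n : ℕ) : cj (a ^ n) = cj a ^ n := map_pow cjR a n

@[simp] theorem cj_algebraMap (z : ℂ) :
    cj (algebraMap ℂ (W A) z) = algebraMap ℂ (W A) (conj z) := by
  rw [Algebra.algebraMap_eq_smul_one, Algebra.algebraMap_eq_smul_one, cj_smul, cj_one]

theorem isRl_iff_sumL {a : W A} : IsRl a ↔ ∀ θ, star (sumL θ a) = sumL θ a :=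
  ⟨fun h θ => by rw [← sumL_cj, h], fun h => ext_sumL fun θ => by rw [sumL_cj, h]⟩

theorem IsRl.mul {a b : W A} (ha : IsRl a) (hb : IsRl b) : IsRl (a * b) := by
  rw [IsRl, cj_mul, ha, hb]

omit [StarModule ℂ A] in
theorem isRl_C {x : A} (h : star x = x) : IsRl (C x) := by rw [IsRl, cj_C, h]

end ring

end W

open W (cj IsRl)

theorem star_BC_apply (x : BC) (t : ℝ) : (star x) t = conj (x t) := rfl

theorem star_BC_eq_iff {x : BC} : star x = x ↔ ∀ t, (x t).im = 0 :=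
  ⟨fun h t => Complex.conj_eq_iff_im.1 (congrArg (fun y : BC => y t) h),
    fun h => BoundedContinuousFunction.ext fun t => Complex.conj_eq_iff_im.2 (h t)⟩

@[simp] theorem ev_cj (f : WB) (t θ : ℝ) : ev (cj f) t θ = conj (ev f t θ) := by
  rw [ev, W.sumL_cj]; rfl

theorem isRl_iff_ev {f : WB} : IsRl f ↔ ∀ t θ, (ev f t θ).im = 0 :=
  ⟨fun h t θ => Complex.conj_eq_iff_im.1 (by rw [← ev_cj, h]),
    fun h => ext_ev fun t θ => by rw [ev_cj, Complex.conj_eq_iff_im.2 (h t θ)]⟩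

theorem isRl_iff_WD {d : WD} : IsRl d ↔ ∀ θ, (W.sumL θ d).im = 0 :=
  W.isRl_iff_sumL.trans (forall_congr' fun _ => Complex.conj_eq_iff_im)

theorem cj_tr (t : ℝ) (f : WB) : cj (tr t f) = tr t (cj f) := W.cj_diag (fun _ _ => rfl) f

theorem cj_cst (d : WD) : cj (cst d) = cst (cj d) := W.cj_diag (fun _ x => by simp) d

theorem W.IsRl.tr {f : WB} (h : IsRl f) (t : ℝ) : IsRl (tr t f) := by rw [IsRl, cj_tr, h]

theorem W.IsRl.cst {d : WD} (h : IsRl d) : IsRl (cst d) := by rw [IsRl, cj_cst, h]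

section mult
variable {A : Type*} [NormedAddCommGroup A] [StarAddMonoid A] [NormedStarGroup A]
  [NormedSpace ℂ A] [StarModule ℂ A]

theorem cj_mult' (σ : ℤ → ℂ) (a : W A) :
    cj (mult σ a) = mult (fun m => conj (σ (-m))) (cj a) := W.cj_diag (fun m x => by simp) a

theorem cj_mult {σ : ℤ → ℂ} (h : ∀ m, σ (-m) = conj (σ m)) (a : W A) :
    cj (mult σ a) = mult σ (cj a) := by
  rw [cj_mult']
  simp only [h, Complex.conj_conj]

end mult

namespace EJ

/-- the conjugate jet -/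
def cj (j : EJ) : EJ := (W.cj j.y2, W.cj j.op, W.cj j.oq, W.cj j.pt)

variable (j : EJ)

@[simp] theorem y2_cj : j.cj.y2 = W.cj j.y2 := rfl
@[simp] theorem op_cj : j.cj.op = W.cj j.op := rfl
@[simp] theorem oq_cj : j.cj.oq = W.cj j.oq := rfl
@[simp] theorem pt_cj : j.cj.pt = W.cj j.pt := rfl
@[simp] theorem y_cj : j.cj.y = W.cj j.y := (cj_mult (fun m => by simp [br_neg]) _).symm
@[simp] theorem yt_cj : j.cj.yt = W.cj j.yt := (cj_mult (fun m => by simp [br_neg]) _).symm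
@[simp] theorem ytt_cj : j.cj.ytt = W.cj j.ytt := (cj_mult (fun m => by simp [br_neg]) _).symm

theorem ext' {j j' : EJ} (h1 : j.y2 = j'.y2) (h2 : j.op = j'.op) (h3 : j.oq = j'.oq)
    (h4 : j.pt = j'.pt) : j = j' := Prod.ext h1 (Prod.ext h2 (Prod.ext h3 h4))

@[simp] theorem cj_cj : j.cj.cj = j := ext' (W.cj_cj _) (W.cj_cj _) (W.cj_cj _) (W.cj_cj _)

@[simp] theorem norm_cj : ‖j.cj‖ = ‖j‖ := by
  simp only [cj, Prod.norm_def, W.norm_cj]
  rfl

theorem cj_add (j' : EJ) : (j + j').cj = j.cj + j'.cj :=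
  ext' (W.cj_add _ _) (W.cj_add _ _) (W.cj_add _ _) (W.cj_add _ _)

theorem cj_sub (j' : EJ) : (j - j').cj = j.cj - j'.cj :=
  ext' (W.cj_sub _ _) (W.cj_sub _ _) (W.cj_sub _ _) (W.cj_sub _ _)

theorem cj_smul (z : ℂ) : (z • j).cj = conj z • j.cj :=
  ext' (W.cj_smul _ _) (W.cj_smul _ _) (W.cj_smul _ _) (W.cj_smul _ _)

theorem cj_zero : (0 : EJ).cj = 0 := ext' W.cj_zero W.cj_zero W.cj_zero W.cj_zero

/-- real jets -/
def IsRl : Prop := j.cj = j

variable {j}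

theorem IsRl.y2 (h : j.IsRl) : W.IsRl j.y2 := congrArg EJ.y2 h
theorem IsRl.op (h : j.IsRl) : W.IsRl j.op := congrArg EJ.op h
theorem IsRl.oq (h : j.IsRl) : W.IsRl j.oq := congrArg EJ.oq h
theorem IsRl.pt (h : j.IsRl) : W.IsRl j.pt := congrArg EJ.pt h
theorem IsRl.y (h : j.IsRl) : W.IsRl j.y := j.y_cj.symm.trans (congrArg EJ.y h)
theorem IsRl.yt (h : j.IsRl) : W.IsRl j.yt := j.yt_cj.symm.trans (congrArg EJ.yt h)
theorem IsRl.ytt (h : j.IsRl) : W.IsRl j.ytt := j.ytt_cj.symm.trans (congrArg EJ.ytt h)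

end EJ

/-! ### Conjugate contours -/

theorem star_mkB (f : ℝ → ℂ) : star (mkB f) = mkB fun t => conj (f t) := by
  by_cases h : Continuous f ∧ ∃ C, ∀ t, ‖f t‖ ≤ C
  · obtain ⟨h1, K, h2⟩ := h
    ext t
    rw [star_BC_apply, mkB_apply h1 h2,
      mkB_apply (f := fun t => conj (f t)) (Complex.continuous_conj.comp h1) (C := K)
        fun t => by simpa using h2 t]
  · have h' : ¬ (Continuous (fun t => conj (f t)) ∧ ∃ C, ∀ t, ‖conj (f t)‖ ≤ C) := fun h' =>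
      h ⟨by simpa [Function.comp_def] using Complex.continuous_conj.comp h'.1,
        by simpa using h'.2⟩
    unfold mkB
    rw [dif_neg h, dif_neg h', star_zero]

theorem star_nem {φ : ℂ → ℂ} {a : BC} (h : ∀ t, conj (φ (a t)) = φ (conj (a t))) :
    star (nem φ a) = nem φ (star a) := by
  rw [nem, star_mkB]
  simp only [h]
  rfl

theorem star_binv (a : BC) : star (binv a) = binv (star a) := star_nem fun _ => map_inv₀ _ _

theorem Spt.star {f : BC} (h : Spt f) : Spt (star f) := fun t ht => by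
  rw [star_BC_apply, h t ht, map_zero]

theorem hasDerivAt_star_BC {y : BC} {z : ℂ} {t : ℝ} (h : HasDerivAt y z t) :
    HasDerivAt (star y : BC) (conj z) t := Complex.conjCLE.hasFDerivAt.comp_hasDerivAt t h

namespace Ctr

/-- the conjugate contour -/
def cj (Γ : Ctr) : Ctr := ⟨star Γ.g, star Γ.Om, star Γ.io, star Γ.lo⟩

variable {Γ : Ctr} {j : EJ}

@[simp] theorem cj_cj : Γ.cj.cj = Γ := by simp [cj]

theorem Ok.cj (h : Γ.Ok) : Γ.cj.Ok where
  spt := h.spt.star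
  inv := by rw [Ctr.cj, ← star_mul', h.inv, star_one]
  der t := (hasDerivAt_star_BC (h.der t)).congr_deriv (by simp [Ctr.cj])

theorem Der.cj {y P : BC} (h : Γ.Der y P) : Γ.cj.Der (star y) (star P) := fun t =>
  (hasDerivAt_star_BC (h t)).congr_deriv (by simp [Ctr.cj])

theorem jP_cj (Γ : Ctr) (j : EJ) : Γ.cj.jP j.cj = W.cj (Γ.jP j) := by simp [jP, Ctr.cj]

theorem jQ_cj (Γ : Ctr) (j : EJ) : Γ.cj.jQ j.cj = W.cj (Γ.jQ j) := by simp [jQ, Ctr.cj]

theorem IsJet.cj (h : Γ.IsJet j) : Γ.cj.IsJet j.cj := by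
  rw [isJet_iff, jP_cj, jQ_cj, EJ.y_cj, EJ.pt_cj]
  refine ⟨fun m => (h.der_y _).cj, fun m => (h.der_P _).cj, fun m => ?_⟩
  rw [W.c_cj, W.c_cj, h.c_pt]
  simp

theorem cj_eq_of_real (h1 : star Γ.g = Γ.g) (h2 : star Γ.Om = Γ.Om) (h3 : star Γ.io = Γ.io)
    (h4 : star Γ.lo = Γ.lo) : Γ.cj = Γ := by rw [cj, h1, h2, h3, h4]

theorem kk_cj (Γ : Ctr) (μ : ℝ) : Γ.cj.kk μ = star (Γ.kk μ) := by simp [kk, cj]

end Ctr

theorem conj_Sf {k : ℂ} (h : 1 / 64 + k ∈ slitPlane) : conj (Sf k) = Sf (conj k) := by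
  unfold Sf Complex.sqrt
  have h1 := Complex.conj_cpow (1 / 64 + k) 2⁻¹ (Complex.slitPlane_arg_ne_pi h)
  simp only [map_add, map_div₀, map_one, map_ofNat, map_inv₀] at h1
  exact h1.symm

theorem conj_nu {k : ℂ} (h : 1 / 64 + k ∈ slitPlane) : conj (nu k) = nu (conj k) := by
  simp only [nu, map_sub, conj_Sf h, map_div₀, map_one, map_ofNat]

theorem conj_la {k : ℂ} (h : 1 / 64 + k ∈ slitPlane) : conj (la k) = la (conj k) := by
  simp only [la, map_add, conj_Sf h, map_div₀, map_one, map_ofNat]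

namespace Ctr
variable {Γ : Ctr} {c : ℝ}

theorem Adm.nuB_cj {μ : ℝ} (h : Γ.Adm μ c) : Γ.cj.nuB μ = star (Γ.nuB μ) := by
  rw [nuB, nuB, kk_cj, star_nem fun t => conj_nu (h.slit t)]

theorem Adm.laB_cj {μ : ℝ} (h : Γ.Adm μ c) : Γ.cj.laB μ = star (Γ.laB μ) := by
  rw [laB, laB, kk_cj, star_nem fun t => conj_la (h.slit t)]

theorem cj_slowD {s : ℤ → Icc (0 : ℝ) 1} (hs : ∀ m, s (-m) = s m) (f : WB) :
    W.cj (slowD s f) = slowD s (W.cj f) := W.cj_diag (fun m x => by rw [hs]; rfl) f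

theorem cj_piJ {μ : ℤ → ℝ} (hμ : ∀ m, μ (-m) = μ m) (h : ∀ m, Γ.Adm (μ m) c) (j : EJ) :
    W.cj (Γ.piJ μ j) = Γ.cj.piJ μ j.cj := by
  unfold piJ
  rw [W.cj_add, W.cj_add, W.cj_add, W.cj_smul,
    cj_mult fun m => by simp [hμ, br_neg, map_ofNat],
    W.cj_diag (T' := fun m => if m = 0 then ContinuousLinearMap.mul ℂ BC (Γ.cj.nuB (μ m)) else 0)
      fun m x => by
        by_cases hm : m = 0
        · simp [hm, (h 0).nuB_cj]
        · simp [hm],
    W.cj_diag (T' := fun m => ContinuousLinearMap.mul ℂ BC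
      (((m : ℂ) * I)⁻¹ • (Γ.cj.Om * Γ.cj.nuB (μ m)))) fun m x => by
        rw [(h m).nuB_cj, hμ]
        simp [Ctr.cj]]
  simp [map_ofNat]

theorem cj_Mod {μ : ℤ → ℝ} (hμ : ∀ m, μ (-m) = μ m) (j : EJ) :
    W.cj (Mod μ j) = Mod μ j.cj := by
  unfold Mod
  rw [W.cj_sub, W.cj_sub, W.cj_smul, W.cj_smul, cj_mult fun m => by simp [hμ, br_neg]]
  simp [map_ofNat]

end Ctr

theorem muCyl_neg (m : ℤ) : muCyl (-m) = muCyl m := by simp [muCyl]
theorem muCone_neg (cc : ℝ) (m : ℤ) : muCone cc (-m) = muCone cc m := by simp [muCone]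
theorem sdCyl_neg (m : ℤ) : sdCyl (-m) = sdCyl m := by simp [sdCyl]

namespace Path

/-- the conjugate path -/
def cj (γ : Path) : Path := ⟨star γ.ze, star γ.g⟩

variable (γ : Path)

@[simp] theorem cj_cj : γ.cj.cj = γ := by simp [cj]

theorem Ok.cj {γ : Path} (h : γ.Ok) : γ.cj.Ok := ⟨h.spt.star, fun t => hasDerivAt_star_BC (h.der t)⟩

theorem rho_cj (a : ℂ) : γ.cj.rho (conj a) = star (γ.rho a) := by simp [rho, cj]

theorem cyl_cj (a : ℂ) : γ.cj.cyl (conj a) = (γ.cyl a).cj := by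
  simp only [cyl, Ctr.cj, rho_cj, star_mul', star_add, star_smul, star_binv]
  rfl

theorem cone_cj : γ.cj.cone = γ.cone.cj := by
  simp only [cone, Ctr.cj, star_mul', star_smul, star_binv, star_ofNat]
  rfl

theorem hh_cj (a : ℂ) : γ.cj.hh (conj a) = star (γ.hh a) := by
  simp [hh, rho_cj, star_binv]

theorem Oh_cj (a : ℂ) : γ.cj.Oh (conj a) = star (γ.Oh a) := by simp [Oh, cj]

theorem Ecyl_cj (a : ℂ) (j : EJ) : γ.cj.Ecyl (conj a) j.cj = W.cj (γ.Ecyl a j) := by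
  rw [← W.cjR_apply, Ecyl, Ecyl, map_cylE, cyl_cj, hh_cj, Oh_cj]
  simp only [W.cjR_apply, W.cj_algebraMap, W.cj_C, star_binv, EJ.y_cj, EJ.yt_cj, EJ.ytt_cj]
  rfl

theorem Econe_cj (cc : ℝ) (ka kd : WD) (j : EJ) :
    γ.cj.Econe cc (W.cj ka) (W.cj kd) j.cj = W.cj (γ.Econe cc ka kd j) := by
  rw [← W.cjR_apply (γ.Econe cc ka kd j), Econe, Econe, map_coneE]
  simp only [W.cjR_apply, W.cj_algebraMap, W.cj_C, W.cj_mul, star_binv, EJ.y_cj, EJ.yt_cj,
    EJ.ytt_cj, cj_cst, Complex.conj_ofReal]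
  rfl

variable {γ}

theorem IsCyl.cj {a : ℂ} {j : EJ} (h : γ.IsCyl a j) : γ.cj.IsCyl (conj a) j.cj :=
  ⟨γ.cyl_cj a ▸ h.1.cj, by rw [Ecyl_cj, h.2, W.cj_zero]⟩

theorem IsCone.cj {cc : ℝ} {ka kd : WD} {j : EJ} (h : γ.IsCone cc ka kd j) :
    γ.cj.IsCone cc (W.cj ka) (W.cj kd) j.cj :=
  ⟨γ.cone_cj ▸ h.1.cj, by rw [Econe_cj, h.2, W.cj_zero]⟩

/-- real paths -/
def IsRl (γ : Path) : Prop := γ.cj = γ

theorem isRl_iff : γ.IsRl ↔ (∀ t, (γ.ze t).im = 0) ∧ ∀ t, (γ.g t).im = 0 := by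
  rw [← star_BC_eq_iff, ← star_BC_eq_iff]
  exact ⟨fun h => ⟨congrArg Path.ze h, congrArg Path.g h⟩, fun h => by rw [IsRl, cj, h.1, h.2]⟩

theorem IsRl.cyl (h : γ.IsRl) (a : ℝ) : (γ.cyl a).cj = γ.cyl a := by
  rw [← cyl_cj, h, Complex.conj_ofReal]

theorem IsRl.cone (h : γ.IsRl) : γ.cone.cj = γ.cone := by rw [← cone_cj, h]

theorem IsRl.Ecyl (h : γ.IsRl) (a : ℝ) (j : EJ) : γ.Ecyl a j.cj = W.cj (γ.Ecyl a j) := by
  rw [← Ecyl_cj, h, Complex.conj_ofReal]

theorem IsRl.Econe (h : γ.IsRl) (cc : ℝ) {ka kd : WD} (ha : W.IsRl ka) (hd : W.IsRl kd) (j : EJ) :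
    γ.Econe cc ka kd j.cj = W.cj (γ.Econe cc ka kd j) := by
  rw [← Econe_cj, h, ha, hd]

theorem IsRl.isCyl (h : γ.IsRl) {a : ℝ} {j : EJ} (hj : γ.IsCyl a j) : γ.IsCyl a j.cj := by
  have h1 := hj.cj
  rwa [h, Complex.conj_ofReal] at h1

theorem IsRl.isCone (h : γ.IsRl) {cc : ℝ} {ka kd : WD} (ha : W.IsRl ka) (hd : W.IsRl kd) {j : EJ}
    (hj : γ.IsCone cc ka kd j) : γ.IsCone cc ka kd j.cj := by
  have h1 := hj.cj
  rwa [h, ha, hd] at h1

end Path

end Vale.Agent.P218N.End
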