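import Vale.Agent.P218N.End.ToW

/-! Jets of functions of `(t, θ)`; compactness of operators on `WD`. -/

open Filter Topology Metric Set Complex Function
open scoped BoundedContinuousFunction

noncomputable section

namespace Vale.Agent.P218N.End

/-- differentiation of the coefficients along the contour -/
theorem hasDerivAt_fc {F F' : ℝ → ℝ → ℂ} (hc : Continuous fun p : ℝ × ℝ => F p.1 p.2)
    (hc' : Continuous fun p : ℝ × ℝ => F' p.1 p.2)
    (hd : ∀ t θ, HasDerivAt (fun t => F t θ) (F' t θ) t) (m : ℤ) (t : ℝ) :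
    HasDerivAt (fc F m) (fc F' m t) t := by
  obtain ⟨M, hM⟩ := ((isCompact_closedBall t 1).prod (isCompact_uIcc (a := (0 : ℝ))
    (b := 2 * Real.pi))).exists_bound_of_continuousOn hc'.continuousOn
  have h0 : ∀ s, Continuous fun θ : ℝ => F s θ * Complex.exp (-(m * θ * I)) := fun s =>
    (hc.comp (Continuous.prodMk_right s)).mul (by fun_prop)
  have h1 : ∀ s, Continuous fun θ : ℝ => F' s θ * Complex.exp (-(m * θ * I)) := fun s =>
    (hc'.comp (Continuous.prodMk_right s)).mul (by fun_prop)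
  have h := intervalIntegral.hasDerivAt_integral_of_dominated_loc_of_deriv_le
    (μ := MeasureTheory.volume) (a := 0) (b := 2 * Real.pi) (bound := fun _ => M)
    (F := fun s θ => F s θ * Complex.exp (-(m * θ * I)))
    (F' := fun s θ => F' s θ * Complex.exp (-(m * θ * I))) (closedBall_mem_nhds t one_pos)
    (Eventually.of_forall fun s => (h0 s).aestronglyMeasurable) ((h0 t).intervalIntegrable _ _)
    (h1 t).aestronglyMeasurable
    (Eventually.of_forall fun θ hθ s hs => by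
      rw [norm_mul, norm_eneg, mul_one]
      exact hM (s, θ) ⟨hs, uIoc_subset_uIcc hθ⟩)
    intervalIntegrable_const (Eventually.of_forall fun θ _ s _ => (hd s θ).mul_const _)
  exact h.2.const_mul _

/-- the jet with the components `F - F_θθ`, `Ω P`, `Ω Q`, `P_θ` -/
def jetW (G : Ctr) (F F2 P P1 Q : ℝ → ℝ → ℂ) : EJ :=
  (toW F - toW F2, toW fun t θ => G.Om t * P t θ, toW fun t θ => G.Om t * Q t θ, toW P1)

/-- The data of a jet: `F1 = F_θ`, `F2 = F_θθ`, `P = dF/dζ`, `P1 = P_θ`, `Q = dP/dζ`, with the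
Fourier coefficients of `F, F2, Ω P, Ω Q, P1` bounded by `K t * b m`. -/
structure JetData (G : Ctr) (K : ℝ → ℝ) (b : ℤ → ℝ) (F F1 F2 P P1 Q : ℝ → ℝ → ℂ) : Prop where
  ok : G.Ok
  hF : FDom K b F
  hF2 : FDom K b F2
  hP : FDom K b fun t θ => G.Om t * P t θ
  hQ : FDom K b fun t θ => G.Om t * Q t θ
  hP1 : FDom K b P1
  d1 : ∀ t θ, HasDerivAt (F t) (F1 t θ) θ
  d2 : ∀ t θ, HasDerivAt (F1 t) (F2 t θ) θ
  dP : ∀ t θ, HasDerivAt (P t) (P1 t θ) θ
  tF : ∀ t θ, HasDerivAt (fun t => F t θ) (G.g t * P t θ) t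
  tP : ∀ t θ, HasDerivAt (fun t => P t θ) (G.g t * Q t θ) t

theorem Ctr.Ok.io_mul {G : Ctr} (h : G.Ok) (t : ℝ) (z : ℂ) : G.io t * (G.Om t * z) = z := by
  have h1 : G.Om t * G.io t = 1 := by rw [← BoundedContinuousFunction.mul_apply, h.inv]; rfl
  linear_combination z * h1

namespace JetData
variable {G : Ctr} {K : ℝ → ℝ} {b : ℤ → ℝ} {F F1 F2 P P1 Q : ℝ → ℝ → ℂ}

theorem domP (h : JetData G K b F F1 F2 P P1 Q) : FDom (fun t => ‖G.io t‖ * K t) b P := by
  simpa only [h.ok.io_mul] using h.hP.mul_BC G.io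

theorem domQ (h : JetData G K b F F1 F2 P P1 Q) : FDom (fun t => ‖G.io t‖ * K t) b Q := by
  simpa only [h.ok.io_mul] using h.hQ.mul_BC G.io

theorem cont1 (h : JetData G K b F F1 F2 P P1 Q) (t : ℝ) : Continuous (F1 t) :=
  continuous_iff_continuousAt.2 fun θ => (h.d2 t θ).continuousAt

theorem per1 (h : JetData G K b F F1 F2 P P1 Q) (t : ℝ) : Periodic (F1 t) (2 * Real.pi) :=
  periodic_of_hasDerivAt (h.hF.per t) (h.d1 t)

theorem fd1 (h : JetData G K b F F1 F2 P P1 Q) (m : ℤ) (t : ℝ) :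
    fd (F1 t) m = m * I * fd (F t) m := fd_deriv (h.hF.per t) (h.d1 t) (h.cont1 t) m

theorem fd2 (h : JetData G K b F F1 F2 P P1 Q) (m : ℤ) (t : ℝ) :
    fd (F2 t) m = m * I * fd (F1 t) m := fd_deriv (h.per1 t) (h.d2 t) (h.hF2.cont_t t) m

theorem y_eq (h : JetData G K b F F1 F2 P P1 Q) : (jetW G F F2 P P1 Q).y = toW F := by
  ext m t
  rw [EJ.c_y, BoundedContinuousFunction.smul_apply]
  change _ • (toW F - toW F2).c m t = _
  rw [W.c_sub, BoundedContinuousFunction.sub_apply, h.hF.c_toW, h.hF2.c_toW, fc, fc, h.fd2, h.fd1,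
    smul_eq_mul, inv_mul_eq_iff_eq_mul₀ (br_ne m), br]
  push_cast
  linear_combination (-(m : ℂ) ^ 2 * fd (F t) m) * Complex.I_mul_I

theorem c_y (h : JetData G K b F F1 F2 P P1 Q) (m : ℤ) (t : ℝ) :
    (jetW G F F2 P P1 Q).y.c m t = fc F m t := by rw [h.y_eq, h.hF.c_toW]

theorem c_yt (h : JetData G K b F F1 F2 P P1 Q) (m : ℤ) (t : ℝ) :
    (jetW G F F2 P P1 Q).yt.c m t = fc F1 m t := by
  rw [EJ.c_yt', BoundedContinuousFunction.smul_apply, h.c_y, fc, fc, h.fd1, smul_eq_mul]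

theorem ytt_eq (h : JetData G K b F F1 F2 P P1 Q) : (jetW G F F2 P P1 Q).ytt = toW F2 := by
  ext m t
  rw [EJ.c_ytt', BoundedContinuousFunction.smul_apply, h.c_yt, h.hF2.c_toW, fc, fc, h.fd2,
    smul_eq_mul]

theorem io_op (h : JetData G K b F F1 F2 P P1 Q) (m : ℤ) (t : ℝ) :
    (G.io * (jetW G F F2 P P1 Q).op.c m) t = fc P m t := by
  change G.io t * (toW fun t θ => G.Om t * P t θ).c m t = _
  rw [h.hP.c_toW, fc, fd_const_mul, h.ok.io_mul, fc]

theorem io_oq (h : JetData G K b F F1 F2 P P1 Q) (m : ℤ) (t : ℝ) :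
    (G.io * (jetW G F F2 P P1 Q).oq.c m) t = fc Q m t := by
  change G.io t * (toW fun t θ => G.Om t * Q t θ).c m t = _
  rw [h.hQ.c_toW, fc, fd_const_mul, h.ok.io_mul, fc]

theorem isJet (h : JetData G K b F F1 F2 P P1 Q) : G.IsJet (jetW G F F2 P P1 Q) := fun m => by
  refine ⟨fun t => ?_, fun t => ?_, ?_⟩
  · rw [show ((jetW G F F2 P P1 Q).y.c m : ℝ → ℂ) = fc F m from funext (h.c_y m), h.io_op]
    have := hasDerivAt_fc h.hF.cont (h.domP.mul_BC G.g).cont h.tF m t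
    rwa [fc, fd_const_mul] at this
  · rw [show ((G.io * (jetW G F F2 P P1 Q).op.c m : BC) : ℝ → ℂ) = fc P m from
      funext (h.io_op m), h.io_oq]
    have := hasDerivAt_fc h.domP.cont (h.domQ.mul_BC G.g).cont h.tP m t
    rwa [fc, fd_const_mul] at this
  · ext t
    rw [BoundedContinuousFunction.smul_apply, h.io_op]
    change (toW P1).c m t = _
    rw [h.hP1.c_toW, fc, fc, fd_deriv (h.domP.per t) (h.dP t) (h.hP1.cont_t t), smul_eq_mul]

theorem ev_y (h : JetData G K b F F1 F2 P P1 Q) (t θ : ℝ) :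
    ev (jetW G F F2 P P1 Q).y t θ = F t θ := by rw [h.y_eq, h.hF.ev_toW]

theorem ev_yt (h : JetData G K b F F1 F2 P P1 Q) (t θ : ℝ) :
    ev (jetW G F F2 P P1 Q).yt t θ = F1 t θ :=
  ev_eq_of_c (h.cont1 t) (h.per1 t) (fun m => h.c_yt m t) θ

theorem ev_ytt (h : JetData G K b F F1 F2 P P1 Q) (t θ : ℝ) :
    ev (jetW G F F2 P P1 Q).ytt t θ = F2 t θ := by rw [h.ytt_eq, h.hF2.ev_toW]

theorem ev_op (h : JetData G K b F F1 F2 P P1 Q) (t θ : ℝ) :
    ev (jetW G F F2 P P1 Q).op t θ = G.Om t * P t θ := h.hP.ev_toW t θ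

theorem ev_oq (h : JetData G K b F F1 F2 P P1 Q) (t θ : ℝ) :
    ev (jetW G F F2 P P1 Q).oq t θ = G.Om t * Q t θ := h.hQ.ev_toW t θ

theorem ev_pt (h : JetData G K b F F1 F2 P P1 Q) (t θ : ℝ) :
    ev (jetW G F F2 P P1 Q).pt t θ = P1 t θ := h.hP1.ev_toW t θ

/-- the weighted bound -/
theorem norm_wt_le (h : JetData G K b F F1 F2 P P1 Q) (w : BC) {K₁ : ℝ}
    (hw : ∀ t, ‖w t‖ * K t ≤ K₁) : ‖EJ.wt w (jetW G F F2 P P1 Q)‖ ≤ 2 * (∑' m, b m) * K₁ := by
  have h1 := h.hF.norm_wt_le w hw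
  have h0 : 0 ≤ (∑' m, b m) * K₁ := (norm_nonneg _).trans h1
  have h2 : (∑' m, b m) * K₁ ≤ 2 * (∑' m, b m) * K₁ := by linarith
  refine EJ.norm_le _ ?_ ((h.hP.norm_wt_le w hw).trans h2) ((h.hQ.norm_wt_le w hw).trans h2)
    ((h.hP1.norm_wt_le w hw).trans h2)
  change ‖W.C w * (toW F - toW F2)‖ ≤ _
  rw [mul_sub]
  linarith [norm_sub_le (W.C w * toW F) (W.C w * toW F2), h.hF2.norm_wt_le w hw]

theorem norm_le (h : JetData G K b F F1 F2 P P1 Q) {K₀ : ℝ} (hK : ∀ t, K t ≤ K₀) :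
    ‖jetW G F F2 P P1 Q‖ ≤ 2 * (∑' m, b m) * K₀ := by
  simpa using h.norm_wt_le 1 (K₁ := K₀) (by simpa using hK)

end JetData

/-! ### Families of `θ`-derivatives -/

/-- `F k` is the `k`-th `θ`-derivative of `F 0`, bounded by `K t`, for `k ≤ n`. -/
structure Ck (n : ℕ) (K : ℝ → ℝ) (F : ℕ → ℝ → ℝ → ℂ) : Prop where
  cont : ∀ k ≤ n, Continuous fun p : ℝ × ℝ => F k p.1 p.2
  per : ∀ t, Periodic (F 0 t) (2 * Real.pi)
  der : ∀ k < n, ∀ t θ, HasDerivAt (F k t) (F (k + 1) t θ) θ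
  bd : ∀ k ≤ n, ∀ t θ, ‖F k t θ‖ ≤ K t

namespace Ck
variable {n : ℕ} {K K' : ℝ → ℝ} {F : ℕ → ℝ → ℝ → ℂ}

theorem per' (h : Ck n K F) : ∀ k ≤ n, ∀ t, Periodic (F k t) (2 * Real.pi) := by
  intro k
  induction k with
  | zero => exact fun _ => h.per
  | succ k ih => exact fun hk t => periodic_of_hasDerivAt (ih (by omega) t) (h.der k (by omega) t)

theorem mono (h : Ck n K F) {n' : ℕ} (hn : n' ≤ n) (hK : ∀ t, K t ≤ K' t) : Ck n' K' F :=
  ⟨fun k hk => h.cont k (hk.trans hn), h.per, fun k hk => h.der k (hk.trans_le hn),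
    fun k hk t θ => (h.bd k (hk.trans hn) t θ).trans (hK t)⟩

theorem fdom (h : Ck n K F) {K₀ : ℝ} (hK : ∀ t, K t ≤ K₀) {k : ℕ} (hk : k + 2 ≤ n) :
    FDom K b2 (F k) :=
  fdom_C2 hK (h.cont k (by omega)) (h.per' k (by omega)) (h.der k (by omega))
    (h.der (k + 1) (by omega)) (fun t => (h.cont (k + 2) hk).comp (Continuous.prodMk_right t))
    (h.bd k (by omega)) (h.bd (k + 2) hk)

/-- multiplication by a continuous function of `t` -/
theorem mul_left (h : Ck n K F) {w : ℝ → ℂ} (hw : Continuous w) :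
    Ck n (fun t => ‖w t‖ * K t) fun k t θ => w t * F k t θ :=
  ⟨fun k hk => (hw.comp continuous_fst).mul (h.cont k hk), fun t θ => by simp only [h.per t θ],
    fun k hk t θ => (h.der k hk t θ).const_mul (w t), fun k hk t θ => by
      rw [norm_mul]; exact mul_le_mul_of_nonneg_left (h.bd k hk t θ) (norm_nonneg _)⟩

/-- the family of iterated derivatives -/
theorem of_iteratedDeriv {f : ℝ → ℝ → ℂ} (hd : ∀ t, ContDiff ℝ n (f t))
    (hp : ∀ t, Periodic (f t) (2 * Real.pi))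
    (hc : ∀ k ≤ n, Continuous fun p : ℝ × ℝ => iteratedDeriv k (f p.1) p.2)
    (hb : ∀ k ≤ n, ∀ t θ, ‖iteratedDeriv k (f t) θ‖ ≤ K t) :
    Ck n K fun k t => iteratedDeriv k (f t) :=
  ⟨hc, fun t => by simpa using hp t, fun k hk t θ => by
    rw [iteratedDeriv_succ]
    exact ((hd t).differentiable_iteratedDeriv k (by exact_mod_cast hk) θ).hasDerivAt, hb⟩

end Ck

/-- Jets from functions: `F` with four `θ`-derivatives bounded by `K t`; `Ω P` with three and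
`Ω Q` with two `θ`-derivatives bounded by `K t` (`OP k = Ω ∂_θ^k P`, `OQ k = Ω ∂_θ^k Q`). -/
theorem jetData_of_Ck {G : Ctr} (hG : G.Ok) (hio : ‖G.io‖ ≤ 1) {K : ℝ → ℝ} {K₀ : ℝ}
    (hK : ∀ t, K t ≤ K₀) {F OP OQ : ℕ → ℝ → ℝ → ℂ} (hF : Ck 4 K F) (hP : Ck 3 K OP)
    (hQ : Ck 2 K OQ)
    (tF : ∀ t θ, HasDerivAt (fun t => F 0 t θ) (G.g t * (G.io t * OP 0 t θ)) t)
    (tP : ∀ t θ, HasDerivAt (fun t => G.io t * OP 0 t θ) (G.g t * (G.io t * OQ 0 t θ)) t) :
    JetData G K b2 (F 0) (F 1) (F 2) (fun t θ => G.io t * OP 0 t θ) (fun t θ => G.io t * OP 1 t θ)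
      fun t θ => G.io t * OQ 0 t θ := by
  have e : ∀ t z, G.Om t * (G.io t * z) = z := fun t z => by
    rw [mul_left_comm]; exact hG.io_mul t z
  refine ⟨hG, hF.fdom hK (by norm_num), hF.fdom hK le_rfl, ?_, ?_, ?_, hF.der 0 (by norm_num),
    hF.der 1 (by norm_num), fun t θ => (hP.der 0 (by norm_num) t θ).const_mul _, tF, tP⟩
  · simpa only [e] using hP.fdom hK (k := 0) (by norm_num)
  · simpa only [e] using hQ.fdom hK (k := 0) le_rfl
  · refine ((hP.fdom hK (k := 1) le_rfl).mul_BC G.io).mono (fun t => ?_) ⟨K₀, hK⟩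
    exact mul_le_of_le_one_left ((norm_nonneg _).trans (hF.bd 0 (by norm_num) t 0))
      ((G.io.norm_coe_le_norm t).trans hio)

/-- The existence statement: `F k, P k, Q k` are the `θ`-derivatives of `F`, `dF/dζ`,
`d²F/dζ²`. -/
theorem exists_jet {G : Ctr} (hG : G.Ok) (hio : ‖G.io‖ ≤ 1) {K : ℝ → ℝ} {K₀ : ℝ}
    (hK : ∀ t, K t ≤ K₀) {F P Q : ℕ → ℝ → ℝ → ℂ} (hF : Ck 4 K F)
    (hP : Ck 3 K fun k t θ => G.Om t * P k t θ) (hQ : Ck 2 K fun k t θ => G.Om t * Q k t θ)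
    (tF : ∀ t θ, HasDerivAt (fun t => F 0 t θ) (G.g t * P 0 t θ) t)
    (tP : ∀ t θ, HasDerivAt (fun t => P 0 t θ) (G.g t * Q 0 t θ) t) :
    ∃ j : EJ, G.IsJet j ∧ (∀ t θ, ev j.y t θ = F 0 t θ ∧ ev j.yt t θ = F 1 t θ ∧
      ev j.ytt t θ = F 2 t θ ∧ ev j.op t θ = G.Om t * P 0 t θ ∧ ev j.oq t θ = G.Om t * Q 0 t θ ∧
      ev j.pt t θ = P 1 t θ) ∧ ‖j‖ ≤ 10 * K₀ ∧
      ∀ (w : BC) (K₁ : ℝ), (∀ t, ‖w t‖ * K t ≤ K₁) → ‖EJ.wt w j‖ ≤ 10 * K₁ := by
  have h := jetData_of_Ck hG hio hK hF hP hQ (by simpa only [hG.io_mul] using tF)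
    (by simpa only [hG.io_mul] using tP)
  simp only [hG.io_mul] at h
  have hK0 : ∀ t, 0 ≤ K t := fun t => (norm_nonneg _).trans (hF.bd 0 (by norm_num) t 0)
  have h5 : 2 * ∑' m, b2 m ≤ 10 := by linarith [tsum_b2_le]
  refine ⟨_, h.isJet, fun t θ => ⟨h.ev_y t θ, h.ev_yt t θ, h.ev_ytt t θ, h.ev_op t θ,
    h.ev_oq t θ, h.ev_pt t θ⟩, (h.norm_le hK).trans ?_, fun w K₁ hw => (h.norm_wt_le w hw).trans ?_⟩
  · exact mul_le_mul_of_nonneg_right h5 ((hK0 0).trans (hK 0))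
  · exact mul_le_mul_of_nonneg_right h5 ((mul_nonneg (norm_nonneg _) (hK0 0)).trans (hw 0))

/-! ### Truncation and compactness -/

section cpt
variable {A X : Type*} [NormedAddCommGroup A] [NormedSpace ℂ A] [NormedAddCommGroup X]
  [NormedSpace ℂ X]

/-- the norm of an operator on `W A` is controlled by its modes -/
theorem norm_apply_le_of_modes (T : W A →L[ℂ] X) {C : ℝ}
    (h : ∀ m x, ‖T (W.one1 m x)‖ ≤ C * ‖x‖) (a : W A) : ‖T a‖ ≤ C * ‖a‖ :=
  (T.hasSum (W.hasSum_one1 a)).norm_le_of_bounded (a.hasSum.mul_left C) fun m => h m _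

theorem one1_eq_smul (m : ℤ) (z : ℂ) : W.one1 m z = z • W.one1 m (1 : ℂ) := by
  rw [← W.oneL_apply, ← W.oneL_apply, ← map_smul, smul_eq_mul, mul_one]

theorem norm_le_of_modes (T : WD →L[ℂ] X) {C : ℝ} (h : ∀ m, ‖T (W.one1 m 1)‖ ≤ C) : ‖T‖ ≤ C :=
  T.opNorm_le_bound ((norm_nonneg _).trans (h 0)) (norm_apply_le_of_modes T fun m x => by
    rw [one1_eq_smul, map_smul, norm_smul, mul_comm]
    exact mul_le_mul_of_nonneg_right (h m) (norm_nonneg _))

/-- the truncation of an operator to finitely many modes -/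
def truncL (T : W A →L[ℂ] X) (s : Finset ℤ) : W A →L[ℂ] X :=
  ∑ m ∈ s, (T.comp (W.oneL m)).comp (W.cL m)

theorem truncL_one1 (T : W A →L[ℂ] X) (s : Finset ℤ) (n : ℤ) (x : A) :
    truncL T s (W.one1 n x) = if n ∈ s then T (W.one1 n x) else 0 := by
  simp only [truncL, _root_.sum_apply, ContinuousLinearMap.comp_apply, W.cL_apply,
    W.c_one1]
  rw [← Finset.sum_ite_eq' s n fun _ => T (W.one1 n x)]
  refine Finset.sum_congr rfl fun m _ => ?_
  split_ifs with h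
  · rw [h, W.oneL_apply]
  · rw [map_zero, map_zero]

/-- an operator whose modes tend to zero is the limit of its truncations -/
theorem tendsto_truncL (T : W A →L[ℂ] X)
    (h : Tendsto (fun m : ℤ => ‖T.comp (W.oneL m)‖) cofinite (𝓝 0)) :
    Tendsto (truncL T) atTop (𝓝 T) := by
  refine Metric.tendsto_atTop.2 fun ε hε => ?_
  have h1 := h.eventually (gt_mem_nhds (half_pos hε))
  rw [eventually_cofinite] at h1
  refine ⟨h1.toFinset, fun s hs => ?_⟩
  rw [dist_eq_norm]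
  refine (ContinuousLinearMap.opNorm_le_bound _ (half_pos hε).le
    (norm_apply_le_of_modes _ fun m x => ?_)).trans_lt (half_lt_self hε)
  rw [_root_.sub_apply, truncL_one1]
  split_ifs with hm
  · rw [sub_self, norm_zero]; positivity
  · rw [zero_sub, norm_neg]
    have h2 : ‖T.comp (W.oneL m)‖ < ε / 2 := by
      by_contra h3
      exact hm (hs (h1.mem_toFinset.2 h3))
    exact (T.comp (W.oneL m)).le_of_opNorm_le h2.le x

theorem isCompactOperator_of_modes [CompleteSpace X] (T : W A →L[ℂ] X)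
    (hc : ∀ m, IsCompactOperator (T.comp (W.oneL m)))
    (h : Tendsto (fun m : ℤ => ‖T.comp (W.oneL m)‖) cofinite (𝓝 0)) : IsCompactOperator T := by
  refine isCompactOperator_of_tendsto (tendsto_truncL T h) (Eventually.of_forall fun s => ?_)
  exact (compactOperator (RingHom.id ℂ) (W A) X).sum_mem (f := fun m =>
    (T.comp (W.oneL m)).comp (W.cL m)) fun m _ => (hc m).comp_clm (W.cL m)

theorem norm_comp_oneL_le (T : WD →L[ℂ] X) (m : ℤ) : ‖T.comp (W.oneL m)‖ ≤ ‖T (W.one1 m 1)‖ :=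
  ContinuousLinearMap.opNorm_le_bound _ (norm_nonneg _) fun z => by
    rw [ContinuousLinearMap.comp_apply, W.oneL_apply, one1_eq_smul, map_smul, norm_smul, mul_comm]

/-- an operator on `WD` whose columns tend to zero is compact -/
theorem isCompactOperator_WD [CompleteSpace X] (T : WD →L[ℂ] X)
    (h : Tendsto (fun m : ℤ => ‖T (W.one1 m 1)‖) cofinite (𝓝 0)) : IsCompactOperator T :=
  isCompactOperator_of_modes T (fun _ => isCompactOperator_of_locallyCompactSpace_rng _)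
    (squeeze_zero (fun _ => norm_nonneg _) (norm_comp_oneL_le T) h)

theorem exists_bound_of_tendsto {σ : ℤ → ℂ} (h : Tendsto σ cofinite (𝓝 0)) :
    ∃ C, ∀ m, ‖σ m‖ ≤ C := by
  obtain ⟨C, hC⟩ := (h.norm.bddAbove_range_of_cofinite)
  exact ⟨C, fun m => hC ⟨m, rfl⟩⟩

theorem mult_one1 {σ : ℤ → ℂ} {C : ℝ} (h : ∀ m, ‖σ m‖ ≤ C) (n : ℤ) (x : A) :
    mult σ (W.one1 n x) = W.one1 n (σ n • x) := by
  ext1 m
  rw [c_mult h, W.c_one1, W.c_one1]
  split_ifs with hm
  · rw [hm]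
  · rw [smul_zero]

/-- a multiplier whose symbol tends to zero is the norm limit of its truncations -/
theorem tendsto_mult_trunc {σ : ℤ → ℂ} (h : Tendsto σ cofinite (𝓝 0)) :
    Tendsto (fun s : Finset ℤ => (mult (fun m => if m ∈ s then σ m else 0) : W A →L[ℂ] W A))
      atTop (𝓝 (mult σ)) := by
  obtain ⟨C, hC⟩ := exists_bound_of_tendsto h
  refine Metric.tendsto_atTop.2 fun ε hε => ?_
  have h1 := h.norm.eventually (gt_mem_nhds (by simpa using half_pos hε : ‖(0 : ℂ)‖ < ε / 2))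
  rw [eventually_cofinite] at h1
  refine ⟨h1.toFinset, fun s hs => ?_⟩
  have hC' : ∀ m, ‖if m ∈ s then σ m else 0‖ ≤ C := fun m => by
    split_ifs
    · exact hC m
    · rw [norm_zero]; exact (norm_nonneg _).trans (hC 0)
  rw [dist_eq_norm]
  refine (ContinuousLinearMap.opNorm_le_bound _ (half_pos hε).le fun a =>
    W.norm_le_of_le fun m => ?_).trans_lt (half_lt_self hε)
  rw [_root_.sub_apply, W.c_sub, c_mult hC, c_mult hC', ← sub_smul, norm_smul]
  refine mul_le_mul_of_nonneg_right ?_ (norm_nonneg _)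
  split_ifs with hm
  · rw [sub_self, norm_zero]; positivity
  · rw [zero_sub, norm_neg]
    by_contra h3
    exact hm (hs (h1.mem_toFinset.2 fun h4 => h3 h4.le))

/-- a multiplier on `WD` whose symbol tends to zero is compact -/
theorem isCompactOperator_mult {σ : ℤ → ℂ} (h : Tendsto σ cofinite (𝓝 0)) :
    IsCompactOperator (mult σ : WD →L[ℂ] WD) := by
  obtain ⟨C, hC⟩ := exists_bound_of_tendsto h
  refine isCompactOperator_WD _ ?_
  simpa [mult_one1 hC] using h.norm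

end cpt

end Vale.Agent.P218N.End
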