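import Vale.Agent.P218N.End.Ev

/-! Coefficients and norms of the basic operators. -/

open Filter Topology Metric Set Complex
open scoped BoundedContinuousFunction

noncomputable section

namespace Vale.Agent.P218N.End

theorem norm_evalCLM_le (t : ℝ) : ‖(BoundedContinuousFunction.evalCLM ℂ t : BC →L[ℂ] ℂ)‖ ≤ 1 :=
  ContinuousLinearMap.opNorm_le_bound _ zero_le_one fun f => by
    rw [one_mul]; exact f.norm_coe_le_norm t

theorem norm_smulRight_le (b : BC) : ‖(ContinuousLinearMap.id ℂ ℂ).smulRight b‖ ≤ ‖b‖ :=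
  ContinuousLinearMap.opNorm_le_bound _ (norm_nonneg _) fun z => by
    simp [norm_smul, mul_comm]

theorem norm_mulL_le (b : BC) : ‖ContinuousLinearMap.mul ℂ BC b‖ ≤ ‖b‖ :=
  ContinuousLinearMap.opNorm_mul_apply_le ℂ BC b

@[simp] theorem c_slowD (s : ℤ → Icc (0 : ℝ) 1) (f : WB) (m : ℤ) :
    (Ctr.slowD s f).c m = f.c m (s m) := W.c_diag (fun _ => norm_evalCLM_le _) f m

theorem norm_slowD_le (s : ℤ → Icc (0 : ℝ) 1) (f : WB) : ‖Ctr.slowD s f‖ ≤ ‖f‖ := by
  simpa using (Ctr.slowD s).le_of_opNorm_le (W.norm_diag_le fun _ => norm_evalCLM_le _) f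

theorem C_mul_mult {σ : ℤ → ℂ} {C : ℝ} (h : ∀ m, ‖σ m‖ ≤ C) (w : BC) (f : WB) :
    W.C w * mult σ f = mult σ (W.C w * f) := by
  ext1 m
  rw [W.c_C_mul, c_mult h, c_mult h, W.c_C_mul, mul_smul_comm]

theorem norm_inv_br (m : ℤ) : ‖((br m : ℝ) : ℂ)⁻¹‖ = (br m)⁻¹ := by
  rw [norm_inv, Complex.norm_real, Real.norm_of_nonneg (br_pos m).le]

theorem sym0_le (m : ℤ) : ‖((br m : ℝ) : ℂ)⁻¹‖ ≤ 1 := by
  rw [norm_inv_br]; exact inv_le_one_of_one_le₀ (one_le_br m)

theorem sym1_le (m : ℤ) : ‖(m : ℂ) * I * ((br m : ℝ) : ℂ)⁻¹‖ ≤ 1 := by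
  rw [norm_mul, norm_mul, norm_inv_br, Complex.norm_I, mul_one, Complex.norm_intCast,
    mul_inv_le_iff₀ (br_pos m), one_mul, br, ← sq_abs]
  nlinarith [sq_nonneg (|(m : ℝ)| - 1), abs_nonneg (m : ℝ)]

theorem sym2_le (m : ℤ) : ‖-(m : ℂ) ^ 2 * ((br m : ℝ) : ℂ)⁻¹‖ ≤ 1 := by
  rw [norm_mul, norm_neg, norm_pow, norm_inv_br, Complex.norm_intCast,
    mul_inv_le_iff₀ (br_pos m), one_mul, br, sq_abs]
  linarith

namespace EJ
variable (j : EJ)

theorem c_yt2 (m : ℤ) : j.yt.c m = ((m : ℂ) * I * ((br m : ℝ) : ℂ)⁻¹) • j.y2.c m :=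
  c_mult sym1_le _ m
theorem c_ytt2 (m : ℤ) : j.ytt.c m = (-(m : ℂ) ^ 2 * ((br m : ℝ) : ℂ)⁻¹) • j.y2.c m :=
  c_mult sym2_le _ m
theorem c_yt' (m : ℤ) : j.yt.c m = ((m : ℂ) * I) • j.y.c m := j.c_yt m
theorem c_ytt' (m : ℤ) : j.ytt.c m = ((m : ℂ) * I) • j.yt.c m := j.c_ytt m

theorem norm_le {C : ℝ} (h1 : ‖j.y2‖ ≤ C) (h2 : ‖j.op‖ ≤ C) (h3 : ‖j.oq‖ ≤ C) (h4 : ‖j.pt‖ ≤ C) :
    ‖j‖ ≤ C := max_le h1 (max_le h2 (max_le h3 h4))

/-- multiplication of all components by a weight -/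
def wt (w : BC) (j : EJ) : EJ := (W.C w * j.y2, W.C w * j.op, W.C w * j.oq, W.C w * j.pt)

@[simp] theorem wt_y2 (w : BC) : (wt w j).y2 = W.C w * j.y2 := rfl
@[simp] theorem wt_op (w : BC) : (wt w j).op = W.C w * j.op := rfl
@[simp] theorem wt_oq (w : BC) : (wt w j).oq = W.C w * j.oq := rfl
@[simp] theorem wt_pt (w : BC) : (wt w j).pt = W.C w * j.pt := rfl
@[simp] theorem wt_y (w : BC) : (wt w j).y = W.C w * j.y := (C_mul_mult sym0_le w _).symm
@[simp] theorem wt_yt (w : BC) : (wt w j).yt = W.C w * j.yt := (C_mul_mult sym1_le w _).symm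
@[simp] theorem wt_ytt (w : BC) : (wt w j).ytt = W.C w * j.ytt := (C_mul_mult sym2_le w _).symm
@[simp] theorem wt_one : wt 1 j = j := by simp only [wt, map_one, one_mul]; rfl

@[simp] theorem add_y2 (j' : EJ) : (j + j').y2 = j.y2 + j'.y2 := rfl
@[simp] theorem add_op (j' : EJ) : (j + j').op = j.op + j'.op := rfl
@[simp] theorem add_oq (j' : EJ) : (j + j').oq = j.oq + j'.oq := rfl
@[simp] theorem add_pt (j' : EJ) : (j + j').pt = j.pt + j'.pt := rfl
@[simp] theorem add_y (j' : EJ) : (j + j').y = j.y + j'.y := map_add _ _ _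
@[simp] theorem add_yt (j' : EJ) : (j + j').yt = j.yt + j'.yt := map_add _ _ _
@[simp] theorem add_ytt (j' : EJ) : (j + j').ytt = j.ytt + j'.ytt := map_add _ _ _
@[simp] theorem sub_y2 (j' : EJ) : (j - j').y2 = j.y2 - j'.y2 := rfl
@[simp] theorem sub_op (j' : EJ) : (j - j').op = j.op - j'.op := rfl
@[simp] theorem sub_oq (j' : EJ) : (j - j').oq = j.oq - j'.oq := rfl
@[simp] theorem sub_pt (j' : EJ) : (j - j').pt = j.pt - j'.pt := rfl
@[simp] theorem sub_y (j' : EJ) : (j - j').y = j.y - j'.y := map_sub _ _ _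
@[simp] theorem sub_yt (j' : EJ) : (j - j').yt = j.yt - j'.yt := map_sub _ _ _
@[simp] theorem sub_ytt (j' : EJ) : (j - j').ytt = j.ytt - j'.ytt := map_sub _ _ _
@[simp] theorem smul_y2 (z : ℂ) : (z • j).y2 = z • j.y2 := rfl
@[simp] theorem smul_op (z : ℂ) : (z • j).op = z • j.op := rfl
@[simp] theorem smul_oq (z : ℂ) : (z • j).oq = z • j.oq := rfl
@[simp] theorem smul_pt (z : ℂ) : (z • j).pt = z • j.pt := rfl
@[simp] theorem smul_y (z : ℂ) : (z • j).y = z • j.y := map_smul _ _ _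
@[simp] theorem smul_yt (z : ℂ) : (z • j).yt = z • j.yt := map_smul _ _ _
@[simp] theorem smul_ytt (z : ℂ) : (z • j).ytt = z • j.ytt := map_smul _ _ _

theorem wt_sub (w : BC) (j' : EJ) : wt w (j - j') = wt w j - wt w j' := by
  simp only [wt, sub_y2, sub_op, sub_oq, sub_pt, mul_sub]; rfl

@[fun_prop] theorem differentiable_y2 : Differentiable ℂ y2 := differentiable_fst
@[fun_prop] theorem differentiable_op : Differentiable ℂ op := differentiable_snd.fst
@[fun_prop] theorem differentiable_oq : Differentiable ℂ oq := differentiable_snd.snd.fst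
@[fun_prop] theorem differentiable_pt : Differentiable ℂ pt := differentiable_snd.snd.snd
@[fun_prop] theorem differentiable_y : Differentiable ℂ y :=
  (mult _).differentiable.comp differentiable_y2
@[fun_prop] theorem differentiable_yt : Differentiable ℂ yt :=
  (mult _).differentiable.comp differentiable_y2
@[fun_prop] theorem differentiable_ytt : Differentiable ℂ ytt :=
  (mult _).differentiable.comp differentiable_y2

end EJ

/-! ### Holomorphic families of mode-wise operators -/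

section hol
variable {E A B : Type*} [NormedAddCommGroup E] [NormedSpace ℂ E] [NormedAddCommGroup A]
  [NormedSpace ℂ A] [NormedAddCommGroup B] [NormedSpace ℂ B]

omit [NormedSpace ℂ B] in
theorem W.tendsto_trunc (a : W B) :
    Tendsto (fun s : Finset ℤ => ∑ m ∈ s, W.one1 m (a.c m)) atTop (𝓝 a) := W.hasSum_one1 a

omit [NormedSpace ℂ B] in
theorem W.norm_trunc_le (a : W B) (s : Finset ℤ) : ‖∑ m ∈ s, W.one1 m (a.c m)‖ ≤ ‖a‖ :=
  (norm_sum_le _ _).trans (by simpa using a.sum_norm_le s)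

/-- holomorphic maps into `W B` -/
theorem differentiableOn_W [CompleteSpace B] {f : E → W B} {U : Set E} (hU : IsOpen U) {M : ℝ}
    (hM : ∀ y ∈ U, ‖f y‖ ≤ M) (hw : ∀ m, DifferentiableOn ℂ (fun y => (f y).c m) U) :
    DifferentiableOn ℂ f U :=
  differentiableOn_of_tendsto (l := atTop)
    (F := fun (s : Finset ℤ) y => ∑ m ∈ s, W.one1 m ((f y).c m)) hU (M := M)
    (Eventually.of_forall fun s y hy => (W.norm_trunc_le _ s).trans (hM y hy))
    (Eventually.of_forall fun _ => DifferentiableOn.fun_sum fun m _ =>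
      (W.oneL m).differentiable.comp_differentiableOn (hw m))
    fun y _ => W.tendsto_trunc (f y)

/-- a uniformly bounded holomorphic family of mode-wise operators, applied to a holomorphic
family of arguments -/
theorem differentiableOn_diag [CompleteSpace B] {T : E → ℤ → A →L[ℂ] B} {f : E → W A} {U : Set E}
    (hU : IsOpen U) {M : ℝ} (hM : ∀ y ∈ U, ∀ m, ‖T y m‖ ≤ M)
    (hT : ∀ m, DifferentiableOn ℂ (fun y => T y m) U) (hf : DifferentiableOn ℂ f U) :
    DifferentiableOn ℂ (fun y => W.diag (T y) (f y)) U := by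
  intro x hx
  have h1 : ∀ᶠ y in 𝓝 x, y ∈ U ∧ ‖f y‖ < ‖f x‖ + 1 :=
    Eventually.and (hU.mem_nhds hx) (((hf x hx).differentiableAt (hU.mem_nhds hx)).continuousAt.norm.eventually
      (gt_mem_nhds (lt_add_one _)))
  obtain ⟨r, hr, h2⟩ := Metric.eventually_nhds_iff_ball.1 h1
  have hM0 : 0 ≤ M := (norm_nonneg _).trans (hM x hx 0)
  have h3 : DifferentiableOn ℂ (fun y => W.diag (T y) (f y)) (ball x r) := by
    refine differentiableOn_W isOpen_ball (M := M * (‖f x‖ + 1)) (fun y hy => ?_) fun m => ?_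
    · refine ((W.diag (T y)).le_of_opNorm_le (W.norm_diag_le (hM y (h2 y hy).1)) _).trans ?_
      exact mul_le_mul_of_nonneg_left (h2 y hy).2.le hM0
    · refine DifferentiableOn.congr (f := fun y => T y m ((f y).c m)) ?_
        fun y hy => W.c_diag (hM y (h2 y hy).1) _ m
      exact ((hT m).mono fun y hy => (h2 y hy).1).clm_apply
        ((W.cL m).differentiable.comp_differentiableOn (hf.mono fun y hy => (h2 y hy).1))
  exact (h3.differentiableAt (ball_mem_nhds x hr)).differentiableWithinAt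

theorem differentiable_C : Differentiable ℂ (fun x : BC => (W.C x : WB)) :=
  (W.oneL (A := BC) 0).differentiable

end hol

end Vale.Agent.P218N.End
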