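import Vale.Agent.P218N.End.Defs

/-! The Euler-Lagrange identities on the ends: pointwise calculus along curves. -/

open Filter Topology Metric Set Complex

noncomputable section

namespace Vale.Agent.P218N.End

/-- the weight of the equation on a cylindrical end -/
def wCyl (a ζ y yt op : ℂ) : ℂ := Complex.sqrt (ζ * rh a ζ) / (2 * ζ) * (1 + y) /
  Complex.sqrt (Dc a ζ y yt op) ^ 3 * Complex.exp (-(ζ + rh a ζ * (1 + y) ^ 2) / 4)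

/-- the weight of the equation on a conical end -/
def wCone (cc : ℝ) (ka ζ w wt op : ℂ) : ℂ := (1 - ka * w) /
  (2 * cc * Complex.sqrt (coneD ka w (w + 2 * ζ⁻¹ * op) (cc * wt)) ^ 3) *
    Complex.exp (-(ζ * (1 + w ^ 2)) / 4)

namespace Lag

theorem sqrt_sq (z : ℂ) : Complex.sqrt z ^ 2 = z := Complex.cpow_ofNat_inv_pow _ 2

theorem sqrt_ne {z : ℂ} (h : z ≠ 0) : Complex.sqrt z ≠ 0 := fun h0 => h (by
  rw [← sqrt_sq z, h0]; simp)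

theorem norm_sqrt (z : ℂ) : ‖Complex.sqrt z‖ = Real.sqrt ‖z‖ := by
  rw [← sqrt_sq z, norm_pow, Real.sqrt_sq (norm_nonneg _), sqrt_sq]

theorem hasDerivAt_csqrt {z : ℂ} (h : z ∈ slitPlane) :
    HasDerivAt Complex.sqrt (2 * Complex.sqrt z)⁻¹ z := by
  have h1 := (Complex.differentiableAt_sqrt h).hasDerivAt
  have h2 : HasDerivAt (fun z => Complex.sqrt z ^ 2) _ z := h1.pow 2
  simp only [sqrt_sq] at h2
  have h3 := h2.unique (hasDerivAt_id z)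
  have h4 := sqrt_ne (slitPlane_ne_zero h)
  refine h1.congr_deriv ?_
  field_simp
  simpa [mul_comm, mul_left_comm] using h3

theorem slit_of_near {z : ℂ} (h : ‖z - 1‖ ≤ 1 / 2) : z ∈ slitPlane := by
  left
  have := (abs_le.1 ((Complex.abs_re_le_norm _).trans h)).1
  simp only [sub_re, one_re] at this
  linarith

theorem half_le_of_near {z : ℂ} (h : ‖z - 1‖ ≤ 1 / 2) : 1 / 2 ≤ ‖z‖ := by
  have := norm_sub_norm_le (1 : ℂ) (1 - z)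
  rw [norm_one, norm_sub_rev, sub_sub_cancel] at this
  linarith

section curves
variable {τ : ℝ} {g : ℂ}

theorem hd_sqrt {D : ℝ → ℂ} {D' : ℂ} (hD : HasDerivAt D D' τ) (h : D τ ∈ slitPlane) :
    HasDerivAt (fun τ => Complex.sqrt (D τ)) (D' / (2 * Complex.sqrt (D τ))) τ :=
  ((hasDerivAt_csqrt h).comp τ hD).congr_deriv (by rw [div_eq_inv_mul])

/-- the bracket of the Lagrangian -/
def brL (D κ D' : ℂ) : ℂ := κ * D ^ 2 + D * D' / 2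

/-- the bracket of a flux -/
def brF (D N η κ D' N' η' : ℂ) : ℂ := (κ * N * D + N' * D - N * D' / 2) * η + N * D * η'

theorem hd_lag {c D : ℝ → ℂ} {κ D' : ℂ} (hc : HasDerivAt c (c τ * κ) τ)
    (hD : HasDerivAt D D' τ) (h : D τ ∈ slitPlane) :
    HasDerivAt (fun τ => c τ * Complex.sqrt (D τ))
      (c τ / Complex.sqrt (D τ) ^ 3 * brL (D τ) κ D') τ := by
  refine (hc.fun_mul (hd_sqrt hD h)).congr_deriv ?_
  have h1 := sqrt_ne (slitPlane_ne_zero h)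
  have h2 := sqrt_sq (D τ)
  generalize Complex.sqrt (D τ) = s at *
  rw [brL, ← h2]
  field_simp

theorem hd_flux {c D N η : ℝ → ℂ} {κ D' N' η' : ℂ} (hc : HasDerivAt c (c τ * (g * κ)) τ)
    (hD : HasDerivAt D (g * D') τ) (hN : HasDerivAt N (g * N') τ) (hη : HasDerivAt η (g * η') τ)
    (h : D τ ∈ slitPlane) :
    HasDerivAt (fun τ => c τ * N τ / Complex.sqrt (D τ) * η τ)
      (g * (c τ / Complex.sqrt (D τ) ^ 3 * brF (D τ) (N τ) (η τ) κ D' N' η')) τ := by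
  have h1 := sqrt_ne (slitPlane_ne_zero h)
  refine (((hc.fun_mul hN).fun_div (hd_sqrt hD h) h1).fun_mul hη).congr_deriv ?_
  have h2 := sqrt_sq (D τ)
  generalize Complex.sqrt (D τ) = s at *
  rw [brF, ← h2]
  field_simp

end curves

/-! ### The cylinder, in the variables `(a, ζ, y, q, P)`, `q = ∂_θ y`, `P = ∂_ζ y` -/

section cyl
variable (a ζ y q P a' ζ' y' q' P' da dy dy' : ℂ)

def cB : ℂ := P + a / (2 * rh a ζ) * (1 + y)
def cD : ℂ := (1 + y) ^ 2 * (1 + 4 * (ζ * rh a ζ) * cB a ζ y P ^ 2) + q ^ 2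
def cN : ℂ := 4 * (1 + y) ^ 2 * (ζ * rh a ζ) * cB a ζ y P
def cF : ℂ := Complex.sqrt (ζ * rh a ζ) / (2 * ζ) * Complex.exp (-(ζ + rh a ζ * (1 + y) ^ 2) / 4)
def cH : ℂ := dy + (1 + y) * (ζ - 2) * da / (2 * rh a ζ)
def dR : ℂ := a' * (ζ - 2) + a * ζ'
def dB : ℂ := P' + (a' / (2 * rh a ζ) - a * dR a ζ a' ζ' / (2 * rh a ζ ^ 2)) * (1 + y) +
  a / (2 * rh a ζ) * y'
def dD : ℂ := 2 * (1 + y) * y' * (1 + 4 * (ζ * rh a ζ) * cB a ζ y P ^ 2) +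
  (1 + y) ^ 2 * (4 * (ζ' * rh a ζ + ζ * dR a ζ a' ζ') * cB a ζ y P ^ 2 +
    8 * (ζ * rh a ζ) * cB a ζ y P * dB a ζ y a' ζ' y' P') + 2 * q * q'
def dN : ℂ := 8 * (1 + y) * y' * (ζ * rh a ζ) * cB a ζ y P +
  4 * (1 + y) ^ 2 * ((ζ' * rh a ζ + ζ * dR a ζ a' ζ') * cB a ζ y P +
    ζ * rh a ζ * dB a ζ y a' ζ' y' P')
def dK : ℂ := dR a ζ a' ζ' / (2 * rh a ζ) - ζ' / (2 * ζ) -
  (ζ' + dR a ζ a' ζ' * (1 + y) ^ 2 + 2 * rh a ζ * (1 + y) * y') / 4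
def dH : ℂ := dy' + y' * (ζ - 2) * da / (2 * rh a ζ) +
  (1 + y) * da * (ζ' / (2 * rh a ζ) - (ζ - 2) * a * ζ' / (2 * rh a ζ ^ 2))
/-- the partial derivative with respect to `y` -/
def cY : ℂ := dK a ζ y 0 0 1 * cD a ζ y q P + dD a ζ y q P 0 0 1 0 0 / 2

variable {a ζ}

theorem cyl_var (hζ : ζ ≠ 0) (hρ : rh a ζ ≠ 0) (dq dP : ℂ) :
    dK a ζ y da 0 dy * cD a ζ y q P + dD a ζ y q P da 0 dy dq dP / 2 =
      cY a ζ y q P * cH a ζ y da dy + cN a ζ y P * dH a ζ y 1 P da dP +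
        q * dH a ζ y 0 q da dq := by
  simp only [cY, dK, cD, dD, cH, cN, dH, dB, cB, dR]
  generalize rh a ζ = ρ at *
  field_simp
  ring

theorem cyl_el (hζ : ζ ≠ 0) (hρ : rh a ζ ≠ 0) (qq Q pt : ℂ) :
    cY a ζ y q P * cD a ζ y q P -
      (dK a ζ y 0 1 P * cN a ζ y P * cD a ζ y q P + dN a ζ y P 0 1 P Q * cD a ζ y q P -
        cN a ζ y P * dD a ζ y q P 0 1 P pt Q / 2) -
      (dK a ζ y 0 0 q * q * cD a ζ y q P + qq * cD a ζ y q P -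
        q * dD a ζ y q P 0 0 q qq pt / 2) =
      -((1 + y) * cylE a ζ⁻¹ (ζ⁻¹ * (rh a ζ)⁻¹) (a / 2 * (rh a ζ)⁻¹) (a / 2 * ζ) y q qq
        (ζ * rh a ζ * P) (ζ * rh a ζ * Q) pt) := by
  simp only [cY, dK, cD, dD, cN, dN, dB, cB, dR, cylE, cylD, cylB]
  have h : rh a ζ = 2 + a * (ζ - 2) := rfl
  generalize rh a ζ = ρ at *
  have h1 : (1 - a) = (ρ - a * ζ) / 2 := by rw [h]; ring
  rw [h1]
  field_simp
  ring

theorem cyl_id (hζ : ζ ≠ 0) (hρ : rh a ζ ≠ 0) (qq Q pt dq dP : ℂ) :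
    brL (cD a ζ y q P) (dK a ζ y da 0 dy) (dD a ζ y q P da 0 dy dq dP) =
      brF (cD a ζ y q P) (cN a ζ y P) (cH a ζ y da dy) (dK a ζ y 0 1 P) (dD a ζ y q P 0 1 P pt Q)
        (dN a ζ y P 0 1 P Q) (dH a ζ y 1 P da dP) +
      brF (cD a ζ y q P) q (cH a ζ y da dy) (dK a ζ y 0 0 q) (dD a ζ y q P 0 0 q qq pt) qq
        (dH a ζ y 0 q da dq) -
      (1 + y) * cylE a ζ⁻¹ (ζ⁻¹ * (rh a ζ)⁻¹) (a / 2 * (rh a ζ)⁻¹) (a / 2 * ζ) y q qq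
        (ζ * rh a ζ * P) (ζ * rh a ζ * Q) pt * cH a ζ y da dy := by
  unfold brL brF
  linear_combination cD a ζ y q P * cyl_var y q P da dy hζ hρ dq dP +
    cH a ζ y da dy * cyl_el y q P hζ hρ qq Q pt

theorem Dc_eq (hζ : ζ ≠ 0) (hρ : rh a ζ ≠ 0) : Dc a ζ y q (ζ * rh a ζ * P) = cD a ζ y q P := by
  simp only [Dc, cD, cylD, cylB, cB]
  generalize rh a ζ = ρ at *
  field_simp
  ring

theorem lagCyl_eq (hζ : ζ ≠ 0) (hρ : rh a ζ ≠ 0) :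
    lagCyl a ζ y q (ζ * rh a ζ * P) = cF a ζ y * Complex.sqrt (cD a ζ y q P) := by
  rw [lagCyl, Dc_eq y q P hζ hρ, cF]; ring

theorem fluxCyl_eq (hζ : ζ ≠ 0) (hρ : rh a ζ ≠ 0) :
    fluxCyl a ζ y q (ζ * rh a ζ * P) da dy =
      cF a ζ y * cN a ζ y P / Complex.sqrt (cD a ζ y q P) * cH a ζ y da dy := by
  rw [fluxCyl, Dc_eq y q P hζ hρ, cF, cH, cN, cB]
  congr 1
  generalize rh a ζ = ρ at *
  rw [div_eq_mul_inv _ (Complex.sqrt (cD _ _ _ _ _)), div_eq_mul_inv _ (Complex.sqrt (cD _ _ _ _ _))]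
  field_simp
  ring

theorem wCyl_eq (hζ : ζ ≠ 0) (hρ : rh a ζ ≠ 0) :
    wCyl a ζ y q (ζ * rh a ζ * P) = cF a ζ y / Complex.sqrt (cD a ζ y q P) ^ 3 * (1 + y) := by
  rw [wCyl, Dc_eq y q P hζ hρ, cF]; ring

end cyl

section cylc
variable {a ζ y q P dy : ℝ → ℂ} {g a' ζ' y' q' P' dy' : ℂ} {τ : ℝ}

theorem hd_rh (ha : HasDerivAt a (g * a') τ) (hζ : HasDerivAt ζ (g * ζ') τ) :
    HasDerivAt (fun τ => rh (a τ) (ζ τ)) (g * dR (a τ) (ζ τ) a' ζ') τ :=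
  ((ha.fun_mul (hζ.sub_const 2)).const_add 2).congr_deriv (by simp only [dR]; ring)

theorem hd_cB (ha : HasDerivAt a (g * a') τ) (hζ : HasDerivAt ζ (g * ζ') τ)
    (hy : HasDerivAt y (g * y') τ) (hP : HasDerivAt P (g * P') τ) (h : rh (a τ) (ζ τ) ≠ 0) :
    HasDerivAt (fun τ => cB (a τ) (ζ τ) (y τ) (P τ))
      (g * dB (a τ) (ζ τ) (y τ) a' ζ' y' P') τ :=
  (hP.fun_add ((ha.fun_div ((hd_rh ha hζ).const_mul 2) (mul_ne_zero two_ne_zero h)).fun_mul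
    (hy.const_add 1))).congr_deriv (by simp only [dB]; field_simp; ring)

theorem hd_cD (ha : HasDerivAt a (g * a') τ) (hζ : HasDerivAt ζ (g * ζ') τ)
    (hy : HasDerivAt y (g * y') τ) (hq : HasDerivAt q (g * q') τ) (hP : HasDerivAt P (g * P') τ)
    (h : rh (a τ) (ζ τ) ≠ 0) :
    HasDerivAt (fun τ => cD (a τ) (ζ τ) (y τ) (q τ) (P τ))
      (g * dD (a τ) (ζ τ) (y τ) (q τ) (P τ) a' ζ' y' q' P') τ :=
  ((((hy.const_add 1).fun_pow 2).fun_mul (((((hζ.fun_mul (hd_rh ha hζ)).const_mul 4).fun_mul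
    ((hd_cB ha hζ hy hP h).fun_pow 2))).const_add 1)).fun_add (hq.fun_pow 2)).congr_deriv
    (by simp only [dD]; push_cast; ring)

theorem hd_cN (ha : HasDerivAt a (g * a') τ) (hζ : HasDerivAt ζ (g * ζ') τ)
    (hy : HasDerivAt y (g * y') τ) (hP : HasDerivAt P (g * P') τ) (h : rh (a τ) (ζ τ) ≠ 0) :
    HasDerivAt (fun τ => cN (a τ) (ζ τ) (y τ) (P τ))
      (g * dN (a τ) (ζ τ) (y τ) (P τ) a' ζ' y' P') τ :=
  (((((hy.const_add 1).fun_pow 2).const_mul 4).fun_mul (hζ.fun_mul (hd_rh ha hζ))).fun_mul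
    (hd_cB ha hζ hy hP h)).congr_deriv (by simp only [dN]; push_cast; ring)

theorem hd_cF (ha : HasDerivAt a (g * a') τ) (hζ : HasDerivAt ζ (g * ζ') τ)
    (hy : HasDerivAt y (g * y') τ) (h : ζ τ * rh (a τ) (ζ τ) ∈ slitPlane) :
    HasDerivAt (fun τ => cF (a τ) (ζ τ) (y τ))
      (cF (a τ) (ζ τ) (y τ) * (g * dK (a τ) (ζ τ) (y τ) a' ζ' y')) τ := by
  have h0 := slitPlane_ne_zero h
  have h1 := left_ne_zero_of_mul h0
  have h2 := right_ne_zero_of_mul h0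
  refine (((hd_sqrt (hζ.fun_mul (hd_rh ha hζ)) h).fun_div (hζ.const_mul 2)
    (mul_ne_zero two_ne_zero h1)).fun_mul (((hζ.fun_add ((hd_rh ha hζ).fun_mul
      ((hy.const_add 1).fun_pow 2))).fun_neg.div_const 4).cexp)).congr_deriv ?_
  have h3 := sqrt_ne h0
  have h4 := sqrt_sq (ζ τ * rh (a τ) (ζ τ))
  simp only [cF, dK]
  generalize Complex.sqrt (ζ τ * rh (a τ) (ζ τ)) = s at *
  generalize Complex.exp _ = e
  generalize dR (a τ) (ζ τ) a' ζ' = r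
  generalize rh (a τ) (ζ τ) = ρ at *
  have h5 : ρ = s ^ 2 / ζ τ := by rw [h4]; field_simp
  subst h5
  push_cast
  field_simp
  ring

theorem hd_cH {a da : ℂ} (hζ : HasDerivAt ζ (g * ζ') τ) (hy : HasDerivAt y (g * y') τ)
    (hdy : HasDerivAt dy (g * dy') τ) (h : rh a (ζ τ) ≠ 0) :
    HasDerivAt (fun τ => cH a (ζ τ) (y τ) da (dy τ))
      (g * dH a (ζ τ) (y τ) ζ' y' da dy') τ :=
  (hdy.fun_add (((((hy.const_add 1).fun_mul (hζ.sub_const 2)).mul_const da).fun_div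
    ((hd_rh (a := fun _ => a) (a' := 0) ((hasDerivAt_const τ a).congr_deriv (mul_zero g).symm)
      hζ).const_mul 2) (mul_ne_zero two_ne_zero h)))).congr_deriv
    (by simp only [dH, dR]; field_simp; ring)

end cylc

/-! ### The cone, in the variables `(ka, ζ, w, q, P)` -/

section cone
variable (cc : ℝ) (ka ζ w q P ka' ζ' w' q' P' : ℂ)

def kD : ℂ := coneD ka w (w + 2 * ζ * P) (cc * q)
def kN : ℂ := 2 * ζ * (1 - ka * w) ^ 2 * (w + 2 * ζ * P)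
def kF : ℂ := 1 / (2 * cc) * Complex.exp (-(ζ * (1 + w ^ 2)) / 4)
def eD : ℂ := -2 * (1 - ka * w) * (ka' * w + ka * w') * (1 + (w + 2 * ζ * P) ^ 2) +
  (1 - ka * w) ^ 2 * (2 * (w + 2 * ζ * P) * (w' + 2 * (ζ' * P + ζ * P'))) + 2 * cc ^ 2 * q * q'
def eN : ℂ := 2 * ζ' * (1 - ka * w) ^ 2 * (w + 2 * ζ * P) -
  4 * ζ * (1 - ka * w) * (ka' * w + ka * w') * (w + 2 * ζ * P) +
  2 * ζ * (1 - ka * w) ^ 2 * (w' + 2 * (ζ' * P + ζ * P'))
def eK : ℂ := -(ζ' * (1 + w ^ 2) + 2 * ζ * w * w') / 4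

variable {cc ζ}

theorem cone_id (hc : (cc : ℂ) ≠ 0) (hζ : ζ ≠ 0) (kd qq Q pt dw dq dP : ℂ) :
    brL (kD cc ka ζ w q P) (eK ζ w 0 dw) (eD cc ka ζ w q P 0 0 dw dq dP) =
      brF (kD cc ka ζ w q P) (kN ka ζ w P) dw (eK ζ w 1 P) (eD cc ka ζ w q P 0 1 P pt Q)
        (eN ka ζ w P 0 1 P Q) dP +
      brF (kD cc ka ζ w q P) (cc ^ 2 * q) dw (eK ζ w 0 q) (eD cc ka ζ w q P (kd / cc) 0 q qq pt)
        (cc ^ 2 * qq) dq -
      (1 - ka * w) * coneE (cc : ℂ) ka kd ζ⁻¹ w q qq (ζ * ζ * P) (ζ * ζ * Q) (ζ * pt) * dw := by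
  simp only [brL, brF, kD, kN, eD, eN, eK, coneE, coneD]
  field_simp
  ring

theorem al_eq (hζ : ζ ≠ 0) : w + 2 * ζ⁻¹ * (ζ * ζ * P) = w + 2 * ζ * P := by field_simp

theorem lagCone_eq (hζ : ζ ≠ 0) :
    lagCone cc ka ζ w q (ζ * ζ * P) = kF cc ζ w * Complex.sqrt (kD cc ka ζ w q P) := by
  rw [lagCone, al_eq w P hζ, kF, kD]; ring

theorem fluxCone_eq (hζ : ζ ≠ 0) (dw : ℂ) : fluxCone cc ka ζ w q (ζ * ζ * P) dw =
    kF cc ζ w * kN ka ζ w P / Complex.sqrt (kD cc ka ζ w q P) * dw := by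
  rw [fluxCone, al_eq w P hζ, kF, kD, kN]; ring

theorem wCone_eq (hζ : ζ ≠ 0) : wCone cc ka ζ w q (ζ * ζ * P) =
    kF cc ζ w / Complex.sqrt (kD cc ka ζ w q P) ^ 3 * (1 - ka * w) := by
  rw [wCone, al_eq w P hζ, kF, kD]; ring

end cone

section conec
variable {cc : ℝ} {ka ζ w q P : ℝ → ℂ} {g ka' ζ' w' q' P' : ℂ} {τ : ℝ}

theorem hd_kD (hk : HasDerivAt ka (g * ka') τ) (hζ : HasDerivAt ζ (g * ζ') τ)
    (hw : HasDerivAt w (g * w') τ) (hq : HasDerivAt q (g * q') τ) (hP : HasDerivAt P (g * P') τ) :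
    HasDerivAt (fun τ => kD cc (ka τ) (ζ τ) (w τ) (q τ) (P τ))
      (g * eD cc (ka τ) (ζ τ) (w τ) (q τ) (P τ) ka' ζ' w' q' P') τ :=
  (((((hk.fun_mul hw).const_sub 1).fun_pow 2).fun_mul
    (((hw.fun_add ((hζ.const_mul 2).fun_mul hP)).fun_pow 2).const_add 1)).fun_add
    ((hq.const_mul (cc : ℂ)).fun_pow 2)).congr_deriv (by simp only [eD]; push_cast; ring)

theorem hd_kN (hk : HasDerivAt ka (g * ka') τ) (hζ : HasDerivAt ζ (g * ζ') τ)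
    (hw : HasDerivAt w (g * w') τ) (hP : HasDerivAt P (g * P') τ) :
    HasDerivAt (fun τ => kN (ka τ) (ζ τ) (w τ) (P τ))
      (g * eN (ka τ) (ζ τ) (w τ) (P τ) ka' ζ' w' P') τ :=
  (((hζ.const_mul 2).fun_mul (((hk.fun_mul hw).const_sub 1).fun_pow 2)).fun_mul
    (hw.fun_add ((hζ.const_mul 2).fun_mul hP))).congr_deriv (by simp only [eN]; push_cast; ring)

theorem hd_kF (hζ : HasDerivAt ζ (g * ζ') τ) (hw : HasDerivAt w (g * w') τ) :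
    HasDerivAt (fun τ => kF cc (ζ τ) (w τ)) (kF cc (ζ τ) (w τ) * (g * eK (ζ τ) (w τ) ζ' w')) τ :=
  ((((hζ.fun_mul ((hw.fun_pow 2).const_add 1)).fun_neg.div_const 4).cexp).const_mul
    (1 / (2 * cc) : ℂ)).congr_deriv (by simp only [kF, eK]; push_cast; ring)

end conec

end Lag

end Vale.Agent.P218N.End
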