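import Vale.Agent.P218N.End.EvD
import Vale.Agent.P218N.End.Bas
import Vale.Agent.P218N.End.LagP

/-! Holomorphic families of bounded continuous functions, their integrals, and the abstract first
variation formula. -/

open Filter Topology Metric Set Complex
open scoped BoundedContinuousFunction

noncomputable section

namespace Vale.Agent.P218N.End

variable {E : Type*} [NormedAddCommGroup E] [NormedSpace ℂ E]

/-- `f` is a holomorphic family of bounded continuous functions -/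
def HolF {X : Type*} [TopologicalSpace X] (U : Set E) (f : E → X → ℂ) : Prop :=
  ∃ F : E → X →ᵇ ℂ, DifferentiableOn ℂ F U ∧ ∀ x ∈ U, ∀ p, F x p = f x p

namespace HolF

section gen
variable {X : Type*} [TopologicalSpace X] {U : Set E} {f f' : E → X → ℂ}

theorem congr (h : HolF U f) (e : ∀ x ∈ U, ∀ p, f x p = f' x p) : HolF U f' :=
  let ⟨F, h1, h2⟩ := h; ⟨F, h1, fun x hx p => (h2 x hx p).trans (e x hx p)⟩

theorem par {z : E → ℂ} (hz : DifferentiableOn ℂ z U) : HolF U fun x (_ : X) => z x :=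
  ⟨fun x => z x • 1, hz.smul_const _, fun x _ p => by simp⟩

theorem const (z : ℂ) : HolF U fun _ (_ : X) => z := par (differentiableOn_const z)

theorem add (h : HolF U f) (h' : HolF U f') : HolF U fun x p => f x p + f' x p :=
  let ⟨F, h1, h2⟩ := h; let ⟨G, h3, h4⟩ := h'
  ⟨fun x => F x + G x, h1.add h3, fun x hx p => by simp [h2 x hx, h4 x hx]⟩

theorem sub (h : HolF U f) (h' : HolF U f') : HolF U fun x p => f x p - f' x p :=
  let ⟨F, h1, h2⟩ := h; let ⟨G, h3, h4⟩ := h'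
  ⟨fun x => F x - G x, h1.sub h3, fun x hx p => by simp [h2 x hx, h4 x hx]⟩

theorem mul (h : HolF U f) (h' : HolF U f') : HolF U fun x p => f x p * f' x p :=
  let ⟨F, h1, h2⟩ := h; let ⟨G, h3, h4⟩ := h'
  ⟨fun x => F x * G x, h1.mul h3, fun x hx p => by simp [h2 x hx, h4 x hx]⟩

theorem neg (h : HolF U f) : HolF U fun x p => -f x p :=
  let ⟨F, h1, h2⟩ := h
  ⟨fun x => -F x, h1.neg, fun x hx p => by simp [h2 x hx]⟩

theorem pow (h : HolF U f) (n : ℕ) : HolF U fun x p => f x p ^ n :=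
  let ⟨F, h1, h2⟩ := h
  ⟨fun x => F x ^ n, h1.pow n, fun x hx p => by simp [h2 x hx]⟩

theorem div_const (h : HolF U f) (z : ℂ) : HolF U fun x p => f x p / z :=
  (h.mul (const z⁻¹)).congr fun _ _ _ => (div_eq_mul_inv _ _).symm

theorem bdd (h : HolF U f) {x : E} (hx : x ∈ U) : ∃ C, ∀ p, ‖f x p‖ ≤ C :=
  let ⟨F, _, h2⟩ := h; ⟨‖F x‖, fun p => h2 x hx p ▸ (F x).norm_coe_le_norm p⟩

theorem cont (h : HolF U f) {x : E} (hx : x ∈ U) : Continuous (f x) :=
  let ⟨F, _, h2⟩ := h; (F x).continuous.congr (h2 x hx)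

theorem diff (h : HolF U f) (p : X) : DifferentiableOn ℂ (fun x => f x p) U :=
  let ⟨_, h1, h2⟩ := h; (DifferentiableOn.evalX h1 p).congr fun x hx => (h2 x hx p).symm

theorem comp (hU : IsOpen U) (h : HolF U f) {φ : ℂ → ℂ}
    (hφ : ∀ x ∈ U, ∀ p, DifferentiableAt ℂ φ (f x p))
    (hb : ∀ x ∈ U, ∃ r > 0, ∃ C, ∀ p z, ‖z - f x p‖ ≤ r → ‖φ z‖ ≤ C) :
    HolF U fun x p => φ (f x p) := by
  obtain ⟨F, h1, h2⟩ := h
  refine ⟨fun x => nemX φ (F x), fun x hx => ?_, fun x hx p => ?_⟩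
  · obtain ⟨r, hr, C, hC⟩ := hb x hx
    have h3 : ∀ᶠ y in 𝓝 x, y ∈ U ∧ dist (F y) (F x) < r := Eventually.and (hU.mem_nhds hx)
      (Metric.tendsto_nhds.1 ((h1 x hx).differentiableAt (hU.mem_nhds hx)).continuousAt r hr)
    obtain ⟨s, hs, h4⟩ := Metric.eventually_nhds_iff_ball.1 h3
    refine ((differentiableOn_nemX (C := C) isOpen_ball (h1.mono fun y hy => (h4 y hy).1)
      (fun y hy p => ?_) fun y hy p => hC p _ ?_).differentiableAt
      (ball_mem_nhds x hs)).differentiableWithinAt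
    · rw [h2 y (h4 y hy).1]; exact hφ y (h4 y hy).1 p
    · rw [← h2 x hx, ← dist_eq_norm]
      exact ((F y).dist_coe_le_dist p).trans (h4 y hy).2.le
  · obtain ⟨r, hr, C, hC⟩ := hb x hx
    rw [nemX_apply (C := C) (fun p => by rw [h2 x hx]; exact (hφ x hx p).continuousAt)
      (fun p => hC p _ (by rw [h2 x hx, sub_self, norm_zero]; exact hr.le)), h2 x hx]

theorem inv (hU : IsOpen U) (h : HolF U f) (hc : ∀ x ∈ U, ∃ c > 0, ∀ p, c ≤ ‖f x p‖) :
    HolF U fun x p => (f x p)⁻¹ := by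
  refine h.comp hU (φ := fun z => z⁻¹) (fun x hx p => ?_) fun x hx => ?_
  · obtain ⟨c, h1, h2⟩ := hc x hx
    exact differentiableAt_inv (norm_pos_iff.1 (h1.trans_le (h2 p)))
  · obtain ⟨c, h1, h2⟩ := hc x hx
    refine ⟨c / 2, half_pos h1, (c / 2)⁻¹, fun p z hz => ?_⟩
    rw [norm_inv]
    refine inv_anti₀ (half_pos h1) ?_
    linarith [h2 p, norm_sub_norm_le (f x p) z, norm_sub_rev z (f x p)]

theorem div (hU : IsOpen U) (h : HolF U f) (h' : HolF U f')
    (hc : ∀ x ∈ U, ∃ c > 0, ∀ p, c ≤ ‖f' x p‖) : HolF U fun x p => f x p / f' x p :=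
  (h.mul (h'.inv hU hc)).congr fun _ _ _ => (div_eq_mul_inv _ _).symm

theorem sqrt (hU : IsOpen U) (h : HolF U f) (hs : ∀ x ∈ U, ∀ p, f x p ∈ slitPlane) :
    HolF U fun x p => Complex.sqrt (f x p) := by
  refine h.comp hU (fun x hx p => Complex.differentiableAt_sqrt (hs x hx p)) fun x hx => ?_
  obtain ⟨C, hC⟩ := h.bdd hx
  refine ⟨1, one_pos, Real.sqrt (C + 1), fun p z hz => ?_⟩
  rw [Lag.norm_sqrt]
  exact Real.sqrt_le_sqrt (by linarith [hC p, norm_le_insert' z (f x p)])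

theorem exp (hU : IsOpen U) (h : HolF U f) : HolF U fun x p => Complex.exp (f x p) := by
  refine h.comp hU (fun x _ p => Complex.differentiableAt_exp) fun x hx => ?_
  obtain ⟨C, hC⟩ := h.bdd hx
  refine ⟨1, one_pos, Real.exp (C + 1), fun p z hz => (Complex.norm_exp_le_exp_norm _).trans ?_⟩
  exact Real.exp_le_exp.2 (by linarith [hC p, norm_le_insert' z (f x p)])

end gen

variable {U : Set E} {f : E → ℝ × ℝ → ℂ}

theorem ev {j : E → WB} (h : DifferentiableOn ℂ j U) : HolF U fun x (p : ℝ × ℝ) => ev (j x) p.1 p.2 :=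
  ⟨fun x => ev2 (j x), ev2.differentiable.comp_differentiableOn h, fun _ _ _ => rfl⟩

theorem up {z : E → BC} (h : DifferentiableOn ℂ z U) : HolF U fun x (p : ℝ × ℝ) => z x p.1 :=
  ⟨fun x => up2 (z x), up2.differentiable.comp_differentiableOn h, fun _ _ _ => up2_apply _ _⟩

theorem ang {k : E → WD} (h : DifferentiableOn ℂ k U) :
    HolF U fun x (p : ℝ × ℝ) => W.sumL p.2 (k x) :=
  (ev (cst.differentiable.comp_differentiableOn h)).congr fun _ _ _ => ev_cst _ _ _

/-- the integral over a circle -/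
theorem diff_int (h : HolF U f) (t : ℝ) :
    DifferentiableOn ℂ (fun x => ∫ θ in (0 : ℝ)..2 * Real.pi, f x (t, θ)) U := by
  obtain ⟨F, h1, h2⟩ := h
  refine (DifferentiableOn.evalBC (int2.differentiable.comp_differentiableOn h1) t).congr
    fun x hx => ?_
  simp only [Function.comp_apply, int2_apply, h2 x hx]

/-- the integral over a piece of the end -/
theorem diff_int2 (h : HolF U f) {g : E → BC} (hg : DifferentiableOn ℂ g U) (t₀ t₁ : ℝ) :
    DifferentiableOn ℂ
      (fun x => ∫ t in t₀..t₁, g x t * ∫ θ in (0 : ℝ)..2 * Real.pi, f x (t, θ)) U := by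
  obtain ⟨F, h1, h2⟩ := h
  refine ((intI t₀ t₁).differentiable.comp_differentiableOn
    (hg.mul (int2.differentiable.comp_differentiableOn h1))).congr fun x hx => ?_
  simp only [Function.comp_apply, intI_apply, Pi.mul_apply, BoundedContinuousFunction.mul_apply,
    int2_apply, h2 x hx]

end HolF

theorem differentiableOn_binv {U : Set E} (hU : IsOpen U) {z : E → BC}
    (hz : DifferentiableOn ℂ z U) (hc : ∀ x ∈ U, ∃ c > 0, ∀ t, c ≤ ‖z x t‖) :
    DifferentiableOn ℂ (fun x => binv (z x)) U := by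
  obtain ⟨F, h1, h2⟩ := HolF.inv hU (f := fun x t => z x t) ⟨z, hz, fun _ _ _ => rfl⟩ hc
  refine h1.congr fun x hx => ?_
  obtain ⟨c, h3, h4⟩ := hc x hx
  ext t
  rw [h2 x hx, binv_apply h3 h4]

namespace Lag

/-- the derivative along a real line -/
theorem hd_line {B : Type*} [NormedAddCommGroup B] [NormedSpace ℂ B] {F : E → B} {x : E}
    (h : DifferentiableAt ℂ F x) (L : B →L[ℂ] ℂ) (v : E) :
    HasDerivAt (fun τ : ℝ => L (F (x + (τ : ℂ) • v))) (L (fderiv ℂ F x v)) 0 := by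
  have h1 : HasDerivAt (fun τ : ℂ => x + τ • v) v ((0 : ℝ) : ℂ) := by
    simpa using ((hasDerivAt_id ((0 : ℝ) : ℂ)).smul_const v).const_add x
  have h2 : HasFDerivAt F (fderiv ℂ F x) (x + ((0 : ℝ) : ℂ) • v) := by simpa using h.hasFDerivAt
  exact (L.hasFDerivAt.comp_hasDerivAt _ (h2.comp_hasDerivAt _ h1)).comp_ofReal

theorem ev_line {U : Set E} (hU : IsOpen U) {x : E} (hx : x ∈ U) (v : E) :
    ∀ᶠ τ : ℝ in 𝓝 0, x + (τ : ℂ) • v ∈ U := by
  have h : Continuous fun τ : ℝ => x + (τ : ℂ) • v := by fun_prop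
  exact h.continuousAt.preimage_mem_nhds (by simpa using hU.mem_nhds hx)

theorem swap {F : ℝ × ℝ → ℂ} (hF : Continuous F) (a b c d : ℝ) :
    ∫ x in a..b, ∫ y in c..d, F (x, y) = ∫ y in c..d, ∫ x in a..b, F (x, y) :=
  MeasureTheory.intervalIntegral_intervalIntegral_swap (F := fun x y => F (x, y))
    ((hF.continuousOn.integrableOn_compact (isCompact_uIcc.prod isCompact_uIcc)).mono_set
      (prod_mono uIoc_subset_uIcc uIoc_subset_uIcc))

theorem green {g : ℝ → ℂ} (hg : Continuous g) {A Φ : ℝ × ℝ → ℂ} (cA : Continuous A)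
    (cΦ : Continuous Φ) (hA : ∀ t θ, HasDerivAt (fun t => A (t, θ)) (g t * Φ (t, θ)) t)
    (t₀ t₁ : ℝ) : ∫ t in t₀..t₁, g t * ∫ θ in (0 : ℝ)..2 * Real.pi, Φ (t, θ) =
      (∫ θ in (0 : ℝ)..2 * Real.pi, A (t₁, θ)) - ∫ θ in (0 : ℝ)..2 * Real.pi, A (t₀, θ) := by
  simp only [← intervalIntegral.integral_const_mul]
  rw [swap (F := fun p => g p.1 * Φ p) (by fun_prop), ← intervalIntegral.integral_sub
    (Continuous.intervalIntegrable (by fun_prop) _ _)
    (Continuous.intervalIntegrable (by fun_prop) _ _)]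
  refine intervalIntegral.integral_congr fun θ _ => ?_
  exact intervalIntegral.integral_eq_sub_of_hasDerivAt (fun t _ => hA t θ)
    (Continuous.intervalIntegrable (by fun_prop) _ _)

theorem cont_int {G : ℝ × ℝ → ℂ} (hG : Continuous G) :
    Continuous fun t => ∫ θ in (0 : ℝ)..2 * Real.pi, G (t, θ) :=
  intervalIntegral.continuous_parametric_intervalIntegral_of_continuous'
    (f := fun t θ => G (t, θ)) hG _ _

/-- a divergence identity, integrated over the circles -/
theorem noether {g : ℝ → ℂ} (hg : Continuous g) {A B Φ Ψ : ℝ × ℝ → ℂ}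
    (hA : ∀ t θ, HasDerivAt (fun t => A (t, θ)) (g t * Φ (t, θ)) t)
    (hB : ∀ t θ, HasDerivAt (fun θ => B (t, θ)) (Ψ (t, θ)) θ)
    (per : ∀ t, B (t, 2 * Real.pi) = B (t, 0)) (cA : Continuous A) (cΦ : Continuous Φ)
    (cΨ : Continuous Ψ) (t : ℝ) :
    HasDerivAt (fun t => ∫ θ in (0 : ℝ)..2 * Real.pi, A (t, θ))
      (g t * ∫ θ in (0 : ℝ)..2 * Real.pi, (Φ (t, θ) + Ψ (t, θ))) t := by
  rw [intervalIntegral.integral_add (Continuous.intervalIntegrable (by fun_prop) _ _)
    (Continuous.intervalIntegrable (by fun_prop) _ _),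
    intervalIntegral.integral_eq_sub_of_hasDerivAt (fun θ _ => hB t θ)
    (Continuous.intervalIntegrable (by fun_prop) _ _), per, sub_self, add_zero]
  rw [show (fun t => ∫ θ in (0 : ℝ)..2 * Real.pi, A (t, θ)) = _ from
    funext fun t => (eq_sub_iff_add_eq.1 (green hg cA cΦ hA 0 t)).symm]
  exact (((hg.mul (cont_int cΦ)).integral_hasStrictDerivAt 0 t).hasDerivAt).add_const _

/-- `L` is the variation of the density of `F`, `A` the flux, `R` the residual term. -/
structure Var (F : E → ℝ → ℂ) (x v : E) (g : BC) (L A R : ℝ → ℂ) : Prop where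
  cL : Continuous L
  cR : Continuous R
  fd : ∀ (G : BC) (t₀ t₁ : ℝ),
    fderiv ℂ (fun x => ∫ t in t₀..t₁, G t * F x t) x v = ∫ t in t₀..t₁, G t * L t
  der : ∀ t, HasDerivAt A (g t * (L t + R t)) t

/-- the abstract first variation formula -/
theorem var_abs {U : Set E} (hU : IsOpen U) {f : E → ℝ × ℝ → ℂ} (hf : HolF U f) {x : E}
    (hx : x ∈ U) (v : E) (g : BC) {A B Φ Ψ R : ℝ × ℝ → ℂ}
    (hA : ∀ t θ, HasDerivAt (fun t => A (t, θ)) (g t * Φ (t, θ)) t)
    (hB : ∀ t θ, HasDerivAt (fun θ => B (t, θ)) (Ψ (t, θ)) θ)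
    (per : ∀ t, B (t, 2 * Real.pi) = B (t, 0))
    (hv : ∀ p, HasDerivAt (fun τ : ℝ => f (x + (τ : ℂ) • v) p) (Φ p + Ψ p - R p) 0)
    (cA : Continuous A) (cΨ : Continuous Ψ) (cR : Continuous R) :
    ∃ L, Var (fun x t => ∫ θ in (0 : ℝ)..2 * Real.pi, f x (t, θ)) x v g L
      (fun t => ∫ θ in (0 : ℝ)..2 * Real.pi, A (t, θ))
      (fun t => ∫ θ in (0 : ℝ)..2 * Real.pi, R (t, θ)) := by
  obtain ⟨F, h1, h2⟩ := hf
  have hF := (h1 x hx).differentiableAt (hU.mem_nhds hx)
  have h3 : ∀ p, fderiv ℂ F x v p + R p = Φ p + Ψ p := fun p => by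
    rw [← eq_sub_iff_add_eq]
    refine (hd_line hF (BoundedContinuousFunction.evalCLM ℂ p) v).unique ?_
    refine (hv p).congr_of_eventuallyEq ?_
    filter_upwards [ev_line hU hx v] with τ hτ
    exact h2 _ hτ p
  have cF := (fderiv ℂ F x v).continuous
  have cΦ : Continuous Φ := by
    refine ((cF.add cR).sub cΨ).congr fun p => ?_
    simp only [Pi.add_apply, Pi.sub_apply, h3]
    ring
  refine ⟨fun t => ∫ θ in (0 : ℝ)..2 * Real.pi, fderiv ℂ F x v (t, θ), cont_int cF, cont_int cR,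
    fun G t₀ t₁ => ?_, fun t => ?_⟩
  · let L : BC2 →L[ℂ] ℂ := (intI t₀ t₁).comp ((ContinuousLinearMap.mul ℂ BC G).comp int2)
    have hL : ∀ H, L H = ∫ t in t₀..t₁, G t * ∫ θ in (0 : ℝ)..2 * Real.pi, H (t, θ) :=
      fun H => rfl
    have h4 : HasFDerivAt (fun x => ∫ t in t₀..t₁, G t * ∫ θ in (0 : ℝ)..2 * Real.pi, f x (t, θ))
        (L.comp (fderiv ℂ F x)) x := by
      refine (L.hasFDerivAt.comp x hF.hasFDerivAt).congr_of_eventuallyEq ?_
      filter_upwards [hU.mem_nhds hx] with y hy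
      simp only [Function.comp_apply, hL, h2 y hy]
    rw [h4.fderiv, ContinuousLinearMap.comp_apply, hL]
  · rw [← intervalIntegral.integral_add (Continuous.intervalIntegrable (by fun_prop) _ _)
      (Continuous.intervalIntegrable (by fun_prop) _ _)]
    simp only [h3]
    exact noether g.continuous hA hB per cA cΦ cΨ t

namespace Var
variable {F : E → ℝ → ℂ} {x v : E} {g : BC} {L A R : ℝ → ℂ}

theorem cA (h : Var F x v g L A R) : Continuous A :=
  continuous_iff_continuousAt.2 fun t => (h.der t).continuousAt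

theorem main (h : Var F x v g L A R) (t₀ t₁ : ℝ) :
    fderiv ℂ (fun x => ∫ t in t₀..t₁, g t * F x t) x v =
      A t₁ - A t₀ - ∫ t in t₀..t₁, g t * R t := by
  have cL := h.cL
  have cR := h.cR
  rw [h.fd, ← intervalIntegral.integral_eq_sub_of_hasDerivAt (fun t _ => h.der t)
    (Continuous.intervalIntegrable (by fun_prop) _ _), ← intervalIntegral.integral_sub
    (Continuous.intervalIntegrable (by fun_prop) _ _)
    (Continuous.intervalIntegrable (by fun_prop) _ _)]
  exact intervalIntegral.integral_congr fun t _ => by ring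

theorem weight (h : Var F x v g L A R) (χ : BC) {χ' : ℝ → ℂ} (hχ : ∀ t, HasDerivAt χ (χ' t) t)
    (cχ : Continuous χ') (t₀ t₁ : ℝ) :
    fderiv ℂ (fun x => ∫ t in t₀..t₁, χ t * g t * F x t) x v = χ t₁ * A t₁ - χ t₀ * A t₀ -
      (∫ t in t₀..t₁, χ' t * A t) - ∫ t in t₀..t₁, χ t * g t * R t := by
  have cL := h.cL
  have cR := h.cR
  have cA := h.cA
  refine (h.fd (χ * g) t₀ t₁).trans ?_
  rw [← intervalIntegral.integral_eq_sub_of_hasDerivAt (f := fun t => χ t * A t)
    (fun t _ => (hχ t).fun_mul (h.der t)) (Continuous.intervalIntegrable (by fun_prop) _ _),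
    ← intervalIntegral.integral_sub (Continuous.intervalIntegrable (by fun_prop) _ _)
    (Continuous.intervalIntegrable (by fun_prop) _ _), ← intervalIntegral.integral_sub
    (Continuous.intervalIntegrable (by fun_prop) _ _)
    (Continuous.intervalIntegrable (by fun_prop) _ _)]
  exact intervalIntegral.integral_congr fun t _ => by
    simp only [BoundedContinuousFunction.mul_apply]; ring

end Var

/-- derivatives along the contour pass to the variations -/
theorem der_var {U : Set E} (hU : IsOpen U) {x : E} (hx : x ∈ U) {g : BC} {y P : E → WB}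
    (hy : DifferentiableAt ℂ y x) (hP : DifferentiableAt ℂ P x)
    (h : ∀ x ∈ U, ∀ t θ, HasDerivAt (fun t => ev (y x) t θ) (g t * ev (P x) t θ) t) (v : E)
    (t θ : ℝ) :
    HasDerivAt (fun t => ev (fderiv ℂ y x v) t θ) (g t * ev (fderiv ℂ P x v) t θ) t := by
  have h1 : ∀ t, ev (fderiv ℂ y x v) t θ = ev (fderiv ℂ y x v) 0 θ +
      ∫ s in (0 : ℝ)..t, g s * ev (fderiv ℂ P x v) s θ := fun t => by
    let L : WB →L[ℂ] ℂ := (intI 0 t).comp ((ContinuousLinearMap.mul ℂ BC g).comp (W.sumL θ))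
    refine (hd_line hy (evL t θ) v).unique ?_
    refine ((hd_line hy (evL 0 θ) v).add (hd_line hP L v)).congr_of_eventuallyEq ?_
    filter_upwards [ev_line hU hx v] with τ hτ
    rw [Pi.add_apply, ← sub_eq_iff_eq_add']
    exact (intervalIntegral.integral_eq_sub_of_hasDerivAt (fun s _ => h _ hτ s θ)
      (Continuous.intervalIntegrable (by fun_prop) _ _)).symm
  rw [show (fun t => ev (fderiv ℂ y x v) t θ) = _ from funext h1]
  have h2 : Continuous fun s => g s * ev (fderiv ℂ P x v) s θ := by fun_prop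
  exact ((h2.integral_hasStrictDerivAt 0 t).hasDerivAt).const_add _

end Lag

end Vale.Agent.P218N.End
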