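import Vale.Agent.P218N.End.Api
import Vale.Agent.P218N.End.LagH

/-! First variation of the Gaussian area on a cylindrical end. -/

open Filter Topology Metric Set Complex
open scoped BoundedContinuousFunction

noncomputable section

namespace Vale.Agent.P218N.End

/-- the Lagrangian of a cylindrical end is regular along the jet -/
structure Path.CylOk (γ : Path) (a : ℂ) (j : EJ) : Prop where
  big : ∃ K > 0, ∀ t, K ≤ ‖γ.ze t * rh a (γ.ze t)‖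
  slit : ∀ t, γ.ze t * rh a (γ.ze t) ∈ slitPlane
  D : ∀ t θ, ‖Dc a (γ.ze t) (ev j.y t θ) (ev j.yt t θ) (ev j.op t θ) - 1‖ ≤ 1 / 2

/-- the residual term of the first variation -/
def Path.ResCyl (γ : Path) (a : ℂ) (j : EJ) (t : ℝ) (da : ℂ) (dy : WB) : ℂ :=
  ∫ θ in (0 : ℝ)..2 * Real.pi, wCyl a (γ.ze t) (ev j.y t θ) (ev j.yt t θ) (ev j.op t θ) *
    ev (γ.Ecyl a j) t θ *
      (ev dy t θ + (1 + ev j.y t θ) * (γ.ze t - 2) * da / (2 * rh a (γ.ze t)))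

theorem Path.rho_apply (γ : Path) (a : ℂ) (t : ℝ) : γ.rho a t = rh a (γ.ze t) := rfl

theorem Path.IsCyl.resCyl {γ : Path} {a : ℂ} {j : EJ} (h : γ.IsCyl a j) (t : ℝ) (da : ℂ)
    (dy : WB) : γ.ResCyl a j t da dy = 0 := by
  simp [Path.ResCyl, h.2]

theorem exists_lo_left {u w : BC} (h : ∃ K > 0, ∀ t, K ≤ ‖u t * w t‖) :
    ∃ c > 0, ∀ t, c ≤ ‖u t‖ := by
  obtain ⟨K, h1, h2⟩ := h
  refine ⟨K / (‖w‖ + 1), by positivity, fun t => ?_⟩
  rw [div_le_iff₀ (by positivity)]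
  refine (h2 t).trans ?_
  rw [norm_mul]
  exact mul_le_mul_of_nonneg_left ((w.norm_coe_le_norm t).trans (by linarith)) (norm_nonneg _)

namespace Path.CylOk
variable {γ : Path} {a : ℂ} {j : EJ}

theorem lo_ze (h : γ.CylOk a j) : ∃ c > 0, ∀ t, c ≤ ‖γ.ze t‖ :=
  exists_lo_left (w := γ.rho a) h.big

theorem lo_rh (h : γ.CylOk a j) : ∃ c > 0, ∀ t, c ≤ ‖rh a (γ.ze t)‖ :=
  exists_lo_left (u := γ.rho a) (w := γ.ze) (by simpa only [mul_comm, rho_apply] using h.big)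

theorem ze_ne (h : γ.CylOk a j) (t : ℝ) : γ.ze t ≠ 0 :=
  left_ne_zero_of_mul (slitPlane_ne_zero (h.slit t))

theorem rh_ne (h : γ.CylOk a j) (t : ℝ) : rh a (γ.ze t) ≠ 0 :=
  right_ne_zero_of_mul (slitPlane_ne_zero (h.slit t))

theorem iz (h : γ.CylOk a j) (t : ℝ) : binv γ.ze t = (γ.ze t)⁻¹ :=
  let ⟨_, h1, h2⟩ := h.lo_ze; binv_apply h1 h2 t

theorem ir (h : γ.CylOk a j) (t : ℝ) : binv (γ.rho a) t = (rh a (γ.ze t))⁻¹ :=
  let ⟨_, h1, h2⟩ := h.lo_rh; binv_apply (a := γ.rho a) h1 h2 t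

theorem io (h : γ.CylOk a j) (t : ℝ) : (γ.cyl a).io t = (γ.ze t)⁻¹ * (rh a (γ.ze t))⁻¹ := by
  rw [← h.iz, ← h.ir]; rfl

theorem op_eq (h : γ.CylOk a j) (t θ : ℝ) :
    ev j.op t θ = γ.ze t * rh a (γ.ze t) * ev ((γ.cyl a).jP j) t θ := by
  have := h.ze_ne t
  have := h.rh_ne t
  rw [Ctr.ev_jP, h.io]; field_simp

theorem oq_eq (h : γ.CylOk a j) (t θ : ℝ) :
    ev j.oq t θ = γ.ze t * rh a (γ.ze t) * ev ((γ.cyl a).jQ j) t θ := by
  have := h.ze_ne t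
  have := h.rh_ne t
  rw [Ctr.ev_jQ, h.io]; field_simp

theorem cD (h : γ.CylOk a j) (t θ : ℝ) : ‖Lag.cD a (γ.ze t) (ev j.y t θ) (ev j.yt t θ)
    (ev ((γ.cyl a).jP j) t θ) - 1‖ ≤ 1 / 2 := by
  rw [← Lag.Dc_eq _ _ _ (h.ze_ne t) (h.rh_ne t), ← h.op_eq]; exact h.D t θ

theorem ev_E (h : γ.CylOk a j) (t θ : ℝ) : ev (γ.Ecyl a j) t θ =
    cylE a (γ.ze t)⁻¹ ((γ.ze t)⁻¹ * (rh a (γ.ze t))⁻¹) (a / 2 * (rh a (γ.ze t))⁻¹) (a / 2 * γ.ze t)
      (ev j.y t θ) (ev j.yt t θ) (ev j.ytt t θ)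
      (γ.ze t * rh a (γ.ze t) * ev ((γ.cyl a).jP j) t θ)
      (γ.ze t * rh a (γ.ze t) * ev ((γ.cyl a).jQ j) t θ) (ev j.pt t θ) := by
  rw [γ.ev_Ecyl, ← h.op_eq, ← h.oq_eq, h.io, ← h.iz, ← h.ir]; rfl

end Path.CylOk

/-! ### Holomorphy -/

variable {E : Type*} [NormedAddCommGroup E] [NormedSpace ℂ E]

namespace Lag

theorem lo_mul {X : Type*} {f g : X → ℂ} (hf : ∃ c > 0, ∀ p, c ≤ ‖f p‖)
    (hg : ∃ c > 0, ∀ p, c ≤ ‖g p‖) : ∃ c > 0, ∀ p, c ≤ ‖f p * g p‖ := by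
  obtain ⟨c, h1, h2⟩ := hf
  obtain ⟨d, h3, h4⟩ := hg
  exact ⟨c * d, mul_pos h1 h3, fun p => by
    rw [norm_mul]; exact mul_le_mul (h2 p) (h4 p) h3.le (norm_nonneg _)⟩

theorem lo_const {X : Type*} {z : ℂ} (hz : z ≠ 0) : ∃ c > 0, ∀ _ : X, c ≤ ‖z‖ :=
  ⟨‖z‖, norm_pos_iff.2 hz, fun _ => le_rfl⟩

theorem lo_pow {X : Type*} {f : X → ℂ} (hf : ∃ c > 0, ∀ p, c ≤ ‖f p‖) (n : ℕ) :
    ∃ c > 0, ∀ p, c ≤ ‖f p ^ n‖ := by
  obtain ⟨c, h1, h2⟩ := hf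
  exact ⟨c ^ n, pow_pos h1 n, fun p => by rw [norm_pow]; exact pow_le_pow_left₀ h1.le (h2 p) n⟩

theorem lo_sqrt {X : Type*} {f : X → ℂ} (hf : ∃ c > 0, ∀ p, c ≤ ‖f p‖) :
    ∃ c > 0, ∀ p, c ≤ ‖Complex.sqrt (f p)‖ := by
  obtain ⟨c, h1, h2⟩ := hf
  exact ⟨Real.sqrt c, Real.sqrt_pos.2 h1, fun p => by
    rw [norm_sqrt]; exact Real.sqrt_le_sqrt (h2 p)⟩

theorem lo_near {X : Type*} {f : X → ℂ} (hf : ∀ p, ‖f p - 1‖ ≤ 1 / 2) :
    ∃ c > 0, ∀ p, c ≤ ‖Complex.sqrt (f p)‖ :=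
  lo_sqrt ⟨1 / 2, one_half_pos, fun p => half_le_of_near (hf p)⟩

/-- a holomorphic family of regular points -/
structure HC {X : Type*} [TopologicalSpace X] (U : Set E) (a ζ y yt op : E → X → ℂ) : Prop where
  opn : IsOpen U
  ha : HolF U a
  hζ : HolF U ζ
  hy : HolF U y
  hyt : HolF U yt
  hop : HolF U op
  lz : ∀ x ∈ U, ∃ c > 0, ∀ p, c ≤ ‖ζ x p‖
  lr : ∀ x ∈ U, ∃ c > 0, ∀ p, c ≤ ‖rh (a x p) (ζ x p)‖
  slit : ∀ x ∈ U, ∀ p, ζ x p * rh (a x p) (ζ x p) ∈ slitPlane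
  D : ∀ x ∈ U, ∀ p, ‖Dc (a x p) (ζ x p) (y x p) (yt x p) (op x p) - 1‖ ≤ 1 / 2

namespace HC
variable {X : Type*} [TopologicalSpace X] {U : Set E} {a ζ y yt op : E → X → ℂ}

theorem rh (h : HC U a ζ y yt op) : HolF U fun x p => rh (a x p) (ζ x p) :=
  (HolF.const 2).add (h.ha.mul (h.hζ.sub (HolF.const 2)))

theorem u (h : HC U a ζ y yt op) : HolF U fun x p => 1 + y x p := (HolF.const 1).add h.hy

theorem l2z (h : HC U a ζ y yt op) : ∀ x ∈ U, ∃ c > 0, ∀ p, c ≤ ‖2 * ζ x p‖ := fun x hx =>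
  lo_mul (lo_const two_ne_zero) (h.lz x hx)

theorem l2r (h : HC U a ζ y yt op) : ∀ x ∈ U, ∃ c > 0, ∀ p, c ≤ ‖2 * End.rh (a x p) (ζ x p)‖ :=
  fun x hx => lo_mul (lo_const two_ne_zero) (h.lr x hx)

theorem lO (h : HC U a ζ y yt op) :
    ∀ x ∈ U, ∃ c > 0, ∀ p, c ≤ ‖ζ x p * End.rh (a x p) (ζ x p)‖ :=
  fun x hx => lo_mul (h.lz x hx) (h.lr x hx)

theorem Dc (h : HC U a ζ y yt op) :
    HolF U fun x p => Dc (a x p) (ζ x p) (y x p) (yt x p) (op x p) := by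
  have h1 := (h.hζ.mul h.rh).inv h.opn h.lO
  have h2 := h.ha.div h.opn ((HolF.const 2).mul h.rh) h.l2r
  have h3 := (h.ha.div_const 2).mul h.hζ
  exact ((h.u.pow 2).mul ((HolF.const 1).add ((HolF.const 4).mul (((h1.mul (h.hop.pow 2)).add
    ((((HolF.const 2).mul h2).mul h.hop).mul h.u)).add ((h3.mul h2).mul (h.u.pow 2)))))).add
    (h.hyt.pow 2)

theorem sO (h : HC U a ζ y yt op) :
    HolF U fun x p => Complex.sqrt (ζ x p * End.rh (a x p) (ζ x p)) :=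
  (h.hζ.mul h.rh).sqrt h.opn h.slit

theorem sD (h : HC U a ζ y yt op) :
    HolF U fun x p => Complex.sqrt (End.Dc (a x p) (ζ x p) (y x p) (yt x p) (op x p)) :=
  h.Dc.sqrt h.opn fun x hx p => slit_of_near (h.D x hx p)

theorem ex (h : HC U a ζ y yt op) : HolF U fun x p =>
    Complex.exp (-(ζ x p + End.rh (a x p) (ζ x p) * (1 + y x p) ^ 2) / 4) :=
  ((h.hζ.add (h.rh.mul (h.u.pow 2))).neg.div_const 4).exp h.opn

theorem lag (h : HC U a ζ y yt op) :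
    HolF U fun x p => lagCyl (a x p) (ζ x p) (y x p) (yt x p) (op x p) :=
  ((h.sO.div h.opn ((HolF.const 2).mul h.hζ) h.l2z).mul h.sD).mul h.ex

theorem eta (h : HC U a ζ y yt op) {da dy : E → X → ℂ} (h1 : HolF U da) (h2 : HolF U dy) :
    HolF U fun x p => dy x p + (1 + y x p) * (ζ x p - 2) * da x p / (2 * End.rh (a x p) (ζ x p)) :=
  h2.add (((h.u.mul (h.hζ.sub (HolF.const 2))).mul h1).div h.opn ((HolF.const 2).mul h.rh) h.l2r)

theorem flux (h : HC U a ζ y yt op) {da dy : E → X → ℂ} (h1 : HolF U da) (h2 : HolF U dy) :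
    HolF U fun x p => fluxCyl (a x p) (ζ x p) (y x p) (yt x p) (op x p) (da x p) (dy x p) :=
  (((((((HolF.const 2).mul h.sO).div h.opn h.hζ h.lz).mul (h.u.pow 2)).mul
    (h.hop.add (((h.ha.div_const 2).mul h.hζ).mul h.u))).div h.opn h.sD
      fun x hx => lo_near (h.D x hx)).mul h.ex).mul (h.eta h1 h2)

theorem w (h : HC U a ζ y yt op) :
    HolF U fun x p => wCyl (a x p) (ζ x p) (y x p) (yt x p) (op x p) :=
  (((h.sO.div h.opn ((HolF.const 2).mul h.hζ) h.l2z).mul h.u).div h.opn (h.sD.pow 3)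
    fun x hx => lo_pow (lo_near (h.D x hx)) 3).mul h.ex

end HC

theorem hc_of {U : Set E} (hU : IsOpen U) {γ : E → Path} {a : E → ℂ} {j : E → EJ}
    (hz : DifferentiableOn ℂ (fun x => (γ x).ze) U) (ha : DifferentiableOn ℂ a U)
    (hj : DifferentiableOn ℂ j U) (hk : ∀ x ∈ U, (γ x).CylOk (a x) (j x)) :
    HC U (fun x (_ : ℝ × ℝ) => a x) (fun x p => (γ x).ze p.1) (fun x p => ev (j x).y p.1 p.2)
      (fun x p => ev (j x).yt p.1 p.2) (fun x p => ev (j x).op p.1 p.2) where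
  opn := hU
  ha := HolF.par ha
  hζ := HolF.up hz
  hy := HolF.ev (EJ.differentiable_y.comp_differentiableOn hj)
  hyt := HolF.ev (EJ.differentiable_yt.comp_differentiableOn hj)
  hop := HolF.ev (EJ.differentiable_op.comp_differentiableOn hj)
  lz x hx := let ⟨c, h1, h2⟩ := (hk x hx).lo_ze; ⟨c, h1, fun p => h2 p.1⟩
  lr x hx := let ⟨c, h1, h2⟩ := (hk x hx).lo_rh; ⟨c, h1, fun p => h2 p.1⟩
  slit x hx p := (hk x hx).slit p.1
  D x hx p := (hk x hx).D p.1 p.2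

theorem hc_one {γ : Path} {a : ℂ} {j : EJ} (hk : γ.CylOk a j) :
    HC (univ : Set ℂ) (fun _ (_ : ℝ × ℝ) => a) (fun _ p => γ.ze p.1) (fun _ p => ev j.y p.1 p.2)
      (fun _ p => ev j.yt p.1 p.2) (fun _ p => ev j.op p.1 p.2) :=
  hc_of (γ := fun _ => γ) (j := fun _ => j) isOpen_univ (differentiableOn_const _)
    (differentiableOn_const _) (differentiableOn_const _) fun _ _ => hk

theorem csqrt {X : Type*} [TopologicalSpace X] {f : X → ℂ} (hf : Continuous f)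
    (h : ∀ p, f p ∈ slitPlane) : Continuous fun p => Complex.sqrt (f p) :=
  continuous_iff_continuousAt.2 fun p =>
    (Complex.differentiableAt_sqrt (h p)).continuousAt.comp hf.continuousAt

theorem hd0 (z g : ℂ) (τ : ℝ) : HasDerivAt (fun _ : ℝ => z) (g * 0) τ :=
  (hasDerivAt_const τ z).congr_deriv (mul_zero g).symm

theorem hd1 {f : ℝ → ℂ} {z : ℂ} {τ : ℝ} (h : HasDerivAt f z τ) : HasDerivAt f (1 * z) τ :=
  h.congr_deriv (one_mul z).symm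

end Lag

namespace Path

section cont
variable {γ : Path} {a : ℂ} {j : EJ}

theorem CylOk.cont_lag (hk : γ.CylOk a j) : Continuous fun p : ℝ × ℝ =>
    lagCyl a (γ.ze p.1) (ev j.y p.1 p.2) (ev j.yt p.1 p.2) (ev j.op p.1 p.2) :=
  (Lag.hc_one hk).lag.cont (mem_univ 0)

theorem CylOk.cont_flux (hk : γ.CylOk a j) (da : ℂ) (dy : WB) : Continuous fun p : ℝ × ℝ =>
    fluxCyl a (γ.ze p.1) (ev j.y p.1 p.2) (ev j.yt p.1 p.2) (ev j.op p.1 p.2) da (ev dy p.1 p.2) :=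
  ((Lag.hc_one hk).flux (HolF.const da) (HolF.ev (differentiableOn_const dy))).cont (mem_univ 0)

theorem CylOk.cont_w (hk : γ.CylOk a j) : Continuous fun p : ℝ × ℝ =>
    wCyl a (γ.ze p.1) (ev j.y p.1 p.2) (ev j.yt p.1 p.2) (ev j.op p.1 p.2) :=
  (Lag.hc_one hk).w.cont (mem_univ 0)

theorem CylOk.cont_Flux (hk : γ.CylOk a j) (da : ℂ) (dy : WB) :
    Continuous fun t => γ.FluxCyl a j t da dy := Lag.cont_int (hk.cont_flux da dy)

end cont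

section hol
variable {U : Set E} {γ : E → Path} {a : E → ℂ} {j : E → EJ}

/-- holomorphy of the area; the path may move -/
theorem differentiableOn_FCI (hU : IsOpen U) (hz : DifferentiableOn ℂ (fun x => (γ x).ze) U)
    (hg : DifferentiableOn ℂ (fun x => (γ x).g) U) (ha : DifferentiableOn ℂ a U)
    (hj : DifferentiableOn ℂ j U) (hk : ∀ x ∈ U, (γ x).CylOk (a x) (j x)) (t₀ t₁ : ℝ) :
    DifferentiableOn ℂ (fun x => (γ x).FCI (a x) (j x) t₀ t₁) U :=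
  (Lag.hc_of hU hz ha hj hk).lag.diff_int2 hg t₀ t₁

/-- holomorphy of the area with an arbitrary weight -/
theorem differentiableOn_lagCyl (hU : IsOpen U) (hz : DifferentiableOn ℂ (fun x => (γ x).ze) U)
    {G : E → BC} (hG : DifferentiableOn ℂ G U) (ha : DifferentiableOn ℂ a U)
    (hj : DifferentiableOn ℂ j U) (hk : ∀ x ∈ U, (γ x).CylOk (a x) (j x)) (t₀ t₁ : ℝ) :
    DifferentiableOn ℂ (fun x => ∫ t in t₀..t₁, G x t * ∫ θ in (0 : ℝ)..2 * Real.pi,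
      lagCyl (a x) ((γ x).ze t) (ev (j x).y t θ) (ev (j x).yt t θ) (ev (j x).op t θ)) U :=
  (Lag.hc_of hU hz ha hj hk).lag.diff_int2 hG t₀ t₁

/-- holomorphy of the flux -/
theorem differentiableOn_FluxCyl (hU : IsOpen U) (hz : DifferentiableOn ℂ (fun x => (γ x).ze) U)
    (ha : DifferentiableOn ℂ a U) (hj : DifferentiableOn ℂ j U)
    (hk : ∀ x ∈ U, (γ x).CylOk (a x) (j x)) {da : E → ℂ} {dy : E → WB}
    (h1 : DifferentiableOn ℂ da U) (h2 : DifferentiableOn ℂ dy U) (t : ℝ) :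
    DifferentiableOn ℂ (fun x => (γ x).FluxCyl (a x) (j x) t (da x) (dy x)) U :=
  ((Lag.hc_of hU hz ha hj hk).flux (HolF.par h1) (HolF.ev h2)).diff_int t

theorem differentiableOn_jP_cyl (hU : IsOpen U) (hz : DifferentiableOn ℂ (fun x => (γ x).ze) U)
    (ha : DifferentiableOn ℂ a U) (hj : DifferentiableOn ℂ j U)
    (hk : ∀ x ∈ U, (γ x).CylOk (a x) (j x)) :
    DifferentiableOn ℂ (fun x => ((γ x).cyl (a x)).jP (j x)) U :=
  (differentiable_C.comp_differentiableOn ((differentiableOn_binv hU hz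
    fun x hx => (hk x hx).lo_ze).mul (differentiableOn_binv hU (z := fun x => (γ x).rho (a x))
      ((ha.smul (hz.sub_const 2)).const_add 2) fun x hx => (hk x hx).lo_rh))).mul
    (EJ.differentiable_op.comp_differentiableOn hj)

end hol

open Lag in
/-- the first variation on a cylindrical end -/
theorem var_cyl {U : Set E} (hU : IsOpen U) {γ : Path} (ho : γ.Ok) {a : E → ℂ} {j : E → EJ}
    (ha : DifferentiableOn ℂ a U) (hj : DifferentiableOn ℂ j U)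
    (hJ : ∀ x ∈ U, (γ.cyl (a x)).IsJet (j x)) (hk : ∀ x ∈ U, γ.CylOk (a x) (j x)) {x : E}
    (hx : x ∈ U) (v : E) :
    ∃ L, Var (fun x t => ∫ θ in (0 : ℝ)..2 * Real.pi,
        lagCyl (a x) (γ.ze t) (ev (j x).y t θ) (ev (j x).yt t θ) (ev (j x).op t θ)) x v γ.g L
      (fun t => γ.FluxCyl (a x) (j x) t (fderiv ℂ a x v) (fderiv ℂ j x v).y)
      (fun t => γ.ResCyl (a x) (j x) t (fderiv ℂ a x v) (fderiv ℂ j x v).y) := by
  have hn := hU.mem_nhds hx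
  have hjx := (hj x hx).differentiableAt hn
  have hP := (differentiableOn_jP_cyl (γ := fun _ => γ) hU (differentiableOn_const _) ha hj hk
    x hx).differentiableAt hn
  have hy : HasFDerivAt (fun x => (j x).y) (EJ.yL.comp (fderiv ℂ j x)) x :=
    EJ.yL.hasFDerivAt.comp x hjx.hasFDerivAt
  have hdy := der_var hU hx (g := γ.g) hy.differentiableAt hP
    (fun x hx => (hJ x hx).hasDerivAt_y_t) v
  rw [hy.fderiv] at hdy
  have k := hk x hx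
  have J := hJ x hx
  set da := fderiv ℂ a x v
  set dj := fderiv ℂ j x v
  set dP := fderiv ℂ (fun x => (γ.cyl (a x)).jP (j x)) x v
  let y : ℝ × ℝ → ℂ := fun p => ev (j x).y p.1 p.2
  let q : ℝ × ℝ → ℂ := fun p => ev (j x).yt p.1 p.2
  let P : ℝ × ℝ → ℂ := fun p => ev ((γ.cyl (a x)).jP (j x)) p.1 p.2
  let c : ℝ × ℝ → ℂ := fun p => cF (a x) (γ.ze p.1) (y p)
  let D : ℝ × ℝ → ℂ := fun p => cD (a x) (γ.ze p.1) (y p) (q p) (P p)
  let η : ℝ × ℝ → ℂ := fun p => cH (a x) (γ.ze p.1) (y p) da (ev dj.y p.1 p.2)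
  have hD : ∀ p, D p ∈ slitPlane := fun p => slit_of_near (k.cD p.1 p.2)
  have hζ : ∀ t, HasDerivAt γ.ze (γ.g t * 1) t := fun t => (ho.der t).congr_deriv (mul_one _).symm
  have eA : ∀ t θ, fluxCyl (a x) (γ.ze t) (ev (j x).y t θ) (ev (j x).yt t θ) (ev (j x).op t θ) da
      (ev dj.y t θ) = c (t, θ) * cN (a x) (γ.ze t) (y (t, θ)) (P (t, θ)) /
        Complex.sqrt (D (t, θ)) * η (t, θ) := fun t θ => by
    rw [k.op_eq, fluxCyl_eq _ _ _ _ _ (k.ze_ne t) (k.rh_ne t)]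
  refine var_abs hU (hc_of (γ := fun _ => γ) hU (differentiableOn_const _) ha hj hk).lag hx v γ.g
    (A := fun p => fluxCyl (a x) (γ.ze p.1) (ev (j x).y p.1 p.2) (ev (j x).yt p.1 p.2)
      (ev (j x).op p.1 p.2) da (ev dj.y p.1 p.2))
    (B := fun p => c p * q p / Complex.sqrt (D p) * η p)
    (Φ := fun p => c p / Complex.sqrt (D p) ^ 3 * brF (D p) (cN (a x) (γ.ze p.1) (y p) (P p)) (η p)
      (dK (a x) (γ.ze p.1) (y p) 0 1 (P p))
      (dD (a x) (γ.ze p.1) (y p) (q p) (P p) 0 1 (P p) (ev (j x).pt p.1 p.2)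
        (ev ((γ.cyl (a x)).jQ (j x)) p.1 p.2))
      (dN (a x) (γ.ze p.1) (y p) (P p) 0 1 (P p) (ev ((γ.cyl (a x)).jQ (j x)) p.1 p.2))
      (dH (a x) (γ.ze p.1) (y p) 1 (P p) da (ev dP p.1 p.2)))
    (Ψ := fun p => 1 * (c p / Complex.sqrt (D p) ^ 3 * brF (D p) (q p) (η p)
      (dK (a x) (γ.ze p.1) (y p) 0 0 (q p))
      (dD (a x) (γ.ze p.1) (y p) (q p) (P p) 0 0 (q p) (ev (j x).ytt p.1 p.2) (ev (j x).pt p.1 p.2))
      (ev (j x).ytt p.1 p.2) (dH (a x) (γ.ze p.1) (y p) 0 (q p) da (ev dj.yt p.1 p.2))))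
    (R := fun p => wCyl (a x) (γ.ze p.1) (ev (j x).y p.1 p.2) (ev (j x).yt p.1 p.2)
      (ev (j x).op p.1 p.2) * ev (γ.Ecyl (a x) (j x)) p.1 p.2 * (ev dj.y p.1 p.2 +
        (1 + ev (j x).y p.1 p.2) * (γ.ze p.1 - 2) * da / (2 * rh (a x) (γ.ze p.1))))
    (fun t θ => ?_) (fun t θ => ?_) (fun t => ?_) (fun p => ?_) (k.cont_flux da dj.y) ?_ ?_
  · simp only [eA]
    exact hd_flux (hd_cF (hd0 _ _ _) (hζ t) (J.hasDerivAt_y_t t θ) (k.slit t))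
      (hd_cD (hd0 _ _ _) (hζ t) (J.hasDerivAt_y_t t θ) (J.hasDerivAt_yt_t t θ)
        (J.hasDerivAt_P_t t θ) (k.rh_ne t))
      (hd_cN (hd0 _ _ _) (hζ t) (J.hasDerivAt_y_t t θ) (J.hasDerivAt_P_t t θ) (k.rh_ne t))
      (hd_cH (hζ t) (J.hasDerivAt_y_t t θ) (hdy t θ) (k.rh_ne t)) (hD (t, θ))
  · have h1 := hd1 ((j x).hasDerivAt_y_theta t θ)
    have h2 := hd1 ((j x).hasDerivAt_yt_theta t θ)
    have h3 := hd0 (γ.ze t) 1 θ
    exact hd_flux (hd_cF (hd0 _ _ _) h3 h1 (k.slit t))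
      (hd_cD (hd0 _ _ _) h3 h1 h2 (hd1 (J.hasDerivAt_P_theta t θ)) (k.rh_ne t)) h2
      (hd_cH h3 h1 (hd1 (dj.hasDerivAt_y_theta t θ)) (k.rh_ne t)) (hD (t, θ))
  · have e : ∀ f : WB, ev f t (2 * Real.pi) = ev f t 0 := fun f => by
      rw [← ev_add_two_pi f t 0, zero_add]
    simp only [c, D, η, y, q, P, e]
  · have h0 : x + ((0 : ℝ) : ℂ) • v = x := by simp
    have h1 := hd1 (hd_line ((ha x hx).differentiableAt hn) (ContinuousLinearMap.id ℂ ℂ) v)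
    have h2 := hd1 (hd_line hjx ((evL p.1 p.2).comp EJ.yL) v)
    have h3 := hd1 (hd_line hjx ((evL p.1 p.2).comp EJ.ytL) v)
    have h4 := hd1 (hd_line hP (evL p.1 p.2) v)
    have h5 := hd_lag (hd_cF h1 (hd0 (γ.ze p.1) _ _) h2 (by rw [h0]; exact k.slit p.1))
      (hd_cD h1 (hd0 (γ.ze p.1) _ _) h2 h3 h4 (by rw [h0]; exact k.rh_ne p.1))
      (by rw [h0]; exact hD p)
    refine (h5.congr_of_eventuallyEq ?_).congr_deriv ?_
    · filter_upwards [ev_line hU hx v] with τ hτ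
      have k' := hk _ hτ
      rw [k'.op_eq, lagCyl_eq _ _ _ (k'.ze_ne _) (k'.rh_ne _)]
      rfl
    · simp only [h0, one_mul, ContinuousLinearMap.id_apply, ContinuousLinearMap.comp_apply,
        evL_apply, EJ.yL_apply, EJ.ytL_apply]
      rw [cyl_id _ _ _ _ _ (k.ze_ne p.1) (k.rh_ne p.1) (ev (j x).ytt p.1 p.2)
        (ev ((γ.cyl (a x)).jQ (j x)) p.1 p.2) (ev (j x).pt p.1 p.2), k.ev_E, k.op_eq,
        wCyl_eq _ _ _ (k.ze_ne _) (k.rh_ne _)]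
      simp only [c, D, η, y, q, P, cH]
      ring
  · have h1 : ∀ p : ℝ × ℝ, γ.ze p.1 ≠ 0 := fun p => k.ze_ne p.1
    have h2 : ∀ p : ℝ × ℝ, rh (a x) (γ.ze p.1) ≠ 0 := fun p => k.rh_ne p.1
    have c1 : Continuous fun p : ℝ × ℝ => rh (a x) (γ.ze p.1) := by unfold rh; fun_prop
    have c2 : Continuous D := by
      simp only [D, y, q, P, cD, cB]
      fun_prop (disch := intro p; simp [h2])
    have c3 := csqrt c2 hD
    have c4 := csqrt (f := fun p : ℝ × ℝ => γ.ze p.1 * rh (a x) (γ.ze p.1)) (by fun_prop)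
      fun p => k.slit p.1
    have c5 : Continuous c := by
      simp only [c, y, cF]
      fun_prop (disch := intro p; simp [h1])
    have h3 : ∀ p, Complex.sqrt (D p) ≠ 0 := fun p => sqrt_ne (slitPlane_ne_zero (hD p))
    refine continuous_const.mul ((c5.div (c3.pow 3) fun p => pow_ne_zero 3 (h3 p)).mul ?_)
    simp only [brF, η, y, q, P, cH, dK, dD, dH, dB, dR, cB]
    fun_prop (disch := intro p; simp [h1, h2])
  · exact (k.cont_w.mul (continuous_ev _)).mul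
      (((hc_one k).eta (HolF.const da) (HolF.ev (differentiableOn_const dj.y))).cont (mem_univ 0))

variable {U : Set E} {γ : Path} {a : E → ℂ} {j : E → EJ} {x : E}

/-- the first variation of the Gaussian area of a part of a cylindrical end -/
theorem fderiv_FCI (hU : IsOpen U) (ho : γ.Ok) (ha : DifferentiableOn ℂ a U)
    (hj : DifferentiableOn ℂ j U) (hJ : ∀ x ∈ U, (γ.cyl (a x)).IsJet (j x))
    (hk : ∀ x ∈ U, γ.CylOk (a x) (j x)) (hx : x ∈ U) (v : E) (t₀ t₁ : ℝ) :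
    fderiv ℂ (fun x => γ.FCI (a x) (j x) t₀ t₁) x v =
      γ.FluxCyl (a x) (j x) t₁ (fderiv ℂ a x v) (fderiv ℂ j x v).y -
      γ.FluxCyl (a x) (j x) t₀ (fderiv ℂ a x v) (fderiv ℂ j x v).y -
      ∫ t in t₀..t₁, γ.g t * γ.ResCyl (a x) (j x) t (fderiv ℂ a x v) (fderiv ℂ j x v).y :=
  let ⟨_, h⟩ := var_cyl hU ho ha hj hJ hk hx v; h.main t₀ t₁

/-- the first variation at a solution -/
theorem fderiv_FCI_sol (hU : IsOpen U) (ho : γ.Ok) (ha : DifferentiableOn ℂ a U)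
    (hj : DifferentiableOn ℂ j U) (hJ : ∀ x ∈ U, (γ.cyl (a x)).IsJet (j x))
    (hk : ∀ x ∈ U, γ.CylOk (a x) (j x)) (hx : x ∈ U) (hs : γ.IsCyl (a x) (j x)) (v : E)
    (t₀ t₁ : ℝ) : fderiv ℂ (fun x => γ.FCI (a x) (j x) t₀ t₁) x v =
      γ.FluxCyl (a x) (j x) t₁ (fderiv ℂ a x v) (fderiv ℂ j x v).y -
      γ.FluxCyl (a x) (j x) t₀ (fderiv ℂ a x v) (fderiv ℂ j x v).y := by
  rw [fderiv_FCI hU ho ha hj hJ hk hx]
  simp [hs.resCyl]

/-- the first variation with a weight `χ` -/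
theorem fderiv_FCI_weight (hU : IsOpen U) (ho : γ.Ok) (ha : DifferentiableOn ℂ a U)
    (hj : DifferentiableOn ℂ j U) (hJ : ∀ x ∈ U, (γ.cyl (a x)).IsJet (j x))
    (hk : ∀ x ∈ U, γ.CylOk (a x) (j x)) (hx : x ∈ U) (v : E) (χ : BC) {χ' : ℝ → ℂ}
    (hχ : ∀ t, HasDerivAt χ (χ' t) t) (cχ : Continuous χ') (t₀ t₁ : ℝ) :
    fderiv ℂ (fun x => ∫ t in t₀..t₁, χ t * γ.g t * ∫ θ in (0 : ℝ)..2 * Real.pi,
      lagCyl (a x) (γ.ze t) (ev (j x).y t θ) (ev (j x).yt t θ) (ev (j x).op t θ)) x v =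
      χ t₁ * γ.FluxCyl (a x) (j x) t₁ (fderiv ℂ a x v) (fderiv ℂ j x v).y -
      χ t₀ * γ.FluxCyl (a x) (j x) t₀ (fderiv ℂ a x v) (fderiv ℂ j x v).y -
      (∫ t in t₀..t₁, χ' t * γ.FluxCyl (a x) (j x) t (fderiv ℂ a x v) (fderiv ℂ j x v).y) -
      ∫ t in t₀..t₁, χ t * γ.g t * γ.ResCyl (a x) (j x) t (fderiv ℂ a x v) (fderiv ℂ j x v).y :=
  let ⟨_, h⟩ := var_cyl hU ho ha hj hJ hk hx v; h.weight χ hχ cχ t₀ t₁

end Path

end Vale.Agent.P218N.End
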