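import Vale.Agent.P218N.End.LagC

/-! First variation of the Gaussian area on a conical end. -/

open Filter Topology Metric Set Complex
open scoped BoundedContinuousFunction

noncomputable section

namespace Vale.Agent.P218N.End

/-- the Lagrangian of a conical end is regular along the jet -/
structure Path.ConeOk (γ : Path) (cc : ℝ) (ka : WD) (j : EJ) : Prop where
  lo : ∃ c > 0, ∀ t, c ≤ ‖γ.ze t‖
  D : ∀ t θ, ‖coneD (W.sumL θ ka) (ev j.y t θ) (ev j.y t θ + 2 * (γ.ze t)⁻¹ * ev j.op t θ)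
    (cc * ev j.yt t θ) - 1‖ ≤ 1 / 2

/-- the residual term of the first variation -/
def Path.ResCone (γ : Path) (cc : ℝ) (ka kd : WD) (j : EJ) (t : ℝ) (dy : WB) : ℂ :=
  ∫ θ in (0 : ℝ)..2 * Real.pi, wCone cc (W.sumL θ ka) (γ.ze t) (ev j.y t θ) (ev j.yt t θ)
    (ev j.op t θ) * ev (γ.Econe cc ka kd j) t θ * ev dy t θ

theorem Path.IsCone.resCone {γ : Path} {cc : ℝ} {ka kd : WD} {j : EJ} (h : γ.IsCone cc ka kd j)
    (t : ℝ) (dy : WB) : γ.ResCone cc ka kd j t dy = 0 := by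
  simp [Path.ResCone, h.2]

namespace Path.ConeOk
variable {γ : Path} {cc : ℝ} {ka : WD} {j : EJ}

theorem ze_ne (h : γ.ConeOk cc ka j) (t : ℝ) : γ.ze t ≠ 0 :=
  let ⟨_, h1, h2⟩ := h.lo; norm_pos_iff.1 (h1.trans_le (h2 t))

theorem iz (h : γ.ConeOk cc ka j) (t : ℝ) : binv γ.ze t = (γ.ze t)⁻¹ :=
  let ⟨_, h1, h2⟩ := h.lo; binv_apply h1 h2 t

theorem io (h : γ.ConeOk cc ka j) (t : ℝ) : γ.cone.io t = (γ.ze t)⁻¹ * (γ.ze t)⁻¹ := by
  rw [← h.iz]; rfl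

theorem op_eq (h : γ.ConeOk cc ka j) (t θ : ℝ) :
    ev j.op t θ = γ.ze t * γ.ze t * ev (γ.cone.jP j) t θ := by
  have := h.ze_ne t
  rw [Ctr.ev_jP, h.io]; field_simp

theorem oq_eq (h : γ.ConeOk cc ka j) (t θ : ℝ) :
    ev j.oq t θ = γ.ze t * γ.ze t * ev (γ.cone.jQ j) t θ := by
  have := h.ze_ne t
  rw [Ctr.ev_jQ, h.io]; field_simp

theorem kD (h : γ.ConeOk cc ka j) (t θ : ℝ) : ‖Lag.kD cc (W.sumL θ ka) (γ.ze t) (ev j.y t θ)
    (ev j.yt t θ) (ev (γ.cone.jP j) t θ) - 1‖ ≤ 1 / 2 := by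
  rw [Lag.kD, ← Lag.al_eq _ _ (h.ze_ne t), ← h.op_eq]; exact h.D t θ

theorem ev_E (h : γ.ConeOk cc ka j) (kd : WD) (t θ : ℝ) : ev (γ.Econe cc ka kd j) t θ =
    coneE (cc : ℂ) (W.sumL θ ka) (W.sumL θ kd) (γ.ze t)⁻¹ (ev j.y t θ) (ev j.yt t θ)
      (ev j.ytt t θ) (γ.ze t * γ.ze t * ev (γ.cone.jP j) t θ)
      (γ.ze t * γ.ze t * ev (γ.cone.jQ j) t θ) (γ.ze t * ev j.pt t θ) := by
  rw [γ.ev_Econe, ← h.op_eq, ← h.oq_eq, h.iz]

end Path.ConeOk

variable {E : Type*} [NormedAddCommGroup E] [NormedSpace ℂ E]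

namespace Lag

/-- a holomorphic family of regular points -/
structure HK {X : Type*} [TopologicalSpace X] (U : Set E) (cc : ℝ) (ka ζ w wt op : E → X → ℂ) :
    Prop where
  opn : IsOpen U
  hk : HolF U ka
  hζ : HolF U ζ
  hw : HolF U w
  hwt : HolF U wt
  hop : HolF U op
  lz : ∀ x ∈ U, ∃ c > 0, ∀ p, c ≤ ‖ζ x p‖
  D : ∀ x ∈ U, ∀ p, ‖coneD (ka x p) (w x p) (w x p + 2 * (ζ x p)⁻¹ * op x p) (cc * wt x p) - 1‖ ≤
    1 / 2

namespace HK
variable {X : Type*} [TopologicalSpace X] {U : Set E} {cc : ℝ} {ka ζ w wt op : E → X → ℂ}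

theorem al (h : HK U cc ka ζ w wt op) : HolF U fun x p => w x p + 2 * (ζ x p)⁻¹ * op x p :=
  h.hw.add (((HolF.const 2).mul (h.hζ.inv h.opn h.lz)).mul h.hop)

theorem ph (h : HK U cc ka ζ w wt op) : HolF U fun x p => 1 - ka x p * w x p :=
  (HolF.const 1).sub (h.hk.mul h.hw)

theorem sD (h : HK U cc ka ζ w wt op) : HolF U fun x p => Complex.sqrt
    (coneD (ka x p) (w x p) (w x p + 2 * (ζ x p)⁻¹ * op x p) (cc * wt x p)) :=
  HolF.sqrt h.opn (((h.ph.pow 2).mul ((HolF.const 1).add (h.al.pow 2))).add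
    (((HolF.const cc).mul h.hwt).pow 2)) fun x hx p => slit_of_near (h.D x hx p)

theorem ex (h : HK U cc ka ζ w wt op) :
    HolF U fun x p => Complex.exp (-(ζ x p * (1 + w x p ^ 2)) / 4) :=
  ((h.hζ.mul ((HolF.const 1).add (h.hw.pow 2))).neg.div_const 4).exp h.opn

theorem lag (h : HK U cc ka ζ w wt op) :
    HolF U fun x p => lagCone cc (ka x p) (ζ x p) (w x p) (wt x p) (op x p) :=
  ((HolF.const _).mul h.sD).mul h.ex

theorem flux (h : HK U cc ka ζ w wt op) {dw : E → X → ℂ} (h2 : HolF U dw) :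
    HolF U fun x p => fluxCone cc (ka x p) (ζ x p) (w x p) (wt x p) (op x p) (dw x p) :=
  ((((((h.hζ.div_const _).mul (h.ph.pow 2)).mul h.al).div h.opn h.sD
    fun x hx => lo_near (h.D x hx))).mul h.ex).mul h2

theorem wt' (h : HK U cc ka ζ w wt op) :
    HolF U fun x p => wCone cc (ka x p) (ζ x p) (w x p) (wt x p) (op x p) :=
  ((((h.ph.div h.opn (h.sD.pow 3) fun x hx => lo_pow (lo_near (h.D x hx)) 3).div_const
    (2 * cc))).mul h.ex).congr fun _ _ _ => by rw [wCone, div_div, mul_comm (_ ^ 3)]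

end HK

theorem hk_of {U : Set E} (hU : IsOpen U) {γ : E → Path} {cc : ℝ} {ka : E → WD} {j : E → EJ}
    (hz : DifferentiableOn ℂ (fun x => (γ x).ze) U) (ha : DifferentiableOn ℂ ka U)
    (hj : DifferentiableOn ℂ j U) (hk : ∀ x ∈ U, (γ x).ConeOk cc (ka x) (j x)) :
    HK U cc (fun x (p : ℝ × ℝ) => W.sumL p.2 (ka x)) (fun x p => (γ x).ze p.1)
      (fun x p => ev (j x).y p.1 p.2) (fun x p => ev (j x).yt p.1 p.2)
      (fun x p => ev (j x).op p.1 p.2) where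
  opn := hU
  hk := HolF.ang ha
  hζ := HolF.up hz
  hw := HolF.ev (EJ.differentiable_y.comp_differentiableOn hj)
  hwt := HolF.ev (EJ.differentiable_yt.comp_differentiableOn hj)
  hop := HolF.ev (EJ.differentiable_op.comp_differentiableOn hj)
  lz x hx := let ⟨c, h1, h2⟩ := (hk x hx).lo; ⟨c, h1, fun p => h2 p.1⟩
  D x hx p := (hk x hx).D p.1 p.2

theorem hk_one {γ : Path} {cc : ℝ} {ka : WD} {j : EJ} (hk : γ.ConeOk cc ka j) :
    HK (univ : Set ℂ) cc (fun _ (p : ℝ × ℝ) => W.sumL p.2 ka) (fun _ p => γ.ze p.1)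
      (fun _ p => ev j.y p.1 p.2) (fun _ p => ev j.yt p.1 p.2) (fun _ p => ev j.op p.1 p.2) :=
  hk_of (γ := fun _ => γ) (j := fun _ => j) (ka := fun _ => ka) isOpen_univ
    (differentiableOn_const _) (differentiableOn_const _) (differentiableOn_const _) fun _ _ => hk

theorem hd_ka {cc : ℝ} (hc : (cc : ℂ) ≠ 0) {ka kd : WD}
    (h : ∀ m : ℤ, kd.c m = (cc * (m * I)) * ka.c m) (θ : ℝ) :
    HasDerivAt (fun θ : ℝ => W.sumL θ ka) (W.sumL θ kd / cc) θ := by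
  refine (hasDerivAt_sumL (d' := (cc : ℂ)⁻¹ • kd) (fun m => ?_) θ).congr_deriv ?_
  · rw [W.c_smul, h, smul_eq_mul, smul_eq_mul]; field_simp
  · rw [map_smul, smul_eq_mul, div_eq_inv_mul]

end Lag

namespace Path

section cont
variable {γ : Path} {cc : ℝ} {ka : WD} {j : EJ}

theorem ConeOk.cont_lag (hk : γ.ConeOk cc ka j) : Continuous fun p : ℝ × ℝ =>
    lagCone cc (W.sumL p.2 ka) (γ.ze p.1) (ev j.y p.1 p.2) (ev j.yt p.1 p.2) (ev j.op p.1 p.2) :=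
  (Lag.hk_one hk).lag.cont (mem_univ 0)

theorem ConeOk.cont_flux (hk : γ.ConeOk cc ka j) (dy : WB) : Continuous fun p : ℝ × ℝ =>
    fluxCone cc (W.sumL p.2 ka) (γ.ze p.1) (ev j.y p.1 p.2) (ev j.yt p.1 p.2) (ev j.op p.1 p.2)
      (ev dy p.1 p.2) :=
  ((Lag.hk_one hk).flux (HolF.ev (differentiableOn_const dy))).cont (mem_univ 0)

theorem ConeOk.cont_w (hk : γ.ConeOk cc ka j) : Continuous fun p : ℝ × ℝ =>
    wCone cc (W.sumL p.2 ka) (γ.ze p.1) (ev j.y p.1 p.2) (ev j.yt p.1 p.2) (ev j.op p.1 p.2) :=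
  (Lag.hk_one hk).wt'.cont (mem_univ 0)

theorem ConeOk.cont_Flux (hk : γ.ConeOk cc ka j) (dy : WB) :
    Continuous fun t => γ.FluxCone cc ka j t dy := Lag.cont_int (hk.cont_flux dy)

end cont

section hol
variable {U : Set E} {γ : E → Path} {cc : ℝ} {ka : WD} {j : E → EJ}

/-- holomorphy of the area; the path may move -/
theorem differentiableOn_FKI (hU : IsOpen U) (hz : DifferentiableOn ℂ (fun x => (γ x).ze) U)
    (hg : DifferentiableOn ℂ (fun x => (γ x).g) U) (hj : DifferentiableOn ℂ j U)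
    (hk : ∀ x ∈ U, (γ x).ConeOk cc ka (j x)) (t₀ t₁ : ℝ) :
    DifferentiableOn ℂ (fun x => (γ x).FKI cc ka (j x) t₀ t₁) U :=
  (Lag.hk_of hU hz (differentiableOn_const ka) hj hk).lag.diff_int2 hg t₀ t₁

/-- holomorphy of the area with an arbitrary weight -/
theorem differentiableOn_lagCone (hU : IsOpen U) (hz : DifferentiableOn ℂ (fun x => (γ x).ze) U)
    {G : E → BC} (hG : DifferentiableOn ℂ G U) (hj : DifferentiableOn ℂ j U)
    (hk : ∀ x ∈ U, (γ x).ConeOk cc ka (j x)) (t₀ t₁ : ℝ) :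
    DifferentiableOn ℂ (fun x => ∫ t in t₀..t₁, G x t * ∫ θ in (0 : ℝ)..2 * Real.pi,
      lagCone cc (W.sumL θ ka) ((γ x).ze t) (ev (j x).y t θ) (ev (j x).yt t θ)
        (ev (j x).op t θ)) U :=
  (Lag.hk_of hU hz (differentiableOn_const ka) hj hk).lag.diff_int2 hG t₀ t₁

/-- holomorphy of the flux -/
theorem differentiableOn_FluxCone (hU : IsOpen U) (hz : DifferentiableOn ℂ (fun x => (γ x).ze) U)
    (hj : DifferentiableOn ℂ j U) (hk : ∀ x ∈ U, (γ x).ConeOk cc ka (j x)) {dy : E → WB}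
    (h2 : DifferentiableOn ℂ dy U) (t : ℝ) :
    DifferentiableOn ℂ (fun x => (γ x).FluxCone cc ka (j x) t (dy x)) U :=
  ((Lag.hk_of hU hz (differentiableOn_const ka) hj hk).flux (HolF.ev h2)).diff_int t

theorem differentiableOn_jP_cone (hU : IsOpen U) (hz : DifferentiableOn ℂ (fun x => (γ x).ze) U)
    (hj : DifferentiableOn ℂ j U) (hk : ∀ x ∈ U, (γ x).ConeOk cc ka (j x)) :
    DifferentiableOn ℂ (fun x => (γ x).cone.jP (j x)) U :=
  have h := differentiableOn_binv hU hz fun x hx => (hk x hx).lo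
  (differentiable_C.comp_differentiableOn (h.mul h)).mul
    (EJ.differentiable_op.comp_differentiableOn hj)

end hol

open Lag in
/-- the first variation on a conical end -/
theorem var_cone {U : Set E} (hU : IsOpen U) {γ : Path} (ho : γ.Ok) {cc : ℝ} (hc : cc ≠ 0)
    {ka kd : WD} (hkd : ∀ m : ℤ, kd.c m = (cc * (m * I)) * ka.c m) {j : E → EJ}
    (hj : DifferentiableOn ℂ j U) (hJ : ∀ x ∈ U, γ.cone.IsJet (j x))
    (hk : ∀ x ∈ U, γ.ConeOk cc ka (j x)) {x : E} (hx : x ∈ U) (v : E) :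
    ∃ L, Var (fun x t => ∫ θ in (0 : ℝ)..2 * Real.pi, lagCone cc (W.sumL θ ka) (γ.ze t)
        (ev (j x).y t θ) (ev (j x).yt t θ) (ev (j x).op t θ)) x v γ.g L
      (fun t => γ.FluxCone cc ka (j x) t (fderiv ℂ j x v).y)
      (fun t => γ.ResCone cc ka kd (j x) t (fderiv ℂ j x v).y) := by
  have hc' : (cc : ℂ) ≠ 0 := Complex.ofReal_ne_zero.2 hc
  have hn := hU.mem_nhds hx
  have hjx := (hj x hx).differentiableAt hn
  have hP := (differentiableOn_jP_cone (γ := fun _ => γ) hU (differentiableOn_const _) hj hk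
    x hx).differentiableAt hn
  have hy : HasFDerivAt (fun x => (j x).y) (EJ.yL.comp (fderiv ℂ j x)) x :=
    EJ.yL.hasFDerivAt.comp x hjx.hasFDerivAt
  have hdy := der_var hU hx (g := γ.g) hy.differentiableAt hP
    (fun x hx => (hJ x hx).hasDerivAt_y_t) v
  rw [hy.fderiv] at hdy
  have k := hk x hx
  have J := hJ x hx
  set dj := fderiv ℂ j x v
  set dP := fderiv ℂ (fun x => γ.cone.jP (j x)) x v
  let κ : ℝ × ℝ → ℂ := fun p => W.sumL p.2 ka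
  let y : ℝ × ℝ → ℂ := fun p => ev (j x).y p.1 p.2
  let q : ℝ × ℝ → ℂ := fun p => ev (j x).yt p.1 p.2
  let P : ℝ × ℝ → ℂ := fun p => ev (γ.cone.jP (j x)) p.1 p.2
  let c : ℝ × ℝ → ℂ := fun p => kF cc (γ.ze p.1) (y p)
  let D : ℝ × ℝ → ℂ := fun p => kD cc (κ p) (γ.ze p.1) (y p) (q p) (P p)
  let η : ℝ × ℝ → ℂ := fun p => ev dj.y p.1 p.2
  have hD : ∀ p, D p ∈ slitPlane := fun p => slit_of_near (k.kD p.1 p.2)
  have hζ : ∀ t, HasDerivAt γ.ze (γ.g t * 1) t := fun t => (ho.der t).congr_deriv (mul_one _).symm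
  have eA : ∀ t θ, fluxCone cc (W.sumL θ ka) (γ.ze t) (ev (j x).y t θ) (ev (j x).yt t θ)
      (ev (j x).op t θ) (ev dj.y t θ) = c (t, θ) * kN (κ (t, θ)) (γ.ze t) (y (t, θ)) (P (t, θ)) /
        Complex.sqrt (D (t, θ)) * η (t, θ) := fun t θ => by
    rw [k.op_eq, fluxCone_eq _ _ _ _ (k.ze_ne t)]
  refine var_abs hU (hk_of (γ := fun _ => γ) hU (differentiableOn_const _)
    (differentiableOn_const ka) hj hk).lag hx v γ.g
    (A := fun p => fluxCone cc (W.sumL p.2 ka) (γ.ze p.1) (ev (j x).y p.1 p.2) (ev (j x).yt p.1 p.2)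
      (ev (j x).op p.1 p.2) (ev dj.y p.1 p.2))
    (B := fun p => c p * (cc ^ 2 * q p) / Complex.sqrt (D p) * η p)
    (Φ := fun p => c p / Complex.sqrt (D p) ^ 3 * brF (D p) (kN (κ p) (γ.ze p.1) (y p) (P p)) (η p)
      (eK (γ.ze p.1) (y p) 1 (P p))
      (eD cc (κ p) (γ.ze p.1) (y p) (q p) (P p) 0 1 (P p) (ev (j x).pt p.1 p.2)
        (ev (γ.cone.jQ (j x)) p.1 p.2))
      (eN (κ p) (γ.ze p.1) (y p) (P p) 0 1 (P p) (ev (γ.cone.jQ (j x)) p.1 p.2)) (ev dP p.1 p.2))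
    (Ψ := fun p => 1 * (c p / Complex.sqrt (D p) ^ 3 * brF (D p) (cc ^ 2 * q p) (η p)
      (eK (γ.ze p.1) (y p) 0 (q p))
      (eD cc (κ p) (γ.ze p.1) (y p) (q p) (P p) (W.sumL p.2 kd / cc) 0 (q p) (ev (j x).ytt p.1 p.2)
        (ev (j x).pt p.1 p.2)) (cc ^ 2 * ev (j x).ytt p.1 p.2) (ev dj.yt p.1 p.2)))
    (R := fun p => wCone cc (W.sumL p.2 ka) (γ.ze p.1) (ev (j x).y p.1 p.2) (ev (j x).yt p.1 p.2)
      (ev (j x).op p.1 p.2) * ev (γ.Econe cc ka kd (j x)) p.1 p.2 * ev dj.y p.1 p.2)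
    (fun t θ => ?_) (fun t θ => ?_) (fun t => ?_) (fun p => ?_) (k.cont_flux dj.y) ?_ ?_
  · simp only [eA]
    have h0 := hd0 (W.sumL θ ka) (γ.g t) t
    exact hd_flux (hd_kF (hζ t) (J.hasDerivAt_y_t t θ))
      (hd_kD h0 (hζ t) (J.hasDerivAt_y_t t θ) (J.hasDerivAt_yt_t t θ) (J.hasDerivAt_P_t t θ))
      (hd_kN h0 (hζ t) (J.hasDerivAt_y_t t θ) (J.hasDerivAt_P_t t θ)) (hdy t θ) (hD (t, θ))
  · have h1 := hd1 ((j x).hasDerivAt_y_theta t θ)
    have h2 := (j x).hasDerivAt_yt_theta t θ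
    have h3 := hd0 (γ.ze t) 1 θ
    exact hd_flux (hd_kF h3 h1)
      (hd_kD (hd1 (hd_ka hc' hkd θ)) h3 h1 (hd1 h2) (hd1 (J.hasDerivAt_P_theta t θ)))
      (hd1 (h2.const_mul _)) (hd1 (dj.hasDerivAt_y_theta t θ)) (hD (t, θ))
  · have e : ∀ f : WB, ev f t (2 * Real.pi) = ev f t 0 := fun f => by
      rw [← ev_add_two_pi f t 0, zero_add]
    have e' : W.sumL (2 * Real.pi) ka = W.sumL 0 ka := by
      rw [← W.sumL_add_two_pi 0 ka, zero_add]
    simp only [c, D, η, y, q, P, κ, e, e']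
  · have h0 : x + ((0 : ℝ) : ℂ) • v = x := by simp
    have h2 := hd1 (hd_line hjx ((evL p.1 p.2).comp EJ.yL) v)
    have h3 := hd1 (hd_line hjx ((evL p.1 p.2).comp EJ.ytL) v)
    have h4 := hd1 (hd_line hP (evL p.1 p.2) v)
    have h5 := hd_lag (hd_kF (cc := cc) (hd0 (γ.ze p.1) _ _) h2)
      (hd_kD (cc := cc) (hd0 (κ p) _ _) (hd0 (γ.ze p.1) _ _) h2 h3 h4) (by rw [h0]; exact hD p)
    refine (h5.congr_of_eventuallyEq ?_).congr_deriv ?_
    · filter_upwards [ev_line hU hx v] with τ hτ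
      have k' := hk _ hτ
      rw [k'.op_eq, lagCone_eq _ _ _ _ (k'.ze_ne _)]
      rfl
    · simp only [h0, one_mul, ContinuousLinearMap.comp_apply, evL_apply, EJ.yL_apply, EJ.ytL_apply]
      rw [cone_id _ _ _ _ hc' (k.ze_ne p.1) (W.sumL p.2 kd) (ev (j x).ytt p.1 p.2)
        (ev (γ.cone.jQ (j x)) p.1 p.2) (ev (j x).pt p.1 p.2), k.ev_E, k.op_eq,
        wCone_eq _ _ _ _ (k.ze_ne _)]
      simp only [c, D, η, y, q, P, κ]
      ring
  · have c0 : Continuous κ := (W.continuous_sumL ka).comp continuous_snd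
    have c1 : Continuous fun p : ℝ × ℝ => W.sumL p.2 kd := (W.continuous_sumL kd).comp continuous_snd
    have c2 : Continuous D := by
      simp only [D, y, q, P, kD, coneD]
      fun_prop
    have c3 := csqrt c2 hD
    have c5 : Continuous c := by
      simp only [c, y, kF]
      fun_prop
    have h3 : ∀ p, Complex.sqrt (D p) ≠ 0 := fun p => sqrt_ne (slitPlane_ne_zero (hD p))
    refine continuous_const.mul ((c5.div (c3.pow 3) fun p => pow_ne_zero 3 (h3 p)).mul ?_)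
    simp only [brF, η, y, q, P, eK, eD]
    fun_prop
  · exact (k.cont_w.mul (continuous_ev _)).mul (continuous_ev _)

variable {U : Set E} {γ : Path} {cc : ℝ} {ka kd : WD} {j : E → EJ} {x : E}

/-- the first variation of the Gaussian area of a part of a conical end -/
theorem fderiv_FKI (hU : IsOpen U) (ho : γ.Ok) (hc : cc ≠ 0)
    (hkd : ∀ m : ℤ, kd.c m = (cc * (m * I)) * ka.c m) (hj : DifferentiableOn ℂ j U)
    (hJ : ∀ x ∈ U, γ.cone.IsJet (j x)) (hk : ∀ x ∈ U, γ.ConeOk cc ka (j x)) (hx : x ∈ U) (v : E)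
    (t₀ t₁ : ℝ) : fderiv ℂ (fun x => γ.FKI cc ka (j x) t₀ t₁) x v =
      γ.FluxCone cc ka (j x) t₁ (fderiv ℂ j x v).y - γ.FluxCone cc ka (j x) t₀ (fderiv ℂ j x v).y -
      ∫ t in t₀..t₁, γ.g t * γ.ResCone cc ka kd (j x) t (fderiv ℂ j x v).y :=
  let ⟨_, h⟩ := var_cone hU ho hc hkd hj hJ hk hx v; h.main t₀ t₁

/-- the first variation at a solution -/
theorem fderiv_FKI_sol (hU : IsOpen U) (ho : γ.Ok) (hc : cc ≠ 0)
    (hkd : ∀ m : ℤ, kd.c m = (cc * (m * I)) * ka.c m) (hj : DifferentiableOn ℂ j U)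
    (hJ : ∀ x ∈ U, γ.cone.IsJet (j x)) (hk : ∀ x ∈ U, γ.ConeOk cc ka (j x)) (hx : x ∈ U)
    (hs : γ.IsCone cc ka kd (j x)) (v : E) (t₀ t₁ : ℝ) :
    fderiv ℂ (fun x => γ.FKI cc ka (j x) t₀ t₁) x v =
      γ.FluxCone cc ka (j x) t₁ (fderiv ℂ j x v).y -
        γ.FluxCone cc ka (j x) t₀ (fderiv ℂ j x v).y := by
  rw [fderiv_FKI hU ho hc hkd hj hJ hk hx]
  simp [hs.resCone]

/-- the first variation with a weight `χ` -/
theorem fderiv_FKI_weight (hU : IsOpen U) (ho : γ.Ok) (hc : cc ≠ 0)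
    (hkd : ∀ m : ℤ, kd.c m = (cc * (m * I)) * ka.c m) (hj : DifferentiableOn ℂ j U)
    (hJ : ∀ x ∈ U, γ.cone.IsJet (j x)) (hk : ∀ x ∈ U, γ.ConeOk cc ka (j x)) (hx : x ∈ U) (v : E)
    (χ : BC) {χ' : ℝ → ℂ} (hχ : ∀ t, HasDerivAt χ (χ' t) t) (cχ : Continuous χ') (t₀ t₁ : ℝ) :
    fderiv ℂ (fun x => ∫ t in t₀..t₁, χ t * γ.g t * ∫ θ in (0 : ℝ)..2 * Real.pi,
      lagCone cc (W.sumL θ ka) (γ.ze t) (ev (j x).y t θ) (ev (j x).yt t θ) (ev (j x).op t θ)) x v =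
      χ t₁ * γ.FluxCone cc ka (j x) t₁ (fderiv ℂ j x v).y -
      χ t₀ * γ.FluxCone cc ka (j x) t₀ (fderiv ℂ j x v).y -
      (∫ t in t₀..t₁, χ' t * γ.FluxCone cc ka (j x) t (fderiv ℂ j x v).y) -
      ∫ t in t₀..t₁, χ t * γ.g t * γ.ResCone cc ka kd (j x) t (fderiv ℂ j x v).y :=
  let ⟨_, h⟩ := var_cone hU ho hc hkd hj hJ hk hx v; h.weight χ hχ cχ t₀ t₁

end Path

end Vale.Agent.P218N.End
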