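import Vale.Agent.P218N.Core.Jet
import Vale.Agent.P218N.End.LagC

/-! The torque is conserved along solutions on a cylindrical end. -/

open Filter Topology Metric Set Complex
open scoped BoundedContinuousFunction

noncomputable section

namespace Vale.Agent.P218N.End.Lag

open Vale.Agent.P218N.Core

section alg
variable (a ζ y q P S C ζ' y' q' P' S' C' : ℂ)

def tE : ℂ := Complex.exp (-(ζ + rh a ζ * (1 + y) ^ 2) / 4)
def tK : ℂ := -(ζ' + a * ζ' * (1 + y) ^ 2 + 2 * rh a ζ * (1 + y) * y') / 4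
def tZ : ℂ := 2 * (ζ * rh a ζ) * (1 + y) ^ 2 * cB a ζ y P * S -
  rh a ζ * (1 + y) * ((1 + y) ^ 2 + q ^ 2) * S + 2 * (ζ * rh a ζ) * cB a ζ y P * q * (1 + y) * C
def tT : ℂ := -((2 * (ζ * rh a ζ) * cB a ζ y P ^ 2 + 1 / 2) * (1 + y) * C) + q * S / 2 +
  rh a ζ * cB a ζ y P * q * (1 + y) * S
/-- the `ζ`-derivative of `tZ` -/
def dZ : ℂ := 2 * ((rh a ζ + ζ * a) * (1 + y) ^ 2 * cB a ζ y P + ζ * rh a ζ * (2 * (1 + y) * y') *
    cB a ζ y P + ζ * rh a ζ * (1 + y) ^ 2 * dB a ζ y 0 1 y' P') * S -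
  (a * (1 + y) * ((1 + y) ^ 2 + q ^ 2) + rh a ζ * y' * ((1 + y) ^ 2 + q ^ 2) +
    rh a ζ * (1 + y) * (2 * (1 + y) * y' + 2 * q * q')) * S +
  2 * ((rh a ζ + ζ * a) * cB a ζ y P * q * (1 + y) + ζ * rh a ζ * (dB a ζ y 0 1 y' P' * q * (1 + y) +
    cB a ζ y P * q' * (1 + y) + cB a ζ y P * q * y')) * C
/-- the `θ`-derivative of `tT` -/
def dT : ℂ := -(4 * (ζ * rh a ζ) * cB a ζ y P * dB a ζ y 0 0 y' P' * (1 + y) * C +
    (2 * (ζ * rh a ζ) * cB a ζ y P ^ 2 + 1 / 2) * (y' * C + (1 + y) * C')) + (q' * S + q * S') / 2 +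
  rh a ζ * (dB a ζ y 0 0 y' P' * q * (1 + y) * S + cB a ζ y P * q' * (1 + y) * S +
    cB a ζ y P * q * y' * S + cB a ζ y P * q * (1 + y) * S')

variable {a ζ}

theorem tq_id (hζ : ζ ≠ 0) (hρ : rh a ζ ≠ 0) (qq Q pt : ℂ) :
    brF (cD a ζ y q P) (tZ a ζ y q P S C) 1 (tK a ζ y 1 P) (dD a ζ y q P 0 1 P pt Q)
        (dZ a ζ y q P S C P pt Q) 0 +
      brF (cD a ζ y q P) (tT a ζ y q P S C) 1 (tK a ζ y 0 q) (dD a ζ y q P 0 0 q qq pt)
        (dT a ζ y q P S C q qq pt (-C) S) 0 =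
      cylE a ζ⁻¹ (ζ⁻¹ * (rh a ζ)⁻¹) (a / 2 * (rh a ζ)⁻¹) (a / 2 * ζ) y q qq
        (ζ * rh a ζ * P) (ζ * rh a ζ * Q) pt *
        ((S * (1 + y) + C * q + 2 * rh a ζ * (1 + y) ^ 2 * cB a ζ y P * S) / 2) := by
  simp only [brF, tZ, tT, tK, dZ, dT, cD, dD, dB, cB, dR, cylE, cylD, cylB]
  have h : rh a ζ = 2 + a * (ζ - 2) := rfl
  generalize rh a ζ = ρ at *
  have h1 : (1 - a) = (ρ - a * ζ) / 2 := by rw [h]; ring
  rw [h1]
  field_simp
  ring

theorem tqCyl_eq (hζ : ζ ≠ 0) (hρ : rh a ζ ≠ 0) (θ : ℝ) (α : C3) :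
    tqCyl a ζ y q (ζ * rh a ζ * P) θ α =
      tE a ζ y * tZ a ζ y q P (-(α 0 * Real.sin θ) + α 1 * Real.cos θ)
        (α 0 * Real.cos θ + α 1 * Real.sin θ) / Complex.sqrt (cD a ζ y q P) * 1 -
      α 2 * (cF a ζ y * cN a ζ y P / Complex.sqrt (cD a ζ y q P) * q) := by
  rw [tqCyl, Dc_eq y q P hζ hρ, tE, tZ, cF, cN, cB]
  have h3 := sqrt_ne (mul_ne_zero hζ hρ)
  have h4 := sqrt_sq (ζ * rh a ζ)
  generalize Complex.sqrt (ζ * rh a ζ) = s at *
  generalize Complex.exp _ = e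
  simp only [div_eq_mul_inv _ (Complex.sqrt (cD _ _ _ _ _))]
  generalize (Complex.sqrt (cD _ _ _ _ _))⁻¹ = d
  generalize rh a ζ = ρ at *
  have h5 : ρ = s ^ 2 / ζ := by rw [h4]; field_simp
  subst h5
  field_simp
  ring

end alg

section curves
variable {a : ℂ} {ζ y q P S C : ℝ → ℂ} {g ζ' y' q' P' S' C' : ℂ} {τ : ℝ}

theorem hd_tE (hζ : HasDerivAt ζ (g * ζ') τ) (hy : HasDerivAt y (g * y') τ) :
    HasDerivAt (fun τ => tE a (ζ τ) (y τ)) (tE a (ζ τ) (y τ) * (g * tK a (ζ τ) (y τ) ζ' y')) τ :=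
  (((hζ.fun_add ((hd_rh (hd0 a g τ) hζ).fun_mul ((hy.const_add 1).fun_pow 2))).fun_neg.div_const
    4).cexp).congr_deriv (by simp only [tE, tK, dR]; push_cast; ring)

theorem hd_tZ {S C : ℂ} (hζ : HasDerivAt ζ (g * 1) τ) (hy : HasDerivAt y (g * y') τ)
    (hq : HasDerivAt q (g * q') τ) (hP : HasDerivAt P (g * P') τ) (h : rh a (ζ τ) ≠ 0) :
    HasDerivAt (fun τ => tZ a (ζ τ) (y τ) (q τ) (P τ) S C)
      (g * dZ a (ζ τ) (y τ) (q τ) (P τ) S C y' q' P') τ := by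
  have h1 := hd_rh (hd0 a g τ) hζ
  have h2 := hd_cB (hd0 a g τ) hζ hy hP h
  have h3 := hy.const_add 1
  have h4 := (hζ.fun_mul h1).const_mul 2
  exact (((((h4.fun_mul (h3.fun_pow 2)).fun_mul h2).mul_const S).fun_sub (((h1.fun_mul h3).fun_mul
    ((h3.fun_pow 2).fun_add (hq.fun_pow 2))).mul_const S)).fun_add
    ((((h4.fun_mul h2).fun_mul hq).fun_mul h3).mul_const C)).congr_deriv
    (by simp only [dZ, dR]; push_cast; ring)

theorem hd_tT {ζ : ℂ} (hy : HasDerivAt y (1 * y') τ) (hq : HasDerivAt q (1 * q') τ)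
    (hP : HasDerivAt P (1 * P') τ) (hS : HasDerivAt S S' τ) (hC : HasDerivAt C C' τ)
    (h : rh a ζ ≠ 0) :
    HasDerivAt (fun τ => tT a ζ (y τ) (q τ) (P τ) (S τ) (C τ))
      (1 * dT a ζ (y τ) (q τ) (P τ) (S τ) (C τ) y' q' P' S' C') τ := by
  have h2 := hd_cB (hd0 a 1 τ) (hd0 ζ 1 τ) hy hP h
  have h3 := hy.const_add 1
  exact ((((((((h2.fun_pow 2).const_mul (2 * (ζ * rh a ζ))).add_const (1 / 2)).fun_mul h3).fun_mul
    hC).fun_neg).fun_add ((hq.fun_mul hS).div_const 2)).fun_add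
    ((((h2.const_mul (rh a ζ)).fun_mul hq).fun_mul h3).fun_mul hS)).congr_deriv
    (by simp only [dT]; push_cast; ring)

end curves

variable {E : Type*} [NormedAddCommGroup E] [NormedSpace ℂ E]

theorem holF_fix {X : Type*} [TopologicalSpace X] {U : Set E} {f : X → ℂ} (hf : Continuous f)
    {C : ℝ} (hC : ∀ p, ‖f p‖ ≤ C) : HolF U fun _ p => f p :=
  ⟨fun _ => mkX f, differentiableOn_const _, fun _ _ p => mkX_apply hf hC p⟩

theorem HC.tq {U : Set E} {a ζ y yt op : E → ℝ × ℝ → ℂ} (h : HC U a ζ y yt op) {α : E → C3}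
    (hα : DifferentiableOn ℂ α U) :
    HolF U fun x p => tqCyl (a x p) (ζ x p) (y x p) (yt x p) (op x p) p.2 (α x) := by
  have ha : ∀ i, HolF U fun x (_ : ℝ × ℝ) => α x i := fun i =>
    HolF.par (differentiableOn_pi.1 hα i)
  have hs : HolF U fun _ (p : ℝ × ℝ) => ((Real.sin p.2 : ℝ) : ℂ) :=
    holF_fix (C := 1) (by fun_prop) fun p => by
      rw [Complex.norm_real]; exact Real.abs_sin_le_one _
  have hc : HolF U fun _ (p : ℝ × ℝ) => ((Real.cos p.2 : ℝ) : ℂ) :=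
    holF_fix (C := 1) (by fun_prop) fun p => by
      rw [Complex.norm_real]; exact Real.abs_cos_le_one _
  have hB := (h.hop.add (((h.ha.div_const 2).mul h.hζ).mul h.u)).div h.opn (h.hζ.mul h.rh) h.lO
  exact ((h.ex.mul (((HolF.const 2).mul h.hζ).mul h.rh)).div h.opn h.sD
    fun x hx => lo_near (h.D x hx)).mul
    (((((((h.u.pow 2).add (h.hyt.pow 2)).mul (hB.sub (h.u.div h.opn ((HolF.const 2).mul h.hζ)
      h.l2z))).sub (hB.mul (h.hyt.pow 2))).mul (((ha 0).mul hs).neg.add ((ha 1).mul hc))).add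
      (((hB.mul h.hyt).mul h.u).mul (((ha 0).mul hc).add ((ha 1).mul hs)))).sub
      (((((hB.mul h.hyt).mul h.rh).mul (h.u.pow 2)).div h.opn h.sO
        fun x hx => lo_sqrt (h.lO x hx)).mul (ha 2)))

end Vale.Agent.P218N.End.Lag

namespace Vale.Agent.P218N.Core

open Vale.Agent.P218N.End Vale.Agent.P218N.End.Lag

theorem differentiableOn_TqCyl {E : Type*} [NormedAddCommGroup E] [NormedSpace ℂ E] {U : Set E}
    {γ : E → End.Path} {a : E → ℂ} {j : E → EJ} (hU : IsOpen U)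
    (hz : DifferentiableOn ℂ (fun x => (γ x).ze) U) (ha : DifferentiableOn ℂ a U)
    (hj : DifferentiableOn ℂ j U) (hk : ∀ x ∈ U, (γ x).CylOk (a x) (j x)) {α : E → C3}
    (hα : DifferentiableOn ℂ α U) (t : ℝ) :
    DifferentiableOn ℂ (fun x => TqCyl (γ x) (a x) (j x) t (α x)) U :=
  ((hc_of hU hz ha hj hk).tq hα).diff_int t

variable {γ : End.Path} {a : ℂ} {j : EJ}

theorem cont_tq (k : γ.CylOk a j) (α : C3) : Continuous fun p : ℝ × ℝ =>
    tqCyl a (γ.ze p.1) (ev j.y p.1 p.2) (ev j.yt p.1 p.2) (ev j.op p.1 p.2) p.2 α :=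
  ((hc_one k).tq (differentiableOn_const α)).cont (mem_univ 0)

theorem hasDerivAt_TqCyl (ho : γ.Ok) (k : γ.CylOk a j) (hs : γ.IsCyl a j) (α : C3) (t : ℝ) :
    HasDerivAt (fun t => TqCyl γ a j t α) 0 t := by
  have J := hs.1
  let y : ℝ × ℝ → ℂ := fun p => ev j.y p.1 p.2
  let q : ℝ × ℝ → ℂ := fun p => ev j.yt p.1 p.2
  let qq : ℝ × ℝ → ℂ := fun p => ev j.ytt p.1 p.2
  let pt : ℝ × ℝ → ℂ := fun p => ev j.pt p.1 p.2
  let P : ℝ × ℝ → ℂ := fun p => ev ((γ.cyl a).jP j) p.1 p.2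
  let c : ℝ × ℝ → ℂ := fun p => cF a (γ.ze p.1) (y p)
  let e : ℝ × ℝ → ℂ := fun p => tE a (γ.ze p.1) (y p)
  let D : ℝ × ℝ → ℂ := fun p => cD a (γ.ze p.1) (y p) (q p) (P p)
  let S : ℝ → ℂ := fun θ => -(α 0 * Real.sin θ) + α 1 * Real.cos θ
  let C : ℝ → ℂ := fun θ => α 0 * Real.cos θ + α 1 * Real.sin θ
  let Ψ : ℝ × ℝ → ℂ := fun p => 1 * (e p / Complex.sqrt (D p) ^ 3 *
      brF (D p) (tT a (γ.ze p.1) (y p) (q p) (P p) (S p.2) (C p.2)) 1 (tK a (γ.ze p.1) (y p) 0 (q p))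
        (dD a (γ.ze p.1) (y p) (q p) (P p) 0 0 (q p) (qq p) (pt p))
        (dT a (γ.ze p.1) (y p) (q p) (P p) (S p.2) (C p.2) (q p) (qq p) (pt p) (-C p.2) (S p.2)) 0) -
    α 2 * (1 * (c p / Complex.sqrt (D p) ^ 3 * brF (D p) (q p) (q p) (dK a (γ.ze p.1) (y p) 0 0 (q p))
        (dD a (γ.ze p.1) (y p) (q p) (P p) 0 0 (q p) (qq p) (pt p)) (qq p) (qq p)) -
      c p / Complex.sqrt (D p) ^ 3 * brL (D p) (1 * dK a (γ.ze p.1) (y p) 0 0 (q p))
        (1 * dD a (γ.ze p.1) (y p) (q p) (P p) 0 0 (q p) (qq p) (pt p)))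
  have hD : ∀ p, D p ∈ slitPlane := fun p => slit_of_near (k.cD p.1 p.2)
  have hζ : ∀ t, HasDerivAt γ.ze (γ.g t * 1) t := fun t => (ho.der t).congr_deriv (mul_one _).symm
  have hS : ∀ θ, HasDerivAt S (-C θ) θ := fun θ =>
    ((((Real.hasDerivAt_sin θ).ofReal_comp.const_mul (α 0)).fun_neg).fun_add
      ((Real.hasDerivAt_cos θ).ofReal_comp.const_mul (α 1))).congr_deriv
      (by simp only [C]; push_cast; ring)
  have hC : ∀ θ, HasDerivAt C (S θ) θ := fun θ =>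
    (((Real.hasDerivAt_cos θ).ofReal_comp.const_mul (α 0)).fun_add
      ((Real.hasDerivAt_sin θ).ofReal_comp.const_mul (α 1))).congr_deriv
      (by simp only [S]; push_cast; ring)
  have cΨ : Continuous Ψ := by
    have h1 : ∀ p : ℝ × ℝ, γ.ze p.1 ≠ 0 := fun p => k.ze_ne p.1
    have h2 : ∀ p : ℝ × ℝ, rh a (γ.ze p.1) ≠ 0 := fun p => k.rh_ne p.1
    have c1 : Continuous fun p : ℝ × ℝ => rh a (γ.ze p.1) := by unfold rh; fun_prop
    have c2 : Continuous D := by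
      simp only [D, y, q, P, cD, cB]
      fun_prop (disch := intro p; simp [h2])
    have c3 := csqrt c2 hD
    have c4 := csqrt (f := fun p : ℝ × ℝ => γ.ze p.1 * rh a (γ.ze p.1)) (by fun_prop)
      fun p => k.slit p.1
    have c5 : Continuous c := by
      simp only [c, y, cF]
      fun_prop (disch := intro p; simp [h1])
    have c6 : Continuous e := by
      simp only [e, y, tE]
      fun_prop
    have h3 : ∀ p, Complex.sqrt (D p) ^ 3 ≠ 0 := fun p =>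
      pow_ne_zero 3 (sqrt_ne (slitPlane_ne_zero (hD p)))
    refine (continuous_const.mul ((c6.div (c3.pow 3) h3).mul ?_)).sub (continuous_const.mul
      ((continuous_const.mul ((c5.div (c3.pow 3) h3).mul ?_)).sub
        ((c5.div (c3.pow 3) h3).mul ?_))) <;>
    · simp only [brF, brL, y, q, qq, pt, P, S, C, tT, tK, dT, dK, dD, dB, dR, cB]
      fun_prop (disch := intro p; simp [h1, h2])
  have key := noether γ.g.continuous (Φ := fun p => -Ψ p) (Ψ := Ψ)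
    (A := fun p => tqCyl a (γ.ze p.1) (ev j.y p.1 p.2) (ev j.yt p.1 p.2) (ev j.op p.1 p.2) p.2 α)
    (B := fun p => e p * tT a (γ.ze p.1) (y p) (q p) (P p) (S p.2) (C p.2) / Complex.sqrt (D p) * 1 -
      α 2 * (c p * q p / Complex.sqrt (D p) * q p - c p * Complex.sqrt (D p)))
    (fun t θ => ?_) (fun t θ => ?_) (fun t => ?_) (cont_tq k α) cΨ.neg cΨ t
  · simpa only [neg_add_cancel, intervalIntegral.integral_zero, mul_zero, TqCyl] using key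
  · simp only [k.op_eq, tqCyl_eq _ _ _ (k.ze_ne _) (k.rh_ne _)]
    have h1 := J.hasDerivAt_y_t t θ
    have h2 := J.hasDerivAt_yt_t t θ
    have h3 := J.hasDerivAt_P_t t θ
    have h4 := hd_cD (hd0 a _ _) (hζ t) h1 h2 h3 (k.rh_ne t)
    refine ((hd_flux (hd_tE (hζ t) h1) h4 (hd_tZ (hζ t) h1 h2 h3 (k.rh_ne t)) (hd0 1 _ _)
      (hD (t, θ))).fun_sub ((hd_flux (hd_cF (hd0 _ _ _) (hζ t) h1 (k.slit t)) h4
        (hd_cN (hd0 _ _ _) (hζ t) h1 h3 (k.rh_ne t)) h2 (hD (t, θ))).const_mul (α 2))).congr_deriv ?_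
    have e0 := k.ev_E t θ
    rw [hs.2, ev_zero] at e0
    have e1 := tq_id (y (t, θ)) (q (t, θ)) (P (t, θ)) (S θ) (C θ) (k.ze_ne t) (k.rh_ne t)
      (qq (t, θ)) (ev ((γ.cyl a).jQ j) t θ) (pt (t, θ))
    have e2 := cyl_id (y (t, θ)) (q (t, θ)) (P (t, θ)) 0 (q (t, θ)) (k.ze_ne t) (k.rh_ne t)
      (qq (t, θ)) (ev ((γ.cyl a).jQ j) t θ) (pt (t, θ)) (qq (t, θ)) (pt (t, θ))
    simp only [y, q, P, qq, pt, ← e0, cH, dH, mul_zero, zero_mul, zero_div, add_zero,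
      sub_zero] at e1 e2
    simp only [Ψ, y, q, P, qq, pt, c, e, D, one_mul]
    rw [e2, eq_neg_of_add_eq_zero_left e1]
    ring
  · have h1 := hd1 (j.hasDerivAt_y_theta t θ)
    have h2 := hd1 (j.hasDerivAt_yt_theta t θ)
    have h3 := hd0 (γ.ze t) 1 θ
    have h4 := hd1 (J.hasDerivAt_P_theta t θ)
    have h5 := hd_cD (hd0 a _ _) h3 h1 h2 h4 (k.rh_ne t)
    have h6 := hd_cF (hd0 a _ _) h3 h1 (k.slit t)
    exact (hd_flux (hd_tE h3 h1) h5 (hd_tT h1 h2 h4 (hS θ) (hC θ) (k.rh_ne t)) (hd0 1 _ _)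
      (hD (t, θ))).fun_sub (((hd_flux h6 h5 h2 h2 (hD (t, θ))).fun_sub
        (hd_lag h6 h5 (hD (t, θ)))).const_mul (α 2))
  · have e' : ∀ f : WB, ev f t (2 * Real.pi) = ev f t 0 := fun f => by
      rw [← ev_add_two_pi f t 0, zero_add]
    simp only [c, e, D, y, q, P, S, C, e', Real.sin_two_pi, Real.cos_two_pi, Real.sin_zero,
      Real.cos_zero]

/-- the torque is conserved along solutions -/
theorem TqCyl_const (ho : γ.Ok) (k : γ.CylOk a j) (hs : γ.IsCyl a j) (α : C3) (t t' : ℝ) :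
    TqCyl γ a j t α = TqCyl γ a j t' α :=
  is_const_of_deriv_eq_zero (fun t => (hasDerivAt_TqCyl ho k hs α t).differentiableAt)
    (fun t => (hasDerivAt_TqCyl ho k hs α t).deriv) t t'

end Vale.Agent.P218N.Core
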