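import Vale.Agent.P218N.End.ApiTr
import Vale.Agent.P218N.End.LagK
import Vale.Agent.P218N.End.LagT

/-! Bounds, additivity, linearity and reality of the areas, fluxes and torques on the ends. -/

open Filter Topology Metric Set Complex
open scoped BoundedContinuousFunction ComplexConjugate

noncomputable section

namespace Vale.Agent.P218N.End

open Vale.Agent.P218N.J Vale.Agent.P218N.Core

namespace Lag

theorem sqrt_near {D : ℂ} (h : ‖D - 1‖ ≤ 1 / 2) :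
    7 / 10 ≤ ‖Complex.sqrt D‖ ∧ ‖Complex.sqrt D‖ ≤ 2 := by
  have h1 := abs_le.1 ((abs_norm_sub_norm_le D 1).trans h)
  rw [norm_one] at h1
  rw [norm_sqrt]
  exact ⟨Real.le_sqrt_of_sq_le (by linarith), Real.sqrt_le_iff.2 ⟨by norm_num, by linarith⟩⟩

theorem sqrt_div {ζ : ℂ} (hζ : ζ ≠ 0) (ρ : ℂ) :
    ‖Complex.sqrt (ζ * ρ)‖ = √(‖ρ‖ / ‖ζ‖) * ‖ζ‖ := by
  have h0 : 0 < ‖ζ‖ := norm_pos_iff.2 hζ
  have h1 : ‖ζ * ρ‖ = ‖ρ‖ / ‖ζ‖ * (‖ζ‖ * ‖ζ‖) := by rw [norm_mul]; field_simp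
  rw [norm_sqrt, h1, Real.sqrt_mul (by positivity), Real.sqrt_mul_self h0.le]

theorem norm_int_le {f : ℝ → ℂ} {C : ℝ} (h : ∀ θ, ‖f θ‖ ≤ C) :
    ‖∫ θ in (0 : ℝ)..2 * Real.pi, f θ‖ ≤ 7 * C := by
  refine (intervalIntegral.norm_integral_le_of_norm_le_const (C := C) fun θ _ => h θ).trans ?_
  rw [sub_zero, abs_of_pos Real.two_pi_pos]
  nlinarith [Real.pi_lt_d2, (norm_nonneg _).trans (h 0)]

theorem ev_le_tr (f : WB) (t θ : ℝ) : ‖ev f t θ‖ ≤ ‖tr t f‖ := by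
  rw [← sumL_tr]; exact W.norm_sumL_le _ _

section cyl
variable {a ζ y yt op : ℂ}

theorem u_le (hy : ‖y‖ ≤ 1 / 100) : ‖1 + y‖ ≤ 101 / 100 :=
  (norm_add_le _ _).trans (by rw [norm_one]; linarith)

theorem exp_cyl (hy : ‖y‖ ≤ 1 / 100) (ζ ρ : ℂ) :
    ‖Complex.exp (-(ζ + ρ * (1 + y) ^ 2) / 4)‖ ≤ Real.exp (‖ρ‖ / 3 - ζ.re / 4) := by
  rw [norm_exp, Real.exp_le_exp, div_ofNat_re, neg_re, add_re]
  have h1 := (abs_le.1 (abs_re_le_norm (ρ * (1 + y) ^ 2))).1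
  have h2 : ‖1 + y‖ ^ 2 ≤ 11 / 10 := by nlinarith [u_le hy, norm_nonneg (1 + y)]
  rw [norm_mul, norm_pow] at h1
  nlinarith [norm_nonneg ρ]

theorem b_le (hy : ‖y‖ ≤ 1 / 100) : ‖op + a / 2 * ζ * (1 + y)‖ ≤ ‖op‖ + ‖a * ζ‖ := by
  rw [show a / 2 * ζ * (1 + y) = (1 + y) / 2 * (a * ζ) by ring]
  refine (norm_add_le _ _).trans (add_le_add le_rfl ?_)
  rw [norm_mul, norm_div, Complex.norm_two]
  exact mul_le_of_le_one_left (norm_nonneg _) (by linarith [u_le hy])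

theorem norm_lagCyl (hζ : ζ ≠ 0) (hD : ‖Dc a ζ y yt op - 1‖ ≤ 1 / 2) (hy : ‖y‖ ≤ 1 / 100) :
    ‖lagCyl a ζ y yt op‖ ≤ √(‖rh a ζ‖ / ‖ζ‖) * Real.exp (‖rh a ζ‖ / 3 - ζ.re / 4) := by
  have h0 : 0 < ‖ζ‖ := norm_pos_iff.2 hζ
  rw [lagCyl, norm_mul, norm_mul, norm_div, norm_mul, Complex.norm_two, sqrt_div hζ]
  refine mul_le_mul ((mul_le_mul_of_nonneg_left (sqrt_near hD).2 (by positivity)).trans
    (le_of_eq (by field_simp))) (exp_cyl hy _ _) (norm_nonneg _) (by positivity)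

theorem norm_fluxCyl (hζ : ζ ≠ 0) (hD : ‖Dc a ζ y yt op - 1‖ ≤ 1 / 2) (hy : ‖y‖ ≤ 1 / 100)
    (da dy : ℂ) : ‖fluxCyl a ζ y yt op da dy‖ ≤ 3 * √(‖rh a ζ‖ / ‖ζ‖) * (‖op‖ + ‖a * ζ‖) *
      Real.exp (‖rh a ζ‖ / 3 - ζ.re / 4) * (‖dy‖ + ‖(ζ - 2) * da / rh a ζ‖) := by
  have h0 : 0 < ‖ζ‖ := norm_pos_iff.2 hζ
  have h1 := (sqrt_near hD).1
  have h2 := u_le hy
  have h4 := b_le (a := a) (ζ := ζ) (op := op) hy
  have h5 : ‖dy + (1 + y) * (ζ - 2) * da / (2 * rh a ζ)‖ ≤ ‖dy‖ + ‖(ζ - 2) * da / rh a ζ‖ := by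
    rw [show (1 + y) * (ζ - 2) * da / (2 * rh a ζ) = (1 + y) / 2 * ((ζ - 2) * da / rh a ζ) by
      rw [div_mul_div_comm, mul_assoc (1 + y)]]
    refine (norm_add_le _ _).trans (add_le_add le_rfl ?_)
    rw [norm_mul, norm_div, Complex.norm_two]
    exact mul_le_of_le_one_left (norm_nonneg _) (by linarith)
  have h6 : ‖1 + y‖ ^ 2 ≤ 103 / 100 := by nlinarith [norm_nonneg (1 + y)]
  rw [fluxCyl, norm_mul, norm_mul, norm_div, norm_mul, norm_mul, norm_div, norm_mul,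
    Complex.norm_two, sqrt_div hζ, ← mul_assoc 2, mul_div_cancel_right₀ _ h0.ne', norm_pow]
  refine mul_le_mul (mul_le_mul ?_ (exp_cyl hy _ _) (norm_nonneg _) (by positivity)) h5
    (norm_nonneg _) (by positivity)
  rw [div_le_iff₀ (by linarith)]
  have h7 := mul_le_mul h6 h4 (norm_nonneg _) (by norm_num)
  have h8 := mul_le_mul_of_nonneg_left h1 (by positivity : 0 ≤ ‖op‖ + ‖a * ζ‖)
  have h9 : 2 * (‖1 + y‖ ^ 2 * ‖op + a / 2 * ζ * (1 + y)‖) ≤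
      3 * ((‖op‖ + ‖a * ζ‖) * ‖Complex.sqrt (Dc a ζ y yt op)‖) := by
    linarith [norm_nonneg (a * ζ), norm_nonneg op]
  linarith [mul_le_mul_of_nonneg_left h9 (Real.sqrt_nonneg (‖rh a ζ‖ / ‖ζ‖))]

theorem trig_le (α : C3) {s c : ℝ} (hs : |s| ≤ 1) (hc : |c| ≤ 1) (i k : Fin 3) :
    ‖α i * s‖ + ‖α k * c‖ ≤ 2 * ‖α‖ := by
  rw [norm_mul, norm_mul, Complex.norm_real, Complex.norm_real, Real.norm_eq_abs, Real.norm_eq_abs]
  nlinarith [norm_le_pi_norm α i, norm_le_pi_norm α k, norm_nonneg (α i), norm_nonneg (α k),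
    abs_nonneg s, abs_nonneg c]

theorem norm_tqCyl (hζ : ζ ≠ 0) (hρ : rh a ζ ≠ 0) (hD : ‖Dc a ζ y yt op - 1‖ ≤ 1 / 2)
    (hy : ‖y‖ ≤ 1 / 100) (hyt : ‖yt‖ ≤ 1 / 100) (θ : ℝ) (α : C3) :
    ‖tqCyl a ζ y yt op θ α‖ ≤ 7 * (‖rh a ζ‖ + (‖op‖ + ‖a * ζ‖) * (1 + √(‖rh a ζ‖ / ‖ζ‖))) *
      Real.exp (‖rh a ζ‖ / 3 - ζ.re / 4) * ‖α‖ := by
  have h0 : 0 < ‖ζ‖ := norm_pos_iff.2 hζ
  have h1 := (sqrt_near hD).1
  have h2 := u_le hy
  have h3 := exp_cyl hy ζ (rh a ζ)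
  have h4 := b_le (a := a) (ζ := ζ) (op := op) hy
  have hS : ‖-(α 0 * Real.sin θ) + α 1 * Real.cos θ‖ ≤ 2 * ‖α‖ := (norm_add_le _ _).trans (by
    rw [norm_neg]; exact trig_le α (Real.abs_sin_le_one θ) (Real.abs_cos_le_one θ) 0 1)
  have hC : ‖α 0 * Real.cos θ + α 1 * Real.sin θ‖ ≤ 2 * ‖α‖ := (norm_add_le _ _).trans
    (trig_le α (Real.abs_cos_le_one θ) (Real.abs_sin_le_one θ) 0 1)
  have hσ := sqrt_div hζ (rh a ζ)
  have h5 := sqrt_ne (mul_ne_zero hζ hρ)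
  have h6 := sqrt_sq (ζ * rh a ζ)
  have h7 := norm_le_pi_norm α 2
  rw [tqCyl]
  generalize Complex.exp _ = e at *
  generalize -(α 0 * Real.sin θ) + α 1 * Real.cos θ = S at *
  generalize α 0 * Real.cos θ + α 1 * Real.sin θ = C at *
  generalize op + a / 2 * ζ * (1 + y) = b at *
  generalize Complex.sqrt (Dc a ζ y yt op) = s at *
  generalize Complex.sqrt (ζ * rh a ζ) = σ at *
  generalize 1 + y = u at *
  generalize rh a ζ = ρ at *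
  generalize ‖op‖ + ‖a * ζ‖ = B at *
  generalize Real.exp _ = X at *
  have hs : s ≠ 0 := norm_pos_iff.1 (by linarith)
  have e1 : e * (2 * ζ * ρ) / s * (((u ^ 2 + yt ^ 2) * (b / (ζ * ρ) - u / (2 * ζ)) -
      b / (ζ * ρ) * yt ^ 2) * S + b / (ζ * ρ) * yt * u * C - b / (ζ * ρ) * yt * ρ * u ^ 2 / σ * α 2) =
      e / s * (2 * u ^ 2 * b * S - ρ * (u * (u ^ 2 + yt ^ 2)) * S + 2 * b * (yt * u) * C -
        2 * b * (yt * u ^ 2) * (σ / ζ) * α 2) := by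
    have h8 : ρ = σ ^ 2 / ζ := by rw [h6]; field_simp
    subst h8
    field_simp
    ring
  have k0 : 0 ≤ B := (norm_nonneg _).trans h4
  have k1 : ‖u ^ 2‖ ≤ 103 / 100 := by rw [norm_pow]; nlinarith [norm_nonneg u]
  have k2 : ‖u * (u ^ 2 + yt ^ 2)‖ ≤ 11 / 10 := by
    have : ‖u ^ 2 + yt ^ 2‖ ≤ 104 / 100 := (norm_add_le _ _).trans (by
      rw [norm_pow yt]; nlinarith [norm_nonneg yt])
    rw [norm_mul]; nlinarith [norm_nonneg u, norm_nonneg (u ^ 2 + yt ^ 2)]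
  have k3 : ‖yt * u‖ ≤ 1 / 50 := by rw [norm_mul]; nlinarith [norm_nonneg u, norm_nonneg yt]
  have k4 : ‖yt * u ^ 2‖ ≤ 1 / 50 := by
    rw [norm_mul]; nlinarith [norm_nonneg (u ^ 2), norm_nonneg yt]
  have k5 : ‖σ / ζ‖ = √(‖ρ‖ / ‖ζ‖) := by rw [norm_div, hσ, mul_div_cancel_right₀ _ h0.ne']
  have k6 := Real.sqrt_nonneg (‖ρ‖ / ‖ζ‖)
  have k7 : ‖e / s‖ ≤ 10 / 7 * X := by
    rw [norm_div, div_le_iff₀ (by linarith)]
    nlinarith [norm_nonneg e]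
  have k8 : ‖2 * u ^ 2 * b * S - ρ * (u * (u ^ 2 + yt ^ 2)) * S + 2 * b * (yt * u) * C -
      2 * b * (yt * u ^ 2) * (σ / ζ) * α 2‖ ≤ 2 * (103 / 100) * B * (2 * ‖α‖) +
      ‖ρ‖ * (11 / 10) * (2 * ‖α‖) + 2 * B * (1 / 50) * (2 * ‖α‖) +
      2 * B * (1 / 50) * √(‖ρ‖ / ‖ζ‖) * ‖α‖ := by
    refine (norm_sub_le _ _).trans (add_le_add ((norm_add_le _ _).trans (add_le_add
      ((norm_sub_le _ _).trans (add_le_add ?_ ?_)) ?_)) ?_)
    · rw [norm_mul, norm_mul, norm_mul, Complex.norm_two]; gcongr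
    · rw [norm_mul, norm_mul]; gcongr
    · rw [norm_mul, norm_mul, norm_mul, Complex.norm_two]; gcongr
    · rw [norm_mul, norm_mul, norm_mul, norm_mul, Complex.norm_two, k5]; gcongr
  have k9 : 0 ≤ X := (norm_nonneg _).trans h3
  rw [e1, norm_mul]
  refine (mul_le_mul k7 k8 (norm_nonneg _) (by positivity)).trans ?_
  have k10 : 0 ≤ X * ‖α‖ := by positivity
  nlinarith [mul_nonneg k10 k0, mul_nonneg k10 (norm_nonneg ρ), mul_nonneg (mul_nonneg k10 k0) k6]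

end cyl

section cone
variable {cc δ : ℝ} {ka ζ w wt op : ℂ}

theorem exp_cone (hw : ‖w‖ ≤ δ) (ζ : ℂ) :
    ‖Complex.exp (-(ζ * (1 + w ^ 2)) / 4)‖ ≤ Real.exp (δ ^ 2 * ‖ζ‖ / 4 - ζ.re / 4) := by
  rw [norm_exp, Real.exp_le_exp, div_ofNat_re, neg_re, mul_add, mul_one, add_re]
  have h1 := (abs_le.1 (abs_re_le_norm (ζ * w ^ 2))).1
  rw [norm_mul, norm_pow] at h1
  nlinarith [mul_le_mul_of_nonneg_left (pow_le_pow_left₀ (norm_nonneg w) hw 2) (norm_nonneg ζ)]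

theorem norm_lagCone (hD : ‖coneD ka w (w + 2 * ζ⁻¹ * op) (cc * wt) - 1‖ ≤ 1 / 2) (hw : ‖w‖ ≤ δ) :
    ‖lagCone cc ka ζ w wt op‖ ≤ 1 / |cc| * Real.exp (δ ^ 2 * ‖ζ‖ / 4 - ζ.re / 4) := by
  rw [lagCone, norm_mul, norm_mul, norm_div, norm_mul, Complex.norm_two, norm_one,
    Complex.norm_real, Real.norm_eq_abs]
  refine mul_le_mul ((mul_le_mul_of_nonneg_left (sqrt_near hD).2 (by positivity)).trans
    (le_of_eq (by ring))) (exp_cone hw _) (norm_nonneg _) (by positivity)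

theorem norm_fluxCone (hζ : ζ ≠ 0) (hD : ‖coneD ka w (w + 2 * ζ⁻¹ * op) (cc * wt) - 1‖ ≤ 1 / 2)
    (hw : ‖w‖ ≤ δ) (hk : ‖ka‖ * δ ≤ 1) (dw : ℂ) : ‖fluxCone cc ka ζ w wt op dw‖ ≤
      6 / |cc| * (δ * ‖ζ‖ + 2 * ‖op‖) * Real.exp (δ ^ 2 * ‖ζ‖ / 4 - ζ.re / 4) * ‖dw‖ := by
  have h0 : 0 ≤ δ := (norm_nonneg _).trans hw
  have h1 := (sqrt_near hD).1
  have h2 : ‖1 - ka * w‖ ≤ 2 := (norm_sub_le _ _).trans (by
    rw [norm_one, norm_mul]; nlinarith [norm_nonneg ka])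
  have h3 : ‖ζ * (w + 2 * ζ⁻¹ * op)‖ ≤ δ * ‖ζ‖ + 2 * ‖op‖ := by
    rw [show ζ * (w + 2 * ζ⁻¹ * op) = w * ζ + 2 * op by field_simp]
    refine (norm_add_le _ _).trans ?_
    rw [norm_mul, norm_mul, Complex.norm_two]
    gcongr
  rw [fluxCone, show ζ / cc * (1 - ka * w) ^ 2 * (w + 2 * ζ⁻¹ * op) =
    (cc : ℂ)⁻¹ * ((1 - ka * w) ^ 2 * (ζ * (w + 2 * ζ⁻¹ * op))) by ring, norm_mul, norm_mul,
    norm_div, norm_mul, norm_mul, norm_inv, Complex.norm_real, Real.norm_eq_abs, norm_pow]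
  refine mul_le_mul_of_nonneg_right (mul_le_mul ?_ (exp_cone hw _) (norm_nonneg _)
    (by positivity)) (norm_nonneg _)
  rw [div_le_iff₀ (by linarith), div_eq_inv_mul, mul_assoc |cc|⁻¹, mul_assoc |cc|⁻¹]
  refine mul_le_mul_of_nonneg_left ?_ (inv_nonneg.2 (abs_nonneg cc))
  have h4 := mul_le_mul (pow_le_pow_left₀ (norm_nonneg _) h2 2) h3 (norm_nonneg _) (by norm_num)
  have h5 := mul_le_mul_of_nonneg_left h1 (by positivity : 0 ≤ δ * ‖ζ‖ + 2 * ‖op‖)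
  have h6 : 0 ≤ δ * ‖ζ‖ + 2 * ‖op‖ := by positivity
  linarith

end cone

theorem conj_sqrt {z : ℂ} (h : z ∈ slitPlane) : conj (Complex.sqrt z) = Complex.sqrt (conj z) := by
  have h1 := Complex.conj_cpow z 2⁻¹ (Complex.slitPlane_arg_ne_pi h)
  rw [map_inv₀, map_ofNat] at h1
  exact h1.symm

theorem conj_rh (a ζ : ℂ) : conj (rh a ζ) = rh (conj a) (conj ζ) := by
  simp only [rh, map_add, map_mul, map_sub, map_ofNat]

theorem conj_Dc (a ζ y yt op : ℂ) :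
    conj (Dc a ζ y yt op) = Dc (conj a) (conj ζ) (conj y) (conj yt) (conj op) := by
  simp only [Dc, map_cylD, map_inv₀, map_mul, map_div₀, map_ofNat, conj_rh]

end Lag

open Lag

theorem cylOk_of_admP {c K T : ℝ} {a : ℂ} {γ : Path} {j : EJ} (hc : 0 < c) (hK : 128 ≤ K)
    (h : AdmP c K T a γ) (ha : ‖a‖ ≤ 1 / 128) (hj : ‖j‖ ≤ 1 / 100) : γ.CylOk a j where
  big := ⟨K, by linarith, h.big⟩
  slit := h.slit hc (by linarith)
  D t _ := TrP.Dc_near ha (hK.trans (h.big t)) ((norm_ev_le _ _ _).trans (j.norm_y_le.trans hj))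
    ((norm_ev_le _ _ _).trans (j.norm_yt_le.trans hj))
    ((norm_ev_le _ _ _).trans (j.norm_op_le.trans hj))

namespace Path

section cyl
variable {γ : Path} {a : ℂ} {j : EJ}

theorem FCyl_eq : γ.FCyl a j = γ.FCI a j 0 1 := rfl

theorem tailF_eq (t₀ : ℝ) : tailF a γ j t₀ = γ.FCI a j t₀ 1 := rfl

theorem FCI_self (t : ℝ) : γ.FCI a j t t = 0 := intervalIntegral.integral_same

theorem CylOk.FCI_add (hk : γ.CylOk a j) (t₀ t₁ t₂ : ℝ) :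
    γ.FCI a j t₀ t₁ + γ.FCI a j t₁ t₂ = γ.FCI a j t₀ t₂ :=
  have h := γ.g.continuous.mul (cont_int hk.cont_lag)
  intervalIntegral.integral_add_adjacent_intervals (h.intervalIntegrable _ _)
    (h.intervalIntegrable _ _)

theorem CylOk.FluxCyl_add (hk : γ.CylOk a j) (t : ℝ) (da da' : ℂ) (dy dy' : WB) :
    γ.FluxCyl a j t (da + da') (dy + dy') = γ.FluxCyl a j t da dy + γ.FluxCyl a j t da' dy' := by
  refine Eq.trans (intervalIntegral.integral_congr fun θ _ => ?_) (intervalIntegral.integral_add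
    (((hk.cont_flux da dy).comp (Continuous.prodMk_right t)).intervalIntegrable _ _)
    (((hk.cont_flux da' dy').comp (Continuous.prodMk_right t)).intervalIntegrable _ _))
  simp only [fluxCyl, ev_add]
  ring

theorem FluxCyl_smul (t : ℝ) (z da : ℂ) (dy : WB) :
    γ.FluxCyl a j t (z * da) (z • dy) = z * γ.FluxCyl a j t da dy := by
  rw [FluxCyl, FluxCyl, ← intervalIntegral.integral_const_mul]
  refine intervalIntegral.integral_congr fun θ _ => ?_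
  simp only [fluxCyl, ev_smul]
  ring

theorem CylOk.norm_FluxCyl (hk : γ.CylOk a j) (hy : ‖j.y2‖ ≤ 1 / 100) (t : ℝ) (da : ℂ) (dy : WB) :
    ‖γ.FluxCyl a j t da dy‖ ≤ 21 * √(‖rh a (γ.ze t)‖ / ‖γ.ze t‖) *
      (‖tr t j.op‖ + ‖a * γ.ze t‖) * Real.exp (‖rh a (γ.ze t)‖ / 3 - (γ.ze t).re / 4) *
      (‖tr t dy‖ + ‖(γ.ze t - 2) * da / rh a (γ.ze t)‖) := by
  refine (norm_int_le fun θ => (norm_fluxCyl (hk.ze_ne t) (hk.D t θ)
    ((norm_ev_le _ _ _).trans (j.norm_y_le'.trans hy)) da _).trans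
    (b := _) (c := 3 * √(‖rh a (γ.ze t)‖ / ‖γ.ze t‖) * (‖tr t j.op‖ + ‖a * γ.ze t‖) *
      Real.exp (‖rh a (γ.ze t)‖ / 3 - (γ.ze t).re / 4) *
      (‖tr t dy‖ + ‖(γ.ze t - 2) * da / rh a (γ.ze t)‖)) ?_).trans_eq (by ring)
  gcongr <;> exact ev_le_tr _ _ _

theorem CylOk.norm_TqCyl (hk : γ.CylOk a j) (hy : ‖j.y2‖ ≤ 1 / 100) (t : ℝ) (α : C3) :
    ‖TqCyl γ a j t α‖ ≤ 49 * (‖rh a (γ.ze t)‖ + (‖tr t j.op‖ + ‖a * γ.ze t‖) *
      (1 + √(‖rh a (γ.ze t)‖ / ‖γ.ze t‖))) *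
      Real.exp (‖rh a (γ.ze t)‖ / 3 - (γ.ze t).re / 4) * ‖α‖ := by
  refine (norm_int_le fun θ => (norm_tqCyl (hk.ze_ne t) (hk.rh_ne t) (hk.D t θ)
    ((norm_ev_le _ _ _).trans (j.norm_y_le'.trans hy))
    ((norm_ev_le _ _ _).trans (j.norm_yt_le'.trans hy)) θ α).trans
    (b := _) (c := 7 * (‖rh a (γ.ze t)‖ + (‖tr t j.op‖ + ‖a * γ.ze t‖) *
      (1 + √(‖rh a (γ.ze t)‖ / ‖γ.ze t‖))) *
      Real.exp (‖rh a (γ.ze t)‖ / 3 - (γ.ze t).re / 4) * ‖α‖) ?_).trans_eq (by ring)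
  gcongr
  exact ev_le_tr _ _ _

theorem CylOk.norm_FCI (hk : γ.CylOk a j) (hy : ‖j.y2‖ ≤ 1 / 100) {t₀ t₁ M : ℝ} (ht : t₀ ≤ t₁)
    (hM : ∀ t ∈ Icc t₀ t₁, √(‖rh a (γ.ze t)‖ / ‖γ.ze t‖) * Real.exp (‖rh a (γ.ze t)‖ / 3) ≤ M) :
    ‖γ.FCI a j t₀ t₁‖ ≤ 7 * M * ∫ t in t₀..t₁, ‖γ.g t‖ * Real.exp (-((γ.ze t).re / 4)) := by
  rw [← intervalIntegral.integral_const_mul]
  refine intervalIntegral.norm_integral_le_of_norm_le ht (Eventually.of_forall fun t ht => ?_)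
    (Continuous.intervalIntegrable (by fun_prop) _ _)
  rw [norm_mul, mul_left_comm]
  refine mul_le_mul_of_nonneg_left ((norm_int_le fun θ => norm_lagCyl (hk.ze_ne t) (hk.D t θ)
    ((norm_ev_le _ _ _).trans (j.norm_y_le'.trans hy))).trans ?_) (norm_nonneg _)
  rw [sub_eq_add_neg, Real.exp_add, ← mul_assoc (√_), mul_assoc 7]
  gcongr
  exact hM t ⟨ht.1.le, ht.2⟩

/-- the area beyond a point of an admissible path -/
theorem CylOk.norm_FCI_adm (hk : γ.CylOk a j) (hy : ‖j.y2‖ ≤ 1 / 100) {c K T : ℝ} (hc : 0 < c)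
    (h : AdmP c K T a γ) {t₀ t₁ M : ℝ} (ht : t₀ ≤ t₁)
    (hM : ∀ t ∈ Icc t₀ t₁, √(‖rh a (γ.ze t)‖ / ‖γ.ze t‖) * Real.exp (‖rh a (γ.ze t)‖ / 3) ≤ M) :
    ‖γ.FCI a j t₀ t₁‖ ≤ 28 / c * M * Real.exp (-((γ.ze t₀).re / 4)) := by
  have h0 : 0 ≤ M := le_trans (by positivity) (hM t₀ ⟨le_rfl, ht⟩)
  refine (hk.norm_FCI hy ht hM).trans ((mul_le_mul_of_nonneg_left (h.int_exp hc ht)
    (by positivity)).trans_eq (by ring))

theorem CylOk.conj_lag (hk : γ.CylOk a j) (t θ : ℝ) :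
    conj (lagCyl a (γ.ze t) (ev j.y t θ) (ev j.yt t θ) (ev j.op t θ)) =
      lagCyl (conj a) (γ.cj.ze t) (ev j.cj.y t θ) (ev j.cj.yt t θ) (ev j.cj.op t θ) := by
  simp only [lagCyl, map_mul, map_div₀, conj_sqrt (hk.slit t), conj_sqrt (slit_of_near (hk.D t θ)),
    conj_Dc, conj_rh, ← Complex.exp_conj, map_neg, map_add, map_pow, map_one, map_ofNat, EJ.y_cj,
    EJ.yt_cj, EJ.op_cj, ev_cj]
  rfl

theorem CylOk.conj_FCI (hk : γ.CylOk a j) (t₀ t₁ : ℝ) :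
    conj (γ.FCI a j t₀ t₁) = γ.cj.FCI (conj a) j.cj t₀ t₁ := by
  simp only [FCI, ← intervalIntegral.intervalIntegral_conj, map_mul, hk.conj_lag]
  rfl

theorem CylOk.conj_FluxCyl (hk : γ.CylOk a j) (t : ℝ) (da : ℂ) (dy : WB) :
    conj (γ.FluxCyl a j t da dy) = γ.cj.FluxCyl (conj a) j.cj t (conj da) (W.cj dy) := by
  simp only [FluxCyl, ← intervalIntegral.intervalIntegral_conj, fluxCyl, map_mul, map_div₀,
    conj_sqrt (hk.slit t), conj_sqrt (slit_of_near (hk.D t _)), conj_Dc, conj_rh,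
    ← Complex.exp_conj, map_neg, map_add, map_sub, map_pow, map_one, map_ofNat, EJ.y_cj, EJ.yt_cj,
    EJ.op_cj, ev_cj]
  rfl

theorem CylOk.cj (hk : γ.CylOk a j) : γ.cj.CylOk (conj a) j.cj := by
  have e : ∀ t, γ.cj.ze t * rh (conj a) (γ.cj.ze t) = conj (γ.ze t * rh a (γ.ze t)) := fun t => by
    rw [map_mul, conj_rh]; rfl
  refine ⟨by simpa only [e, Complex.norm_conj] using hk.big, fun t => ?_, fun t θ => ?_⟩
  · rw [e]
    exact (hk.slit t).imp (by simp) (by simp only [conj_im, ne_eq, neg_eq_zero, imp_self])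
  · have h := hk.D t θ
    rw [← Complex.norm_conj, map_sub, conj_Dc, map_one] at h
    simp only [EJ.y_cj, EJ.yt_cj, EJ.op_cj, ev_cj]
    exact h

theorem CylOk.im_FCI (hk : γ.CylOk a j) (hγ : γ.IsRl) (ha : a.im = 0) (hj : j.IsRl) (t₀ t₁ : ℝ) :
    (γ.FCI a j t₀ t₁).im = 0 := by
  rw [← Complex.conj_eq_iff_im, hk.conj_FCI, hγ, hj, Complex.conj_eq_iff_im.2 ha]

end cyl

section cone
variable {γ : Path} {cc δ : ℝ} {ka : WD} {j : EJ}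

theorem FCone_eq : γ.FCone cc ka j = γ.FKI cc ka j 0 1 := rfl

theorem FKI_self (t : ℝ) : γ.FKI cc ka j t t = 0 := intervalIntegral.integral_same

theorem ConeOk.FKI_add (hk : γ.ConeOk cc ka j) (t₀ t₁ t₂ : ℝ) :
    γ.FKI cc ka j t₀ t₁ + γ.FKI cc ka j t₁ t₂ = γ.FKI cc ka j t₀ t₂ :=
  have h := γ.g.continuous.mul (cont_int hk.cont_lag)
  intervalIntegral.integral_add_adjacent_intervals (h.intervalIntegrable _ _)
    (h.intervalIntegrable _ _)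

theorem ConeOk.FluxCone_add (hk : γ.ConeOk cc ka j) (t : ℝ) (dy dy' : WB) :
    γ.FluxCone cc ka j t (dy + dy') = γ.FluxCone cc ka j t dy + γ.FluxCone cc ka j t dy' := by
  refine Eq.trans (intervalIntegral.integral_congr fun θ _ => ?_) (intervalIntegral.integral_add
    (((hk.cont_flux dy).comp (Continuous.prodMk_right t)).intervalIntegrable _ _)
    (((hk.cont_flux dy').comp (Continuous.prodMk_right t)).intervalIntegrable _ _))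
  simp only [fluxCone, ev_add]
  ring

theorem FluxCone_smul (t : ℝ) (z : ℂ) (dy : WB) :
    γ.FluxCone cc ka j t (z • dy) = z * γ.FluxCone cc ka j t dy := by
  rw [FluxCone, FluxCone, ← intervalIntegral.integral_const_mul]
  refine intervalIntegral.integral_congr fun θ _ => ?_
  simp only [fluxCone, ev_smul]
  ring

theorem ConeOk.norm_FluxCone (hk : γ.ConeOk cc ka j) (hy : ‖j.y‖ ≤ δ) (hδ : ‖ka‖ * δ ≤ 1) (t : ℝ)
    (dy : WB) : ‖γ.FluxCone cc ka j t dy‖ ≤ 42 / |cc| * (δ * ‖γ.ze t‖ + 2 * ‖tr t j.op‖) *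
      Real.exp (δ ^ 2 * ‖γ.ze t‖ / 4 - (γ.ze t).re / 4) * ‖tr t dy‖ := by
  have h0 : 0 ≤ δ := (norm_nonneg _).trans hy
  refine (norm_int_le fun θ => (norm_fluxCone (hk.ze_ne t) (hk.D t θ)
    ((norm_ev_le _ _ _).trans hy) ((mul_le_mul_of_nonneg_right (W.norm_sumL_le θ ka) h0).trans hδ)
    _).trans (b := _) (c := 6 / |cc| * (δ * ‖γ.ze t‖ + 2 * ‖tr t j.op‖) *
      Real.exp (δ ^ 2 * ‖γ.ze t‖ / 4 - (γ.ze t).re / 4) * ‖tr t dy‖) ?_).trans_eq (by ring)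
  gcongr <;> exact ev_le_tr _ _ _

theorem ConeOk.norm_FKI (hk : γ.ConeOk cc ka j) (hy : ‖j.y‖ ≤ δ) {t₀ t₁ : ℝ} (ht : t₀ ≤ t₁) :
    ‖γ.FKI cc ka j t₀ t₁‖ ≤
      7 / |cc| * ∫ t in t₀..t₁, ‖γ.g t‖ * Real.exp (δ ^ 2 * ‖γ.ze t‖ / 4 - (γ.ze t).re / 4) := by
  rw [← intervalIntegral.integral_const_mul]
  refine intervalIntegral.norm_integral_le_of_norm_le ht (Eventually.of_forall fun t _ => ?_)
    (Continuous.intervalIntegrable (by fun_prop) _ _)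
  rw [norm_mul, mul_left_comm]
  exact mul_le_mul_of_nonneg_left ((norm_int_le fun θ => norm_lagCone (hk.D t θ)
    ((norm_ev_le _ _ _).trans hy)).trans_eq (by ring)) (norm_nonneg _)

/-- the flux at a point of a real path -/
theorem ConeOk.norm_FluxCone_real (hk : γ.ConeOk cc ka j) {T : ℝ} (hT : 0 ≤ T) (h : γ.RealP T)
    (hy : ‖j.y‖ ≤ δ) (hδ : ‖ka‖ * δ ≤ 1) (hδ' : δ ≤ 1 / 3) (t : ℝ) (dy : WB) :
    ‖γ.FluxCone cc ka j t dy‖ ≤
      42 / |cc| * (15 + 2 * ‖tr t j.op‖) * Real.exp (-((γ.ze t).re / 5)) * ‖tr t dy‖ := by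
  have h0 : 0 ≤ δ := (norm_nonneg _).trans hy
  have h1 : 0 ≤ (γ.ze t).re := hT.trans (h.T_le t)
  refine (hk.norm_FluxCone hy hδ t dy).trans (mul_le_mul_of_nonneg_right ?_ (norm_nonneg _))
  rw [h.norm_ze hT, mul_assoc, mul_assoc]
  refine mul_le_mul_of_nonneg_left ?_ (by positivity)
  generalize (γ.ze t).re = x at *
  have h2 : Real.exp (δ ^ 2 * x / 4 - x / 4) ≤ Real.exp (-(x / 45)) * Real.exp (-(x / 5)) := by
    rw [← Real.exp_add, Real.exp_le_exp]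
    nlinarith [mul_le_mul_of_nonneg_right (pow_le_pow_left₀ h0 hδ' 2) h1]
  have h3 : x / 45 * Real.exp (-(x / 45)) ≤ 1 := by
    rw [Real.exp_neg, mul_inv_le_iff₀ (Real.exp_pos _), one_mul]
    linarith [Real.add_one_le_exp (x / 45)]
  have h4 : Real.exp (-(x / 45)) ≤ 1 := Real.exp_le_one_iff.2 (by linarith)
  refine (mul_le_mul_of_nonneg_left h2 (by positivity)).trans ?_
  rw [← mul_assoc]
  refine mul_le_mul_of_nonneg_right ?_ (Real.exp_pos _).le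
  nlinarith [mul_le_mul_of_nonneg_right hδ' (mul_nonneg h1 (Real.exp_pos (-(x / 45))).le),
    mul_le_mul_of_nonneg_left h4 (norm_nonneg (tr t j.op))]

/-- the area beyond a point of a real path -/
theorem ConeOk.norm_FKI_real (hk : γ.ConeOk cc ka j) {T : ℝ} (hT : 0 ≤ T) (h : γ.RealP T)
    (hy : ‖j.y‖ ≤ 1 / 3) {t₀ t₁ : ℝ} (ht : t₀ ≤ t₁) :
    ‖γ.FKI cc ka j t₀ t₁‖ ≤ 35 / |cc| * Real.exp (-((γ.ze t₀).re / 5)) := by
  have h1 : ∀ t, HasDerivAt (fun t => -5 * Real.exp (-((γ.ze t).re / 5)))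
      ((γ.g t).re * Real.exp (-((γ.ze t).re / 5))) t := fun t =>
    ((((reCLM.hasFDerivAt.comp_hasDerivAt t (h.ok.der t)).div_const 5).fun_neg.exp).const_mul
      (-5)).congr_deriv (by simp only [Function.comp_apply, reCLM_apply]; ring)
  have h2 := intervalIntegral.integral_eq_sub_of_hasDerivAt (a := t₀) (b := t₁) (fun t _ => h1 t)
    (Continuous.intervalIntegrable (by fun_prop) _ _)
  have h3 : ∫ t in t₀..t₁, ‖γ.g t‖ * Real.exp ((1 / 3) ^ 2 * ‖γ.ze t‖ / 4 - (γ.ze t).re / 4) ≤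
      ∫ t in t₀..t₁, (γ.g t).re * Real.exp (-((γ.ze t).re / 5)) := by
    refine intervalIntegral.integral_mono_on ht (Continuous.intervalIntegrable (by fun_prop) _ _)
      (Continuous.intervalIntegrable (by fun_prop) _ _) fun t _ => ?_
    refine mul_le_mul (by linarith [h.dir t]) (Real.exp_le_exp.2 ?_) (Real.exp_pos _).le (h.re t)
    rw [h.norm_ze hT]
    linarith [hT.trans (h.T_le t)]
  refine (hk.norm_FKI hy ht).trans ((mul_le_mul_of_nonneg_left (h3.trans_eq h2)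
    (by positivity)).trans ?_)
  have h4 : 0 ≤ 7 / |cc| * Real.exp (-((γ.ze t₁).re / 5)) := by positivity
  calc _ = 35 / |cc| * Real.exp (-((γ.ze t₀).re / 5)) -
        5 * (7 / |cc| * Real.exp (-((γ.ze t₁).re / 5))) := by ring
    _ ≤ _ := by linarith

theorem ConeOk.conj_FKI (hk : γ.ConeOk cc ka j) (t₀ t₁ : ℝ) :
    conj (γ.FKI cc ka j t₀ t₁) = γ.cj.FKI cc (W.cj ka) j.cj t₀ t₁ := by
  simp only [FKI, ← intervalIntegral.intervalIntegral_conj, lagCone, map_mul, map_div₀,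
    conj_sqrt (slit_of_near (hk.D _ _)), map_coneD, ← Complex.exp_conj, map_neg, map_add, map_pow,
    map_one, map_ofNat, map_inv₀, conj_ofReal, EJ.y_cj, EJ.yt_cj, EJ.op_cj, ev_cj, W.sumL_cj]
  rfl

theorem ConeOk.conj_FluxCone (hk : γ.ConeOk cc ka j) (t : ℝ) (dy : WB) :
    conj (γ.FluxCone cc ka j t dy) = γ.cj.FluxCone cc (W.cj ka) j.cj t (W.cj dy) := by
  simp only [FluxCone, ← intervalIntegral.intervalIntegral_conj, fluxCone, map_mul, map_div₀,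
    conj_sqrt (slit_of_near (hk.D _ _)), map_coneD, ← Complex.exp_conj, map_neg, map_add, map_sub,
    map_pow, map_one, map_ofNat, map_inv₀, conj_ofReal, EJ.y_cj, EJ.yt_cj, EJ.op_cj, ev_cj,
    W.sumL_cj]
  rfl

theorem ConeOk.im_FKI (hk : γ.ConeOk cc ka j) (hγ : γ.IsRl) (ha : W.IsRl ka) (hj : j.IsRl)
    (t₀ t₁ : ℝ) : (γ.FKI cc ka j t₀ t₁).im = 0 := by
  rw [← Complex.conj_eq_iff_im, hk.conj_FKI, hγ, hj, ha]

end cone

end Path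

end Vale.Agent.P218N.End
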