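import Vale.Agent.P218N.J.Spec
import Vale.Agent.P218N.End.Bas

/-! The statements about the end problems which are used by the blocks CORE and GLUE. -/

open Filter Topology Metric Set Complex

noncomputable section

namespace Vale.Agent.P218N.End

open Vale.Agent.P218N.J

/-- the modes prescribed at the start -/
def fwd (s : ℤ → Icc (0 : ℝ) 1) : WD →L[ℂ] WD := mult fun m => if s m = p0 then 1 else 0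
/-- the modes prescribed at the end -/
def bwd (s : ℤ → Icc (0 : ℝ) 1) : WD →L[ℂ] WD := mult fun m => if s m = p0 then 0 else 1
/-- only the mode `0` is prescribed at the end -/
def sdF (m : ℤ) : Icc (0 : ℝ) 1 := if m = 0 then p1 else p0

/-- the weighted norm of a jet, including the fast components -/
def Ctr.nrm (Γ : Ctr) (μ : ℤ → ℝ) (w : BC) (j : EJ) : ℝ := max ‖j.wt w‖ ‖W.C w * Γ.piJ μ j‖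

/-- the size of the data of a problem for the weight `exp ∫ φ` (one at the start): `d₁` slow and `ω`
fast terminal data, `f` source -/
def Ctr.dsz (Γ : Ctr) (s : ℤ → Icc (0 : ℝ) 1) (φ : BC) (d₁ ω : WD) (f : WB) : ℝ :=
  ‖Γ.iW φ p0 1‖ * (‖bwd s d₁‖ + ‖ω‖) + ‖W.C (Γ.iW φ p0) * f‖

/-- `l ds ≤ d log W ≤ h ds + κ dζ` (real parts), `ds = 2 dζ / Ω` -/
def Ctr.WC (Γ : Ctr) (φ : BC) (l h κ : ℝ) : Prop := ∀ t,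
  l * (2 * Γ.g t * Γ.io t).re ≤ (Γ.g t * φ t).re ∧
    (Γ.g t * φ t).re ≤ h * (2 * Γ.g t * Γ.io t).re + κ * (Γ.g t).re

/-- the three types of problems on cylindrical ends with their weights -/
def Ctr.TypW (Γ : Ctr) (s : ℤ → Icc (0 : ℝ) 1) (φ : BC) : Prop :=
  (s = sdCyl ∧ Γ.WC φ (-(19 / 20)) (19 / 40) 0) ∨ (s = sdF ∧ Γ.WC φ (21 / 40) (19 / 20) 0) ∨
    (s = sdAll ∧ Γ.WC φ (21 / 20) 0 (1 / 5))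

/-- real paths starting at `T` -/
structure Path.RealP (γ : Path) (T : ℝ) : Prop where
  ok : γ.Ok
  st : γ.ze 0 = T
  im : ∀ t, (γ.g t).im = 0
  re : ∀ t, 0 ≤ (γ.g t).re

/-- A priori estimate for the difference of two jets near `j₀`. -/
def APfor (Γ : Ctr) (μ : ℤ → ℝ) (s : ℤ → Icc (0 : ℝ) 1) (φ : BC) (E : EJ → WB) (j₀ : EJ)
    (δ C ε A : ℝ) : Prop :=
  ∀ j₁ j₂ : EJ, Γ.IsJet j₁ → Γ.IsJet j₂ → Γ.nrm μ 1 (j₁ - j₀) ≤ δ → Γ.nrm μ 1 (j₂ - j₀) ≤ δ →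
    Γ.nrm μ (Γ.iW φ p0) (j₁ - j₂) ≤ C * (‖fwd s (tr 0 (j₁ - j₂).y2)‖ +
      Γ.dsz s φ (tr 1 (j₁ - j₂).y2) (tr 1 (Γ.piJ μ (j₁ - j₂))) (E j₁ - E j₂)) ∧
    ‖tr 0 (Γ.piJ μ (j₁ - j₂))‖ + ‖bwd s (tr 0 (j₁ - j₂).y2)‖ ≤ ε * ‖fwd s (tr 0 (j₁ - j₂).y2)‖ +
      A * ‖tr 0 (j₁ - j₂).y‖ + C * Γ.dsz s φ (tr 1 (j₁ - j₂).y2) (tr 1 (Γ.piJ μ (j₁ - j₂))) (E j₁ - E j₂)

/-- Existence near a reference jet `j₁ x` (itself near `j₀ x`), holomorphic in the parameter. -/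
def EXfor {X : Type} [NormedAddCommGroup X] [NormedSpace ℂ X] (U : Set X) (Γ : X → Ctr)
    (μ : ℤ → ℝ) (s : ℤ → Icc (0 : ℝ) 1) (φ : X → BC) (E : X → EJ → WB) (j₀ : X → EJ)
    (δ C : ℝ) : Prop :=
  ∀ (j₁ : X → EJ) (f : X → WB) (d₀ d₁ ω : X → WD), DifferentiableOn ℂ j₁ U →
    DifferentiableOn ℂ f U → DifferentiableOn ℂ d₀ U → DifferentiableOn ℂ d₁ U →
    DifferentiableOn ℂ ω U →
    (∀ x ∈ U, (Γ x).IsJet (j₁ x) ∧ (Γ x).nrm μ 1 (j₁ x - j₀ x) ≤ δ / 2 ∧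
      C * ‖(Γ x).Wt (φ x) p0‖ * (‖fwd s (d₀ x)‖ +
        (Γ x).dsz s (φ x) (d₁ x) (ω x) (E x (j₁ x) - f x)) ≤ δ / 2) →
    ∃ v : X → EJ, DifferentiableOn ℂ v U ∧ ∀ x ∈ U, (Γ x).IsJet (v x) ∧
      E x (j₁ x + v x) = f x ∧ fwd s (tr 0 (v x).y2) = fwd s (d₀ x) ∧
      bwd s (tr 1 (v x).y2) = bwd s (d₁ x) ∧ tr 1 ((Γ x).piJ μ (v x)) = ω x ∧
      (Γ x).nrm μ 1 (j₁ x + v x - j₀ x) ≤ δ

/-- the non-symmetric part of a jet -/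
def EJ.ns (j : EJ) : EJ :=
  let π : WB →L[ℂ] WB := mult fun m => if m = 0 then 0 else 1
  (π j.y2, π j.op, π j.oq, π j.pt)

/-- (AP), (EX), (APns) on cylindrical ends -/
def FarCyl : Prop := ∀ c > 0, ∃ C ≥ 1, ∀ ε > 0, ∃ δ₀ > 0, ∃ K₀ : ℝ, ∀ δ, 0 < δ → δ ≤ δ₀ →
  ∀ K, K₀ ≤ K →
  (∀ (T : ℝ) (a : ℂ) (γ : Path) s φ, K ≤ T → ‖a‖ ≤ 1 / K → AdmP c K T a γ → (γ.cyl a).TypW s φ →
    APfor (γ.cyl a) muCyl s φ (γ.Ecyl a) 0 δ C ε 0 ∧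
    ∀ j, γ.IsCyl a j → (γ.cyl a).nrm muCyl 1 j ≤ δ → s = sdF →
      (γ.cyl a).nrm muCyl ((γ.cyl a).iW φ p0) j.ns ≤ C * (‖nsD (tr 0 j.y2)‖ +
        ‖(γ.cyl a).iW φ p0 1‖ * ‖nsD (tr 1 ((γ.cyl a).piJ muCyl j))‖)) ∧
  ∀ (X : Type) [NormedAddCommGroup X] [NormedSpace ℂ X] (U : Set X) (T : X → ℝ) (a : X → ℂ)
    (γ : X → Path) s (φ : X → BC), IsOpen U → DifferentiableOn ℂ a U →
    DifferentiableOn ℂ (fun x => (γ x).ze) U → DifferentiableOn ℂ (fun x => (γ x).g) U →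
    DifferentiableOn ℂ φ U →
    (∀ x ∈ U, K ≤ T x ∧ ‖a x‖ ≤ 1 / K ∧ AdmP c K (T x) (a x) (γ x) ∧
      ((γ x).cyl (a x)).TypW s (φ x)) →
    EXfor U (fun x => (γ x).cyl (a x)) muCyl s φ (fun x => (γ x).Ecyl (a x)) 0 δ C ∧
      ∀ j : X → EJ, DifferentiableOn ℂ j U →
        DifferentiableOn ℂ (fun x => ((γ x).cyl (a x)).piJ muCyl (j x)) U

/-- reference jets on conical ends -/
structure ConeRef (γ : Path) (B δ : ℝ) (j₀ : EJ) : Prop where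
  jet : γ.cone.IsJet j₀
  y2 : ‖j₀.y2‖ ≤ δ
  op : ‖j₀.op‖ ≤ B
  oq : ‖j₀.oq‖ ≤ δ
  pt : ‖W.C γ.ze * j₀.pt‖ ≤ δ

/-- (AP), (EX) on conical ends (fixed real path) -/
def FarCone : Prop := ∀ (cc : ℝ) (ka kd : WD) (B : ℝ), 0 < cc → ∃ C ≥ 1, ∀ ε > 0, ∃ δ₀ > 0,
  ∃ Λ₀ : ℝ, ∀ δ, 0 < δ → δ ≤ δ₀ → ∀ Λ, Λ₀ ≤ Λ → ∃ K₀ : ℝ, ∀ (T : ℝ) (γ : Path) (j₀ : EJ) (φ : BC),
    K₀ ≤ T → γ.RealP T → ConeRef γ B δ₀ j₀ → γ.cone.WC φ Λ 0 (1 / 5) →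
    APfor γ.cone (muCone cc) sdAll φ (γ.Econe cc ka kd) j₀ δ C ε C ∧
    ∀ (X : Type) [NormedAddCommGroup X] [NormedSpace ℂ X] (U : Set X), IsOpen U →
      EXfor U (fun _ => γ.cone) (muCone cc) sdAll (fun _ => φ) (fun _ => γ.Econe cc ka kd)
        (fun _ => j₀) δ C

/-! ### Change of the slope -/

/-- the same function, jets scaled for the slope `a'` instead of `a` -/
def Path.resc (γ : Path) (a a' : ℂ) (j : EJ) : EJ :=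
  (j.y2, W.C (γ.rho a' * binv (γ.rho a)) * j.op, W.C (γ.rho a' * binv (γ.rho a)) * j.oq, j.pt)

/-- `√(ρ₀(a) / ρ₀(a'))` at a point -/
def sgm (a a' ζ : ℂ) : ℂ := Complex.sqrt (rh a ζ / rh a' ζ)

/-- `|a - a'| |ζ - 2| / |ρ₀(a')|` -/
def tht (a a' ζ : ℂ) : ℝ := ‖a - a'‖ * ‖ζ - 2‖ / ‖rh a' ζ‖

/-- the same surface for the slope `a'`: `√ρ₀(a') (1 + y') = √ρ₀(a) (1 + y)` -/
def Path.conv (γ : Path) (a a' : ℂ) (j : EJ) : EJ :=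
  let σ : BC := nem Complex.sqrt (γ.rho a * binv (γ.rho a'))
  let k : BC := γ.rho a' * binv (γ.rho a)
  let η : BC := γ.hh a - γ.hh a'
  let O : BC := (γ.cyl a').Om
  (W.C σ * j.y2 + W.C (σ - 1),
    W.C σ * (W.C k * j.op + W.C (O * η) * (1 + j.y)),
    W.C σ * (W.C k * j.oq + 2 * W.C (η * k) * j.op +
      W.C (O * η * (η - 2 * (γ.hh a + γ.hh a'))) * (1 + j.y)),
    W.C σ * (j.pt + W.C η * j.yt))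

/-- the slow data at a point, for the slope `a'` -/
def cvY (a a' ζ : ℂ) (d : WD) : WD := sgm a a' ζ • d + (sgm a a' ζ - 1) • (1 : WD)

/-- `λ_m` at a point -/
def laP (a ζ : ℂ) (m : ℤ) : ℂ := la ((muCyl m : ℂ) / 2 * (Om a ζ)⁻¹)

/-- `Ω y'` at a point from the slow and fast data -/
def opD (μ : ℤ → ℝ) (O : ℂ) (d π : WD) : WD := mult (fun m => (la ((μ m : ℂ) / 2 * O⁻¹))⁻¹)
  (π - mult (fun m => (μ m : ℂ) / 2 * ((br m : ℝ) : ℂ)⁻¹) d)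

/-- the fast data at a point, for the slope `a'` -/
def cvP (a a' ζ : ℂ) (d π : WD) : WD :=
  let σ := sgm a a' ζ
  let Oη := Om a' ζ * (a / (2 * rh a ζ) - a' / (2 * rh a' ζ))
  mult (fun m => σ * (rh a' ζ / rh a ζ) * (laP a' ζ m / laP a ζ m)) π +
    mult (fun m => σ * ((1 - rh a' ζ / rh a ζ * (laP a' ζ m / laP a ζ m)) * (muCyl m : ℂ) / 2 +
      laP a' ζ m * Oη) * ((br m : ℝ) : ℂ)⁻¹) d +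
    (laP a' ζ 0 * σ * Oη - (σ - 1) / 2) • (1 : WD)

/-- the Gaussian area of the part `[t₀, t₁]` of a cylindrical end -/
def Path.FCI (γ : Path) (a : ℂ) (j : EJ) (t₀ t₁ : ℝ) : ℂ := ∫ t in t₀..t₁, γ.g t *
  ∫ θ in (0 : ℝ)..2 * Real.pi, lagCyl a (γ.ze t) (ev j.y t θ) (ev j.yt t θ) (ev j.op t θ)

/-- `(mean of r² - 2) / (ζ - 2)` -/
def Path.AA (γ : Path) (a : ℂ) (j : EJ) (t : ℝ) : ℂ :=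
  (rh a (γ.ze t) * ((1 + j.y) ^ 2).c 0 t - 2) / (γ.ze t - 2)

/-- (Na): the same function with another slope, on real paths with `|a| ζ ≤ 1/4`. -/
def NaStmt : Prop := ∃ C ≥ 1, ∃ K₀ : ℝ, ∀ (T P : ℝ) (a a' : ℂ) (γ : Path) (j : EJ) (w : BC),
  K₀ ≤ T → γ.RealP T → (∀ t, (γ.ze t).re ≤ P) → ‖a‖ ≤ 1 / (4 * P) → ‖a'‖ ≤ 1 / (4 * P) →
  (γ.cyl a).IsJet j → (γ.cyl a).nrm muCyl 1 j ≤ 1 / 100 →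
  (γ.cyl a').IsJet (γ.resc a a' j) ∧
  (γ.cyl a').nrm muCyl w (γ.resc a a' j) ≤ C * (γ.cyl a).nrm muCyl w j ∧
  ‖W.C w * (γ.Ecyl a' (γ.resc a a' j) - γ.Ecyl a j)‖ ≤ C * ‖a - a'‖ *
    ((γ.cyl a).nrm muCyl (w * γ.ze) j + (‖a‖ + ‖a'‖) * ‖w * γ.ze‖) ∧
  ∀ t, ‖tr t ((γ.cyl a').piJ muCyl (γ.resc a a' j)) - tr t ((γ.cyl a).piJ muCyl j)‖ ≤
    C * ‖a - a'‖ * ‖γ.ze t‖ * (‖tr t ((γ.cyl a).piJ muCyl j)‖ + ‖tr t j.y2‖)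

/-- (Conv): re-expression of a surface for another slope. -/
def ConvStmt : Prop := ∀ c > 0, ∃ C ≥ 1, ∃ K₀ : ℝ, ∀ (K T θ : ℝ) (a a' : ℂ) (γ : Path),
  K₀ ≤ K → K ≤ T → ‖a‖ ≤ 1 / K → ‖a'‖ ≤ 1 / K → AdmP c K T a γ → θ ≤ c / 4 →
  (∀ t, tht a a' (γ.ze t) ≤ θ) →
  AdmP (c / 2) (K / 2) T a' γ ∧ (∀ j, (γ.cyl a).IsJet j →
    (γ.cyl a').IsJet (γ.conv a a' j) ∧
    W.C (γ.rho a') * γ.Ecyl a' (γ.conv a a' j) = W.C (γ.rho a) * γ.Ecyl a j ∧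
    (γ.cyl a').nrm muCyl 1 (γ.conv a a' j) ≤ C * ((γ.cyl a).nrm muCyl 1 j + θ) ∧
    (∀ t, tr t (γ.conv a a' j).y2 = cvY a a' (γ.ze t) (tr t j.y2) ∧
      tr t ((γ.cyl a').piJ muCyl (γ.conv a a' j)) =
        cvP a a' (γ.ze t) (tr t j.y2) (tr t ((γ.cyl a).piJ muCyl j)) ∧
      γ.AA a' (γ.conv a a' j) t = γ.AA a j t ∧ R0v a' γ (γ.conv a a' j) t = R0v a γ j t ∧
      R1v a' γ (γ.conv a a' j) t = R1v a γ j t) ∧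
    ((γ.cyl a).nrm muCyl 1 j ≤ 1 / C → θ ≤ 1 / C →
      ∀ t₀ t₁, γ.FCI a' (γ.conv a a' j) t₀ t₁ = γ.FCI a j t₀ t₁) ∧
    (∀ j' w, (γ.cyl a).IsJet j' → (γ.cyl a').nrm muCyl w (γ.conv a a' j - γ.conv a a' j') ≤
      C * (γ.cyl a).nrm muCyl w (j - j')) ∧
    ∀ a'', (∀ t, tht a' a'' (γ.ze t) ≤ 1 / 4) → γ.conv a' a'' (γ.conv a a' j) = γ.conv a a'' j) ∧
  ∀ P : ℝ, (∀ t, ‖γ.ze t‖ ≤ P) →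
    DifferentiableOn ℂ (fun p : ℂ × EJ => γ.conv p.1 0 p.2) {p | ‖p.1‖ < 1 / (4 * P)}

/-- (Pt): the change of slope at a point. -/
def PtStmt : Prop := ∀ c > 0, ∃ C ≥ 1, ∃ K₀ : ℝ,
  (∀ (K : ℝ) (a a' ζ u : ℂ) (d π : WD), K₀ ≤ K → K ≤ ζ.re → ‖a‖ ≤ 1 / K → ‖a'‖ ≤ 1 / K →
    ‖u‖ = 1 → c ≤ u.re → c * ‖Om a ζ‖ ≤ ((starRingEnd ℂ) u * Om a ζ).re → K ≤ ‖Om a ζ‖ →
    tht a a' ζ ≤ c / 4 →
    ‖cvY a a' ζ d - d‖ ≤ C * tht a a' ζ * (1 + ‖d‖) ∧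
    ‖cvY a a' ζ d - d - ((a - a') * (ζ - 2) / (2 * rh a' ζ)) • (1 : WD)‖ ≤
      C * tht a a' ζ * (tht a a' ζ + ‖d‖) ∧
    ‖cvP a a' ζ d π - π‖ ≤ C * tht a a' ζ * (‖π‖ + ‖d‖ + 1 / K + tht a a' ζ) ∧
    ‖nsD (cvP a a' ζ d π)‖ ≤ C * (‖nsD π‖ + ‖nsD d‖) ∧
    (∀ d' π', ‖cvP a a' ζ d π - cvP a a' ζ d' π' - (π - π')‖ ≤
      C * tht a a' ζ * (‖π - π'‖ + ‖d - d'‖)) ∧
    cvY a' a ζ (cvY a a' ζ d) = d ∧ cvP a' a ζ (cvY a a' ζ d) (cvP a a' ζ d π) = π) ∧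
  ∀ T : ℝ, K₀ ≤ T →
    DifferentiableOn ℂ (fun p : ℂ × WD × WD => cvP p.1 0 T p.2.1 p.2.2) {p | ‖p.1‖ < 1 / (4 * T)} ∧
    DifferentiableOn ℂ (fun p : ℂ × WD => cvY 0 p.1 T p.2) {p | ‖p.1‖ < 1 / (4 * T)} ∧
    DifferentiableOn ℂ (fun p : ℂ × WD => cvY p.1 0 T p.2) {p | ‖p.1‖ < 1 / (4 * T)} ∧
    ∀ (a a' : ℂ) (d π : WD), ‖a‖ < 1 / (8 * T) → ‖a'‖ < 1 / (8 * T) →
      ‖cvP a 0 T d π - cvP a' 0 T d π‖ ≤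
        C * ‖a - a'‖ * (1 + T * (‖π‖ + ‖d‖ + T * (‖a‖ + ‖a'‖))) ∧
      ‖cvY a 0 T d - cvY a' 0 T d - ((a - a') * (T - 2) / 4) • (1 : WD)‖ ≤
        C * ‖a - a'‖ * T * (‖d‖ + T * (‖a‖ + ‖a'‖))

/-! ### Reparametrisation, cut-off, concatenation -/

open Classical in
/-- composition with `φ ∘ cl` -/
def cmpB (φ : ℝ → ℝ) : BC →L[ℂ] BC :=
  if h : Continuous fun t => φ (cl t) then
    BoundedContinuousFunction.compContinuousCLM ℂ ℂ ⟨fun t => φ (cl t), h⟩ else 0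
/-- composition with `φ ∘ cl` -/
def cmpW (φ : ℝ → ℝ) : WB →L[ℂ] WB := W.diag fun _ => cmpB φ
/-- composition with `φ ∘ cl` -/
def EJ.cmp (φ : ℝ → ℝ) (j : EJ) : EJ := (cmpW φ j.y2, cmpW φ j.op, cmpW φ j.oq, cmpW φ j.pt)

/-- `γ'` runs along a part of `γ` -/
structure Sub (φ : ℝ → ℝ) (γ γ' : Path) : Prop where
  cont : ContinuousOn φ (Icc 0 1)
  maps : MapsTo φ (Icc 0 1) (Icc 0 1)
  eq : ∀ t ∈ Icc (0 : ℝ) 1, γ'.ze t = γ.ze (φ t)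

/-- the Gaussian area of the part `[t₀, t₁]` of a conical end -/
def Path.FKI (γ : Path) (cc : ℝ) (ka : WD) (j : EJ) (t₀ t₁ : ℝ) : ℂ := ∫ t in t₀..t₁, γ.g t *
  ∫ θ in (0 : ℝ)..2 * Real.pi,
    lagCone cc (W.sumL θ ka) (γ.ze t) (ev j.y t θ) (ev j.yt t θ) (ev j.op t θ)

/-- (Tr): transfer of jets along a reparametrisation of a part of the path. -/
def TrStmt : Prop := ∀ (φ : ℝ → ℝ) (γ γ' : Path) (c : ℝ), 0 < c → γ.Ok → γ'.Ok → Sub φ γ γ' →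
  (∀ t, c * ‖γ.g t‖ ≤ (γ.g t).re) → (∀ t, 1 ≤ ‖γ.ze t‖) →
  (∀ (f : WB) (t : ℝ), tr t (cmpW φ f) = tr (φ (cl t)) f) ∧
  (∀ (f : WB) (w w' : BC) (A : ℝ), 0 ≤ A → (∀ t ∈ Icc (0 : ℝ) 1, ‖w' t‖ ≤ A * ‖w (φ t)‖) →
    (∀ t, ‖w' t‖ ≤ ‖w' (cl t)‖) → ‖W.C w' * cmpW φ f‖ ≤ A * ‖W.C w * f‖) ∧
  (∀ (j : EJ), (j.cmp φ).y = cmpW φ j.y) ∧
  (∀ (a : ℂ) (K T : ℝ) (j : EJ), 128 / c ≤ K → AdmP c K T a γ → (γ.cyl a).IsJet j →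
    (γ'.cyl a).IsJet (j.cmp φ) ∧ γ'.Ecyl a (j.cmp φ) = cmpW φ (γ.Ecyl a j) ∧
    (γ'.cyl a).piJ muCyl (j.cmp φ) = cmpW φ ((γ.cyl a).piJ muCyl j) ∧
    (‖j‖ ≤ 1 / 100 → ‖W.C (γ.Oh a) * j.pt‖ ≤ 1 → ‖a‖ ≤ 1 / K → K ≤ T →
      ∀ t₀ ∈ Icc (0 : ℝ) 1, ∀ t₁ ∈ Icc (0 : ℝ) 1,
        γ'.FCI a (j.cmp φ) t₀ t₁ = γ.FCI a j (φ t₀) (φ t₁))) ∧
  ∀ (T cc : ℝ) (ka kd : WD) (j : EJ), 1 ≤ T → γ.RealP T → γ.cone.IsJet j →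
    γ'.cone.IsJet (j.cmp φ) ∧ γ'.Econe cc ka kd (j.cmp φ) = cmpW φ (γ.Econe cc ka kd j) ∧
    γ'.cone.piJ (muCone cc) (j.cmp φ) = cmpW φ (γ.cone.piJ (muCone cc) j) ∧
    ((∀ t θ, ‖coneD (W.sumL θ ka) (ev j.y t θ) (ev j.y t θ + 2 * (γ.ze t)⁻¹ * ev j.op t θ)
        (cc * ev j.yt t θ) - 1‖ ≤ 1 / 2) →
      ∀ t₀ ∈ Icc (0 : ℝ) 1, ∀ t₁ ∈ Icc (0 : ℝ) 1,
        γ'.FKI cc ka (j.cmp φ) t₀ t₁ = γ.FKI cc ka j (φ t₀) (φ t₁))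

/-- the path has a real initial part of length at least `P` -/
def Path.Pre (γ : Path) (P : ℝ) : Prop :=
  ∃ t₁ ∈ Icc (0 : ℝ) 1, (∀ t ∈ Icc 0 t₁, (γ.ze t).im = 0) ∧ P ≤ (γ.ze t₁).re

/-- two paths have a common real initial part of length at least `P` -/
def Path.CPre (γ γ' : Path) (P : ℝ) : Prop := ∃ t₁ ∈ Icc (0 : ℝ) 1,
  (∀ t ∈ Icc 0 t₁, (γ.ze t).im = 0 ∧ γ'.ze t = γ.ze t) ∧ P ≤ (γ.ze t₁).re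

/-- (Sub): existence of parametrisations. `sg T Q` is the standard segment. -/
def SubStmt : Prop :=
  (∀ T Q : ℝ, T ≤ Q → (sg T Q).RealP T ∧ (sg T Q).ze 1 = Q) ∧
  (∀ (γ : Path) (T Q : ℝ), γ.RealP T → T < Q → (γ.ze 1).re ≤ Q → ∃ φ, Sub φ (sg T Q) γ ∧ φ 0 = 0) ∧
  (∀ (γ : Path) (c T P Q : ℝ), 0 < c → γ.Ok → γ.ze 0 = T → (∀ t, c * ‖γ.g t‖ ≤ (γ.g t).re) →
    γ.Pre P → T ≤ Q → Q ≤ P →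
    (∃ (φ : ℝ → ℝ) (γ' : Path), γ'.RealP T ∧ γ'.ze 1 = Q ∧ Sub φ γ γ' ∧ φ 0 = 0) ∧
    ∃ (φ : ℝ → ℝ) (γ' : Path), γ'.Ok ∧ γ'.ze 0 = Q ∧ Sub φ γ γ' ∧ φ 1 = 1 ∧
      ∀ t, ∃ r : ℝ, 0 ≤ r ∧ γ'.g t = r * γ.g (φ (cl t)))

/-- (Cut): a real path `clp P γ` which agrees with `γ` up to `3P/4` and stops before `P`, and the
cut-off `cut P γ a` of its jets between `P/2` and `5P/8`. -/
def CutStmt : Prop := ∃ (clp : ℝ → Path → Path) (cut : ℝ → Path → ℂ → EJ → EJ),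
  ∀ c > 0, ∃ C ≥ 1, ∃ K₀ : ℝ, ∀ (K T P : ℝ) (γ : Path), K₀ ≤ K → K ≤ T → 4 * T ≤ P → γ.Ok →
    γ.ze 0 = T → (∀ t, c * ‖γ.g t‖ ≤ (γ.g t).re) → γ.Pre P →
    (clp P γ).RealP T ∧ 3 * P / 4 ≤ ((clp P γ).ze 1).re ∧ ((clp P γ).ze 1).re ≤ P ∧
    (∀ t, (γ.ze t).re ≤ 5 * P / 8 → (clp P γ).ze t = γ.ze t) ∧
    (∀ γ', γ'.Ok → (∀ t, c * ‖γ'.g t‖ ≤ (γ'.g t).re) → γ.CPre γ' P →
      clp P γ' = clp P γ ∧ cut P γ' = cut P γ) ∧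
    DifferentiableOn ℂ (fun p : ℂ × EJ => cut P γ p.1 p.2) {p | ‖p.1‖ < 1 / (4 * P)} ∧
    ∀ (a : ℂ) (j : EJ), ‖a‖ ≤ 1 / (4 * P) → AdmP c K T a γ → ((clp P γ).cyl a).IsJet j →
      (γ.cyl a).IsJet (cut P γ a j) ∧ tr 0 (cut P γ a j).y2 = tr 0 j.y2 ∧
      tr 0 ((γ.cyl a).piJ muCyl (cut P γ a j)) = tr 0 (((clp P γ).cyl a).piJ muCyl j) ∧
      tr 1 (cut P γ a j).y2 = 0 ∧ tr 1 ((γ.cyl a).piJ muCyl (cut P γ a j)) = 0 ∧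
      (∀ (w w' : BC), (∀ t, (γ.ze t).re ≤ 5 * P / 8 → ‖w t‖ ≤ ‖w' t‖) →
        (γ.cyl a).nrm muCyl w (cut P γ a j) ≤ C * ((clp P γ).cyl a).nrm muCyl w' j) ∧
      ((clp P γ).Ecyl a j = 0 → ((clp P γ).cyl a).nrm muCyl 1 j ≤ 1 / C →
        ∀ (w w' : BC) (A B : ℝ), 0 ≤ A → 0 ≤ B →
        (∀ t, P / 2 ≤ (γ.ze t).re → (γ.ze t).re ≤ 5 * P / 8 → ‖w t‖ ≤ A * ‖w' t‖) →
        (∀ t, P / 2 ≤ (γ.ze t).re → ‖w t‖ * ‖a ^ 2 * γ.ze t / rh a (γ.ze t)‖ ≤ B) →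
        ‖W.C w * γ.Ecyl a (cut P γ a j)‖ ≤
          C * (A * ((clp P γ).cyl a).nrm muCyl w' j + B))

/-! ### Weights, the boundary layer, the slope -/

/-- `|ζ / ρ₀|` -/
def uu (a ζ : ℂ) : ℝ := ‖ζ / rh a ζ‖

/-- the weight `(ζ / ρ₀) ^ p` -/
def Path.pw (γ : Path) (a : ℂ) (p : ℝ) : BC := ((p : ℂ) * (2 - 2 * a)) • (γ.cyl a).io

/-- the weight `ζ ^ p` -/
def Path.pz (γ : Path) (p : ℝ) : BC := (p : ℂ) • binv γ.ze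

/-- (W): the weights. -/
def WtStmt : Prop :=
  (∀ c > 0, ∃ K₀ : ℝ, ∀ (K T : ℝ) (a : ℂ) (γ : Path), K₀ ≤ K → K ≤ T → ‖a‖ ≤ 1 / K →
    AdmP c K T a γ →
    (∀ (p : ℝ) (t : ℝ), ‖(γ.cyl a).iW (γ.pw a p) p0 t‖ = (uu a T / uu a (γ.ze t)) ^ p ∧
      ‖(γ.cyl a).Wt (γ.pw a p) p0 t‖ = (uu a (γ.ze t) / uu a T) ^ p) ∧
    Monotone (fun t => uu a (γ.ze t)) ∧ Monotone (fun t => (γ.ze t).re) ∧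
    (∀ t, 0 < uu a (γ.ze t) ∧ 1 / ‖γ.ze t‖ ≤ 1 / uu a (γ.ze t) + ‖a‖ ∧
      ‖a‖ ^ 2 * uu a (γ.ze t) ≤ 20 * (‖a‖ + 1 / ‖γ.ze t‖ + 1 / ‖Om a (γ.ze t)‖)) ∧
    (∀ (κ : ℝ) (t : ℝ), ‖(γ.cyl a).iW ((κ : ℂ) • 1) p0 t‖ = Real.exp (-(κ * ((γ.ze t).re - T))) ∧
      ‖(γ.cyl a).Wt ((κ : ℂ) • 1) p0 t‖ = Real.exp (κ * ((γ.ze t).re - T))) ∧
    (∀ t, Real.exp (-(1 / 8 * ((γ.ze 1).re - (γ.ze t).re))) ≤ uu a (γ.ze t) / uu a (γ.ze 1)) ∧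
    (∀ p ∈ Icc (-(9 / 10) : ℝ) (9 / 20), (γ.cyl a).TypW sdCyl (γ.pw a p)) ∧
    (∀ p ∈ Icc (11 / 20 : ℝ) (9 / 10), (γ.cyl a).TypW sdF (γ.pw a p)) ∧
    (γ.cyl a).TypW sdAll (((1 / 8 : ℝ) : ℂ) • 1) ∧
    ∀ (j : EJ) (N : ℝ), (γ.cyl a).IsJet j →
      ‖W.C ((γ.cyl a).iW (((1 / 8 : ℝ) : ℂ) • 1) p0) * j.op‖ ≤ N →
      ‖j.y2.c 0 1 - j.y2.c 0 0‖ ≤ 20 / c * N * Real.exp (1 / 8 * ((γ.ze 1).re - T)) /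
        ‖Om a (γ.ze 1)‖) ∧
  ∀ (Λ : ℝ), 0 ≤ Λ → ∃ K₀ : ℝ, ∀ (T : ℝ) (γ : Path), K₀ ≤ T → γ.RealP T →
    (∀ p ∈ Icc (0 : ℝ) 3, γ.cone.WC (((2 * Λ : ℝ) : ℂ) • γ.cone.io + γ.pz p) Λ 0 (1 / 5) ∧ ∀ t,
      ‖γ.cone.iW (((2 * Λ : ℝ) : ℂ) • γ.cone.io + γ.pz p) p0 t‖ ≤ (T / (γ.ze t).re) ^ p ∧
      ‖γ.cone.Wt (((2 * Λ : ℝ) : ℂ) • γ.cone.io + γ.pz p) p0 t‖ ≤ 2 * ((γ.ze t).re / T) ^ p) ∧
    γ.cone.WC (((1 / 8 : ℝ) : ℂ) • 1) Λ 0 (1 / 5) ∧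
    ∀ (κ : ℝ) (t : ℝ), ‖γ.cone.iW ((κ : ℂ) • 1) p0 t‖ = Real.exp (-(κ * ((γ.ze t).re - T))) ∧
      ‖γ.cone.Wt ((κ : ℂ) • 1) p0 t‖ = Real.exp (κ * ((γ.ze t).re - T))

/-- the size of a jet at a point of the path -/
def ptN (Γ : Ctr) (μ : ℤ → ℝ) (j : EJ) (t : ℝ) : ℝ :=
  ‖tr t j.y2‖ + ‖tr t j.op‖ + ‖tr t j.oq‖ + ‖tr t j.pt‖ + ‖tr t (Γ.piJ μ j)‖

/-- (AS0): transfer of the slope along a path. -/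
def As0Stmt : Prop := ∀ c > 0, ∃ C ≥ 1, ∃ K₀ : ℝ, ∀ (K T m₁ m₂ : ℝ) (a : ℂ) (γ : Path) (j : EJ),
  K₀ ≤ K → K ≤ T → ‖a‖ ≤ 1 / K → AdmP c K T a γ → γ.IsCyl a j → 0 ≤ m₁ → 0 ≤ m₂ →
  m₁ + m₂ ≤ 1 / C →
  (∀ t ∈ Icc (0 : ℝ) 1, ptN (γ.cyl a) muCyl j t ≤ m₁ * (uu a T / uu a (γ.ze t)) ^ (4 / 5 : ℝ) +
    m₂ * (uu a (γ.ze t) / uu a (γ.ze 1)) ^ (11 / 20 : ℝ)) →
  let u₀ := uu a T
  let u₁ := uu a (γ.ze 1)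
  ‖γ.AA a j 1 - γ.AA a j 0 + a ^ 2 * (sE a (γ.ze 1) - sE a T)‖ ≤
    C * (m₁ ^ 2 / u₀ + m₂ ^ 2 / u₁ + m₁ * (‖a‖ + 1 / u₀) ^ 2 +
      m₂ * ((‖a‖ + 1 / u₁) ^ 2 + (u₀ / u₁) ^ (11 / 20 : ℝ) * (1 / u₀) * (‖a‖ + 1 / u₀)) +
      ‖a‖ ^ 2 * (1 / u₀ + ‖a‖ * (1 + Real.log (u₁ / u₀)) + ‖a‖ ^ 2 * u₁))

/-! ### Fluxes at a point, concatenation, the real ends -/

/-- the flux through `ζ` in terms of the data at that point -/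
def flC (a ζ : ℂ) (d π : WD) (da : ℂ) (dd : WD) : ℂ := ∫ θ in (0 : ℝ)..2 * Real.pi,
  fluxCyl a ζ (W.sumL θ (mult (fun m => ((br m : ℝ) : ℂ)⁻¹) d))
    (W.sumL θ (mult (fun m => m * I * ((br m : ℝ) : ℂ)⁻¹) d))
    (W.sumL θ (opD muCyl (Om a ζ) d π)) da (W.sumL θ (mult (fun m => ((br m : ℝ) : ℂ)⁻¹) dd))

/-- the flux through `ζ` in terms of the data at that point -/
def flK (cc : ℝ) (ka : WD) (ζ : ℂ) (d π dd : WD) : ℂ := ∫ θ in (0 : ℝ)..2 * Real.pi,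
  fluxCone cc (W.sumL θ ka) ζ (W.sumL θ (mult (fun m => ((br m : ℝ) : ℂ)⁻¹) d))
    (W.sumL θ (mult (fun m => m * I * ((br m : ℝ) : ℂ)⁻¹) d))
    (W.sumL θ (opD (muCone cc) (ζ * ζ) d π)) (W.sumL θ (mult (fun m => ((br m : ℝ) : ℂ)⁻¹) dd))

/-- (Fl): the fluxes only depend on the data at the point, and not on the slope. -/
def FlStmt : Prop :=
  (∀ (c K T : ℝ) (a da : ℂ) (γ : Path) (j dj : EJ) (t : ℝ), 0 < c → 128 / c ≤ K → AdmP c K T a γ →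
    (γ.cyl a).IsJet j → γ.FluxCyl a j t da dj.y =
      flC a (γ.ze t) (tr t j.y2) (tr t ((γ.cyl a).piJ muCyl j)) da (tr t dj.y2)) ∧
  (∀ (T cc : ℝ) (ka : WD) (γ : Path) (j dj : EJ) (t : ℝ), 1 ≤ T → γ.RealP T → γ.cone.IsJet j →
    γ.FluxCone cc ka j t dj.y =
      flK cc ka (γ.ze t) (tr t j.y2) (tr t (γ.cone.piJ (muCone cc) j)) (tr t dj.y2)) ∧
  ∃ K₀ : ℝ, ∀ (T : ℝ) (a da : ℂ) (d π dd : WD), K₀ ≤ T → ‖a‖ < 1 / (100 * T) → ‖d‖ ≤ 1 / K₀ →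
    ‖π‖ ≤ 1 / K₀ → flC a T d π da dd = flC 0 T (cvY a 0 T d) (cvP a 0 T d π) 0
      (fderiv ℂ (fun p : ℂ × WD => cvY p.1 0 T p.2) (a, d) (da, dd))

/-- The jets of the real cylindrical end `r = √2 (1 + v (z, θ))`. -/
structure CylEnd (v : ℝ × ℝ → ℝ) (jS : Path → EJ) (dS πS : ℝ → WD) (Z C : ℝ) : Prop where
  sol : ∀ (T : ℝ) (γ : Path), Z ≤ T → γ.RealP T → γ.IsCyl 0 (jS γ)
  ev_y : ∀ (T : ℝ) (γ : Path), Z ≤ T → γ.RealP T → ∀ t θ, ev (jS γ).y t θ = v (√(γ.ze t).re, θ)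
  trs : ∀ (T : ℝ) (γ : Path), Z ≤ T → γ.RealP T → ∀ t, tr t (jS γ).y2 = dS (γ.ze t).re ∧
    tr t ((γ.cyl 0).piJ muCyl (jS γ)) = πS (γ.ze t).re
  dec : ∀ (T : ℝ) (γ : Path), Z ≤ T → γ.RealP T → (γ.cyl 0).nrm muCyl
    ((γ.cyl 0).iW (γ.pw 0 (-(9 / 10))) p0) (jS γ) ≤ C * T ^ (-(9 / 10) : ℝ)
  cmp : ∀ (T T' : ℝ) (γ γ' : Path) φ, Z ≤ T → γ.RealP T → γ'.RealP T' → Sub φ γ γ' → jS γ' = (jS γ).cmp φ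
  real : ∀ (T : ℝ) (γ : Path), Z ≤ T → γ.RealP T → ∀ t θ, (ev (jS γ).y2 t θ).im = 0 ∧ (ev (jS γ).op t θ).im = 0 ∧
    (ev (jS γ).oq t θ).im = 0 ∧ (ev (jS γ).pt t θ).im = 0

/-- The jets of the real conical end `e^s (γ + h (s, θ) n)`. -/
structure ConeEnd (h : ℝ × ℝ → ℝ) (cc : ℝ) (ka kd : WD) (jS : Path → EJ) (dS πS : ℝ → WD)
    (Z B : ℝ) : Prop where
  sol : ∀ (T : ℝ) (γ : Path), Z ≤ T → γ.RealP T → γ.IsCone cc ka kd (jS γ)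
  ev_y : ∀ (T : ℝ) (γ : Path), Z ≤ T → γ.RealP T → ∀ t θ, ev (jS γ).y t θ = h (Real.log (γ.ze t).re / 2, θ)
  trs : ∀ (T : ℝ) (γ : Path), Z ≤ T → γ.RealP T → ∀ t, tr t (jS γ).y2 = dS (γ.ze t).re ∧
    tr t (γ.cone.piJ (muCone cc) (jS γ)) = πS (γ.ze t).re
  ref : ∀ δ > 0, ∃ Z' : ℝ, ∀ (T : ℝ) (γ : Path), Z' ≤ T → γ.RealP T → ConeRef γ B δ (jS γ) ∧
    γ.cone.nrm (muCone cc) 1 (jS γ) ≤ B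
  cmp : ∀ (T T' : ℝ) (γ γ' : Path) φ, Z ≤ T → γ.RealP T → γ'.RealP T' → Sub φ γ γ' → jS γ' = (jS γ).cmp φ
  real : ∀ (T : ℝ) (γ : Path), Z ≤ T → γ.RealP T → ∀ t θ, (ev (jS γ).y2 t θ).im = 0 ∧ (ev (jS γ).op t θ).im = 0 ∧
    (ev (jS γ).oq t θ).im = 0 ∧ (ev (jS γ).pt t θ).im = 0
  kd_eq : ∀ m : ℤ, kd.c m = (cc * (m * I)) * ka.c m
  ka_real : ∀ θ, (W.sumL θ ka).im = 0

end Vale.Agent.P218N.End
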