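import Vale.Agent.P218N.Defs

/-! The shrinker equation in a parametrisation. -/

open Filter Topology
open scoped RealInnerProductSpace ContDiff

noncomputable section

namespace Vale.Agent.P218N.End

open Vale.Agent.P218.H313 Vale.Agent.P218N.H

/-- `adj(g)^{ab} a_ab + det g * a0 / 2` -/
def shrS {K : Type*} [Field K] (g11 g12 g22 a11 a12 a22 a0 : K) : K :=
  g22 * a11 - 2 * g12 * a12 + g11 * a22 + (g11 * g22 - g12 ^ 2) * a0 / 2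

/-- the Gram determinant -/
def gram (X1 X2 : E3) : ℝ := ⟪X1, X1⟫ * ⟪X2, X2⟫ - ⟪X1, X2⟫ ^ 2

/-- `⟨g22 X11 - 2 g12 X12 + g11 X22 + det g X / 2, n⟩` with `g_ab = ⟨X_a, X_b⟩` -/
def shrP (X X1 X2 X11 X12 X22 n : E3) : ℝ :=
  shrS ⟪X1, X1⟫ ⟪X1, X2⟫ ⟪X2, X2⟫ ⟪X11, n⟫ ⟪X12, n⟫ ⟪X22, n⟫ ⟪X, n⟫

theorem shrP_eq (X X1 X2 X11 X12 X22 n : E3) : shrP X X1 X2 X11 X12 X22 n =
    ⟪⟪X2, X2⟫ • X11 - (2 * ⟪X1, X2⟫) • X12 + ⟪X1, X1⟫ • X22 + (gram X1 X2 / 2) • X, n⟫ := by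
  simp only [shrP, shrS, gram, inner_add_left, inner_sub_left, real_inner_smul_left]
  ring

theorem shrP_smul (X X1 X2 X11 X12 X22 n : E3) (c : ℝ) :
    shrP X X1 X2 X11 X12 X22 (c • n) = c * shrP X X1 X2 X11 X12 X22 n := by
  simp only [shrP_eq, real_inner_smul_right]

theorem shrP_map (Q : E3 ≃ₗᵢ[ℝ] E3) (X X1 X2 X11 X12 X22 n : E3) :
    shrP (Q X) (Q X1) (Q X2) (Q X11) (Q X12) (Q X22) (Q n) = shrP X X1 X2 X11 X12 X22 n := by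
  simp only [shrP, LinearIsometryEquiv.inner_map_map]

theorem gram_map (Q : E3 ≃ₗᵢ[ℝ] E3) (X1 X2 : E3) : gram (Q X1) (Q X2) = gram X1 X2 := by
  simp only [gram, LinearIsometryEquiv.inner_map_map]

theorem inner3 (u v : E3) : ⟪u, v⟫ = u 0 * v 0 + u 1 * v 1 + u 2 * v 2 := by
  simp [PiLp.inner_apply, Fin.sum_univ_three, mul_comm]

/-- A vector orthogonal to a frame vanishes. -/
theorem eq_zero_of_orth {X1 X2 n u : E3} (hg : gram X1 X2 ≠ 0) (hn : ⟪n, n⟫ ≠ 0)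
    (h1 : ⟪n, X1⟫ = 0) (h2 : ⟪n, X2⟫ = 0) (u1 : ⟪u, X1⟫ = 0) (u2 : ⟪u, X2⟫ = 0)
    (u3 : ⟪u, n⟫ = 0) : u = 0 := by
  unfold gram at hg
  simp only [inner3] at hg hn h1 h2 u1 u2 u3
  set D := X1 0 * (X2 1 * n 2 - X2 2 * n 1) - X1 1 * (X2 0 * n 2 - X2 2 * n 0) +
    X1 2 * (X2 0 * n 1 - X2 1 * n 0) with hD
  have hD0 : D ≠ 0 := by
    intro h0
    refine mul_ne_zero hg hn ?_
    have e : D ^ 2 = 0 := by rw [h0]; ring
    rw [hD] at e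
    linear_combination e
      + ((X2 0 * X2 0 + X2 1 * X2 1 + X2 2 * X2 2) * (n 0 * X1 0 + n 1 * X1 1 + n 2 * X1 2) -
        2 * (X1 0 * X2 0 + X1 1 * X2 1 + X1 2 * X2 2) * (n 0 * X2 0 + n 1 * X2 1 + n 2 * X2 2)) * h1
      + (X1 0 * X1 0 + X1 1 * X1 1 + X1 2 * X1 2) * (n 0 * X2 0 + n 1 * X2 1 + n 2 * X2 2) * h2
  ext i
  refine (mul_eq_zero.1 (?_ : D * u i = 0)).resolve_left hD0
  rw [hD]
  fin_cases i
  · change _ * u 0 = 0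
    linear_combination (X2 1 * n 2 - X2 2 * n 1) * u1 + (n 1 * X1 2 - n 2 * X1 1) * u2 +
      (X1 1 * X2 2 - X1 2 * X2 1) * u3
  · change _ * u 1 = 0
    linear_combination (X2 2 * n 0 - X2 0 * n 2) * u1 + (n 2 * X1 0 - n 0 * X1 2) * u2 +
      (X1 2 * X2 0 - X1 0 * X2 2) * u3
  · change _ * u 2 = 0
    linear_combination (X2 0 * n 1 - X2 1 * n 0) * u1 + (n 0 * X1 1 - n 1 * X1 0) * u2 +
      (X1 0 * X2 1 - X1 1 * X2 0) * u3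

/-- Normal vectors are multiples of a unit normal. -/
theorem eq_smul_of_orth {X1 X2 ν n : E3} (hg : gram X1 X2 ≠ 0) (hν : ‖ν‖ = 1)
    (h1 : ⟪ν, X1⟫ = 0) (h2 : ⟪ν, X2⟫ = 0) (n1 : ⟪n, X1⟫ = 0) (n2 : ⟪n, X2⟫ = 0) :
    n = ⟪n, ν⟫ • ν := by
  have h0 : ⟪ν, ν⟫ = (1 : ℝ) := by rw [real_inner_self_eq_norm_sq, hν]; norm_num
  refine sub_eq_zero.1 (eq_zero_of_orth hg (h0 ▸ one_ne_zero) h1 h2 ?_ ?_ ?_) <;>
    simp only [inner_sub_left, real_inner_smul_left, h0, h1, h2, n1, n2] <;> ring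

/-- expansion in the frame `X1, X2, ν` -/
theorem frame_expand {X1 X2 ν : E3} (hg : gram X1 X2 ≠ 0) (hν : ‖ν‖ = 1) (h1 : ⟪ν, X1⟫ = 0)
    (h2 : ⟪ν, X2⟫ = 0) (v : E3) : gram X1 X2 • v =
      (⟪X2, X2⟫ * ⟪X1, v⟫ - ⟪X1, X2⟫ * ⟪X2, v⟫) • X1 +
      (⟪X1, X1⟫ * ⟪X2, v⟫ - ⟪X1, X2⟫ * ⟪X1, v⟫) • X2 + (gram X1 X2 * ⟪ν, v⟫) • ν := by
  have h0 : ⟪ν, ν⟫ = (1 : ℝ) := by rw [real_inner_self_eq_norm_sq, hν]; norm_num
  refine sub_eq_zero.1 (eq_zero_of_orth hg (h0 ▸ one_ne_zero) h1 h2 ?_ ?_ ?_) <;>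
    simp only [inner_sub_left, inner_add_left, real_inner_smul_left, h0, h1, h2, gram,
      real_inner_comm v, real_inner_comm ν X1, real_inner_comm ν X2, real_inner_comm X2 X1] <;>
    ring

/-- the trace in the frame `X1, X2, ν` -/
theorem gram_mul_tr {X1 X2 ν : E3} (hg : gram X1 X2 ≠ 0) (hν : ‖ν‖ = 1) (h1 : ⟪ν, X1⟫ = 0)
    (h2 : ⟪ν, X2⟫ = 0) (B : E3 →L[ℝ] E3) : gram X1 X2 * tr B =
      ⟪X2, X2⟫ * ⟪X1, B X1⟫ - ⟪X1, X2⟫ * (⟪X1, B X2⟫ + ⟪X2, B X1⟫) + ⟪X1, X1⟫ * ⟪X2, B X2⟫ +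
        gram X1 X2 * ⟪ν, B ν⟫ := by
  have h : gram X1 X2 • B =
      ⟪X2, X2⟫ • B.comp ((innerSL ℝ X1).smulRight X1) -
      ⟪X1, X2⟫ • B.comp ((innerSL ℝ X2).smulRight X1) +
      ⟪X1, X1⟫ • B.comp ((innerSL ℝ X2).smulRight X2) -
      ⟪X1, X2⟫ • B.comp ((innerSL ℝ X1).smulRight X2) +
      gram X1 X2 • B.comp ((innerSL ℝ ν).smulRight ν) := by
    refine ContinuousLinearMap.ext fun v => ?_
    have := congrArg B (frame_expand hg hν h1 h2 v)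
    simp only [map_add, map_smul] at this
    simp only [add_apply, sub_apply,
      smul_apply, ContinuousLinearMap.comp_apply,
      ContinuousLinearMap.smulRight_apply, innerSL_apply_apply, map_smul, this]
    module
  rw [← tr_smul, h]
  simp only [tr_add, tr_sub, tr_smul, tr_comp_smulRight, innerSL_apply_apply]
  ring

section Param

variable {P : Type*} [NormedAddCommGroup P] [NormedSpace ℝ P] {w : E3 → ℝ} {X : P → E3} {p : P}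

theorem eventually_inner_grad (hw : ContDiff ℝ ∞ w) (hX : ContDiffAt ℝ 2 X p)
    (h0 : ∀ᶠ q in 𝓝 p, w (X q) = 0) (b : P) :
    ∀ᶠ q in 𝓝 p, ⟪grad w (X q), fderiv ℝ X q b⟫ = 0 := by
  have h1 : ∀ᶠ q in 𝓝 p, DifferentiableAt ℝ X q :=
    (hX.eventually (by simp)).mono fun q hq => hq.differentiableAt (by simp)
  filter_upwards [h0.eventually_nhds, h1] with q hq hd
  have h2 : HasFDerivAt (fun q => w (X q)) ((fderiv ℝ w (X q)).comp (fderiv ℝ X q)) q :=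
    ((contDiff_one' hw).differentiable (by simp) _).hasFDerivAt.comp q hd.hasFDerivAt
  have h3 : HasFDerivAt (fun q => w (X q)) (0 : P →L[ℝ] ℝ) q :=
    (hasFDerivAt_const (0 : ℝ) q).congr_of_eventuallyEq hq
  rw [inner_grad]
  exact congrArg (fun L : P →L[ℝ] ℝ => L b) (h2.unique h3)

theorem inner_grad_d1 (hw : ContDiff ℝ ∞ w) (hX : ContDiffAt ℝ 2 X p)
    (h0 : ∀ᶠ q in 𝓝 p, w (X q) = 0) (b : P) : ⟪grad w (X p), fderiv ℝ X p b⟫ = 0 :=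
  (eventually_inner_grad hw hX h0 b).self_of_nhds

theorem inner_nuW_d1 (hw : ContDiff ℝ ∞ w) (hX : ContDiffAt ℝ 2 X p)
    (h0 : ∀ᶠ q in 𝓝 p, w (X q) = 0) (b : P) : ⟪nuW w (X p), fderiv ℝ X p b⟫ = 0 := by
  rw [nuW, real_inner_smul_left, inner_grad_d1 hw hX h0, mul_zero]

theorem inner_grad_d2 (hw : ContDiff ℝ ∞ w) (hX : ContDiffAt ℝ 2 X p)
    (h0 : ∀ᶠ q in 𝓝 p, w (X q) = 0) (a b : P) :
    ⟪fderiv ℝ (fderiv ℝ X) p a b, grad w (X p)⟫ =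
      -⟪fderiv ℝ (grad w) (X p) (fderiv ℝ X p a), fderiv ℝ X p b⟫ := by
  have h1 : HasFDerivAt X (fderiv ℝ X p) p := (hX.differentiableAt (by simp)).hasFDerivAt
  have h2 : HasFDerivAt (fderiv ℝ X) (fderiv ℝ (fderiv ℝ X) p) p :=
    ((hX.fderiv_right (m := 1) (by norm_num)).differentiableAt (by simp)).hasFDerivAt
  have h3 : HasFDerivAt (fun q => grad w (X q)) ((fderiv ℝ (grad w) (X p)).comp (fderiv ℝ X p)) p :=
    ((contDiff_one' (contDiff_grad_top hw)).differentiable (by simp) _).hasFDerivAt.comp p h1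
  have h4 := h3.inner ℝ (h2.clm_apply (hasFDerivAt_const b p))
  have h5 : HasFDerivAt (fun q => ⟪grad w (X q), fderiv ℝ X q b⟫) (0 : P →L[ℝ] ℝ) p :=
    (hasFDerivAt_const (0 : ℝ) p).congr_of_eventuallyEq (eventually_inner_grad hw hX h0 b)
  have h6 := congrArg (fun L : P →L[ℝ] ℝ => L a) (h4.unique h5)
  simp [fderivInnerCLM_apply] at h6
  rw [real_inner_comm]
  linarith

/-- the second fundamental form in a parametrisation -/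
theorem inner_nuW_d2 (hw : ContDiff ℝ ∞ w) (hX : ContDiffAt ℝ 2 X p)
    (h0 : ∀ᶠ q in 𝓝 p, w (X q) = 0) (a b : P) :
    ⟪fderiv ℝ (fderiv ℝ X) p a b, nuW w (X p)⟫ =
      -⟪fderiv ℝ X p b, AW w (X p) (fderiv ℝ X p a)⟫ := by
  rw [nuW, real_inner_smul_right, inner_grad_d2 hw hX h0, AW]
  simp only [smul_apply, ContinuousLinearMap.comp_apply, real_inner_smul_right]
  rw [PW_of_inner (inner_grad_d1 hw hX h0 a), PW, ← inner_perp_left, ← PW,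
    PW_of_inner (inner_grad_d1 hw hX h0 b), real_inner_comm]
  ring

/-- The mean curvature in a parametrisation; `a`, `b` are two directions of the parameter
space. -/
theorem shrP_nuW (hw : ContDiff ℝ ∞ w) (hne : grad w (X p) ≠ 0) (hX : ContDiffAt ℝ 2 X p)
    (h0 : ∀ᶠ q in 𝓝 p, w (X q) = 0) (a b : P)
    (hg : gram (fderiv ℝ X p a) (fderiv ℝ X p b) ≠ 0) :
    shrP (X p) (fderiv ℝ X p a) (fderiv ℝ X p b) (fderiv ℝ (fderiv ℝ X) p a a)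
      (fderiv ℝ (fderiv ℝ X) p a b) (fderiv ℝ (fderiv ℝ X) p b b) (nuW w (X p)) =
      -gram (fderiv ℝ X p a) (fderiv ℝ X p b) * (tr (AW w (X p)) - ⟪X p, nuW w (X p)⟫ / 2) := by
  have h1 := gram_mul_tr hg (norm_nuW hne) (inner_nuW_d1 hw hX h0 a) (inner_nuW_d1 hw hX h0 b)
    (AW w (X p))
  have h2 : AW w (X p) (nuW w (X p)) = 0 := by
    rw [← AW_PW hne, PW, perp_self (norm_nuW hne), map_zero]
  have h3 : ⟪fderiv ℝ X p a, AW w (X p) (fderiv ℝ X p b)⟫ =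
      ⟪fderiv ℝ X p b, AW w (X p) (fderiv ℝ X p a)⟫ := by
    rw [← AW_symm hw, real_inner_comm]
  rw [h2, inner_zero_right, h3] at h1
  unfold shrP shrS
  simp only [inner_nuW_d2 hw hX h0]
  unfold gram at h1 ⊢
  linear_combination h1

/-- The shrinker equation in a parametrisation, for every normal vector `n`. -/
theorem _root_.Vale.Agent.P218N.Shr.shrP_eq_zero (hw : Shr w) (hX : ContDiffAt ℝ 2 X p)
    (h0 : ∀ᶠ q in 𝓝 p, w (X q) = 0) (a b : P)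
    (hg : gram (fderiv ℝ X p a) (fderiv ℝ X p b) ≠ 0) {n : E3} (n1 : ⟪n, fderiv ℝ X p a⟫ = 0)
    (n2 : ⟪n, fderiv ℝ X p b⟫ = 0) :
    shrP (X p) (fderiv ℝ X p a) (fderiv ℝ X p b) (fderiv ℝ (fderiv ℝ X) p a a)
      (fderiv ℝ (fderiv ℝ X) p a b) (fderiv ℝ (fderiv ℝ X) p b b) n = 0 := by
  have hne := hw.ne _ h0.self_of_nhds
  rw [eq_smul_of_orth hg (norm_nuW hne) (inner_nuW_d1 hw.smooth hX h0 a)
    (inner_nuW_d1 hw.smooth hX h0 b) n1 n2, shrP_smul, shrP_nuW hw.smooth hne hX h0 a b hg,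
    hw.eq _ h0.self_of_nhds]
  simp

/-- For every normal vector `n`, without the equation. -/
theorem shrP_normal (hw : ContDiff ℝ ∞ w) (hne : grad w (X p) ≠ 0) (hX : ContDiffAt ℝ 2 X p)
    (h0 : ∀ᶠ q in 𝓝 p, w (X q) = 0) (a b : P)
    (hg : gram (fderiv ℝ X p a) (fderiv ℝ X p b) ≠ 0) {n : E3} (n1 : ⟪n, fderiv ℝ X p a⟫ = 0)
    (n2 : ⟪n, fderiv ℝ X p b⟫ = 0) :
    shrP (X p) (fderiv ℝ X p a) (fderiv ℝ X p b) (fderiv ℝ (fderiv ℝ X) p a a)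
      (fderiv ℝ (fderiv ℝ X) p a b) (fderiv ℝ (fderiv ℝ X) p b b) n =
      -gram (fderiv ℝ X p a) (fderiv ℝ X p b) * ⟪n, nuW w (X p)⟫ *
        (tr (AW w (X p)) - ⟪X p, nuW w (X p)⟫ / 2) := by
  conv_lhs => rw [eq_smul_of_orth hg (norm_nuW hne) (inner_nuW_d1 hw hX h0 a)
    (inner_nuW_d1 hw hX h0 b) n1 n2, shrP_smul, shrP_nuW hw hne hX h0 a b hg]
  ring

end Param

end Vale.Agent.P218N.End
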