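import Vale.Agent.P218N.End.Api
import Vale.Agent.P218N.End.EvR

/-! Further statements about the end problems which are used by the block GLUE. -/

open Filter Topology Metric Set Complex
open scoped ComplexConjugate

noncomputable section

namespace Vale.Agent.P218N.End

open Vale.Agent.P218N.J

/-- the fast data of a jet at a point of a cylindrical end -/
def Path.piC (γ : Path) (a : ℂ) (j : EJ) (t : ℝ) : WD := tr t ((γ.cyl a).piJ muCyl j)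

/-- the fast data of a jet at a point of a conical end -/
def Path.piK (γ : Path) (cc : ℝ) (j : EJ) (t : ℝ) : WD := tr t (γ.cone.piJ (muCone cc) j)

/-- (Pt2): composition and conjugation of the changes of slope at a real point. -/
def Pt2Stmt : Prop := ∀ (T : ℝ) (a a' a'' : ℂ) (d π : WD), 1000 ≤ T → ‖a‖ < 1 / (4 * T) →
  ‖a'‖ < 1 / (4 * T) → ‖a''‖ < 1 / (4 * T) →
  cvY a a T d = d ∧ cvP a a T d π = π ∧ cvY a' a'' T (cvY a a' T d) = cvY a a'' T d ∧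
  cvP a' a'' T (cvY a a' T d) (cvP a a' T d π) = cvP a a'' T d π ∧
  W.cj (cvY a a' T d) = cvY (conj a) (conj a') T (W.cj d) ∧
  W.cj (cvP a a' T d π) = cvP (conj a) (conj a') T (W.cj d) (W.cj π)

/-- (Rp): admissibility and the Gaussian area under reparametrisation. -/
def RpStmt : Prop :=
  (∀ (c K T t₀ : ℝ) (a : ℂ) (γ γ' : Path) (φ : ℝ → ℝ), 0 < c → AdmP c K T a γ → γ'.Ok →
    Rep φ γ γ' t₀ → AdmP c K T a γ') ∧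
  ∀ c > 0, ∃ K₀ : ℝ, ∀ (K T : ℝ) (a : ℂ) (γ γ' : Path) (φ : ℝ → ℝ) (j : EJ), K₀ ≤ K → K ≤ T →
    ‖a‖ ≤ 1 / K → AdmP c K T a γ → γ'.Ok → Sub φ γ γ' → (γ.cyl a).IsJet j → ‖j‖ ≤ 1 / 100 →
    ∀ t₀ ∈ Icc (0 : ℝ) 1, ∀ t₁ ∈ Icc (0 : ℝ) 1,
      γ'.FCI a (j.cmp φ) t₀ t₁ = γ.FCI a j (φ t₀) (φ t₁)

/-- (Cj): conjugation on real paths. -/
def CjStmt : Prop := ∀ (T P : ℝ) (γ : Path) (j : EJ), 1000 ≤ T → γ.RealP T →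
  (∀ a a' : ℂ, (γ.ze 1).re ≤ P → ‖a‖ ≤ 1 / (4 * P) → ‖a'‖ ≤ 1 / (4 * P) →
    ((γ.cyl a).IsJet j → (γ.cyl (conj a)).IsJet j.cj) ∧
    γ.Ecyl (conj a) j.cj = W.cj (γ.Ecyl a j) ∧
    (γ.cyl (conj a)).piJ muCyl j.cj = W.cj ((γ.cyl a).piJ muCyl j) ∧
    (∀ p : ℝ, (γ.cyl (conj a)).nrm muCyl ((γ.cyl (conj a)).iW (γ.pw (conj a) p) p0) j.cj =
      (γ.cyl a).nrm muCyl ((γ.cyl a).iW (γ.pw a p) p0) j) ∧
    (γ.cyl (conj a)).nrm muCyl 1 j.cj = (γ.cyl a).nrm muCyl 1 j ∧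
    γ.resc (conj a) (conj a') j.cj = (γ.resc a a' j).cj ∧
    γ.conv (conj a) (conj a') j.cj = (γ.conv a a' j).cj ∧
    (∀ t, γ.AA (conj a) j.cj t = conj (γ.AA a j t)) ∧
    (‖j‖ ≤ 1 / 100 → ∀ t₀ t₁, γ.FCI (conj a) j.cj t₀ t₁ = conj (γ.FCI a j t₀ t₁))) ∧
  ∀ (cc : ℝ) (ka kd : WD), W.cj ka = ka → W.cj kd = kd →
    (γ.cone.IsJet j → γ.cone.IsJet j.cj) ∧ γ.Econe cc ka kd j.cj = W.cj (γ.Econe cc ka kd j) ∧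
    γ.cone.piJ (muCone cc) j.cj = W.cj (γ.cone.piJ (muCone cc) j) ∧
    γ.cone.nrm (muCone cc) 1 j.cj = γ.cone.nrm (muCone cc) 1 j ∧
    ((∀ t θ, ‖coneD (W.sumL θ ka) (ev j.y t θ) (ev j.y t θ + 2 * (γ.ze t)⁻¹ * ev j.op t θ)
        (cc * ev j.yt t θ) - 1‖ ≤ 1 / 2) →
      ∀ t₀ t₁, γ.FKI cc ka j.cj t₀ t₁ = conj (γ.FKI cc ka j t₀ t₁))

/-- The Gaussian area of cylindrical ends, with the constants `c, C, K`. -/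
def LagC (c C K : ℝ) : Prop := ∀ T : ℝ, K ≤ T →
  (∀ (X : Type) [NormedAddCommGroup X] [NormedSpace ℂ X] (U : Set X) (a : X → ℂ) (γ : X → Path)
    (j : X → EJ), IsOpen U → DifferentiableOn ℂ a U → DifferentiableOn ℂ (fun x => (γ x).ze) U →
    DifferentiableOn ℂ (fun x => (γ x).g) U → DifferentiableOn ℂ j U →
    (∀ x ∈ U, ‖a x‖ ≤ 1 / K ∧ AdmP c K T (a x) (γ x) ∧ ‖j x‖ ≤ 1 / C) →
    ∀ t₀ t₁, DifferentiableOn ℂ (fun x => (γ x).FCI (a x) (j x) t₀ t₁) U) ∧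
  (∀ (X : Type) [NormedAddCommGroup X] [NormedSpace ℂ X] (U : Set X) (a : X → ℂ) (γ : Path)
    (j : X → EJ), IsOpen U → DifferentiableOn ℂ a U → DifferentiableOn ℂ j U →
    (∀ x ∈ U, ‖a x‖ ≤ 1 / K ∧ AdmP c K T (a x) γ ∧ ‖j x‖ ≤ 1 / C ∧ γ.IsCyl (a x) (j x)) →
    ∀ x ∈ U, ∀ v t₀ t₁, fderiv ℂ (fun x => γ.FCI (a x) (j x) t₀ t₁) x v =
      γ.FluxCyl (a x) (j x) t₁ (fderiv ℂ a x v) (fderiv ℂ j x v).y -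
        γ.FluxCyl (a x) (j x) t₀ (fderiv ℂ a x v) (fderiv ℂ j x v).y) ∧
  ∀ (a : ℂ) (γ : Path) (j : EJ) (B : ℝ), ‖a‖ ≤ 1 / K → AdmP c K T a γ → ‖j‖ ≤ 1 / C →
    (∀ t₀ t₁ t₂, γ.FCI a j t₀ t₁ + γ.FCI a j t₁ t₂ = γ.FCI a j t₀ t₂) ∧
    ((∀ t, ‖rh a (γ.ze t)‖ ≤ B) → (∀ t₀ t₁, t₀ ≤ t₁ → ‖γ.FCI a j t₀ t₁‖ ≤
        C * (1 + B) * Real.exp B * Real.exp (-((γ.ze t₀).re / 4))) ∧
      ∀ (t : ℝ) (da : ℂ) (dy : WB), ‖γ.FluxCyl a j t da dy‖ ≤ C * (1 + B) ^ 2 * Real.exp B *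
        Real.exp (-((γ.ze t).re / 4)) * (‖dy‖ + uu a (γ.ze t) * ‖da‖))

/-- The Gaussian area of conical ends, with the constants `B, C`, on real paths from `T`. -/
def LagK (cc : ℝ) (ka kd : WD) (B C T : ℝ) : Prop := ∀ γ : Path, γ.RealP T →
  (∀ (X : Type) [NormedAddCommGroup X] [NormedSpace ℂ X] (U : Set X) (k : X → EJ), IsOpen U →
    DifferentiableOn ℂ k U → (∀ x ∈ U, ‖(k x).y2‖ ≤ 1 / C ∧ ‖(k x).op‖ ≤ B) →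
    (∀ t₀ t₁, DifferentiableOn ℂ (fun x => γ.FKI cc ka (k x) t₀ t₁) U) ∧
    ((∀ x ∈ U, γ.IsCone cc ka kd (k x)) → ∀ x ∈ U, ∀ v t₀ t₁,
      fderiv ℂ (fun x => γ.FKI cc ka (k x) t₀ t₁) x v =
        γ.FluxCone cc ka (k x) t₁ (fderiv ℂ k x v).y -
          γ.FluxCone cc ka (k x) t₀ (fderiv ℂ k x v).y)) ∧
  ∀ k : EJ, ‖k.y2‖ ≤ 1 / C → ‖k.op‖ ≤ B →
    (∀ t θ, ‖coneD (W.sumL θ ka) (ev k.y t θ) (ev k.y t θ + 2 * (γ.ze t)⁻¹ * ev k.op t θ)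
        (cc * ev k.yt t θ) - 1‖ ≤ 1 / 2) ∧
    (∀ t₀ t₁ t₂, γ.FKI cc ka k t₀ t₁ + γ.FKI cc ka k t₁ t₂ = γ.FKI cc ka k t₀ t₂) ∧
    (∀ t₀ t₁, t₀ ≤ t₁ → ‖γ.FKI cc ka k t₀ t₁‖ ≤ C * Real.exp (-((γ.ze t₀).re / 5))) ∧
    ∀ (t : ℝ) (dy : WB), ‖γ.FluxCone cc ka k t dy‖ ≤ C * Real.exp (-((γ.ze t).re / 5)) * ‖dy‖

/-- (Lag): holomorphy, first variation and bounds of the Gaussian area. -/
def LagStmt : Prop :=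
  (∀ c > 0, ∃ C ≥ 1, ∃ K₀ : ℝ, ∀ K, K₀ ≤ K → LagC c C K) ∧
  ∀ (cc : ℝ) (ka kd : WD) (B : ℝ), 0 < cc → (∀ m : ℤ, kd.c m = (cc * (m * I)) * ka.c m) →
    ∃ C ≥ 1, ∃ K₀ : ℝ, ∀ T, K₀ ≤ T → LagK cc ka kd B C T

end Vale.Agent.P218N.End
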