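import Vale.Agent.P218N.End.ApiAsA

/-! Transfer of the slope along a path. -/

open Filter Topology Metric Set Complex

noncomputable section

namespace Vale.Agent.P218N.End

open Vale.Agent.P218N.J AB

namespace As0

variable {c K T N : ℝ} {a : ℂ} {γ : Path} {j : EJ}

/-- `r²` -/
def R0 (γ : Path) (a : ℂ) (j : EJ) : WB := W.C (γ.rho a) * (1 + j.y) ^ 2
/-- `(r²)'` -/
def R1 (γ : Path) (a : ℂ) (j : EJ) : WB :=
  a • (1 + j.y) ^ 2 + 2 * W.C (γ.rho a) * ((1 + j.y) * (γ.cyl a).jP j)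
/-- `(r²)''` -/
def R2 (γ : Path) (a : ℂ) (j : EJ) : WB := (4 * a) • ((1 + j.y) * (γ.cyl a).jP j) +
  2 * W.C (γ.rho a) * ((γ.cyl a).jP j ^ 2 + (1 + j.y) * (γ.cyl a).jQ j)

theorem der0 (ho : γ.Ok) (hj : (γ.cyl a).IsJet j) (t : ℝ) :
    HasDerivAt ((R0 γ a j).c 0) (γ.g t * (R1 γ a j).c 0 t) t := by
  refine der_of_ev (Γ := γ.cyl a) (fun t θ => ?_) 0 t
  simp only [R0, R1, ev_mul, ev_add, ev_pow, ev_C, ev_one, ev_smul, ev_ofNat, rho_apply]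
  refine ((hasDerivAt_rh ho a t).mul (((hj.hasDerivAt_y_t t θ).const_add 1).fun_pow 2)).congr_deriv ?_
  change _ = γ.g t * _
  rw [show (γ.cyl a).g = γ.g from rfl]
  push_cast
  ring

theorem der1 (ho : γ.Ok) (hj : (γ.cyl a).IsJet j) (t : ℝ) :
    HasDerivAt ((R1 γ a j).c 0) (γ.g t * (R2 γ a j).c 0 t) t := by
  refine der_of_ev (Γ := γ.cyl a) (fun t θ => ?_) 0 t
  simp only [R1, R2, ev_mul, ev_add, ev_pow, ev_C, ev_one, ev_smul, ev_ofNat, rho_apply]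
  have h1 := (hj.hasDerivAt_y_t t θ).const_add 1
  refine (((h1.fun_pow 2).const_mul a).add (((hasDerivAt_rh ho a t).const_mul 2).mul
    (h1.fun_mul (hj.hasDerivAt_P_t t θ)))).congr_deriv ?_
  change _ = γ.g t * _
  rw [show (γ.cyl a).g = γ.g from rfl]
  push_cast
  ring

theorem norm_ev_tr (f : WB) (t θ : ℝ) : ‖ev f t θ‖ ≤ ‖tr t f‖ := by
  rw [← sumL_tr]; exact W.norm_sumL_le θ _

theorem norm_ev_mult {σ : ℤ → ℂ} (h : ∀ m, ‖σ m‖ ≤ 1) (f : WB) (t θ : ℝ) :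
    ‖ev (mult σ f) t θ‖ ≤ ‖tr t f‖ := by
  refine (norm_ev_tr _ t θ).trans ?_
  rw [tr_mult h]
  exact (norm_mult_apply_le h _).trans_eq (one_mul _)

theorem ptN_le {Γ : Ctr} {μ : ℤ → ℝ} {t : ℝ} (h : ptN Γ μ j t ≤ N) (θ : ℝ) :
    ‖ev j.y t θ‖ ≤ N ∧ ‖ev j.yt t θ‖ ≤ N ∧ ‖ev j.ytt t θ‖ ≤ N ∧ ‖ev j.op t θ‖ ≤ N ∧
      ‖ev j.oq t θ‖ ≤ N ∧ ‖ev j.pt t θ‖ ≤ N ∧ ‖tr t (Γ.piJ μ j)‖ + ‖tr t j.y2‖ ≤ N := by
  unfold ptN at h
  have h1 := norm_nonneg (tr t j.y2)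
  have h2 := norm_nonneg (tr t j.op)
  have h3 := norm_nonneg (tr t j.oq)
  have h4 := norm_nonneg (tr t j.pt)
  have h5 := norm_nonneg (tr t (Γ.piJ μ j))
  exact ⟨(norm_ev_mult symb_y _ t θ).trans (by linarith),
    (norm_ev_mult symb_yt _ t θ).trans (by linarith),
    (norm_ev_mult symb_ytt _ t θ).trans (by linarith), (norm_ev_tr _ t θ).trans (by linarith),
    (norm_ev_tr _ t θ).trans (by linarith), (norm_ev_tr _ t θ).trans (by linarith), by linarith⟩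

theorem r_le (hc : 0 < c) (hK : 0 < K) (hT : 0 < T) (h : AdmP c K T a γ) {t : ℝ}
    (hN : ptN (γ.cyl a) muCyl j t ≤ N) (hN1 : N ≤ 1) :
    ‖(R1 γ a j).c 0 t - a‖ ≤ 4 * (‖a‖ + ‖γ.ze t‖⁻¹) * N := by
  refine mean_le _ t (-a) (fun θ => hasDerivAt_const θ (0 : ℂ)) continuous_const rfl fun θ => ?_
  obtain ⟨hy, -, -, ho, -⟩ := ptN_le hN θ
  have N0 := (norm_nonneg _).trans hy
  have h1 := rh_ne hK h t
  have e : ev (R1 γ a j) t θ + -a - 0 = a * (ev j.y t θ * (2 + ev j.y t θ)) +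
      2 * (γ.ze t)⁻¹ * ((1 + ev j.y t θ) * ev j.op t θ) := by
    simp only [R1, ev_mul, ev_add, ev_pow, ev_C, ev_one, ev_smul, ev_ofNat, rho_apply, Ctr.ev_jP,
      io_apply hc hK hT h, Om, mul_inv]
    field_simp
    ring
  have M := @norm_mul_le_of_le ℂ _
  rw [e]
  refine (norm_add_le_of_le (M le_rfl (M hy (norm_add_le_of_le n2 (hy.trans hN1))))
    (M (M n2 (norm_inv _).le) (M (norm_add_le_of_le norm_one.le (hy.trans hN1)) ho))).trans ?_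
  nlinarith [mul_nonneg (norm_nonneg a) N0]

theorem e_le (hc : 0 < c) (hK : 128 / c ≤ K) (hT : K ≤ T) (ha : ‖a‖ ≤ 1 / K) (h : AdmP c K T a γ)
    (hj : γ.IsCyl a j) {t : ℝ} (hN : ptN (γ.cyl a) muCyl j t ≤ N) (hN1 : N ≤ 1 / 2) :
    ‖(γ.ze t - 2) * (R1 γ a j).c 0 t - (R0 γ a j).c 0 t - 4 * γ.ze t * (R2 γ a j).c 0 t +
      (2 + 8 * (a / 2 * γ.ze t * (a / 2 * (rh a (γ.ze t))⁻¹)))‖ ≤
      5000 * (N ^ 2 + ‖a / 2 * (rh a (γ.ze t))⁻¹‖ * N +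
        ‖a / 2 * γ.ze t * (a / 2 * (rh a (γ.ze t))⁻¹)‖ * (N + ‖a‖)) := by
  have hK1 : 128 ≤ K := le_trans (by rw [le_div_iff₀ hc]; linarith [c_le_one h]) hK
  have hK0 : 0 < K := by linarith
  have hT0 : 0 < T := by linarith
  have ha1 : ‖a‖ ≤ 1 / 128 := ha.trans (one_div_le_one_div_of_le (by norm_num) hK1)
  obtain ⟨s1, s2, s3, -⟩ := sizes ha1 (hK1.trans (h.big t))
  have hp : ∀ θ, 1 / 2 ≤ ‖1 + ev j.y t θ‖ := fun θ => by
    have h1 := norm_sub_le (1 + ev j.y t θ) (ev j.y t θ)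
    rw [add_sub_cancel_right, norm_one] at h1
    linarith [(ptN_le hN θ).1]
  have hp0 : ∀ θ, 1 + ev j.y t θ ≠ 0 := fun θ => norm_pos_iff.1 (by linarith [hp θ])
  have e0 : (W.C (γ.ze - 2) * R1 γ a j - R0 γ a j - W.C (4 * γ.ze) * R2 γ a j).c 0 t =
      (γ.ze t - 2) * (R1 γ a j).c 0 t - (R0 γ a j).c 0 t - 4 * γ.ze t * (R2 γ a j).c 0 t := by
    simp only [W.c_sub, W.c_C_mul]
    rfl
  rw [← e0]
  refine mean_le _ t _ (fun θ => ((j.hasDerivAt_yt_theta t θ).div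
    ((j.hasDerivAt_y_theta t θ).const_add 1) (hp0 θ)).const_mul 2)
    (continuous_const.mul (Continuous.div (by fun_prop) (by fun_prop) fun θ => pow_ne_zero 2 (hp0 θ)))
    (by have := ev_add_two_pi j.y t 0; have := ev_add_two_pi j.yt t 0; simp_all) fun θ => ?_
  obtain ⟨hy, hs, hw, ho, hq, hτ, hπ⟩ := ptN_le hN θ
  have E := γ.ev_Ecyl a j t θ
  rw [hj.2, ev_zero, binv_ze hc hT0 h, io_apply hc hK0 hT0 h, hh_apply hK0 h, Oh_apply] at E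
  have hot : ‖a / 2 * γ.ze t * ev j.pt t θ‖ ≤ 12 * N := by
    have h1 := (W.norm_sumL_le θ _).trans (norm_smul_pt_cyl hc hK hT0 h hj.1 t zero_le_one s1)
    rw [map_smul, sumL_tr, smul_eq_mul] at h1
    linarith
  have hz := hK1.trans (hT.trans (T_le_norm hc h t))
  refine le_of_eq_of_le (congrArg norm (Eq.trans ?_ (alg (hp0 θ) E.symm)))
    (norm_err_le le_rfl ?_ ?_ le_rfl le_rfl hot hy hs hw ho hq hτ ?_ (by linarith) (by linarith) s2 s3)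
  · have h1 := rh_ne hK0 h t
    have h2 := ze_ne hK0 h t
    have e1 : (γ.ze - 2) t = γ.ze t - 2 := rfl
    have e2 : (4 * γ.ze) t = 4 * γ.ze t := rfl
    have e4 : (γ.ze t - 2) * a = rh a (γ.ze t) - 2 := by unfold rh; ring
    simp only [R0, R1, R2, ev_mul, ev_add, ev_sub, ev_pow, ev_C, ev_one, ev_smul, ev_ofNat, rho_apply,
      Ctr.ev_jP, Ctr.ev_jQ, io_apply hc hK0 hT0 h, Om, mul_inv, e1, e2]
    generalize (ev j.ytt t θ * (1 + ev j.y t θ) - ev j.yt t θ * ev j.yt t θ) /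
      (1 + ev j.y t θ) ^ 2 = D
    field_simp
    linear_combination (4 * γ.ze t * rh a (γ.ze t) * (1 + ev j.y t θ) ^ 2) * e4
  · rw [norm_inv]; exact inv_le_one_of_one_le₀ (by linarith)
  · rw [norm_inv]; exact inv_le_one_of_one_le₀ (by linarith [h.big t])
  · rw [norm_inv]; exact inv_le_of_inv_le₀ two_pos (by linarith [hp θ])

/-- the corrected slope -/
def Phi (γ : Path) (a : ℂ) (j : EJ) (t : ℝ) : ℂ := ((R0 γ a j).c 0 t - 2) / (γ.ze t - 2) +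
  a ^ 2 * sE a (γ.ze t) - 4 * γ.ze t * ((R1 γ a j).c 0 t - a) / (γ.ze t - 2) ^ 2

theorem Phi_eq (γ : Path) (a : ℂ) (j : EJ) (t : ℝ) : Phi γ a j t = γ.AA a j t +
    a ^ 2 * sE a (γ.ze t) - 4 * γ.ze t * ((R1 γ a j).c 0 t - a) / (γ.ze t - 2) ^ 2 := by
  rw [Phi, R0, W.c_C_mul]
  rfl

theorem der_Phi (hc : 0 < c) (hK : 128 / c ≤ K) (hT : K ≤ T) (ha : ‖a‖ ≤ 1 / K)
    (h : AdmP c K T a γ) (hj : γ.IsCyl a j) (t : ℝ) : ∃ D : ℂ, HasDerivAt (Phi γ a j) D t ∧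
      ∀ N, ptN (γ.cyl a) muCyl j t ≤ N → N ≤ 1 / 2 → ‖D‖ ≤
        21000 * GG N ‖a‖ (1 / uu a (γ.ze t)) * (‖γ.g t‖ / ‖Om a (γ.ze t)‖) := by
  have hK1 : 128 ≤ K := le_trans (by rw [le_div_iff₀ hc]; linarith [c_le_one h]) hK
  have hK0 : 0 < K := by linarith
  have hT0 : 0 < T := by linarith
  have ha1 : ‖a‖ ≤ 1 / 128 := ha.trans (one_div_le_one_div_of_le (by norm_num) hK1)
  have hz := hK1.trans (hT.trans (T_le_norm hc h t))
  have h2 : γ.ze t - 2 ≠ 0 := fun h0 => by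
    rw [sub_eq_zero.1 h0, Complex.norm_ofNat] at hz
    linarith
  have hd := (h.ok.der t).sub_const 2
  refine ⟨_, ((((der0 h.ok hj.1 t).sub_const 2).fun_div hd h2).fun_add
    ((hasDerivAt_sE hc hK0 hT0 h t).const_mul (a ^ 2))).fun_sub
    ((((h.ok.der t).const_mul 4).fun_mul ((der1 h.ok hj.1 t).sub_const a)).fun_div (hd.fun_pow 2)
    (pow_ne_zero 2 h2)), fun N hN hN1 => ?_⟩
  have N0 : 0 ≤ N := (norm_nonneg _).trans (ptN_le hN 0).1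
  have h3 := mul_le_mul_of_nonneg_left (der_le hz (Om_ne hK0 h t) N0
    (sizes ha1 (hK1.trans (h.big t))).2.2.2 (r_le hc hK0 hT0 h hN (by linarith))
    (e_le hc hK hT ha h hj hN hN1)) (norm_nonneg (γ.g t))
  rw [← norm_mul] at h3
  refine le_of_eq_of_le (congrArg norm ?_) (h3.trans_eq (by ring))
  have h4 := rh_ne hK0 h t
  have h5 := ze_ne hK0 h t
  unfold Om
  push_cast
  field_simp
  ring

/-- the right hand side of the estimate -/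
def SS (α m₁ m₂ u₀ u₁ : ℝ) : ℝ := m₁ ^ 2 / u₀ + m₂ ^ 2 / u₁ + m₁ * (α + 1 / u₀) ^ 2 +
  m₂ * ((α + 1 / u₁) ^ 2 + (u₀ / u₁) ^ (11 / 20 : ℝ) * (1 / u₀) * (α + 1 / u₀)) +
  α ^ 2 * (1 / u₀ + α * (1 + Real.log (u₁ / u₀)) + α ^ 2 * u₁)

theorem integ {Φ : ℝ → ℂ} {L κ N : ℝ → ℝ} {α m₁ m₂ M : ℝ} (hL : ∀ t, HasDerivAt L (κ t) t)
    (hκ : ∀ t, 0 ≤ κ t) (hα : 0 ≤ α) (h1 : 0 ≤ m₁) (h2 : 0 ≤ m₂) (hM : 0 ≤ M) (N0 : ∀ t, 0 ≤ N t)
    (hN : ∀ t ∈ Icc (0 : ℝ) 1, N t ≤ m₁ * (Real.exp (L 0) / Real.exp (L t)) ^ (4 / 5 : ℝ) +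
      m₂ * (Real.exp (L t) / Real.exp (L 1)) ^ (11 / 20 : ℝ))
    (hΦ : ∀ t, ∃ D, HasDerivAt Φ D t ∧ (t ∈ Icc (0 : ℝ) 1 → N t ≤ m₁ + m₂ →
      ‖D‖ ≤ M * GG (N t) α (1 / Real.exp (L t)) * κ t)) :
    ‖Φ 1 - Φ 0‖ ≤ 20 * M * SS α m₁ m₂ (Real.exp (L 0)) (Real.exp (L 1)) ∧
    ∀ t ∈ Icc (0 : ℝ) 1, N t ≤ m₁ + m₂ ∧
      GG (N t) α (1 / Real.exp (L t)) ≤ 2 * SS α m₁ m₂ (Real.exp (L 0)) (Real.exp (L 1)) := by
  have mono : Monotone L := monotone_of_deriv_nonneg (fun t => (hL t).differentiableAt) fun t => by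
    rw [(hL t).deriv]; exact hκ t
  obtain ⟨x, hx⟩ : ∃ x : ℝ → ℝ, ∀ t, x t = Real.exp ((L 0 - L t) / 20) := ⟨_, fun _ => rfl⟩
  obtain ⟨y, hy⟩ : ∃ y : ℝ → ℝ, ∀ t, y t = Real.exp ((L t - L 1) / 20) := ⟨_, fun _ => rfl⟩
  obtain ⟨q, hq⟩ : ∃ q, q = Real.exp ((L 0 - L 1) / 20) := ⟨_, rfl⟩
  obtain ⟨v, hv⟩ : ∃ v, v = 1 / Real.exp (L 0) := ⟨_, rfl⟩
  have x0 : ∀ t, 0 ≤ x t := fun t => hx t ▸ (Real.exp_pos _).le
  have y0 : ∀ t, 0 ≤ y t := fun t => hy t ▸ (Real.exp_pos _).le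
  have q0 : 0 ≤ q := hq ▸ (Real.exp_pos _).le
  have v0 : 0 ≤ v := by rw [hv]; positivity
  have x1 : ∀ t ∈ Icc (0 : ℝ) 1, x t ≤ 1 := fun t ht =>
    hx t ▸ Real.exp_le_one_iff.2 (by linarith [mono ht.1])
  have y1 : ∀ t ∈ Icc (0 : ℝ) 1, y t ≤ 1 := fun t ht =>
    hy t ▸ Real.exp_le_one_iff.2 (by linarith [mono ht.2])
  have pw : ∀ (s₁ s₂ p : ℝ) (n : ℕ), p = n / 20 →
      (Real.exp s₁ / Real.exp s₂) ^ p = Real.exp ((s₁ - s₂) / 20) ^ n := fun s₁ s₂ p n hp => by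
    rw [← Real.exp_sub, ← Real.exp_mul, ← Real.exp_nat_mul, hp]
    congr 1
    ring
  have e1 : ∀ t, x t * y t = q := fun t => by
    rw [hx, hy, hq, ← Real.exp_add]
    congr 1
    ring
  have e2 : ∀ t, 1 / Real.exp (L t) = v * x t ^ 20 := fun t => by
    rw [hx, hv, ← pw _ _ 1 20 (by norm_num), Real.rpow_one]
    field_simp
  have e3 : x 1 = q := by rw [hx, hq]
  have hN' : ∀ t ∈ Icc (0 : ℝ) 1, N t ≤ m₁ * x t ^ 16 + m₂ * y t ^ 11 := fun t ht => by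
    rw [hx, hy, ← pw _ _ (4 / 5) 16 (by norm_num), ← pw _ _ (11 / 20) 11 (by norm_num)]
    exact hN t ht
  have hN1 : ∀ t ∈ Icc (0 : ℝ) 1, N t ≤ m₁ + m₂ := fun t ht => (hN' t ht).trans (add_le_add
    (mul_le_of_le_one_right h1 (pow_le_one₀ (x0 t) (x1 t ht)))
    (mul_le_of_le_one_right h2 (pow_le_one₀ (y0 t) (y1 t ht))))
  obtain ⟨A, hA⟩ : ∃ A, A = 2 * m₁ ^ 2 * v + m₁ * (α + v) ^ 2 + 2 * m₂ * q ^ 11 * v * (α + v) +
    α ^ 2 * v := ⟨_, rfl⟩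
  obtain ⟨B, hB⟩ : ∃ B, B = 2 * m₂ ^ 2 * (v * q ^ 20) + m₂ * α ^ 2 := ⟨_, rfl⟩
  have A0 : 0 ≤ A := by rw [hA]; positivity
  have B0 : 0 ≤ B := by rw [hB]; positivity
  have hG : ∀ t ∈ Icc (0 : ℝ) 1,
      GG (N t) α (1 / Real.exp (L t)) ≤ A * x t ^ 2 + B * y t ^ 2 + α ^ 3 := fun t ht => by
    rw [e2, hA, hB, ← e1 t]
    exact GG_le (N0 t) hα v0 h1 h2 (x0 t) (x1 t ht) (y0 t) (y1 t ht) (hN' t ht)
  have l0 : 0 ≤ α ^ 3 * (L 1 - L 0) := mul_nonneg (by positivity) (by linarith [mono zero_le_one])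
  have hS : A + B + α ^ 3 + α ^ 3 * (L 1 - L 0) ≤
      2 * SS α m₁ m₂ (Real.exp (L 0)) (Real.exp (L 1)) := by
    rw [SS, pw _ _ (11 / 20) 11 (by norm_num), ← hq, ← Real.exp_sub, Real.log_exp,
      div_eq_mul_one_div (m₁ ^ 2), div_eq_mul_one_div (m₂ ^ 2), ← hv, e2, e3, hA, hB]
    have b1 : m₂ * α ^ 2 ≤ m₂ * (α + v * q ^ 20) ^ 2 := by
      gcongr
      exact le_add_of_nonneg_right (by positivity)
    have b2 : 0 ≤ m₁ * (α + v) ^ 2 := by positivity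
    have b3 : 0 ≤ α ^ 2 * v := by positivity
    have b4 : 0 ≤ α ^ 3 := by positivity
    have b5 : 0 ≤ α ^ 4 * Real.exp (L 1) := by positivity
    have b6 : 0 ≤ m₂ * α ^ 2 := by positivity
    linarith
  refine ⟨?_, fun t ht => ⟨hN1 t ht, (hG t ht).trans ?_⟩⟩
  · choose D hD hD' using hΦ
    have dx : ∀ t, HasDerivAt x (x t * (-κ t / 20)) t := fun t => by
      rw [funext hx]
      exact (((hL t).const_sub _).div_const 20).exp
    have dy : ∀ t, HasDerivAt y (y t * (κ t / 20)) t := fun t => by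
      rw [funext hy]
      exact (((hL t).sub_const _).div_const 20).exp
    have h3 := image_norm_le_of_norm_deriv_right_le_deriv_boundary (f := fun t => Φ t - Φ 0)
      (f' := D) (a := 0) (b := 1)
      (B := fun t => M * (10 * A * (1 - x t ^ 2) + 10 * B * y t ^ 2 + α ^ 3 * (L t - L 0)))
      (B' := fun t => M * (A * x t ^ 2 + B * y t ^ 2 + α ^ 3) * κ t)
      (fun t _ => ((hD t).sub_const _).continuousAt.continuousWithinAt)
      (fun t _ => ((hD t).sub_const _).hasDerivWithinAt)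
      (by rw [sub_self, norm_zero, sub_self, hx, sub_self, zero_div, Real.exp_zero]; positivity)
      (fun t => (((((((dx t).fun_pow 2).const_sub 1).const_mul (10 * A)).fun_add
        (((dy t).fun_pow 2).const_mul (10 * B))).fun_add
        (((hL t).sub_const _).const_mul (α ^ 3))).const_mul M).congr_deriv (by push_cast; ring))
      (fun t ht => (hD' t (Ico_subset_Icc_self ht) (hN1 t (Ico_subset_Icc_self ht))).trans
        (mul_le_mul_of_nonneg_right (mul_le_mul_of_nonneg_left (hG t (Ico_subset_Icc_self ht)) hM)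
          (hκ t))) (right_mem_Icc.2 zero_le_one)
    refine h3.trans ?_
    rw [mul_comm 20 M, mul_assoc M]
    refine mul_le_mul_of_nonneg_left ?_ hM
    have b1 : 0 ≤ A * x 1 ^ 2 := by positivity
    have b2 : B * y 1 ^ 2 ≤ B :=
      mul_le_of_le_one_right B0 (pow_le_one₀ (y0 1) (y1 1 (right_mem_Icc.2 zero_le_one)))
    have b4 : 0 ≤ α ^ 3 := by positivity
    linarith
  · have b1 := mul_le_of_le_one_right A0 (pow_le_one₀ (n := 2) (x0 t) (x1 t ht))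
    have b2 := mul_le_of_le_one_right B0 (pow_le_one₀ (n := 2) (y0 t) (y1 t ht))
    linarith

end As0

open As0 in
theorem as0Stmt : As0Stmt := by
  intro c hc
  have c0 : 0 < 21000 / c := by positivity
  refine ⟨20 * (21000 / c) + 512, by linarith, 128 / c, ?_⟩
  intro K T m₁ m₂ a γ j hK hT ha h hj h1 h2 hm hN u₀ u₁
  have hK1 : 128 ≤ K := le_trans (by rw [le_div_iff₀ hc]; linarith [c_le_one h]) hK
  have hK0 : 0 < K := by linarith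
  have hT0 : 0 < T := by linarith
  have ha1 : ‖a‖ ≤ 1 / 128 := ha.trans (one_div_le_one_div_of_le (by norm_num) hK1)
  have ha2 : ‖a‖ ≤ c / 2 := by
    refine ha.trans ?_
    rw [div_le_iff₀ hc] at hK
    rw [div_le_div_iff₀ hK0 two_pos]
    linarith
  have hm' : m₁ + m₂ ≤ 1 / 2 := hm.trans (one_div_le_one_div_of_le two_pos (by linarith))
  have hu : ∀ t, uu a (γ.ze t) = Real.exp (sE a (γ.ze t)).re := fun t => uu_eq (Om_ne hK0 h t)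
  have hs := speed_le hK0 ha2 h
  have N0 : ∀ t, 0 ≤ ptN (γ.cyl a) muCyl j t := fun t => by unfold ptN; positivity
  obtain ⟨b1, b2⟩ := integ (Φ := Phi γ a j) (L := fun t => (sE a (γ.ze t)).re)
    (fun t => Complex.reCLM.hasFDerivAt.comp_hasDerivAt t (hasDerivAt_sE hc hK0 hT0 h t))
    (fun t => le_trans (by positivity) (hs t)) (norm_nonneg a) h1 h2 c0.le N0
    (fun t ht => by simpa only [← hu, ← h.st] using hN t ht) fun t => by
      obtain ⟨D, hD, hD'⟩ := der_Phi hc hK hT ha h hj t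
      refine ⟨D, hD, fun _ h3 => (hD' _ le_rfl (h3.trans hm')).trans ?_⟩
      have G0 : 0 ≤ GG (ptN (γ.cyl a) muCyl j t) ‖a‖ (1 / uu a (γ.ze t)) := by
        have := N0 t
        rw [hu, GG]
        positivity
      rw [← hu]
      refine le_of_eq_of_le ?_ (mul_le_mul_of_nonneg_left (hs t) (mul_nonneg c0.le G0))
      field_simp
  have b3 : ∀ t ∈ Icc (0 : ℝ) 1, ‖4 * γ.ze t * ((R1 γ a j).c 0 t - a) / (γ.ze t - 2) ^ 2‖ ≤
      128 * (2 * SS ‖a‖ m₁ m₂ (Real.exp (sE a (γ.ze 0)).re) (Real.exp (sE a (γ.ze 1)).re)) :=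
    fun t ht => by
    refine (bdry_le (hK1.trans (hT.trans (T_le_norm hc h t))) (N0 t) (by rw [hu]; positivity)
      (sizes ha1 (hK1.trans (h.big t))).2.2.2
      (r_le hc hK0 hT0 h le_rfl (by linarith [(b2 t ht).1]))).trans ?_
    rw [hu]
    exact mul_le_mul_of_nonneg_left (b2 t ht).2 (by norm_num)
  have b4 := norm_sub_le_of_le (norm_add_le_of_le b1 (b3 1 (right_mem_Icc.2 zero_le_one)))
    (b3 0 (left_mem_Icc.2 zero_le_one))
  rw [Phi_eq, Phi_eq, ← hu, ← hu] at b4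
  refine le_of_eq_of_le (congrArg norm ?_) (b4.trans_eq ?_)
  · rw [← h.st]
    ring
  · rw [h.st]
    change _ = _ * SS ‖a‖ m₁ m₂ (uu a T) (uu a (γ.ze 1))
    ring

end Vale.Agent.P218N.End
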