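import Vale.Agent.P218N.End.ApiAB

/-! Transfer of the slope along a path: estimates at a point. -/

open Filter Topology Metric Set Complex

noncomputable section

namespace Vale.Agent.P218N.End

open Vale.Agent.P218N.J

namespace As0

/-! ### The equation at a point -/

/-- the error term of the equation for `r²` -/
def err (a iz io h k ot y s w o q τ ip : ℂ) : ℂ :=
  let p := 1 + y
  let B1 := io * (o * o) + 2 * h * o * p + k * (y * (2 + y))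
  let B := B1 + k
  2 * (s * s * (ip * ip)) - 8 * B1 - 8 * (B * (p * o + a * (p * p) - y * (2 + y))) +
    8 * (B * (w * ip)) + 2 * (s * (s * p * (4 * q + 8 * h * o - 4 * k * p + 2 * iz * o + a * p) -
      8 * p * (o * τ + o * h * s + p * ot + p * k * s) - 2 * s + s * p * (p - a * p - o)) *
      (ip * ip))

theorem alg {a iz io h Oh y s w o q τ : ℂ} (hp : 1 + y ≠ 0)
    (E : cylE a iz io h Oh y s w o q τ = 0) :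
    2 - 2 * (1 + y) ^ 2 + 2 * (1 + y) * o - 4 * (1 + y) * iz * o -
      4 * (8 * h * (1 + y) * o + 2 * io * o ^ 2 + 2 * (1 + y) * q) + 8 * (Oh * h) -
      2 * ((w * (1 + y) - s * s) / (1 + y) ^ 2) =
      err a iz io h (Oh * h) (Oh * τ) y s w o q τ (1 + y)⁻¹ := by
  unfold cylE cylD cylB at E
  unfold err
  field_simp
  linear_combination (-2) * E

theorem n2 : ‖(2 : ℂ)‖ ≤ 2 := by simp
theorem n4 : ‖(4 : ℂ)‖ ≤ 4 := by simp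
theorem n8 : ‖(8 : ℂ)‖ ≤ 8 := by simp

theorem norm_err_le {a iz io h k ot y s w o q τ ip : ℂ} {N α η β : ℝ} (ha : ‖a‖ ≤ α)
    (hiz : ‖iz‖ ≤ 1) (hio : ‖io‖ ≤ 1) (hh : ‖h‖ ≤ η) (hk : ‖k‖ ≤ β) (hot : ‖ot‖ ≤ 12 * N)
    (hy : ‖y‖ ≤ N) (hs : ‖s‖ ≤ N) (hw : ‖w‖ ≤ N) (ho : ‖o‖ ≤ N) (hq : ‖q‖ ≤ N) (hτ : ‖τ‖ ≤ N)
    (hip : ‖ip‖ ≤ 2) (hN : N ≤ 1) (hα : α ≤ 1) (hη : η ≤ 1) (hβ : β ≤ 1) :
    ‖err a iz io h k ot y s w o q τ ip‖ ≤ 5000 * (N ^ 2 + η * N + β * (N + α)) := by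
  have N0 : 0 ≤ N := (norm_nonneg _).trans hy
  have α0 : 0 ≤ α := (norm_nonneg _).trans ha
  have η0 : 0 ≤ η := (norm_nonneg _).trans hh
  have β0 : 0 ≤ β := (norm_nonneg _).trans hk
  have hp : ‖1 + y‖ ≤ 2 := (norm_add_le _ _).trans (by rw [norm_one]; linarith)
  have h2y : ‖2 + y‖ ≤ 3 := (norm_add_le_of_le n2 hy).trans (by linarith)
  have A := @norm_add_le_of_le ℂ _
  have S := @norm_sub_le_of_le ℂ _
  have M := @norm_mul_le_of_le ℂ _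
  unfold err
  generalize 1 + y = p at *
  generalize 2 + y = p2 at *
  have a1 := ha.trans hα
  have h1 := hh.trans hη
  have k1 := hk.trans hβ
  have o1 := ho.trans hN
  have q1 := hq.trans hN
  have hB1 := A (A (M hio (M ho ho)) (M (M (M n2 hh) ho) hp)) (M hk (M hy h2y))
  have hY := S (A (M hp ho) (M ha (M hp hp))) (M hy h2y)
  have hS := A (S (S (M (M hs hp) (A (A (S (A (M n4 q1) (M (M n8 h1) o1)) (M (M n4 k1) hp))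
    (M (M n2 hiz) o1)) (M a1 hp))) (M (M n8 hp) (A (A (A (M o1 hτ) (M (M o1 h1) hs)) (M hp hot))
    (M (M hp k1) hs)))) (M n2 hs)) (M (M hs hp) (S (S hp (M a1 hp)) o1))
  have hB := A hB1 hk
  refine (A (A (S (S (M n2 (M (M hs hs) (M hip hip))) (M n8 hB1)) (M n8 (M hB hY)))
    (M n8 (M hB (M hw hip)))) (M n2 (M (M hs hS) (M hip hip)))).trans ?_
  have e1 : N * (N * N) ≤ N * N := mul_le_of_le_one_left (by positivity) hN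
  have e2 : α * (N * N) ≤ N * N := mul_le_of_le_one_left (by positivity) hα
  have e3 : N * (η * N) ≤ η * N := mul_le_of_le_one_left (by positivity) hN
  have e4 : α * (η * N) ≤ η * N := mul_le_of_le_one_left (by positivity) hα
  have e5 : N * (β * N) ≤ β * N := mul_le_of_le_one_left (by positivity) hN
  have e6 : N * (β * α) ≤ β * α := mul_le_of_le_one_left (by positivity) hN
  nlinarith [mul_nonneg N0 N0, mul_nonneg η0 N0, mul_nonneg β0 N0, mul_nonneg β0 α0]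

/-! ### Means -/

theorem mean_le (X : WB) (t : ℝ) (z : ℂ) {φ D : ℝ → ℂ} (hφ : ∀ θ, HasDerivAt φ (D θ) θ)
    (hD : Continuous D) (hp : φ (2 * Real.pi) = φ 0) {M : ℝ}
    (h : ∀ θ, ‖ev X t θ + z - D θ‖ ≤ M) : ‖X.c 0 t + z‖ ≤ M := by
  have hc : Continuous fun θ => ev X t θ := by fun_prop
  have h1 := intervalIntegral.norm_integral_le_of_norm_le_const (a := 0) (b := 2 * Real.pi)
    fun θ _ => h θ
  have h2 : (2 * Real.pi : ℂ) ≠ 0 := mul_ne_zero two_ne_zero (ofReal_ne_zero.2 Real.pi_ne_zero)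
  have h3 : ∫ θ in (0 : ℝ)..2 * Real.pi, ev X t θ = 2 * Real.pi * X.c 0 t := by
    rw [c_eq_integral_ev, mul_inv_cancel_left₀ h2]
    simp
  have hc' : Continuous fun θ => ev X t θ + z := hc.add continuous_const
  rw [intervalIntegral.integral_sub (hc'.intervalIntegrable _ _) (hD.intervalIntegrable _ _), intervalIntegral.integral_add (hc.intervalIntegrable _ _)
    intervalIntegrable_const, intervalIntegral.integral_eq_sub_of_hasDerivAt (fun θ _ => hφ θ)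
    (hD.intervalIntegrable _ _), hp, sub_self, sub_zero, h3, intervalIntegral.integral_const,
    sub_zero, abs_of_pos Real.two_pi_pos, real_smul, ofReal_mul, ofReal_ofNat, ← mul_add,
    norm_mul, mul_comm M] at h1
  refine le_of_mul_le_mul_left (le_of_eq_of_le ?_ h1) Real.two_pi_pos
  simp [abs_of_pos Real.pi_pos]

/-! ### Sizes at a point of the path -/

/-- the integrand -/
def GG (N α v : ℝ) : ℝ := N ^ 2 * v + (α + v) ^ 2 * N + α ^ 2 * (v + α)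

theorem sizes {a ζ : ℂ} (ha : ‖a‖ ≤ 1 / 128) (hO : 128 ≤ ‖Om a ζ‖) :
    ‖a / 2 * ζ‖ ^ 2 ≤ 1 ^ 2 * ‖Om a ζ‖ ∧ ‖a / 2 * (rh a ζ)⁻¹‖ ≤ 1 ∧
      ‖a / 2 * ζ * (a / 2 * (rh a ζ)⁻¹)‖ ≤ 1 ∧ ‖ζ‖⁻¹ ≤ 1 / uu a ζ + ‖a‖ := by
  have h0 : Om a ζ ≠ 0 := norm_pos_iff.1 (by linarith)
  have hz : 0 < ‖ζ‖ := norm_pos_iff.2 (left_ne_zero_of_mul h0)
  have hr : 0 < ‖rh a ζ‖ := norm_pos_iff.2 (right_ne_zero_of_mul h0)
  have h1 : ‖a‖ * ‖ζ‖ ≤ ‖rh a ζ‖ + 3 := by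
    rw [← norm_mul, show a * ζ = rh a ζ - 2 + 2 * a by unfold rh; ring]
    refine (norm_add_le_of_le (norm_sub_le_of_le le_rfl n2) (norm_mul_le_of_le n2 ha)).trans ?_
    linarith
  have h2 : 1 ≤ ‖rh a ζ‖ + ‖a‖ * ‖ζ‖ := by
    have h3 := norm_add_le_of_le (norm_sub_le (rh a ζ) (a * ζ)) (norm_mul_le_of_le n2 ha)
    rw [show rh a ζ - a * ζ + 2 * a = 2 by unfold rh; ring, norm_mul, Complex.norm_ofNat] at h3
    linarith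
  rw [Om, norm_mul] at hO
  have h4 : (‖a‖ * ‖ζ‖) ^ 2 ≤ 4 * (‖ζ‖ * ‖rh a ζ‖) := by
    have h5 : 0 ≤ ‖a‖ * ‖ζ‖ := by positivity
    rcases le_total 1 ‖rh a ζ‖ with h | h
    · calc _ = ‖a‖ * ‖ζ‖ * (‖a‖ * ‖ζ‖) := sq _
        _ ≤ 1 * ‖ζ‖ * (4 * ‖rh a ζ‖) := mul_le_mul
          (mul_le_mul_of_nonneg_right (by linarith) hz.le) (by linarith) h5 (by positivity)
        _ = _ := by ring
    · nlinarith
  simp only [Om, uu, norm_mul, norm_div, norm_inv, Complex.norm_ofNat]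
  refine ⟨by nlinarith, ?_, ?_, ?_⟩
  · rw [mul_inv_le_iff₀ hr, one_mul]
    by_contra h
    have h5 : ‖ζ‖ * ‖rh a ζ‖ ≤ ‖ζ‖ * (‖a‖ / 2) := by gcongr; exact (not_le.1 h).le
    nlinarith
  · rw [← mul_assoc, mul_inv_le_iff₀ hr]
    refine le_of_mul_le_mul_left ?_ hz
    nlinarith
  · rw [one_div_div, inv_eq_one_div, div_add' _ _ _ hz.ne', div_le_div_iff_of_pos_right hz]
    exact h2

theorem norm_inv_sub_le {ζ : ℂ} (hz : 128 ≤ ‖ζ‖) : ‖(ζ - 2)⁻¹‖ ≤ 2 * ‖ζ‖⁻¹ := by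
  have h1 := norm_sub_norm_le ζ 2
  rw [Complex.norm_ofNat] at h1
  rw [norm_inv, ← div_eq_mul_inv, inv_eq_one_div, div_le_div_iff₀ (by linarith) (by linarith)]
  linarith

theorem bdry_le {a ζ r : ℂ} {N v : ℝ} (hz : 128 ≤ ‖ζ‖) (hN : 0 ≤ N) (hv0 : 0 ≤ v)
    (hv : ‖ζ‖⁻¹ ≤ v + ‖a‖) (hr : ‖r‖ ≤ 4 * (‖a‖ + ‖ζ‖⁻¹) * N) :
    ‖4 * ζ * r / (ζ - 2) ^ 2‖ ≤ 128 * GG N ‖a‖ v := by
  have hd := norm_inv_sub_le hz
  have hi : ‖ζ‖ * ‖ζ‖⁻¹ = 1 := mul_inv_cancel₀ (by linarith)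
  have i0 : 0 ≤ ‖ζ‖⁻¹ := by positivity
  have a0 := norm_nonneg a
  rw [div_eq_mul_inv, ← inv_pow, sq]
  refine (norm_mul_le_of_le (norm_mul_le_of_le (norm_mul_le_of_le n4 le_rfl) hr)
    (norm_mul_le_of_le hd hd)).trans ?_
  generalize ‖ζ‖⁻¹ = i at *
  calc _ = 64 * (‖ζ‖ * i) * (i * (‖a‖ + i) * N) := by ring
    _ ≤ 64 * 1 * ((v + ‖a‖) * (2 * (‖a‖ + v)) * N) := by rw [hi]; gcongr; linarith
    _ = 128 * ((‖a‖ + v) ^ 2 * N) := by ring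
    _ ≤ _ := by
      unfold GG
      have : 0 ≤ N ^ 2 * v := by positivity
      have : 0 ≤ ‖a‖ ^ 2 * (v + ‖a‖) := by positivity
      linarith

theorem der_le {a ζ e r : ℂ} {N : ℝ} (hz : 128 ≤ ‖ζ‖) (hO : Om a ζ ≠ 0) (hN : 0 ≤ N)
    (hv : ‖ζ‖⁻¹ ≤ 1 / uu a ζ + ‖a‖) (hr : ‖r‖ ≤ 4 * (‖a‖ + ‖ζ‖⁻¹) * N)
    (he : ‖e‖ ≤ 5000 * (N ^ 2 + ‖a / 2 * (rh a ζ)⁻¹‖ * N +
      ‖a / 2 * ζ * (a / 2 * (rh a ζ)⁻¹)‖ * (N + ‖a‖))) :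
    ‖e * ((ζ - 2)⁻¹ * (ζ - 2)⁻¹) + 2 * (a * a) * (Om a ζ)⁻¹ * ((4 - 4 * ζ) *
      ((ζ - 2)⁻¹ * (ζ - 2)⁻¹) - a) + 4 * (ζ + 2) * r * ((ζ - 2)⁻¹ * ((ζ - 2)⁻¹ * (ζ - 2)⁻¹))‖ ≤
      21000 * GG N ‖a‖ (1 / uu a ζ) / ‖Om a ζ‖ := by
  have hd := norm_inv_sub_le hz
  have hz0 : 0 < ‖ζ‖ := by linarith
  have hr0 : 0 < ‖rh a ζ‖ := norm_pos_iff.2 (right_ne_zero_of_mul hO)
  have a0 := norm_nonneg a
  have h1 : ‖4 - 4 * ζ‖ ≤ 8 * ‖ζ‖ :=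
    (norm_sub_le_of_le n4 (norm_mul_le_of_le n4 le_rfl)).trans (by linarith)
  have h2 : ‖ζ + 2‖ ≤ 2 * ‖ζ‖ := (norm_add_le_of_le le_rfl n2).trans (by linarith)
  have M := @norm_mul_le_of_le ℂ _
  refine (norm_add_le_of_le (norm_add_le_of_le (M he (M hd hd)) (M (M (M n2 (M le_rfl le_rfl))
    le_rfl) (norm_sub_le_of_le (M h1 (M hd hd)) le_rfl))) (M (M (M n4 h2) hr)
    (M hd (M hd hd)))).trans ?_
  rw [le_div_iff₀ (norm_pos_iff.2 hO)]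
  have e1 : ‖Om a ζ‖ = ‖ζ‖ * ‖rh a ζ‖ := norm_mul _ _
  have e2 : 1 / uu a ζ = ‖rh a ζ‖ * ‖ζ‖⁻¹ := by rw [uu, norm_div, one_div_div, div_eq_mul_inv]
  simp only [norm_mul, norm_div, norm_inv, Complex.norm_ofNat, e1, e2] at hv ⊢
  generalize ‖a‖ = α at *
  generalize ‖ζ‖ = z at *
  generalize ‖rh a ζ‖ = ρ at *
  have v0 : 0 ≤ ρ * z⁻¹ := by positivity
  have i0 : 0 ≤ z⁻¹ := by positivity
  calc _ = 20000 * (N ^ 2 * (ρ * z⁻¹) + (α * z⁻¹ / 2 + α ^ 2 / 4) * N + α ^ 2 * (α / 4)) +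
        2 * α ^ 2 * (32 * z⁻¹ + α) + 256 * (ρ * z⁻¹ * (α + z⁻¹) * N) := by
        field_simp
        ring
    _ ≤ _ := by
      generalize ρ * z⁻¹ = v at *
      generalize z⁻¹ = i at *
      have b1 : (α * i / 2 + α ^ 2 / 4) * N ≤ (α + v) ^ 2 * N := by
        gcongr
        nlinarith [mul_le_mul_of_nonneg_left hv a0, mul_nonneg a0 v0]
      have b2 : v * (α + i) * N ≤ 2 * (α + v) ^ 2 * N := by
        refine mul_le_mul_of_nonneg_right ?_ hN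
        nlinarith [mul_le_mul_of_nonneg_left hv v0, mul_nonneg a0 v0]
      have b3 : α ^ 2 * i ≤ α ^ 2 * (v + α) := by gcongr
      have b4 : 0 ≤ α ^ 2 * v := by positivity
      have b5 : 0 ≤ α ^ 2 * α := by positivity
      have b6 : 0 ≤ N ^ 2 * v := by positivity
      have b7 : 0 ≤ (α + v) ^ 2 * N := by positivity
      unfold GG
      nlinarith

theorem GG_le {N α v₀ m₁ m₂ x y : ℝ} (hN : 0 ≤ N) (hα : 0 ≤ α) (hv : 0 ≤ v₀) (h1 : 0 ≤ m₁)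
    (h2 : 0 ≤ m₂) (x0 : 0 ≤ x) (x1 : x ≤ 1) (y0 : 0 ≤ y) (y1 : y ≤ 1)
    (h : N ≤ m₁ * x ^ 16 + m₂ * y ^ 11) :
    GG N α (v₀ * x ^ 20) ≤
      (2 * m₁ ^ 2 * v₀ + m₁ * (α + v₀) ^ 2 + 2 * m₂ * (x * y) ^ 11 * v₀ * (α + v₀) +
        α ^ 2 * v₀) * x ^ 2 + (2 * m₂ ^ 2 * (v₀ * (x * y) ^ 20) + m₂ * α ^ 2) * y ^ 2 + α ^ 3 := by
  have px : ∀ n, 2 ≤ n → x ^ n ≤ x ^ 2 := fun n hn => pow_le_pow_of_le_one x0 x1 hn
  have p20 : x ^ 20 ≤ 1 := pow_le_one₀ x0 x1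
  have hv1 : v₀ * x ^ 20 ≤ v₀ := mul_le_of_le_one_right hv p20
  have b0 : N ^ 2 ≤ 2 * (m₁ * x ^ 16) ^ 2 + 2 * (m₂ * y ^ 11) ^ 2 :=
    (pow_le_pow_left₀ hN h 2).trans (by nlinarith [sq_nonneg (m₁ * x ^ 16 - m₂ * y ^ 11)])
  have b1 : N ^ 2 * (v₀ * x ^ 20) ≤
      2 * m₁ ^ 2 * v₀ * x ^ 2 + 2 * m₂ ^ 2 * (v₀ * (x * y) ^ 20) * y ^ 2 :=
    calc _ ≤ (2 * (m₁ * x ^ 16) ^ 2 + 2 * (m₂ * y ^ 11) ^ 2) * (v₀ * x ^ 20) := by gcongr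
      _ = 2 * m₁ ^ 2 * v₀ * x ^ 52 + 2 * m₂ ^ 2 * (v₀ * (x * y) ^ 20) * y ^ 2 := by ring
      _ ≤ _ := by have := px 52 (by norm_num); gcongr 2 * m₁ ^ 2 * v₀ * ?_ + _
  have b2 : (α + v₀ * x ^ 20) ^ 2 * (m₁ * x ^ 16) ≤ (α + v₀) ^ 2 * (m₁ * x ^ 2) := by
    have := px 16 (by norm_num)
    gcongr (α + ?_) ^ 2 * (m₁ * ?_)
  have b3 : (α + v₀ * x ^ 20) ^ 2 * (m₂ * y ^ 11) ≤
      m₂ * α ^ 2 * y ^ 2 + 2 * m₂ * (x * y) ^ 11 * v₀ * (α + v₀) * x ^ 2 :=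
    calc _ = m₂ * α ^ 2 * y ^ 11 + m₂ * (x * y) ^ 11 * v₀ * (2 * α + v₀ * x ^ 20) * x ^ 9 := by ring
      _ ≤ m₂ * α ^ 2 * y ^ 2 + m₂ * (x * y) ^ 11 * v₀ * (2 * (α + v₀)) * x ^ 2 := by
        gcongr m₂ * α ^ 2 * ?_ + m₂ * (x * y) ^ 11 * v₀ * ?_ * ?_
        · exact pow_le_pow_of_le_one y0 y1 (by norm_num)
        · linarith
        · exact px 9 (by norm_num)
      _ = _ := by ring
  have b4 : α ^ 2 * (v₀ * x ^ 20) ≤ α ^ 2 * (v₀ * x ^ 2) := by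
    have := px 20 (by norm_num)
    gcongr α ^ 2 * (v₀ * ?_)
  have b5 : (α + v₀ * x ^ 20) ^ 2 * N ≤ (α + v₀ * x ^ 20) ^ 2 * (m₁ * x ^ 16 + m₂ * y ^ 11) := by
    gcongr
  unfold GG
  linarith

end As0

end Vale.Agent.P218N.End
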