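import Vale.Agent.P218N.End.Defs

/-! Pointwise calculus on `WB`: evaluation, traces, multipliers, Fourier coefficients, functions of
two variables. -/

open Filter Topology Metric Set Complex
open scoped BoundedContinuousFunction

noncomputable section

namespace Vale.Agent.P218N.End

/-! ### General facts on `W A` -/

namespace W

section lin
variable {A B : Type*} [NormedAddCommGroup A] [NormedSpace ℂ A] [NormedAddCommGroup B]
  [NormedSpace ℂ B]

theorem c_diag_const (φ : A →L[ℂ] B) (a : W A) (m : ℤ) :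
    (diag (fun _ => φ) a).c m = φ (a.c m) := c_diag (C := ‖φ‖) (fun _ => le_rfl) a m

theorem norm_diag_apply_le {T : ℤ → A →L[ℂ] B} {C : ℝ} (h : ∀ m, ‖T m‖ ≤ C) (a : W A) :
    ‖diag T a‖ ≤ C * ‖a‖ := (diag T).le_of_opNorm_le (norm_diag_le h) a

end lin

variable {A B : Type*} [NormedCommRing A] [CompleteSpace A] [NormedAlgebra ℂ A]
  [NormedCommRing B] [CompleteSpace B] [NormedAlgebra ℂ B]

theorem sumL_diag_const (φ : A →L[ℂ] B) (θ : ℝ) (a : W A) :
    sumL θ (diag (fun _ => φ) a) = φ (sumL θ a) := by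
  refine (hasSum_sumL θ _).unique ?_
  simpa only [c_diag_const, map_smul] using φ.hasSum (hasSum_sumL θ a)

theorem diag_const_mul (φ : A →L[ℂ] B) (h : ∀ x y, φ (x * y) = φ x * φ y) (a b : W A) :
    diag (fun _ => φ) (a * b) = diag (fun _ => φ) a * diag (fun _ => φ) b := by
  ext n
  refine HasSum.unique ?_ (hasSum_c_mul _ _ n)
  simpa only [c_diag_const, h] using φ.hasSum (hasSum_c_mul a b n)

omit [CompleteSpace A] [CompleteSpace B] in
theorem diag_const_one1 (φ : A →L[ℂ] B) (n : ℤ) (x : A) :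
    diag (fun _ => φ) (one1 n x) = one1 n (φ x) := by
  ext m
  rw [c_diag_const, c_one1, c_one1]
  split_ifs <;> simp

theorem continuous_sumL (a : W A) : Continuous fun θ : ℝ => sumL θ a := by
  have h : Continuous fun θ : ℝ => ∑' m : ℤ, Complex.exp (m * θ * I) • a.c m :=
    continuous_tsum (fun m => by fun_prop) a.sm fun m θ => (norm_exp_smul θ m _).le
  exact h

theorem sumL_add_two_pi (θ : ℝ) (a : W A) : sumL (θ + 2 * Real.pi) a = sumL θ a := by
  refine (hasSum_sumL _ a).unique ((hasSum_sumL θ a).congr_fun fun m => ?_)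
  congr 1
  rw [Complex.exp_eq_exp_iff_exists_int]
  exact ⟨m, by push_cast; ring⟩

theorem periodic_sumL (a : W A) : Function.Periodic (fun θ : ℝ => sumL θ a) (2 * Real.pi) :=
  fun θ => sumL_add_two_pi θ a

theorem integral_exp_int (n : ℤ) : ∫ θ in (0 : ℝ)..2 * Real.pi, Complex.exp (n * θ * I) =
    if n = 0 then (2 * Real.pi : ℂ) else 0 := by
  split_ifs with h
  · simp [h]
  · have hc : (n : ℂ) * I ≠ 0 := mul_ne_zero (Int.cast_ne_zero.2 h) I_ne_zero
    have e : ∀ θ : ℝ, (n : ℂ) * θ * I = n * I * θ := fun θ => by ring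
    simp only [e]
    rw [integral_exp_mul_complex hc]
    have : Complex.exp (n * I * ((2 * Real.pi : ℝ) : ℂ)) = 1 := by
      rw [← Complex.exp_int_mul_two_pi_mul_I n]
      congr 1
      push_cast
      ring
    rw [this]
    simp

/-- the formula for the Fourier coefficients -/
theorem c_eq_integral (a : W A) (m : ℤ) : a.c m = (2 * Real.pi : ℂ)⁻¹ •
    ∫ θ in (0 : ℝ)..2 * Real.pi, Complex.exp (-(m * θ * I)) • sumL θ a := by
  have e : ∀ (n : ℤ) (θ : ℝ), Complex.exp (-(m * θ * I)) • Complex.exp (n * θ * I) • a.c n =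
      Complex.exp (((n - m : ℤ) : ℂ) * θ * I) • a.c n := fun n θ => by
    rw [smul_smul, ← Complex.exp_add]
    congr 2
    push_cast
    ring
  have h := intervalIntegral.hasSum_integral_of_dominated_convergence (μ := MeasureTheory.volume)
    (a := (0 : ℝ)) (b := 2 * Real.pi)
    (F := fun (n : ℤ) (θ : ℝ) => Complex.exp (((n - m : ℤ) : ℂ) * θ * I) • a.c n)
    (f := fun θ => Complex.exp (-(m * θ * I)) • sumL θ a) (fun n _ => ‖a.c n‖)
    (fun n => Continuous.aestronglyMeasurable (by fun_prop))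
    (fun n => Eventually.of_forall fun θ _ => (norm_exp_smul θ _ _).le)
    (Eventually.of_forall fun _ _ => a.sm) intervalIntegrable_const
    (Eventually.of_forall fun θ _ => by
      simpa only [e] using (hasSum_sumL θ a).const_smul (Complex.exp (-(m * θ * I))))
  simp only [intervalIntegral.integral_smul_const, integral_exp_int] at h
  have h2 := hasSum_single (f := fun n : ℤ =>
    (if n - m = 0 then (2 * Real.pi : ℂ) else 0) • a.c n) m fun n hn => by
      rw [if_neg (sub_ne_zero.2 hn), zero_smul]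
  rw [h.unique h2, if_pos (sub_self m), smul_smul, inv_mul_cancel₀, one_smul]
  exact mul_ne_zero two_ne_zero (Complex.ofReal_ne_zero.2 Real.pi_ne_zero)

theorem ext_sumL {a b : W A} (h : ∀ θ, sumL θ a = sumL θ b) : a = b := by
  ext m
  rw [c_eq_integral, c_eq_integral]
  simp only [h]

end W

/-! ### Evaluation -/

/-- evaluation at a point of the contour -/
def evalA (t : ℝ) : BC →ₐ[ℂ] ℂ where
  toFun x := x t
  map_one' := rfl
  map_mul' _ _ := rfl
  map_zero' := rfl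
  map_add' _ _ := rfl
  commutes' z := by simp

/-- evaluation at `(t, θ)` as an algebra map -/
def evA (t θ : ℝ) : WB →ₐ[ℂ] ℂ := (evalA t).comp (W.sumA θ)

theorem evA_apply (t θ : ℝ) (f : WB) : evA t θ f = ev f t θ := rfl

/-- evaluation at `(t, θ)` as a continuous linear map -/
def evL (t θ : ℝ) : WB →L[ℂ] ℂ := (BoundedContinuousFunction.evalCLM ℂ t).comp (W.sumL θ)

@[simp] theorem evL_apply (t θ : ℝ) (f : WB) : evL t θ f = ev f t θ := rfl

section ev
variable (f f' : WB) (t θ : ℝ)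

@[simp] theorem ev_add : ev (f + f') t θ = ev f t θ + ev f' t θ := map_add (evA t θ) f f'
@[simp] theorem ev_sub : ev (f - f') t θ = ev f t θ - ev f' t θ := map_sub (evA t θ) f f'
@[simp] theorem ev_neg : ev (-f) t θ = -ev f t θ := map_neg (evA t θ) f
@[simp] theorem ev_mul : ev (f * f') t θ = ev f t θ * ev f' t θ := map_mul (evA t θ) f f'
@[simp] theorem ev_smul (z : ℂ) : ev (z • f) t θ = z * ev f t θ := map_smul (evL t θ) z f
@[simp] theorem ev_pow (n : ℕ) : ev (f ^ n) t θ = ev f t θ ^ n := map_pow (evA t θ) f n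
@[simp] theorem ev_one : ev 1 t θ = 1 := map_one (evA t θ)
@[simp] theorem ev_zero : ev 0 t θ = 0 := map_zero (evA t θ)
@[simp] theorem ev_algebraMap (z : ℂ) : ev (algebraMap ℂ WB z) t θ = z := (evA t θ).commutes z
@[simp] theorem ev_ofNat (n : ℕ) [n.AtLeastTwo] :
    ev (no_index (OfNat.ofNat n)) t θ = OfNat.ofNat n := map_ofNat (evA t θ) n
@[simp] theorem ev_natCast (n : ℕ) : ev (n : WB) t θ = n := map_natCast (evA t θ) n
theorem ev_sum {ι : Type*} (s : Finset ι) (F : ι → WB) :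
    ev (∑ i ∈ s, F i) t θ = ∑ i ∈ s, ev (F i) t θ := map_sum (evA t θ) F s

@[simp] theorem ev_C (x : BC) : ev (W.C x) t θ = x t := by rw [ev, W.sumL_C]

@[simp] theorem ev_one1 (n : ℤ) (x : BC) :
    ev (W.one1 n x) t θ = Complex.exp (n * θ * I) * x t := by rw [ev, W.sumL_one1]; rfl

theorem norm_ev_le : ‖ev f t θ‖ ≤ ‖f‖ :=
  ((W.sumL θ f).norm_coe_le_norm t).trans (W.norm_sumL_le θ f)

theorem hasSum_ev : HasSum (fun m : ℤ => Complex.exp (m * θ * I) * f.c m t) (ev f t θ) :=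
  (BoundedContinuousFunction.evalCLM ℂ t : BC →L[ℂ] ℂ).hasSum (W.hasSum_sumL θ f)

theorem ev_eq_tsum : ev f t θ = ∑' m : ℤ, Complex.exp (m * θ * I) * f.c m t :=
  (hasSum_ev f t θ).tsum_eq.symm

theorem continuous_ev : Continuous fun p : ℝ × ℝ => ev f p.1 p.2 :=
  ((W.continuous_sumL f).comp continuous_snd).eval continuous_fst

@[fun_prop]
theorem Continuous.ev {X : Type*} [TopologicalSpace X] {F : X → WB} {a b : X → ℝ}
    (hF : Continuous F) (ha : Continuous a) (hb : Continuous b) :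
    Continuous fun x => ev (F x) (a x) (b x) := by
  refine continuous_iff_continuousAt.2 fun x => ?_
  have h1 : Tendsto (fun y => End.ev (F y - F x) (a y) (b y)) (𝓝 x) (𝓝 0) :=
    squeeze_zero_norm (fun y => norm_ev_le _ _ _)
      (tendsto_iff_norm_sub_tendsto_zero.1 hF.continuousAt)
  have h2 := h1.add (((continuous_ev (F x)).comp (ha.prodMk hb)).tendsto x)
  simpa [ContinuousAt] using h2

theorem ev_add_two_pi : ev f t (θ + 2 * Real.pi) = ev f t θ := by rw [ev, W.sumL_add_two_pi, ev]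

theorem periodic_ev : Function.Periodic (fun θ => ev f t θ) (2 * Real.pi) := ev_add_two_pi f t

end ev

/-! ### Traces, constants, multipliers -/

@[simp] theorem c_tr (t : ℝ) (f : WB) (m : ℤ) : (tr t f).c m = f.c m t := W.c_diag_const _ f m

theorem c_cst (d : WD) (m : ℤ) : (cst d).c m = d.c m • (1 : BC) := W.c_diag_const _ d m

@[simp] theorem c_cst_apply (d : WD) (m : ℤ) (t : ℝ) : (cst d).c m t = d.c m := by
  rw [c_cst]; simp

@[simp] theorem sumL_tr (t θ : ℝ) (f : WB) : W.sumL θ (tr t f) = ev f t θ :=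
  W.sumL_diag_const _ θ f

@[simp] theorem ev_cst (d : WD) (t θ : ℝ) : ev (cst d) t θ = W.sumL θ d := by
  rw [ev, cst, W.sumL_diag_const]; simp

@[simp] theorem tr_cst (t : ℝ) (d : WD) : tr t (cst d) = d := by ext m; simp

theorem norm_tr_apply_le (t : ℝ) (f : WB) : ‖tr t f‖ ≤ ‖f‖ :=
  W.norm_le_of_hasSum f.hasSum fun m => by rw [c_tr]; exact (f.c m).norm_coe_le_norm t

theorem norm_tr_le (t : ℝ) : ‖tr t‖ ≤ 1 :=
  ContinuousLinearMap.opNorm_le_bound _ zero_le_one fun f => by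
    rw [one_mul]; exact norm_tr_apply_le t f

@[simp] theorem norm_cst_apply (d : WD) : ‖cst d‖ = ‖d‖ := by
  rw [W.norm_eq, W.norm_eq]
  refine tsum_congr fun m => ?_
  rw [c_cst, norm_smul, norm_one, mul_one]

theorem norm_cst_le : ‖cst‖ ≤ 1 :=
  ContinuousLinearMap.opNorm_le_bound _ zero_le_one fun d => by simp

theorem tr_mul (t : ℝ) (f f' : WB) : tr t (f * f') = tr t f * tr t f' :=
  W.diag_const_mul _ (fun _ _ => rfl) f f'

theorem cst_mul (d d' : WD) : cst (d * d') = cst d * cst d' :=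
  W.diag_const_mul _ (fun x y => by simp [smul_smul, mul_comm]) d d'

theorem tr_one1 (t : ℝ) (n : ℤ) (x : BC) : tr t (W.one1 n x) = W.one1 n (x t) :=
  W.diag_const_one1 _ n x

theorem cst_one1 (n : ℤ) (z : ℂ) : cst (W.one1 n z) = W.one1 n (z • (1 : BC)) :=
  W.diag_const_one1 _ n z

theorem tr_C (t : ℝ) (x : BC) : tr t (W.C x) = W.C (x t) := tr_one1 t 0 x

theorem tr_one (t : ℝ) : tr t 1 = 1 := tr_one1 t 0 1

theorem cst_one : cst 1 = 1 := (cst_one1 0 1).trans (by rw [one_smul]; rfl)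

/-- the trace as an algebra map -/
def trA (t : ℝ) : WB →ₐ[ℂ] WD := AlgHom.ofLinearMap (tr t).toLinearMap (tr_one t) (tr_mul t)

theorem trA_apply (t : ℝ) (f : WB) : trA t f = tr t f := rfl

/-- the constants as an algebra map -/
def cstA : WD →ₐ[ℂ] WB := AlgHom.ofLinearMap cst.toLinearMap cst_one cst_mul

theorem cstA_apply (d : WD) : cstA d = cst d := rfl

section mult
variable {A : Type*} [NormedAddCommGroup A] [NormedSpace ℂ A] {σ : ℤ → ℂ} {K : ℝ}

theorem norm_symb_le (h : ∀ m, ‖σ m‖ ≤ K) (m : ℤ) : ‖σ m • ContinuousLinearMap.id ℂ A‖ ≤ K := by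
  rw [norm_smul]
  exact (mul_le_of_le_one_right (norm_nonneg _) ContinuousLinearMap.norm_id_le).trans (h m)

theorem c_mult (h : ∀ m, ‖σ m‖ ≤ K) (a : W A) (m : ℤ) : (mult σ a).c m = σ m • a.c m :=
  W.c_diag (norm_symb_le h) a m

theorem norm_mult_le (h : ∀ m, ‖σ m‖ ≤ K) : ‖(mult σ : W A →L[ℂ] W A)‖ ≤ K :=
  W.norm_diag_le (norm_symb_le h)

theorem norm_mult_apply_le (h : ∀ m, ‖σ m‖ ≤ K) (a : W A) : ‖mult σ a‖ ≤ K * ‖a‖ :=
  W.norm_diag_apply_le (norm_symb_le h) a

theorem tr_mult (h : ∀ m, ‖σ m‖ ≤ K) (t : ℝ) (f : WB) : tr t (mult σ f) = mult σ (tr t f) := by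
  ext m; simp [c_mult h]

theorem cst_mult (h : ∀ m, ‖σ m‖ ≤ K) (d : WD) : cst (mult σ d) = mult σ (cst d) := by
  ext m t; simp [c_mult h]

theorem mult_C_mul (h : ∀ m, ‖σ m‖ ≤ K) (x : BC) (f : WB) :
    mult σ (W.C x * f) = W.C x * mult σ f := by
  ext m t; simp [c_mult h]

end mult

/-- the formula for the Fourier coefficients of data -/
theorem c_eq_integral_WD (d : WD) (m : ℤ) : d.c m = (2 * Real.pi : ℂ)⁻¹ *
    ∫ θ in (0 : ℝ)..2 * Real.pi, W.sumL θ d * Complex.exp (-(m * θ * I)) := by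
  rw [W.c_eq_integral]
  simp only [smul_eq_mul, mul_comm]

/-- the formula for the Fourier coefficients -/
theorem c_eq_integral_ev (f : WB) (m : ℤ) (t : ℝ) : f.c m t = (2 * Real.pi : ℂ)⁻¹ *
    ∫ θ in (0 : ℝ)..2 * Real.pi, ev f t θ * Complex.exp (-(m * θ * I)) := by
  rw [← c_tr, c_eq_integral_WD]
  simp only [sumL_tr]

theorem ext_ev {f f' : WB} (h : ∀ t θ, ev f t θ = ev f' t θ) : f = f' :=
  W.ext_sumL fun θ => BoundedContinuousFunction.ext fun t => h t θ

theorem eq_zero_iff_ev {f : WB} : f = 0 ↔ ∀ t θ, ev f t θ = 0 :=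
  ⟨fun h t θ => by rw [h, ev_zero], fun h => ext_ev fun t θ => by rw [h, ev_zero]⟩

/-! ### The symbols of the jets -/

theorem one_le_br (m : ℤ) : 1 ≤ br m := le_add_of_nonneg_right (sq_nonneg _)

theorem br_pos (m : ℤ) : 0 < br m := one_pos.trans_le (one_le_br m)

theorem br_ne (m : ℤ) : ((br m : ℝ) : ℂ) ≠ 0 := Complex.ofReal_ne_zero.2 (br_pos m).ne'

theorem br_neg (m : ℤ) : br (-m) = br m := by simp [br]

theorem norm_ibr (m : ℤ) : ‖((br m : ℝ) : ℂ)⁻¹‖ = (br m)⁻¹ := by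
  rw [norm_inv, Complex.norm_real, Real.norm_of_nonneg (br_pos m).le]

theorem symb_y (m : ℤ) : ‖((br m : ℝ) : ℂ)⁻¹‖ ≤ 1 := by
  rw [norm_ibr]; exact inv_le_one_of_one_le₀ (one_le_br m)

theorem symb_yt (m : ℤ) : ‖(m : ℂ) * I * ((br m : ℝ) : ℂ)⁻¹‖ ≤ 1 := by
  rw [norm_mul, norm_ibr, norm_mul, Complex.norm_I, mul_one, Complex.norm_intCast,
    mul_inv_le_iff₀ (br_pos m), one_mul, br]
  nlinarith [sq_abs (m : ℝ), sq_nonneg (|(m : ℝ)| - 1), abs_nonneg (m : ℝ)]

theorem symb_ytt (m : ℤ) : ‖-(m : ℂ) ^ 2 * ((br m : ℝ) : ℂ)⁻¹‖ ≤ 1 := by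
  rw [norm_mul, norm_ibr, norm_neg, norm_pow, Complex.norm_intCast, sq_abs,
    mul_inv_le_iff₀ (br_pos m), one_mul, br]
  linarith

namespace EJ
variable (j : EJ)

theorem c_y (m : ℤ) : j.y.c m = ((br m : ℝ) : ℂ)⁻¹ • j.y2.c m := c_mult symb_y _ m

theorem c_yt (m : ℤ) : j.yt.c m = ((m : ℂ) * I) • j.y.c m := by
  rw [c_y, smul_smul]; exact c_mult symb_yt _ m

theorem c_ytt (m : ℤ) : j.ytt.c m = ((m : ℂ) * I) • j.yt.c m := by
  rw [c_yt, c_y, smul_smul, smul_smul, ytt, c_mult symb_ytt]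
  congr 2
  linear_combination (-(m : ℂ) ^ 2) * I_mul_I

theorem c_y2 (m : ℤ) : j.y2.c m = ((br m : ℝ) : ℂ) • j.y.c m := by
  rw [c_y, smul_smul, mul_inv_cancel₀ (br_ne m), one_smul]

theorem y2_eq : j.y2 = j.y - j.ytt := by
  ext m t
  rw [W.c_sub, c_ytt, c_yt, c_y2]
  simp only [br, BoundedContinuousFunction.coe_smul, BoundedContinuousFunction.coe_sub,
    Pi.sub_apply, smul_eq_mul]
  push_cast
  linear_combination (m : ℂ) ^ 2 * j.y.c m t * I_mul_I

theorem norm_y2_le : ‖j.y2‖ ≤ ‖j‖ := norm_fst_le j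
theorem norm_op_le : ‖j.op‖ ≤ ‖j‖ := (norm_fst_le j.2).trans (norm_snd_le j)
theorem norm_oq_le : ‖j.oq‖ ≤ ‖j‖ :=
  (norm_fst_le j.2.2).trans ((norm_snd_le j.2).trans (norm_snd_le j))
theorem norm_pt_le : ‖j.pt‖ ≤ ‖j‖ :=
  (norm_snd_le j.2.2).trans ((norm_snd_le j.2).trans (norm_snd_le j))
theorem norm_y_le' : ‖j.y‖ ≤ ‖j.y2‖ := (norm_mult_apply_le symb_y _).trans_eq (one_mul _)
theorem norm_yt_le' : ‖j.yt‖ ≤ ‖j.y2‖ := (norm_mult_apply_le symb_yt _).trans_eq (one_mul _)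
theorem norm_ytt_le' : ‖j.ytt‖ ≤ ‖j.y2‖ := (norm_mult_apply_le symb_ytt _).trans_eq (one_mul _)
theorem norm_y_le : ‖j.y‖ ≤ ‖j‖ := j.norm_y_le'.trans j.norm_y2_le
theorem norm_yt_le : ‖j.yt‖ ≤ ‖j‖ := j.norm_yt_le'.trans j.norm_y2_le
theorem norm_ytt_le : ‖j.ytt‖ ≤ ‖j‖ := j.norm_ytt_le'.trans j.norm_y2_le

/-- the components as continuous linear maps -/
def y2L : EJ →L[ℂ] WB := ContinuousLinearMap.fst ℂ _ _
def opL : EJ →L[ℂ] WB := (ContinuousLinearMap.fst ℂ _ _).comp (ContinuousLinearMap.snd ℂ _ _)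
def oqL : EJ →L[ℂ] WB := (ContinuousLinearMap.fst ℂ _ _).comp
  ((ContinuousLinearMap.snd ℂ _ _).comp (ContinuousLinearMap.snd ℂ _ _))
def ptL : EJ →L[ℂ] WB := (ContinuousLinearMap.snd ℂ _ _).comp
  ((ContinuousLinearMap.snd ℂ _ _).comp (ContinuousLinearMap.snd ℂ _ _))
def yL : EJ →L[ℂ] WB := (mult fun m => ((br m : ℝ) : ℂ)⁻¹).comp y2L
def ytL : EJ →L[ℂ] WB := (mult fun m => m * I * ((br m : ℝ) : ℂ)⁻¹).comp y2L
def yttL : EJ →L[ℂ] WB := (mult fun m => -(m : ℂ) ^ 2 * ((br m : ℝ) : ℂ)⁻¹).comp y2L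

@[simp] theorem y2L_apply : y2L j = j.y2 := rfl
@[simp] theorem opL_apply : opL j = j.op := rfl
@[simp] theorem oqL_apply : oqL j = j.oq := rfl
@[simp] theorem ptL_apply : ptL j = j.pt := rfl
@[simp] theorem yL_apply : yL j = j.y := rfl
@[simp] theorem ytL_apply : ytL j = j.yt := rfl
@[simp] theorem yttL_apply : yttL j = j.ytt := rfl

end EJ

/-! ### The equations commute with ring maps -/

section poly
variable {R S F : Type*} [CommRing R] [CommRing S] [FunLike F R S] [RingHomClass F R S] (φ : F)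

theorem map_cylB (io h Oh y op : R) :
    φ (cylB io h Oh y op) = cylB (φ io) (φ h) (φ Oh) (φ y) (φ op) := by
  simp only [cylB, map_add, map_mul, map_pow, map_one, map_ofNat]

theorem map_cylD (io h Oh y yt op : R) :
    φ (cylD io h Oh y yt op) = cylD (φ io) (φ h) (φ Oh) (φ y) (φ yt) (φ op) := by
  simp only [cylD, map_cylB, map_add, map_mul, map_pow, map_one, map_ofNat]

theorem map_cylE (a iz io h Oh y yt ytt op oq pt : R) :
    φ (cylE a iz io h Oh y yt ytt op oq pt) = cylE (φ a) (φ iz) (φ io) (φ h) (φ Oh) (φ y) (φ yt)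
      (φ ytt) (φ op) (φ oq) (φ pt) := by
  simp only [cylE, map_cylB, map_cylD, map_add, map_sub, map_mul, map_pow, map_one, map_ofNat]

theorem map_coneD (ka w al be : R) :
    φ (coneD ka w al be) = coneD (φ ka) (φ w) (φ al) (φ be) := by
  simp only [coneD, map_add, map_sub, map_mul, map_pow, map_one]

theorem map_coneE (cc ka kd iz w wt wtt op oq zp : R) :
    φ (coneE cc ka kd iz w wt wtt op oq zp) = coneE (φ cc) (φ ka) (φ kd) (φ iz) (φ w) (φ wt)
      (φ wtt) (φ op) (φ oq) (φ zp) := by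
  simp only [coneE, map_coneD, map_add, map_sub, map_mul, map_pow, map_one, map_ofNat]

end poly

theorem Path.ev_Ecyl (γ : Path) (a : ℂ) (j : EJ) (t θ : ℝ) :
    ev (γ.Ecyl a j) t θ = cylE a (binv γ.ze t) ((γ.cyl a).io t) (γ.hh a t) (γ.Oh a t)
      (ev j.y t θ) (ev j.yt t θ) (ev j.ytt t θ) (ev j.op t θ) (ev j.oq t θ) (ev j.pt t θ) := by
  rw [← evA_apply, Path.Ecyl, map_cylE]
  simp only [evA_apply, ev_C, ev_algebraMap]

theorem Path.ev_Econe (γ : Path) (cc : ℝ) (ka kd : WD) (j : EJ) (t θ : ℝ) :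
    ev (γ.Econe cc ka kd j) t θ = coneE (cc : ℂ) (W.sumL θ ka) (W.sumL θ kd) (binv γ.ze t)
      (ev j.y t θ) (ev j.yt t θ) (ev j.ytt t θ) (ev j.op t θ) (ev j.oq t θ)
      (γ.ze t * ev j.pt t θ) := by
  rw [← evA_apply, Path.Econe, map_coneE]
  simp only [evA_apply, ev_C, ev_algebraMap, ev_cst, ev_mul]

theorem binv_apply {a : BC} {c : ℝ} (hc : 0 < c) (h : ∀ t, c ≤ ‖a t‖) (t : ℝ) :
    binv a t = (a t)⁻¹ :=
  nem_apply (C := c⁻¹) (fun t => continuousAt_inv₀ (norm_pos_iff.1 (hc.trans_le (h t))))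
    (fun t => by rw [norm_inv]; exact inv_anti₀ hc (h t)) t

/-! ### Bounded continuous functions on an arbitrary space -/

section gen
variable {X : Type*} [TopologicalSpace X]

open Classical in
/-- a function as a bounded continuous function (zero unless it is one) -/
def mkX (f : X → ℂ) : X →ᵇ ℂ :=
  if h : Continuous f ∧ ∃ C, ∀ t, ‖f t‖ ≤ C then
    BoundedContinuousFunction.ofNormedAddCommGroup f h.1 h.2.choose h.2.choose_spec
  else 0

theorem mkX_apply {f : X → ℂ} (hf : Continuous f) {C : ℝ} (hC : ∀ t, ‖f t‖ ≤ C) (t : X) :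
    mkX f t = f t := by
  unfold mkX
  rw [dif_pos ⟨hf, C, hC⟩]
  rfl

theorem norming_X : Norming (range fun t : X => (BoundedContinuousFunction.evalCLM ℂ t :
    (X →ᵇ ℂ) →L[ℂ] ℂ)) where
  le := by
    rintro _ ⟨t, rfl⟩ b
    exact b.norm_coe_le_norm t
  ge b C h0 h := (BoundedContinuousFunction.norm_le h0).2 fun t => h _ ⟨t, rfl⟩

variable {E : Type*} [NormedAddCommGroup E] [NormedSpace ℂ E]

/-- holomorphic maps into bounded continuous functions -/
theorem differentiableOn_X {f : E → X →ᵇ ℂ} {U : Set E} (hU : IsOpen U) {M : ℝ}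
    (hM : ∀ y ∈ U, ∀ t, ‖f y t‖ ≤ M) (hw : ∀ t, DifferentiableOn ℂ (fun y => f y t) U) :
    DifferentiableOn ℂ f U :=
  norming_X.differentiableOn hU (M := max M 0)
    (fun y hy => (BoundedContinuousFunction.norm_le (le_max_right _ _)).2 fun t =>
      (hM y hy t).trans (le_max_left _ _)) (by
    rintro _ ⟨t, rfl⟩
    exact hw t)

theorem DifferentiableOn.evalX {f : E → X →ᵇ ℂ} {U : Set E} (h : DifferentiableOn ℂ f U) (t : X) :
    DifferentiableOn ℂ (fun y => f y t) U :=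
  (BoundedContinuousFunction.evalCLM ℂ t : (X →ᵇ ℂ) →L[ℂ] ℂ).differentiable.comp_differentiableOn h

/-- composition with a function -/
def nemX (φ : ℂ → ℂ) (a : X →ᵇ ℂ) : X →ᵇ ℂ := mkX fun t => φ (a t)

theorem nemX_apply {φ : ℂ → ℂ} {a : X →ᵇ ℂ} (h : ∀ t, ContinuousAt φ (a t)) {C : ℝ}
    (hC : ∀ t, ‖φ (a t)‖ ≤ C) (t : X) : nemX φ a t = φ (a t) :=
  mkX_apply (continuous_iff_continuousAt.2 fun t => (h t).comp a.continuous.continuousAt) hC t

theorem differentiableOn_nemX {φ : ℂ → ℂ} {a : E → X →ᵇ ℂ} {U : Set E} (hU : IsOpen U)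
    (ha : DifferentiableOn ℂ a U) (h : ∀ y ∈ U, ∀ t, DifferentiableAt ℂ φ (a y t)) {C : ℝ}
    (hC : ∀ y ∈ U, ∀ t, ‖φ (a y t)‖ ≤ C) : DifferentiableOn ℂ (fun y => nemX φ (a y)) U := by
  have e : ∀ y ∈ U, ∀ t, nemX φ (a y) t = φ (a y t) := fun y hy t =>
    nemX_apply (fun t => (h y hy t).continuousAt) (hC y hy) t
  refine differentiableOn_X hU (M := C) (fun y hy t => (e y hy t).symm ▸ hC y hy t) fun t => ?_
  refine DifferentiableOn.congr (f := fun y => φ (a y t)) (fun y hy => ?_) fun y hy => e y hy t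
  exact (h y hy t).comp_differentiableWithinAt y (DifferentiableOn.evalX ha t y hy)

end gen

/-- functions of `(t, θ)` -/
abbrev BC2 : Type := (ℝ × ℝ) →ᵇ ℂ

/-- the function of two variables -/
def ev2 : WB →L[ℂ] BC2 :=
  LinearMap.mkContinuous
    ⟨⟨fun f => BoundedContinuousFunction.ofNormedAddCommGroup (fun p => ev f p.1 p.2)
        (continuous_ev f) ‖f‖ fun p => norm_ev_le f p.1 p.2, fun f g => by
      ext p; exact ev_add f g p.1 p.2⟩, fun z f => by ext p; exact ev_smul f p.1 p.2 z⟩ 1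
    fun f => by
      rw [one_mul]
      exact (BoundedContinuousFunction.norm_le (norm_nonneg _)).2 fun p => norm_ev_le f p.1 p.2

@[simp] theorem ev2_apply (f : WB) (p : ℝ × ℝ) : ev2 f p = ev f p.1 p.2 := rfl

theorem norm_ev2_le (f : WB) : ‖ev2 f‖ ≤ ‖f‖ :=
  (BoundedContinuousFunction.norm_le (norm_nonneg _)).2 fun p => norm_ev_le f p.1 p.2

theorem ev2_mul (f f' : WB) : ev2 (f * f') = ev2 f * ev2 f' := by ext p; simp

theorem ev2_one : ev2 1 = 1 := by ext p; simp

/-- functions of `t` as functions of `(t, θ)` -/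
def up2 : BC →L[ℂ] BC2 := ev2.comp (W.oneL 0)

@[simp] theorem up2_apply (x : BC) (p : ℝ × ℝ) : up2 x p = x p.1 := ev_C p.1 p.2 x

/-- the integral over the circle, as a map to functions of `t` -/
theorem continuous_int2 (F : BC2) : Continuous fun t => ∫ θ in (0 : ℝ)..2 * Real.pi, F (t, θ) :=
  intervalIntegral.continuous_parametric_intervalIntegral_of_continuous' (f := fun t θ => F (t, θ))
    F.continuous _ _

theorem norm_int2_le (F : BC2) (t : ℝ) :
    ‖∫ θ in (0 : ℝ)..2 * Real.pi, F (t, θ)‖ ≤ 2 * Real.pi * ‖F‖ := by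
  refine (intervalIntegral.norm_integral_le_of_norm_le_const (C := ‖F‖)
    fun θ _ => F.norm_coe_le_norm _).trans_eq ?_
  rw [sub_zero, abs_of_pos Real.two_pi_pos, mul_comm]

/-- the integral over the circle -/
def int2 : BC2 →L[ℂ] BC :=
  LinearMap.mkContinuous
    ⟨⟨fun F => BoundedContinuousFunction.ofNormedAddCommGroup
        (fun t => ∫ θ in (0 : ℝ)..2 * Real.pi, F (t, θ)) (continuous_int2 F) (2 * Real.pi * ‖F‖)
        (norm_int2_le F), fun F G => by
      ext t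
      exact intervalIntegral.integral_add
        ((F.continuous.comp (Continuous.prodMk_right t)).intervalIntegrable _ _)
        ((G.continuous.comp (Continuous.prodMk_right t)).intervalIntegrable _ _)⟩,
      fun z F => by
        ext t
        exact intervalIntegral.integral_smul z fun θ => F (t, θ)⟩ (2 * Real.pi)
    fun F => norm_BC_le (norm_int2_le F)

theorem int2_apply (F : BC2) (t : ℝ) : int2 F t = ∫ θ in (0 : ℝ)..2 * Real.pi, F (t, θ) := rfl

/-- the integral over an interval -/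
def intI (s t : ℝ) : BC →L[ℂ] ℂ :=
  LinearMap.mkContinuous
    ⟨⟨fun f => ∫ x in s..t, f x, fun f g => intervalIntegral.integral_add
        (f.continuous.intervalIntegrable _ _) (g.continuous.intervalIntegrable _ _)⟩,
      fun z f => intervalIntegral.integral_smul z f⟩ |t - s| fun f =>
    (intervalIntegral.norm_integral_le_of_norm_le_const (C := ‖f‖)
      fun x _ => f.norm_coe_le_norm x).trans_eq (mul_comm _ _)

theorem intI_apply (s t : ℝ) (f : BC) : intI s t f = ∫ x in s..t, f x := rfl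

end Vale.Agent.P218N.End
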