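import Vale.Agent.P218N.End.Api
import Vale.Agent.P218N.End.EvD
import Vale.Agent.P218N.J.Poly

/-! Common facts for the statements of the interface: the fast components at a point, admissible
and real paths, weighted norms. -/

open Filter Topology Metric Set Complex
open scoped ComplexConjugate

noncomputable section

namespace Vale.Agent.P218N.End

open Vale.Agent.P218N.J Vale.Agent.P218N.J.PolyP

/-- The hypotheses under which the fast components are given by the pointwise formula. -/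
structure Ctr.PG (Γ : Ctr) (μ : ℤ → ℝ) : Prop where
  inv : ∀ t, Γ.Om t * Γ.io t = 1
  slit : ∀ m t, 1 / 64 + (μ m : ℂ) / 2 * Γ.io t ∈ slitPlane
  mu : ∃ K, ∀ m, |μ m| ≤ K * br m

namespace Ctr.PG

variable {Γ : Ctr} {μ : ℤ → ℝ}

theorem nuB_apply (h : Γ.PG μ) (m : ℤ) (t : ℝ) :
    Γ.nuB (μ m) t = nu ((μ m : ℂ) / 2 * Γ.io t) :=
  nem_apply (a := Γ.kk (μ m))
    (fun t => ((hasDerivAt_Sf (h.slit m t)).differentiableAt.sub_const _).continuousAt)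
    (C := 2 + ‖Γ.kk (μ m)‖) (fun t => (norm_nu_le _).trans ((Ctr.la_le _).trans
      (by linarith [(Γ.kk (μ m)).norm_coe_le_norm t]))) t

theorem nmu2 (h : Γ.PG μ) : ∃ K, ∀ m, ‖(μ m : ℂ) / 2 * ((br m : ℝ) : ℂ)⁻¹‖ ≤ K := by
  obtain ⟨K, hK⟩ := h.mu
  refine ⟨K / 2, fun m => ?_⟩
  rw [div_mul_eq_mul_div, norm_div, Complex.norm_ofNat, norm_mul, norm_inv_br, Complex.norm_real,
    Real.norm_eq_abs]
  have := (mul_inv_le_iff₀ (br_pos m)).2 (hK m)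
  linarith

theorem nOn (h : Γ.PG μ) : ∃ C, ∀ m : ℤ, ‖((m : ℂ) * I)⁻¹ • (Γ.Om * Γ.nuB (μ m))‖ ≤ C := by
  obtain ⟨K, hK⟩ := h.mu
  have hK0 : 0 ≤ K := by simpa [br] using (abs_nonneg _).trans (hK 0)
  refine ⟨√(‖Γ.Om‖ * K), fun m => norm_BC_le fun t => ?_⟩
  rcases eq_or_ne m 0 with rfl | hm
  · simp
    positivity
  refine Real.le_sqrt_of_sq_le ?_
  have h2 : ‖Γ.Om t‖ * ‖Γ.io t‖ = 1 := by rw [← norm_mul, h.inv, norm_one]
  have h3 : ‖Γ.nuB (μ m) t‖ ^ 2 ≤ |μ m| / 2 * ‖Γ.io t‖ := by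
    have b1 := congrArg norm (nu_mul_la ((μ m : ℂ) / 2 * Γ.io t))
    have b2 := norm_nu_le ((μ m : ℂ) / 2 * Γ.io t)
    rw [h.nuB_apply]
    simp only [norm_mul, norm_div, Complex.norm_real, Real.norm_eq_abs, Complex.norm_ofNat] at b1
    nlinarith [norm_nonneg (nu ((μ m : ℂ) / 2 * Γ.io t))]
  have h4 : (1 : ℝ) ≤ (m : ℝ) ^ 2 := by
    have : (1 : ℤ) ≤ m ^ 2 := by nlinarith [Int.one_le_abs hm, sq_abs m]
    exact_mod_cast this
  have h5 : |μ m| / 2 ≤ K * (m : ℝ) ^ 2 := by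
    have := hK m
    unfold br at this
    nlinarith
  simp only [BoundedContinuousFunction.mul_apply, BoundedContinuousFunction.smul_apply, smul_eq_mul,
    norm_mul, norm_inv, Complex.norm_I, Complex.norm_intCast, mul_one, mul_pow, inv_pow, sq_abs]
  rw [inv_mul_le_iff₀ (by positivity)]
  calc _ ≤ ‖Γ.Om t‖ ^ 2 * (K * (m : ℝ) ^ 2 * ‖Γ.io t‖) := by
        gcongr
        exact h3.trans (by gcongr)
    _ = (m : ℝ) ^ 2 * (‖Γ.Om t‖ * K) * (‖Γ.Om t‖ * ‖Γ.io t‖) := by ring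
    _ ≤ _ := by rw [h2, mul_one]; gcongr; exact Γ.Om.norm_coe_le_norm t

/-- the fast components at a point -/
theorem c_piJ (h : Γ.PG μ) {j : EJ} (hj : Γ.IsJet j) (m : ℤ) (t : ℝ) :
    (Γ.piJ μ j).c m t =
      la ((μ m : ℂ) / 2 * Γ.io t) * j.op.c m t + (μ m : ℂ) / 2 * j.y.c m t := by
  obtain ⟨C, hC⟩ := h.nOn
  obtain ⟨K, hK⟩ := h.nmu2
  have e1 := W.c_diag (T := fun m : ℤ => if m = 0 then ContinuousLinearMap.mul ℂ BC (Γ.nuB (μ m))
    else 0) (C := ‖Γ.nuB (μ 0)‖) (fun m => by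
      split_ifs with a
      · rw [a]; exact norm_mulL_le _
      · simp) j.op m
  have e2 := W.c_diag (T := fun m : ℤ => ContinuousLinearMap.mul ℂ BC (((m : ℂ) * I)⁻¹ •
    (Γ.Om * Γ.nuB (μ m)))) (fun m => (norm_mulL_le _).trans (hC m)) j.pt m
  simp only [piJ, W.c_add, W.c_smul, e1, e2, c_mult hK, (hj m).2.2, EJ.c_y]
  have h1 := h.inv t
  rw [la_eq, ← h.nuB_apply]
  split_ifs with a
  · subst a
    simp only [ContinuousLinearMap.mul_apply', BoundedContinuousFunction.add_apply,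
      BoundedContinuousFunction.smul_apply, BoundedContinuousFunction.mul_apply, smul_eq_mul]
    simp
    ring
  · have h3 : ((m : ℂ) * I)⁻¹ * (m * I) = 1 :=
      inv_mul_cancel₀ (mul_ne_zero (Int.cast_ne_zero.2 a) Complex.I_ne_zero)
    simp only [ContinuousLinearMap.mul_apply', BoundedContinuousFunction.add_apply,
      BoundedContinuousFunction.smul_apply, BoundedContinuousFunction.mul_apply, smul_eq_mul,
      zero_apply, BoundedContinuousFunction.coe_zero, Pi.zero_apply]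
    linear_combination (Γ.nuB (μ m) t * j.op.c m t * (Γ.Om t * Γ.io t)) * h3 +
      (Γ.nuB (μ m) t * j.op.c m t) * h1

end Ctr.PG

theorem muCyl_le (m : ℤ) : |muCyl m| ≤ 1 * br m := by
  unfold muCyl br
  rw [abs_le]
  constructor <;> nlinarith [sq_nonneg (m : ℝ)]

theorem muCone_le (cc : ℝ) (m : ℤ) : |muCone cc m| ≤ cc ^ 2 * br m := by
  unfold muCone br
  rw [abs_of_nonneg (by positivity)]
  nlinarith [sq_nonneg (m : ℝ), sq_nonneg cc, mul_nonneg (sq_nonneg cc) (sq_nonneg (m : ℝ))]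

variable {c K T P : ℝ} {a : ℂ} {γ : Path}

theorem Path.cyl_Om (γ : Path) (a : ℂ) (t : ℝ) : (γ.cyl a).Om t = Om a (γ.ze t) := rfl

theorem Path.Oh_apply (γ : Path) (a : ℂ) (t : ℝ) : γ.Oh a t = a / 2 * γ.ze t := rfl

/-- the values of the coefficients of a cylindrical end -/
structure Path.CV (γ : Path) (a : ℂ) : Prop where
  ne : ∀ t, Om a (γ.ze t) ≠ 0
  iz : ∀ t, binv γ.ze t = (γ.ze t)⁻¹
  ir : ∀ t, binv (γ.rho a) t = (rh a (γ.ze t))⁻¹

namespace Path.CV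

theorem ze_ne (h : γ.CV a) (t : ℝ) : γ.ze t ≠ 0 := left_ne_zero_of_mul (h.ne t)

theorem rh_ne (h : γ.CV a) (t : ℝ) : rh a (γ.ze t) ≠ 0 := right_ne_zero_of_mul (h.ne t)

theorem io (h : γ.CV a) (t : ℝ) : (γ.cyl a).io t = (Om a (γ.ze t))⁻¹ := by
  change binv γ.ze t * binv (γ.rho a) t = _
  rw [h.iz, h.ir, Om, mul_inv]

theorem hh (h : γ.CV a) (t : ℝ) : γ.hh a t = a / (2 * rh a (γ.ze t)) := by
  change a / 2 * binv (γ.rho a) t = _
  rw [h.ir, div_mul_eq_div_div, div_eq_mul_inv (a / 2)]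

theorem lo (h : γ.CV a) (t : ℝ) :
    (γ.cyl a).lo t = (γ.ze t)⁻¹ + a * (rh a (γ.ze t))⁻¹ := by
  change binv γ.ze t + a * binv (γ.rho a) t = _
  rw [h.iz, h.ir]

theorem inv (h : γ.CV a) (t : ℝ) : (γ.cyl a).Om t * (γ.cyl a).io t = 1 := by
  rw [h.io, γ.cyl_Om, mul_inv_cancel₀ (h.ne t)]

theorem ok (h : γ.CV a) (ho : γ.Ok) : (γ.cyl a).Ok := by
  refine ⟨ho.spt, BoundedContinuousFunction.ext h.inv, fun t => ?_⟩
  have e : ((γ.cyl a).io : ℝ → ℂ) = fun t => (γ.ze t * (2 + a * (γ.ze t - 2)))⁻¹ := funext h.io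
  rw [h.lo, h.io, e]
  refine (((ho.der t).mul ((((ho.der t).sub_const 2).const_mul a).const_add 2)).inv
    (h.ne t)).congr_deriv ?_
  have h1 := h.ze_ne t
  have h2 := h.rh_ne t
  change _ = -(γ.g t * _ * _)
  simp only [Pi.mul_apply, Om]
  unfold rh at h2 ⊢
  field_simp

end Path.CV

theorem cv_of_big (hz : ∀ t, 1 ≤ ‖γ.ze t‖) (hK : 0 < K) (h : ∀ t, K ≤ ‖Om a (γ.ze t)‖) :
    γ.CV a := by
  refine ⟨fun t => norm_pos_iff.1 (hK.trans_le (h t)), binv_apply one_pos hz, fun t => ?_⟩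
  have hp : 0 < ‖γ.ze‖ + 1 := by positivity
  refine binv_apply (c := K / (‖γ.ze‖ + 1)) (by positivity) (fun t => ?_) t
  have h1 := h t
  rw [Om, norm_mul] at h1
  rw [AdmP.rho_apply, div_le_iff₀ hp]
  nlinarith [γ.ze.norm_coe_le_norm t, norm_nonneg (rh a (γ.ze t))]

theorem K_pos (hc : 0 < c) (hK : 128 / c ≤ K) : 0 < K := lt_of_lt_of_le (by positivity) hK

theorem admP_c1 (h : AdmP c K T a γ) : c ≤ 1 := by
  obtain ⟨u, h1, h2, -⟩ := h.dir 0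
  exact h2.trans ((re_le_norm u).trans_eq h1)

theorem admP_K (hc : 0 < c) (hK : 128 / c ≤ K) (h : AdmP c K T a γ) : 128 ≤ K :=
  le_trans (by rw [le_div_iff₀ hc]; linarith [admP_c1 h]) hK

theorem admP_cv (hz : ∀ t, 1 ≤ ‖γ.ze t‖) (hK : 0 < K) (h : AdmP c K T a γ) : γ.CV a :=
  cv_of_big hz hK h.big

theorem admP_norm_io (hz : ∀ t, 1 ≤ ‖γ.ze t‖) (hK : 0 < K) (h : AdmP c K T a γ) :
    ‖(γ.cyl a).io‖ ≤ K⁻¹ := norm_BC_le fun t => by
  rw [(admP_cv hz hK h).io, norm_inv]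
  exact inv_anti₀ hK (h.big t)

theorem admP_adm0 (hc : 0 < c) (hz : ∀ t, 1 ≤ ‖γ.ze t‖) (hK : 0 < K) (h : AdmP c K T a γ) :
    (γ.cyl a).Adm0 c := by
  refine ⟨hc, fun t => ?_⟩
  obtain ⟨u, h1, h2, h3, h4⟩ := h.dir t
  refine ⟨u, h1, h2, ?_, h4⟩
  have hn : 0 < ‖Om a (γ.ze t)‖ := hK.trans_le (h.big t)
  rw [(admP_cv hz hK h).io, norm_inv, inv_def, ← mul_assoc, re_mul_ofReal, normSq_eq_norm_sq]
  have e : (u * conj (Om a (γ.ze t))).re = (conj u * Om a (γ.ze t)).re := by simp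
  rw [e, le_mul_inv_iff₀ (by positivity)]
  refine le_trans (le_of_eq ?_) h3
  field_simp

theorem admP_adm (hc : 0 < c) (hz : ∀ t, 1 ≤ ‖γ.ze t‖) (hK : 128 / c ≤ K) (h : AdmP c K T a γ)
    (m : ℤ) : (γ.cyl a).Adm (muCyl m) c := by
  have hK0 := K_pos hc hK
  refine (admP_adm0 hc hz hK0 h).adm ?_
  rcases le_or_gt 0 (muCyl m) with h1 | h1
  · exact Or.inl h1
  · right
    have h2 : |muCyl m| ≤ 1 := by
      rw [abs_of_neg h1]
      unfold muCyl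
      nlinarith [sq_nonneg (m : ℝ)]
    have h3 : K⁻¹ ≤ c / 128 := by
      rw [← inv_div]
      exact inv_anti₀ (by positivity) hK
    calc _ ≤ 1 * K⁻¹ := by gcongr; exact admP_norm_io hz hK0 h
      _ ≤ _ := by linarith

theorem admP_pg' (hc : 0 < c) (hz : ∀ t, 1 ≤ ‖γ.ze t‖) (hK : 128 / c ≤ K) (h : AdmP c K T a γ) :
    (γ.cyl a).PG muCyl :=
  ⟨(admP_cv hz (K_pos hc hK) h).inv, fun m t => (admP_adm hc hz hK h m).slit t, 1, muCyl_le⟩

/-! ### Monotone and real paths -/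

theorem mono_of_dir (hc : 0 < c) (ho : γ.Ok) (h : ∀ t, c * ‖γ.g t‖ ≤ (γ.g t).re) :
    Monotone fun t => (γ.ze t).re :=
  monotone_of_deriv_nonneg (fun t => (hasDerivAt_re ho t).differentiableAt) fun t => by
    rw [(hasDerivAt_re ho t).deriv]
    exact (mul_nonneg hc.le (norm_nonneg _)).trans (h t)

theorem le_re_of_dir (hc : 0 < c) (ho : γ.Ok) (h : ∀ t, c * ‖γ.g t‖ ≤ (γ.g t).re) (t : ℝ) :
    (γ.ze 0).re ≤ (γ.ze t).re ∧ (γ.ze t).re ≤ (γ.ze 1).re := by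
  rw [← ze_cl ho t]
  exact ⟨mono_of_dir hc ho h (cl_mem t).1, mono_of_dir hc ho h (cl_mem t).2⟩

namespace Path.RealP

theorem g_eq (h : γ.RealP T) (t : ℝ) : γ.g t = (‖γ.g t‖ : ℝ) := by
  have h1 : γ.g t = ((γ.g t).re : ℂ) := Complex.ext rfl (by simp [h.im t])
  rw [h1, norm_real, Real.norm_of_nonneg (h.re t)]

theorem dir (h : γ.RealP T) (t : ℝ) : 1 * ‖γ.g t‖ ≤ (γ.g t).re := by
  have := congrArg Complex.re (h.g_eq t)
  rw [ofReal_re] at this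
  linarith

theorem im_ze (h : γ.RealP T) (t : ℝ) : (γ.ze t).im = 0 := by
  have h1 : ∀ t, HasDerivAt (fun t => (γ.ze t).im) 0 t := fun t =>
    (imCLM.hasFDerivAt.comp_hasDerivAt t (h.ok.der t)).congr_deriv (h.im t)
  rw [is_const_of_deriv_eq_zero (fun t => (h1 t).differentiableAt) (fun t => (h1 t).deriv) t 0,
    h.st, ofReal_im]

theorem ze_eq (h : γ.RealP T) (t : ℝ) : γ.ze t = ((γ.ze t).re : ℂ) :=
  Complex.ext rfl (by simp [h.im_ze t])

theorem mono (h : γ.RealP T) : Monotone fun t => (γ.ze t).re := mono_of_dir one_pos h.ok h.dir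

theorem T_le (h : γ.RealP T) (t : ℝ) : T ≤ (γ.ze t).re := by
  simpa [h.st] using (le_re_of_dir one_pos h.ok h.dir t).1

theorem norm_ze (h : γ.RealP T) (hT : 0 ≤ T) (t : ℝ) : ‖γ.ze t‖ = (γ.ze t).re := by
  conv_lhs => rw [h.ze_eq, norm_real, Real.norm_of_nonneg (hT.trans (h.T_le t))]

theorem one_le (h : γ.RealP T) (hT : 1 ≤ T) (t : ℝ) : 1 ≤ ‖γ.ze t‖ :=
  (hT.trans (h.T_le t)).trans (re_le_norm _)

theorem iz (h : γ.RealP T) (hT : 1 ≤ T) (t : ℝ) : binv γ.ze t = (γ.ze t)⁻¹ :=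
  binv_apply one_pos (h.one_le hT) t

theorem cone_io (h : γ.RealP T) (hT : 1 ≤ T) (t : ℝ) :
    γ.cone.io t = (γ.ze t)⁻¹ * (γ.ze t)⁻¹ := by
  change binv γ.ze t * binv γ.ze t = _
  rw [h.iz hT]

theorem cone_pg (h : γ.RealP T) (hT : 1 ≤ T) (cc : ℝ) : γ.cone.PG (muCone cc) := by
  refine ⟨fun t => ?_, fun m t => ?_, _, muCone_le cc⟩
  · have h1 : γ.ze t ≠ 0 := norm_pos_iff.1 (one_pos.trans_le (h.one_le hT t))
    rw [h.cone_io hT]
    change γ.ze t * γ.ze t * _ = 1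
    field_simp
  · rw [h.cone_io hT, h.ze_eq]
    have h2 : 0 ≤ muCone cc m := by
      unfold muCone
      positivity
    have h3 : (1 / 64 + (muCone cc m : ℂ) / 2 * ((((γ.ze t).re : ℝ) : ℂ)⁻¹ *
        (((γ.ze t).re : ℝ) : ℂ)⁻¹)) =
        ((1 / 64 + muCone cc m / 2 * ((γ.ze t).re⁻¹ * (γ.ze t).re⁻¹) : ℝ) : ℂ) := by
      push_cast
      rfl
    rw [h3, ofReal_mem_slitPlane]
    have := mul_nonneg (div_nonneg h2 zero_le_two) (mul_self_nonneg (γ.ze t).re⁻¹)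
    linarith

/-- on real paths below `P` and for slopes at most `1 / (4 P)`, `ρ₀` is close to two -/
theorem rh_near (h : γ.RealP T) (hT : 2 ≤ T) (hP : ∀ t, (γ.ze t).re ≤ P) (ha : ‖a‖ ≤ 1 / (4 * P))
    (t : ℝ) : ‖rh a (γ.ze t) - 2‖ ≤ 1 / 4 := by
  have h1 := h.T_le t
  have h2 := hP t
  have hP0 : 0 < P := by linarith
  have h3 : ‖γ.ze t - 2‖ ≤ P := by
    rw [h.ze_eq, ← ofReal_ofNat, ← ofReal_sub, norm_real, Real.norm_of_nonneg (by linarith)]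
    linarith
  rw [rh, add_sub_cancel_left, norm_mul]
  calc _ ≤ 1 / (4 * P) * P := by gcongr
    _ = 1 / 4 := by field_simp

theorem admP (h : γ.RealP T) (hT : 2 ≤ T) (hP : ∀ t, (γ.ze t).re ≤ P) (ha : ‖a‖ ≤ 1 / (4 * P)) :
    AdmP (1 / 2) T T a γ := by
  have key : ∀ t, 7 / 4 ≤ (rh a (γ.ze t)).re ∧ ‖rh a (γ.ze t)‖ ≤ 9 / 4 := fun t => by
    have h1 := h.rh_near hT hP ha t
    have h2 := (abs_le.1 ((abs_re_le_norm _).trans h1)).1
    have h3 := norm_le_insert' (rh a (γ.ze t)) 2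
    simp only [sub_re, re_ofNat, Complex.norm_ofNat] at h2 h3
    constructor <;> linarith
  have hre : ∀ t, (Om a (γ.ze t)).re = (γ.ze t).re * (rh a (γ.ze t)).re := fun t => by
    rw [Om, mul_re, h.im_ze, zero_mul, sub_zero]
  refine ⟨h.ok, h.st, fun t => ⟨1, norm_one, by norm_num, ?_, by rw [mul_one]; exact h.g_eq t⟩,
    fun t => le_trans ?_ (re_le_norm _)⟩
  · rw [map_one, one_mul, hre, Om, norm_mul, h.norm_ze (by linarith)]
    nlinarith [key t, h.T_le t]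
  · rw [hre]
    nlinarith [key t, h.T_le t]

end Path.RealP

/-! ### Weighted norms -/

theorem wle {u w : BC} {A : ℝ} (hA : 0 ≤ A) (h : ∀ t, ‖u t‖ ≤ A * ‖w t‖) (f : WB) :
    ‖W.C u * f‖ ≤ A * ‖W.C w * f‖ := by
  refine W.norm_le_of_le fun m => norm_BC_le fun t => ?_
  rw [W.c_C_mul, W.c_C_mul, BoundedContinuousFunction.mul_apply, norm_mul]
  calc _ ≤ A * ‖w t‖ * ‖f.c m t‖ := by gcongr; exact h t
    _ = A * ‖(w * f.c m) t‖ := by rw [BoundedContinuousFunction.mul_apply, norm_mul, mul_assoc]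
    _ ≤ _ := by gcongr; exact (w * f.c m).norm_coe_le_norm t

theorem wle' {u b w : BC} {A : ℝ} (hA : 0 ≤ A) (h : ∀ t, ‖u t * b t‖ ≤ A * ‖w t‖) (f : WB) :
    ‖W.C u * (W.C b * f)‖ ≤ A * ‖W.C w * f‖ := by
  rw [← mul_assoc, ← map_mul]
  exact wle hA h f

theorem ext_ct {f f' : WB} (h : ∀ m t, f.c m t = f'.c m t) : f = f' :=
  W.ext fun m => BoundedContinuousFunction.ext (h m)

theorem c_C_mul_apply (x : BC) (f : WB) (m : ℤ) (t : ℝ) : (W.C x * f).c m t = x t * f.c m t := by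
  rw [W.c_C_mul]
  rfl

end Vale.Agent.P218N.End
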