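import Vale.Agent.P218N.End.Api2
import Vale.Agent.P218N.End.ApiTr

/-! Conjugation on real paths. -/

open Filter Topology Metric Set Complex
open scoped ComplexConjugate

noncomputable section

namespace Vale.Agent.P218N.End

open Vale.Agent.P218N.J

namespace CjP

theorem conj_sqrt {z : ℂ} (h : 0 < z.re) : Complex.sqrt (conj z) = conj (Complex.sqrt z) := by
  unfold Complex.sqrt
  have h1 := Complex.conj_cpow z 2⁻¹ (Complex.slitPlane_arg_ne_pi (.inl h))
  simpa only [map_ofNat, map_inv₀] using h1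

theorem re_pos {z : ℂ} (h : ‖z - 1‖ ≤ 1 / 2) : 0 < z.re := by
  have := (abs_le.1 ((abs_re_le_norm _).trans h)).1
  rw [sub_re, one_re] at this
  linarith

theorem re_div_pos {x y : ℂ} (hx : ‖x - 2‖ ≤ 1 / 4) (hy : ‖y - 2‖ ≤ 1 / 4) : 0 < (x * y⁻¹).re := by
  have h1 := abs_le.1 ((abs_re_le_norm _).trans hx)
  have h2 := abs_le.1 ((abs_re_le_norm _).trans hy)
  have h3 := abs_le.1 ((abs_im_le_norm _).trans hx)
  have h4 := abs_le.1 ((abs_im_le_norm _).trans hy)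
  simp only [sub_re, re_ofNat, sub_im, im_ofNat, sub_zero] at h1 h2 h3 h4
  have h5 : 0 < normSq y := normSq_pos.2 fun h => by simp [h] at h2; linarith [h2.1]
  rw [← div_eq_mul_inv, div_re, ← add_div]
  exact div_pos (by nlinarith) h5

theorem star_V (s : Icc (0 : ℝ) 1) (f : BC) : V s (star f) = star (V s f) := by
  ext t
  rw [star_BC_apply, V_apply, V_apply, ← intervalIntegral.intervalIntegral_conj]
  rfl

theorem star_ex (a : BC) : ex (star a) = star (ex a) := by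
  ext t
  simp only [star_BC_apply, ex_apply, Complex.exp_conj]

variable {Γ : Ctr} {μ : ℤ → ℝ}

theorem iW_cj (φ : BC) (r : Icc (0 : ℝ) 1) : Γ.cj.iW (star φ) r = star (Γ.iW φ r) := by
  rw [Ctr.iW, Ctr.iW, ← star_ex, star_neg, ← star_V, star_mul']
  rfl

theorem piJ_cj (hμ : ∀ m, μ (-m) = μ m) (h : Γ.PG μ) (j : EJ) :
    Γ.cj.piJ μ j.cj = W.cj (Γ.piJ μ j) := by
  have k : ∀ m, Γ.cj.nuB (μ m) = star (Γ.nuB (μ m)) := fun m => by
    rw [Ctr.nuB, Ctr.nuB, Ctr.kk_cj, star_nem fun t => conj_nu (h.slit m t)]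
  unfold Ctr.piJ
  rw [W.cj_add, W.cj_add, W.cj_add, W.cj_smul,
    cj_mult fun m => by simp [hμ, br_neg, map_ofNat],
    W.cj_diag (T' := fun m => if m = 0 then ContinuousLinearMap.mul ℂ BC (Γ.cj.nuB (μ m)) else 0)
      fun m x => by
        by_cases hm : m = 0
        · simp [hm, k 0]
        · simp [hm],
    W.cj_diag (T' := fun m => ContinuousLinearMap.mul ℂ BC
      (((m : ℂ) * I)⁻¹ • (Γ.cj.Om * Γ.cj.nuB (μ m)))) fun m x => by
        rw [k m, hμ]
        simp [Ctr.cj]]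
  simp [map_ofNat]

theorem nrm_cj (hμ : ∀ m, μ (-m) = μ m) (h : Γ.PG μ) (w : BC) (j : EJ) :
    Γ.cj.nrm μ (star w) j.cj = Γ.nrm μ w j := by
  have e : j.cj.wt (star w) = (j.wt w).cj := EJ.ext' (by simp) (by simp) (by simp) (by simp)
  rw [Ctr.nrm, Ctr.nrm, e, EJ.norm_cj, piJ_cj hμ h, ← W.cj_C, ← W.cj_mul, W.norm_cj]

theorem nrm_cj1 (hμ : ∀ m, μ (-m) = μ m) (h : Γ.PG μ) (j : EJ) :
    Γ.cj.nrm μ 1 j.cj = Γ.nrm μ 1 j := by simpa using nrm_cj hμ h 1 j

theorem rh_conj (a : ℂ) (ζ : ℂ) : rh (conj a) (conj ζ) = conj (rh a ζ) := by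
  simp [rh, map_ofNat]

theorem lagCyl_conj {a ζ y yt op : ℂ} (h1 : 0 < (ζ * rh a ζ).re) (h2 : 0 < (Dc a ζ y yt op).re) :
    lagCyl (conj a) (conj ζ) (conj y) (conj yt) (conj op) = conj (lagCyl a ζ y yt op) := by
  have e : Dc (conj a) (conj ζ) (conj y) (conj yt) (conj op) = conj (Dc a ζ y yt op) := by
    simp [Dc, cylD, cylB, rh_conj, map_ofNat]
  rw [lagCyl, lagCyl, e, rh_conj, ← map_mul, conj_sqrt h1, conj_sqrt h2]
  simp [← Complex.exp_conj, map_ofNat]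

theorem lagCone_conj {cc : ℝ} {ka ζ w wt op : ℂ}
    (h : 0 < (coneD ka w (w + 2 * ζ⁻¹ * op) (cc * wt)).re) :
    lagCone cc (conj ka) (conj ζ) (conj w) (conj wt) (conj op) = conj (lagCone cc ka ζ w wt op) := by
  have e : coneD (conj ka) (conj w) (conj w + 2 * (conj ζ)⁻¹ * conj op) (cc * conj wt) =
      conj (coneD ka w (w + 2 * ζ⁻¹ * op) (cc * wt)) := by
    simp [coneD, map_ofNat]
  rw [lagCone, lagCone, e, conj_sqrt h]
  simp [← Complex.exp_conj, map_ofNat]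

theorem int_conj {g : BC} (hg : ∀ t, (g t).im = 0) {F G : ℝ → ℝ → ℂ}
    (h : ∀ t θ, F t θ = conj (G t θ)) (t₀ t₁ : ℝ) :
    (∫ t in t₀..t₁, g t * ∫ θ in (0 : ℝ)..2 * Real.pi, F t θ) =
      conj (∫ t in t₀..t₁, g t * ∫ θ in (0 : ℝ)..2 * Real.pi, G t θ) := by
  simp only [← intervalIntegral.intervalIntegral_conj, map_mul, h, conj_eq_iff_im.2 (hg _)]

variable {γ : Path} {a a' : ℂ}

theorem pw_cj (γ : Path) (a : ℂ) (p : ℝ) : γ.cj.pw (conj a) p = star (γ.pw a p) := by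
  simp [Path.pw, Path.cyl_cj, Ctr.cj]

theorem cj_mk (a b c d : WB) : EJ.cj (a, b, c, d) = (W.cj a, W.cj b, W.cj c, W.cj d) := rfl

theorem resc_cj (γ : Path) (a a' : ℂ) (j : EJ) :
    γ.cj.resc (conj a) (conj a') j.cj = (γ.resc a a' j).cj := by
  rw [Path.resc, Path.resc, EJ.y2_cj, EJ.op_cj, EJ.oq_cj, EJ.pt_cj, cj_mk, W.cj_mul, W.cj_mul,
    W.cj_C, star_mul', star_binv, γ.rho_cj, γ.rho_cj]

theorem conv_cj (h : ∀ t, 0 < ((γ.rho a * binv (γ.rho a')) t).re) (j : EJ) :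
    γ.cj.conv (conj a) (conj a') j.cj = (γ.conv a a' j).cj := by
  have es : nem Complex.sqrt (star (γ.rho a) * binv (star (γ.rho a'))) =
      star (nem Complex.sqrt (γ.rho a * binv (γ.rho a'))) := by
    rw [star_nem fun t => (conj_sqrt (h t)).symm, star_mul', star_binv]
  have eo : (γ.cyl a').cj.Om = star (γ.cyl a').Om := rfl
  have e2 : W.cj (2 : WB) = 2 := map_ofNat W.cjR 2
  rw [Path.conv, Path.conv, γ.rho_cj, γ.rho_cj, γ.hh_cj, γ.hh_cj, γ.cyl_cj, es, eo,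
    EJ.y2_cj, EJ.op_cj, EJ.oq_cj, EJ.pt_cj, EJ.y_cj, EJ.yt_cj, ← star_binv, cj_mk]
  simp only [W.cj_add, W.cj_mul, W.cj_C, star_sub, star_mul', W.cj_one, e2, star_add, star_ofNat,
    star_one]

theorem AA_cj (γ : Path) (a : ℂ) (j : EJ) (t : ℝ) :
    γ.cj.AA (conj a) j.cj t = conj (γ.AA a j t) := by
  have : (1 + j.cj.y) ^ 2 = W.cj ((1 + j.y) ^ 2) := by simp
  rw [Path.AA, Path.AA, this, W.c_cj, neg_zero, star_BC_apply,
    show γ.cj.ze t = conj (γ.ze t) from rfl, rh_conj]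
  simp only [map_div₀, map_sub, map_mul, map_ofNat]

end CjP

open CjP in
theorem cjStmt : CjStmt := by
  intro T P γ j hT h
  have e : γ.cj = γ := Path.isRl_iff.2 ⟨h.im_ze, h.im⟩
  have ez : ∀ t, conj (γ.ze t) = γ.ze t := fun t => conj_eq_iff_im.2 (h.im_ze t)
  have h1 := h.one_le (by linarith)
  refine ⟨fun a a' hP ha ha' => ?_, fun cc ka kd hka hkd => ?_⟩
  · have hP' : ∀ t, (γ.ze t).re ≤ P := fun t => (le_re_of_dir one_pos h.ok h.dir t).2.trans hP
    have ad := h.admP (by linarith) hP' ha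
    have ad' := h.admP (by linarith) hP' ha'
    have pg := admP_pg' (by norm_num) h1 (by norm_num; linarith) ad
    have r := h.rh_near (by linarith) hP' ha
    have r' := h.rh_near (by linarith) hP' ha'
    have ec : γ.cyl (conj a) = (γ.cyl a).cj := by rw [← γ.cyl_cj a, e]
    refine ⟨fun k => by rw [ec]; exact k.cj, by rw [← Path.Ecyl_cj, e],
      by rw [ec, piJ_cj muCyl_neg pg], fun p => ?_, by rw [ec, nrm_cj1 muCyl_neg pg],
      by rw [← resc_cj, e], ?_, fun t => by rw [← AA_cj, e], fun hj t₀ t₁ => ?_⟩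
    · rw [← nrm_cj muCyl_neg pg, ← iW_cj, ← pw_cj, e, ec]
    · rw [← conv_cj fun t => ?_, e]
      rw [BoundedContinuousFunction.mul_apply, (admP_cv h1 (by linarith) ad').ir]
      exact re_div_pos (r t) (r' t)
    · refine int_conj h.im (fun t θ => ?_) t₀ t₁
      have k := h.T_le t
      have k1 : ‖a‖ ≤ 1 / 128 := ha.trans (one_div_le_one_div_of_le (by norm_num)
        (by linarith [hP' t]))
      rw [EJ.y_cj, EJ.yt_cj, EJ.op_cj, ev_cj, ev_cj, ev_cj, ← lagCyl_conj ?_ (re_pos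
        (TrP.Dc_near k1 (by linarith [ad.big t]) ((norm_ev_le _ _ _).trans (j.norm_y_le.trans hj))
          ((norm_ev_le _ _ _).trans (j.norm_yt_le.trans hj))
          ((norm_ev_le _ _ _).trans (j.norm_op_le.trans hj)))), ez]
      have := (abs_le.1 ((abs_re_le_norm _).trans (r t))).1
      rw [sub_re, re_ofNat] at this
      rw [mul_re, h.im_ze, zero_mul, sub_zero]
      exact mul_pos (by linarith) (by linarith)
  · have ec : γ.cone.cj = γ.cone := Path.IsRl.cone e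
    have pg := h.cone_pg (by linarith) cc
    refine ⟨fun k => by rw [← ec]; exact k.cj, Path.IsRl.Econe e cc hka hkd j, ?_, ?_,
      fun hD t₀ t₁ => ?_⟩
    · rw [← piJ_cj (muCone_neg cc) pg, ec]
    · rw [← nrm_cj1 (muCone_neg cc) pg j, ec]
    · refine int_conj h.im (fun t θ => ?_) t₀ t₁
      rw [EJ.y_cj, EJ.yt_cj, EJ.op_cj, ev_cj, ev_cj, ev_cj, ← lagCone_conj (re_pos (hD t θ)), ez,
        show conj (W.sumL θ ka) = W.sumL θ ka from W.isRl_iff_sumL.1 hka θ]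

end Vale.Agent.P218N.End
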