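import Vale.Agent.P218N.End.Api

/-! The statements (Conv) and (Pt) with the hypothesis `ρ₀(a') ≠ 0`, without which `tht` is zero
by division by zero. -/

open Filter Topology Metric Set Complex

noncomputable section

namespace Vale.Agent.P218N.End

open Vale.Agent.P218N.J

/-- (Conv): re-expression of a surface for another slope, for `ρ₀(a') ≠ 0`. -/
def ConvStmt' : Prop := ∀ c > 0, ∃ C ≥ 1, ∃ K₀ : ℝ, ∀ (K T θ : ℝ) (a a' : ℂ) (γ : Path),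
  K₀ ≤ K → K ≤ T → ‖a‖ ≤ 1 / K → ‖a'‖ ≤ 1 / K → AdmP c K T a γ → θ ≤ c / 4 →
  (∀ t, tht a a' (γ.ze t) ≤ θ) → rh a' T ≠ 0 →
  AdmP (c / 2) (K / 2) T a' γ ∧ (∀ j, (γ.cyl a).IsJet j →
    (γ.cyl a').IsJet (γ.conv a a' j) ∧
    W.C (γ.rho a') * γ.Ecyl a' (γ.conv a a' j) = W.C (γ.rho a) * γ.Ecyl a j ∧
    (γ.cyl a').nrm muCyl 1 (γ.conv a a' j) ≤ C * ((γ.cyl a).nrm muCyl 1 j + θ) ∧
    (∀ t, tr t (γ.conv a a' j).y2 = cvY a a' (γ.ze t) (tr t j.y2) ∧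
      tr t ((γ.cyl a').piJ muCyl (γ.conv a a' j)) =
        cvP a a' (γ.ze t) (tr t j.y2) (tr t ((γ.cyl a).piJ muCyl j)) ∧
      γ.AA a' (γ.conv a a' j) t = γ.AA a j t ∧ R0v a' γ (γ.conv a a' j) t = R0v a γ j t ∧
      R1v a' γ (γ.conv a a' j) t = R1v a γ j t) ∧
    ((γ.cyl a).nrm muCyl 1 j ≤ 1 / C → θ ≤ 1 / C →
      ∀ t₀ t₁, γ.FCI a' (γ.conv a a' j) t₀ t₁ = γ.FCI a j t₀ t₁) ∧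
    (∀ j' w, (γ.cyl a).IsJet j' → (γ.cyl a').nrm muCyl w (γ.conv a a' j - γ.conv a a' j') ≤
      C * (γ.cyl a).nrm muCyl w (j - j')) ∧
    ∀ a'', (∀ t, tht a' a'' (γ.ze t) ≤ 1 / 4) → γ.conv a' a'' (γ.conv a a' j) = γ.conv a a'' j) ∧
  ∀ P : ℝ, (∀ t, ‖γ.ze t‖ ≤ P) →
    DifferentiableOn ℂ (fun p : ℂ × EJ => γ.conv p.1 0 p.2) {p | ‖p.1‖ < 1 / (4 * P)}

/-- (Pt): the change of slope at a point, for `ρ₀(a') ≠ 0`. -/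
def PtStmt' : Prop := ∀ c > 0, ∃ C ≥ 1, ∃ K₀ : ℝ,
  (∀ (K : ℝ) (a a' ζ u : ℂ) (d π : WD), K₀ ≤ K → K ≤ ζ.re → ‖a‖ ≤ 1 / K → ‖a'‖ ≤ 1 / K →
    ‖u‖ = 1 → c ≤ u.re → c * ‖Om a ζ‖ ≤ ((starRingEnd ℂ) u * Om a ζ).re → K ≤ ‖Om a ζ‖ →
    tht a a' ζ ≤ c / 4 → rh a' ζ ≠ 0 →
    ‖cvY a a' ζ d - d‖ ≤ C * tht a a' ζ * (1 + ‖d‖) ∧
    ‖cvY a a' ζ d - d - ((a - a') * (ζ - 2) / (2 * rh a' ζ)) • (1 : WD)‖ ≤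
      C * tht a a' ζ * (tht a a' ζ + ‖d‖) ∧
    ‖cvP a a' ζ d π - π‖ ≤ C * tht a a' ζ * (‖π‖ + ‖d‖ + 1 / K + tht a a' ζ) ∧
    ‖nsD (cvP a a' ζ d π)‖ ≤ C * (‖nsD π‖ + ‖nsD d‖) ∧
    (∀ d' π', ‖cvP a a' ζ d π - cvP a a' ζ d' π' - (π - π')‖ ≤
      C * tht a a' ζ * (‖π - π'‖ + ‖d - d'‖)) ∧
    cvY a' a ζ (cvY a a' ζ d) = d ∧ cvP a' a ζ (cvY a a' ζ d) (cvP a a' ζ d π) = π) ∧
  ∀ T : ℝ, K₀ ≤ T →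
    DifferentiableOn ℂ (fun p : ℂ × WD × WD => cvP p.1 0 T p.2.1 p.2.2) {p | ‖p.1‖ < 1 / (4 * T)} ∧
    DifferentiableOn ℂ (fun p : ℂ × WD => cvY 0 p.1 T p.2) {p | ‖p.1‖ < 1 / (4 * T)} ∧
    DifferentiableOn ℂ (fun p : ℂ × WD => cvY p.1 0 T p.2) {p | ‖p.1‖ < 1 / (4 * T)} ∧
    ∀ (a a' : ℂ) (d π : WD), ‖a‖ < 1 / (8 * T) → ‖a'‖ < 1 / (8 * T) →
      ‖cvP a 0 T d π - cvP a' 0 T d π‖ ≤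
        C * ‖a - a'‖ * (1 + T * (‖π‖ + ‖d‖ + T * (‖a‖ + ‖a'‖))) ∧
      ‖cvY a 0 T d - cvY a' 0 T d - ((a - a') * (T - 2) / 4) • (1 : WD)‖ ≤
        C * ‖a - a'‖ * T * (‖d‖ + T * (‖a‖ + ‖a'‖))

end Vale.Agent.P218N.End
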