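import Vale.Agent.P218N.End.ApiCv3
import Vale.Agent.P218N.End.ApiCvS

/-! (Conv): re-expression of a surface for another slope. -/

open Filter Topology Metric Set Complex
open scoped ComplexConjugate

noncomputable section

namespace Vale.Agent.P218N.End

open Vale.Agent.P218N.J

namespace Cv

variable {c K T θ : ℝ} {a a' : ℂ} {γ : Path} {j j' : EJ}

theorem C_mul_WD (z : ℂ) (x : WD) : W.C z * x = z • x := W.ext fun m => W.c_C_mul z x m

theorem C_WD (z : ℂ) : (W.C z : WD) = z • (1 : WD) := by rw [← C_mul_WD, mul_one]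

theorem PN.tr_y2 (h : PN γ a a') (j : EJ) (t : ℝ) :
    tr t (γ.conv a a' j).y2 = cvY a a' (γ.ze t) (tr t j.y2) := by
  rw [conv_y2, map_add, tr_mul, tr_C, tr_C, C_mul_WD, C_WD, cvY, ← h.s_apply]
  rfl

theorem PN.tr_pi (h : PN γ a a') (ho : γ.Ok) (p : (γ.cyl a).PG muCyl) (p' : (γ.cyl a').PG muCyl)
    (hj : (γ.cyl a).IsJet j) (t : ℝ) : tr t ((γ.cyl a').piJ muCyl (γ.conv a a' j)) =
      cvP a a' (γ.ze t) (tr t j.y2) (tr t ((γ.cyl a).piJ muCyl j)) := by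
  refine opD_inj (O := Om a' (γ.ze t)) (d := tr t (γ.conv a a' j).y2) ?_
  rw [← tr_op p' (h.isJet ho hj) (h.cv'.io t), h.tr_y2, opD_cv (h.cv.rh_ne t),
    ← tr_op p hj (h.cv.io t), conv_op]
  simp only [tr_mul, map_add, tr_C, tr_one, C_mul_WD, h.s_apply, h.o_apply, k_apply h.cv, EJ.y,
    tr_mult symb_y]
  rfl

theorem PN.rl (h : PN γ a a') (j : EJ) (t θ : ℝ) :
    Rl a a' (γ.ze t) (ev j.y t θ) (ev j.yt t θ) (ev j.op t θ) (ev (γ.conv a a' j).y t θ)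
      (ev (γ.conv a a' j).yt t θ) (ev (γ.conv a a' j).op t θ) := by
  refine ⟨by rw [ev_conv_y, h.s_apply]; ring, by rw [conv_yt, ev_mul, ev_C, h.s_apply], ?_⟩
  simp only [conv_op, ev_mul, ev_add, ev_C, ev_one, h.s_apply, h.o_apply, k_apply h.cv]

theorem PN.rl0 (h : PN γ a a') (j : EJ) (t : ℝ) :
    Rl a a' (γ.ze t) (j.y2.c 0 t) 0 (j.op.c 0 t) ((γ.conv a a' j).y2.c 0 t) 0
      ((γ.conv a a' j).op.c 0 t) := by
  refine ⟨?_, (mul_zero _).symm, ?_⟩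
  · rw [← c_tr, h.tr_y2, c_cvY, c_tr, W.c_one, if_pos rfl]
    ring
  · have e : j.y.c 0 = j.y2.c 0 := by simp [EJ.c_y, br]
    simp only [conv_op, c_C_mul_apply, W.c_add, BoundedContinuousFunction.add_apply, W.c_one, e,
      h.s_apply, h.o_apply, k_apply h.cv, if_true, BoundedContinuousFunction.coe_one, Pi.one_apply]

theorem PN.aa (h : PN γ a a') (j : EJ) (t : ℝ) : γ.AA a' (γ.conv a a' j) t = γ.AA a j t := by
  rw [Path.AA, Path.AA, conv_y, mul_pow, ← map_pow, c_C_mul_apply, (h.nr t).rh_eq, ← h.s_apply,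
    ← mul_assoc, mul_comm (rh a' _)]
  rfl

theorem PN.r1 (h : PN γ a a') (j : EJ) (t : ℝ) : R1v a' γ (γ.conv a a' j) t = R1v a γ j t := by
  have r := h.rl0 j t
  have h1 := r.b (h.nr t)
  have h2 := r.hy
  have h3 := h.cv.ze_ne t
  unfold R1v
  field_simp
  linear_combination 2 * (1 + j.y2.c 0 t) * h1 + (2 * (γ.conv a a' j).op.c 0 t +
    a' * γ.ze t * (1 + (γ.conv a a' j).y2.c 0 t)) * h2

/-- the linear part -/
def lin (γ : Path) (a a' : ℂ) (v : EJ) : EJ :=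
  (W.C (sB γ a a') * v.y2,
    W.C (sB γ a a') * (W.C (kB γ a a') * v.op + W.C (oB γ a a') * v.y),
    W.C (sB γ a a') * (W.C (kB γ a a') * v.oq + 2 * W.C (eB γ a a' * kB γ a a') * v.op +
      W.C (oB γ a a' * fB γ a a') * v.y),
    W.C (sB γ a a') * (v.pt + W.C (eB γ a a') * v.yt))

theorem wt_conv_sub (γ : Path) (a a' : ℂ) (j j' : EJ) (w : BC) :
    (γ.conv a a' j - γ.conv a a' j').wt w = lin γ a a' ((j - j').wt w) := by
  refine Prod.ext (?_ : EJ.y2 _ = _) (Prod.ext (?_ : EJ.op _ = _)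
    (Prod.ext (?_ : EJ.oq _ = _) (?_ : EJ.pt _ = _))) <;>
  simp only [lin, EJ.wt_y2, EJ.wt_op, EJ.wt_oq, EJ.wt_pt, EJ.wt_y, EJ.wt_yt, EJ.sub_y2, EJ.sub_op,
    EJ.sub_oq, EJ.sub_pt, EJ.sub_y, EJ.sub_yt, conv_y2, conv_op, conv_oq, conv_pt] <;>
  ring

theorem nC (x : BC) (f : WB) {A B : ℝ} (hx : ‖x‖ ≤ A) (hf : ‖f‖ ≤ B) : ‖W.C x * f‖ ≤ A * B :=
  (norm_mul_le _ _).trans (by
    rw [W.norm_C]
    exact mul_le_mul hx hf (norm_nonneg _) ((norm_nonneg _).trans hx))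

theorem nM (x y : BC) {A B : ℝ} (hx : ‖x‖ ≤ A) (hy : ‖y‖ ≤ B) : ‖x * y‖ ≤ A * B :=
  (norm_mul_le _ _).trans (mul_le_mul hx hy (norm_nonneg _) ((norm_nonneg _).trans hx))

theorem piJ_sub (Γ : Ctr) (μ : ℤ → ℝ) (j j' : EJ) : Γ.piJ μ (j - j') = Γ.piJ μ j - Γ.piJ μ j' := by
  simp only [Ctr.piJ, EJ.sub_y2, EJ.sub_op, EJ.sub_pt, map_sub, smul_sub]
  abel

theorem isJet_zero' (Γ : Ctr) : Γ.IsJet 0 := fun m => by
  have e : (0 : EJ).y = 0 := map_zero _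
  refine ⟨fun t => ?_, fun t => ?_, ?_⟩ <;> simp [e, EJ.op, EJ.oq, EJ.pt]

/-- the hypotheses along the path -/
structure PP (c K θ : ℝ) (γ : Path) (a a' : ℂ) : Prop extends PN γ a a' where
  ok : γ.Ok
  K60 : 60 ≤ K
  pg : (γ.cyl a).PG muCyl
  pg' : (γ.cyl a').PG muCyl
  pt : ∀ t, ∃ u, Pt c K u a a' (γ.ze t)
  th : ∀ t, tht a a' (γ.ze t) ≤ θ
  big' : ∀ t, K / 2 ≤ ‖Om a' (γ.ze t)‖

namespace PP

theorem ns (h : PP c K θ γ a a') : ‖sB γ a a'‖ ≤ 5 / 4 :=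
  norm_BC_le fun t => by rw [h.s_apply]; exact (h.nr t).s_le

theorem ns1 (h : PP c K θ γ a a') : ‖sB γ a a' - 1‖ ≤ θ := norm_BC_le fun t => by
  change ‖sB γ a a' t - 1‖ ≤ θ
  rw [h.s_apply]
  exact (h.nr t).s1.trans (h.th t)

theorem nk (h : PP c K θ γ a a') : ‖kB γ a a'‖ ≤ 4 / 3 :=
  norm_BC_le fun t => by rw [k_apply h.cv]; exact (h.nr t).k_le

theorem no (h : PP c K θ γ a a') : ‖oB γ a a'‖ ≤ 3 * θ := norm_BC_le fun t => by
  obtain ⟨u, p⟩ := h.pt t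
  rw [h.o_apply]
  linarith [p.oe_le, h.th t]

theorem no' (h : PP c K θ γ a a') : ‖oB γ a a'‖ ≤ 3 / 4 := norm_BC_le fun t => by
  obtain ⟨u, p⟩ := h.pt t
  rw [h.o_apply]
  linarith [p.oe_le, (h.nr t).le]

theorem nh (h : PP c K θ γ a a') : ‖γ.hh a‖ ≤ 1 / 10 ∧ ‖γ.hh a'‖ ≤ 1 / 10 := by
  have hK := h.K60
  have h1 : 1 / (K / 2) ≤ 1 / 30 := one_div_le_one_div_of_le (by norm_num) (by linarith)
  refine ⟨norm_BC_le fun t => ?_, norm_BC_le fun t => ?_⟩ <;> obtain ⟨u, p⟩ := h.pt t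
  · rw [h.cv.hh]
    linarith [hh_le (K := K / 2) (a := a) (ζ := γ.ze t) (by linarith) (by linarith [p.ze])
      (by linarith [p.sec.big])]
  · rw [h.cv'.hh]
    linarith [hh_le (K := K / 2) (a := a') (by linarith) (by linarith [p.ze]) (h.big' t)]

theorem ne (h : PP c K θ γ a a') : ‖eB γ a a'‖ ≤ 1 / 5 :=
  (norm_sub_le _ _).trans (by linarith [h.nh.1, h.nh.2])

theorem nf (h : PP c K θ γ a a') : ‖fB γ a a'‖ ≤ 1 := by
  rw [fB, two_mul]
  linarith [norm_sub_le (eB γ a a') (γ.hh a + γ.hh a' + (γ.hh a + γ.hh a')),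
    norm_add_le (γ.hh a + γ.hh a') (γ.hh a + γ.hh a'), norm_add_le (γ.hh a) (γ.hh a'), h.nh.1,
    h.nh.2, h.ne]

theorem lin_le (h : PP c K θ γ a a') (v : EJ) : ‖lin γ a a' v‖ ≤ 4 * ‖v‖ := by
  have h0 := norm_nonneg v
  have h1 := nC _ _ (nM _ _ h.ne h.nk) v.norm_op_le
  have h2 := nC _ _ h.ns (norm_add_le_of_le (norm_add_le_of_le (nC _ _ h.nk v.norm_oq_le)
    (norm_add_le_of_le h1 h1)) (nC _ _ (nM _ _ h.no' h.nf) v.norm_y_le))
  rw [← two_mul, ← mul_assoc 2] at h2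
  exact max_le ((nC _ _ h.ns v.norm_y2_le).trans (by linarith)) (max_le
    ((nC _ _ h.ns (norm_add_le_of_le (nC _ _ h.nk v.norm_op_le) (nC _ _ h.no' v.norm_y_le))).trans
      (by linarith)) (max_le (h2.trans (by linarith))
    ((nC _ _ h.ns (norm_add_le_of_le v.norm_pt_le (nC _ _ h.ne v.norm_yt_le))).trans (by linarith))))

theorem c_pi (h : PP c K θ γ a a') (hj : (γ.cyl a).IsJet j) (m : ℤ) (t : ℝ) :
    ((γ.cyl a').piJ muCyl (γ.conv a a' j)).c m t =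
      s1 a a' (γ.ze t) m * ((γ.cyl a).piJ muCyl j).c m t + s2 a a' (γ.ze t) m * j.y2.c m t +
        s3 a a' (γ.ze t) * (1 : WD).c m := by
  rw [← c_tr, h.tr_pi h.ok h.pg h.pg' hj, c_cvP (h.cv.rh_ne t), c_tr, c_tr]

theorem nrm_sub (h : PP c K θ γ a a') (hj : (γ.cyl a).IsJet j) (hj' : (γ.cyl a).IsJet j') (w : BC) :
    (γ.cyl a').nrm muCyl w (γ.conv a a' j - γ.conv a a' j') ≤
      72 / c ^ 2 * (γ.cyl a).nrm muCyl w (j - j') := by
  obtain ⟨u, p⟩ := h.pt 0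
  have hA := p.A36
  have e : 72 / c ^ 2 = 2 * (36 / c ^ 2) := by ring
  have h1 : ‖(j - j').wt w‖ ≤ (γ.cyl a).nrm muCyl w (j - j') := le_max_left _ _
  have h2 : ‖W.C w * (γ.cyl a).piJ muCyl (j - j')‖ ≤ (γ.cyl a).nrm muCyl w (j - j') :=
    le_max_right _ _
  have h0 := (norm_nonneg _).trans h1
  refine max_le ?_ ?_
  · rw [wt_conv_sub]
    refine (h.lin_le _).trans ?_
    nlinarith
  · have h3 : ‖W.C w * (j - j').y2‖ ≤ _ := ((j - j').wt w).norm_y2_le.trans h1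
    refine (W.norm_le_of_hasSum (((W.C w * (γ.cyl a).piJ muCyl (j - j')).hasSum.add
      (W.C w * (j - j').y2).hasSum).mul_left (36 / c ^ 2)) fun m => norm_BC_le fun t => ?_).trans
      (by nlinarith)
    obtain ⟨u, p⟩ := h.pt t
    have e2 : (W.C w * (γ.cyl a').piJ muCyl (γ.conv a a' j - γ.conv a a' j')).c m t =
        s1 a a' (γ.ze t) m * (W.C w * (γ.cyl a).piJ muCyl (j - j')).c m t +
          s2 a a' (γ.ze t) m * (W.C w * (j - j').y2).c m t := by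
      simp only [c_C_mul_apply, piJ_sub, W.c_sub, BoundedContinuousFunction.sub_apply, h.c_pi hj,
        h.c_pi hj', EJ.sub_y2]
      ring
    rw [e2, mul_add]
    refine norm_add_le_of_le ?_ ?_ <;> rw [norm_mul]
    · exact mul_le_mul (p.s1_le' m) (BoundedContinuousFunction.norm_coe_le_norm _ t)
        (norm_nonneg _) (by linarith)
    · exact mul_le_mul (p.s2_le' m) (BoundedContinuousFunction.norm_coe_le_norm _ t)
        (norm_nonneg _) (by linarith)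

theorem nrm_zero (h : PP c K θ γ a a') :
    ‖γ.conv a a' 0‖ ≤ 21 * θ ∧ ‖(γ.cyl a').piJ muCyl (γ.conv a a' 0)‖ ≤ 21 * θ := by
  have h0 : 0 ≤ θ := (tht_nonneg _ _ _).trans (h.th 0)
  have e : (0 : EJ).y = 0 := map_zero _
  have e' : (0 : EJ).yt = 0 := map_zero _
  have n1 : ‖(1 : WB)‖ ≤ 1 := norm_one.le
  constructor
  · refine EJ.norm_le _ ?_ ?_ ?_ ?_
    · rw [conv_y2, show (0 : EJ).y2 = 0 from rfl, mul_zero, zero_add, W.norm_C]
      linarith [h.ns1]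
    · rw [conv_op, show (0 : EJ).op = 0 from rfl, e, mul_zero, zero_add, add_zero]
      linarith [nC _ _ h.ns (nC _ _ h.no n1)]
    · rw [conv_oq, show (0 : EJ).op = 0 from rfl, show (0 : EJ).oq = 0 from rfl, e, mul_zero,
        mul_zero, zero_add, zero_add, add_zero]
      linarith [nC _ _ h.ns (nC _ _ (nM _ _ h.no h.nf) n1)]
    · rw [conv_pt, show (0 : EJ).pt = 0 from rfl, e', mul_zero, add_zero, mul_zero, norm_zero]
      linarith
  · have e2 : (γ.cyl a).piJ muCyl 0 = 0 := by simpa using piJ_sub (γ.cyl a) muCyl 0 0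
    refine (W.norm_le_of_le (b := (1 : WD)) (C := 21 * θ) fun m => norm_BC_le fun t => ?_).trans
      (by rw [norm_one, mul_one])
    obtain ⟨u, p⟩ := h.pt t
    rw [h.c_pi (isJet_zero' _), e2, show (0 : EJ).y2 = 0 from rfl]
    simp only [W.c_zero, BoundedContinuousFunction.coe_zero, Pi.zero_apply, mul_zero, zero_add,
      norm_mul]
    gcongr
    nlinarith [p.s3_le, p.iK, (h.nr t).le, h.th t, tht_nonneg a a' (γ.ze t)]

theorem nrm_one (h : PP c K θ γ a a') (hj : (γ.cyl a).IsJet j) :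
    (γ.cyl a').nrm muCyl 1 (γ.conv a a' j) ≤ 72 / c ^ 2 * (γ.cyl a).nrm muCyl 1 j + 21 * θ := by
  have h1 := h.nrm_sub hj (isJet_zero' _) 1
  rw [sub_zero, Ctr.nrm, max_le_iff, EJ.wt_one, map_one, one_mul, piJ_sub] at h1
  rw [Ctr.nrm, EJ.wt_one, map_one, one_mul]
  exact max_le ((norm_le_insert' _ (γ.conv a a' 0)).trans (by linarith [h1.1, h.nrm_zero.1]))
    ((norm_le_insert' _ ((γ.cyl a').piJ muCyl (γ.conv a a' 0))).trans
      (by linarith [h1.2, h.nrm_zero.2]))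

end PP

theorem hol_conv {P : ℝ} (hz : ∀ t, 1 ≤ (γ.ze t).re) (hP : ∀ t, ‖γ.ze t‖ ≤ P) :
    DifferentiableOn ℂ (fun p : ℂ × EJ => γ.conv p.1 0 p.2) {p | ‖p.1‖ < 1 / (4 * P)} := by
  have hU : IsOpen {p : ℂ × EJ | ‖p.1‖ < 1 / (4 * P)} := isOpen_lt (by fun_prop) (by fun_prop)
  have hP0 : 0 < P := by linarith [hz 0, hP 0, re_le_norm (γ.ze 0)]
  have b1 : ∀ a : ℂ, ‖a‖ < 1 / (4 * P) → ∀ t, ‖γ.rho a t - 2‖ ≤ 1 / 4 := fun a ha t => by
    have h1 : ‖γ.ze t - 2‖ ≤ P := by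
      refine le_trans (le_of_sq_le_sq ?_ (norm_nonneg _)) (hP t)
      rw [Complex.sq_norm, Complex.sq_norm, normSq_apply, normSq_apply]
      simp only [sub_re, sub_im, re_ofNat, im_ofNat]
      nlinarith [hz t]
    rw [AdmP.rho_apply, rh, add_sub_cancel_left, norm_mul]
    calc _ ≤ 1 / (4 * P) * P := by gcongr
      _ = _ := by field_simp
  have b2 : ∀ a : ℂ, ‖a‖ < 1 / (4 * P) → ∀ t, 1 ≤ ‖γ.rho a t‖ := fun a ha t => by
    have := norm_le_insert (γ.rho a t) 2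
    rw [Complex.norm_ofNat] at this
    linarith [b1 a ha t]
  have b3 : ∀ a : ℂ, ‖a‖ < 1 / (4 * P) → ∀ t, ‖(γ.rho a * binv (γ.rho 0)) t - 1‖ ≤ 1 / 4 :=
    fun a ha t => by
      rw [BoundedContinuousFunction.mul_apply, binv_apply one_pos (b2 0 (by simpa using hP0)),
        show γ.rho 0 t = 2 by simp [AdmP.rho_apply, rh],
        show γ.rho a t * 2⁻¹ - 1 = (γ.rho a t - 2) / 2 by ring, norm_div, Complex.norm_ofNat]
      linarith [b1 a ha t]
  have d1 : DifferentiableOn ℂ (fun p : ℂ × EJ => γ.rho p.1) {p | ‖p.1‖ < 1 / (4 * P)} :=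
    (differentiableOn_fst.smul_const _).const_add _
  have d2 : DifferentiableOn ℂ (fun p : ℂ × EJ => binv (γ.rho p.1)) {p | ‖p.1‖ < 1 / (4 * P)} :=
    differentiableOn_nem (φ := fun z => z⁻¹) hU d1 (C := 1)
      (fun p hp t => differentiableAt_inv (norm_pos_iff.1 (one_pos.trans_le (b2 _ hp t))))
      fun p hp t => by rw [norm_inv]; exact inv_le_one_of_one_le₀ (b2 _ hp t)
  have ds : DifferentiableOn ℂ (fun p : ℂ × EJ => sB γ p.1 0) {p | ‖p.1‖ < 1 / (4 * P)} :=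
    differentiableOn_nem hU (d1.mul_const _) (C := 1 + 1 / 4)
      (fun p hp t => differentiableAt_sqrt (Or.inl (by linarith [re_ge_of (b3 _ hp t)])))
      fun p hp t => norm_le_of ((norm_sqrt_sub_one _).trans (b3 _ hp t))
  have dh : DifferentiableOn ℂ (fun p : ℂ × EJ => γ.hh p.1) {p | ‖p.1‖ < 1 / (4 * P)} :=
    (differentiableOn_fst.mul_const (2 : ℂ)⁻¹).smul d2
  have dk : DifferentiableOn ℂ (fun p : ℂ × EJ => kB γ p.1 0) {p | ‖p.1‖ < 1 / (4 * P)} :=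
    d2.const_mul _
  have de : DifferentiableOn ℂ (fun p : ℂ × EJ => eB γ p.1 0) {p | ‖p.1‖ < 1 / (4 * P)} :=
    dh.sub_const _
  have dO : DifferentiableOn ℂ (fun p : ℂ × EJ => oB γ p.1 0) {p | ‖p.1‖ < 1 / (4 * P)} :=
    de.const_mul _
  have df : DifferentiableOn ℂ (fun p : ℂ × EJ => fB γ p.1 0) {p | ‖p.1‖ < 1 / (4 * P)} :=
    de.sub ((dh.add_const _).const_mul _)
  have dC : ∀ {f : ℂ × EJ → BC}, DifferentiableOn ℂ f {p | ‖p.1‖ < 1 / (4 * P)} →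
      DifferentiableOn ℂ (fun p => (W.C (f p) : WB)) {p | ‖p.1‖ < 1 / (4 * P)} := fun hf =>
    differentiable_C.comp_differentiableOn hf
  have dj : ∀ {F : EJ → WB}, Differentiable ℂ F →
      DifferentiableOn ℂ (fun p : ℂ × EJ => F p.2) {p | ‖p.1‖ < 1 / (4 * P)} := fun hF =>
    hF.comp_differentiableOn differentiableOn_snd
  have dy := (dj EJ.differentiable_y).const_add 1
  exact (((dC ds).mul (dj EJ.differentiable_y2)).add (dC (ds.sub_const 1))).prodMk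
    (((dC ds).mul (((dC dk).mul (dj EJ.differentiable_op)).add ((dC dO).mul dy))).prodMk
    (((dC ds).mul ((((dC dk).mul (dj EJ.differentiable_oq)).add
      (((dC (de.mul dk)).const_mul 2).mul (dj EJ.differentiable_op))).add
      ((dC (dO.mul df)).mul dy))).prodMk
    ((dC ds).mul ((dj EJ.differentiable_pt).add ((dC de).mul (dj EJ.differentiable_yt))))))

end Cv

open Cv in
theorem convStmt' : ConvStmt' := fun c hc => by
  have h0 : 0 < 72 / c ^ 2 := by positivity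
  refine ⟨72 / c ^ 2 + 100, by linarith, max (512 / c) 700,
    fun K T θ a a' γ hK hT ha _ h hθ ht hne => ?_⟩
  have k1 : 512 / c ≤ K := (le_max_left _ _).trans hK
  have k2 : 700 ≤ K := (le_max_right _ _).trans hK
  have e1 : 128 / (c / 2) = 512 / c / 2 := by field_simp; norm_num
  have e2 : 128 / c = 512 / c / 4 := by field_simp; norm_num
  have k3 : 128 / c ≤ K := by linarith
  have c1 := admP_c1 h
  have hv := cv_of (by linarith) h.big
  have ht' : ∀ t, tht a a' (γ.ze t) ≤ 1 / 4 := fun t => (ht t).trans (by linarith)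
  have hn : PN γ a a' := PN.of hv fun t =>
    ⟨(ne_or hv ht').resolve_right (fun h1 => hne (h.st ▸ h1 0)) t, ht' t⟩
  have hz : ∀ t, K ≤ (γ.ze t).re := fun t => hT.trans (h.T_le hc t)
  have hs : ∀ t, ∃ u, Sec c K u (Om a (γ.ze t)) ∧ Sec (c / 2) (K / 2) u (Om a' (γ.ze t)) ∧
      γ.g t = (‖γ.g t‖ : ℝ) * u := fun t => by
    obtain ⟨u, h1, h2, h3, h4⟩ := h.dir t
    have s : Sec c K u (Om a (γ.ze t)) := ⟨h1, h2, h3, h.big t⟩
    exact ⟨u, s, (hn.nr t).sec s hc ((ht t).trans hθ), h4⟩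
  have h' : AdmP (c / 2) (K / 2) T a' γ := ⟨h.ok, h.st,
    fun t => let ⟨u, _, s, g⟩ := hs t; ⟨u, s.one, s.re, s.dir, g⟩,
    fun t => let ⟨_, _, s, _⟩ := hs t; s.big⟩
  have p : PP c K θ γ a a' := ⟨hn, h.ok, by linarith, pg_of hc k3 h,
    pg_of (half_pos hc) (by linarith) h',
    fun t => let ⟨u, s, _⟩ := hs t; ⟨u, hc, k3, hz t, s, hn.nr t⟩, ht, h'.big⟩
  have hθ0 : 0 ≤ θ := (tht_nonneg _ _ _).trans (ht 0)
  have n0 : ∀ (w : BC) (j : EJ), 0 ≤ (γ.cyl a).nrm muCyl w j := fun w j =>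
    (norm_nonneg _).trans (le_max_left _ _)
  refine ⟨h', fun j hj => ⟨hn.isJet h.ok hj, hn.eqn j, (p.nrm_one hj).trans ?_,
    fun t => ⟨hn.tr_y2 j t, hn.tr_pi h.ok p.pg p.pg' hj t, hn.aa j t, (hn.rl0 j t).r2 (hn.nr t),
      hn.r1 j t⟩, fun h1 h2 t₀ t₁ => ?_, fun j' w hj' => (p.nrm_sub hj hj' w).trans ?_,
    fun a'' h1 => ?_⟩, fun P hP => hol_conv (fun t => by linarith [hz t]) hP⟩
  · nlinarith [n0 1 j]
  · have h3 : ‖j‖ ≤ 1 / 100 := by
      rw [Ctr.nrm, EJ.wt_one] at h1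
      exact ((le_max_left _ _).trans h1).trans (one_div_le_one_div_of_le (by norm_num) (by linarith))
    have h4 : θ ≤ c / 2 / 4 := by
      refine h2.trans ?_
      rw [div_le_iff₀ (by linarith), show c / 2 / 4 * (72 / c ^ 2 + 100) = 9 / c + 25 / 2 * c by
        field_simp; ring]
      have : 1 ≤ 9 / c := by rw [le_div_iff₀ hc]; linarith
      linarith
    unfold Path.FCI
    congr 1
    ext t
    congr 2
    ext θ'
    obtain ⟨u, s, s', -⟩ := hs t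
    exact (hn.rl j t θ').lag (hn.nr t) (hv.ze_ne t)
      ((hn.nr t).sqrt_Om s' (half_pos hc) (by linarith) ((ht t).trans h4))
      (Dc_near k2 (hz t) s.big ha ((norm_ev_y_le j t θ').trans h3)
        ((norm_ev_yt_le j t θ').trans h3) ((norm_ev_op_le j t θ').trans h3))
  · nlinarith [n0 w (j - j')]
  · rcases ne_or hn.cv' h1 with h2 | h2
    · exact hn.conv_conv (PN.of hn.cv' fun t => ⟨h2 t, h1 t⟩) j
    · exact conv_zero h2 _ _ _ _

end Vale.Agent.P218N.End
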