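import Vale.Agent.P218N.End.ApiCutA

/-! The clamped path and the cut-off of its jets. -/

open Filter Topology Metric Set Complex

noncomputable section

namespace Vale.Agent.P218N.End

open Vale.Agent.P218N.J Vale.Agent.P218N.J.PolyP

namespace CutP

/-- cut-off functions between `P / 2` and `5 P / 8` with two derivatives -/
structure Chi (P M : ℝ) (χ₀ χ₁ χ₂ : ℝ → ℝ) : Prop where
  d0 : ∀ x, HasDerivAt χ₀ (χ₁ x) x
  d1 : ∀ x, HasDerivAt χ₁ (χ₂ x) x
  c2 : Continuous χ₂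
  bd : ∀ x, |χ₀ x| ≤ M ∧ P * |χ₁ x| ≤ M ∧ P * |χ₂ x| ≤ M
  lo : ∀ x < P / 2, χ₀ x = 1 ∧ χ₁ x = 0 ∧ χ₂ x = 0
  hi : ∀ x, 5 * P / 8 < x → χ₀ x = 0 ∧ χ₁ x = 0 ∧ χ₂ x = 0

theorem exists_chi1 : ∃ M ≥ 1, ∃ χ₀ χ₁ χ₂, Chi 1 M χ₀ χ₁ χ₂ := by
  let f : ℝ → ℝ := fun x => Real.smoothTransition (5 - 8 * x)
  have h : ContDiff ℝ 2 f := Real.smoothTransition.contDiff.comp (by fun_prop)
  have h' : ContDiff ℝ 1 (deriv f) := h.deriv'
  have key : ∀ (s : Set ℝ) (b : ℝ), IsOpen s → (∀ x ∈ s, f x = b) → ∀ x ∈ s,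
      f x = b ∧ deriv f x = 0 ∧ deriv (deriv f) x = 0 := fun s b hs hb x hx => by
    have e : f =ᶠ[𝓝 x] fun _ => b := Filter.mem_of_superset (hs.mem_nhds hx) hb
    exact ⟨hb x hx, by simpa using e.deriv_eq, by simpa using e.deriv.deriv_eq⟩
  have lo := key (Iio (1 / 2)) 1 isOpen_Iio fun x hx =>
    Real.smoothTransition.one_of_one_le (by linarith [mem_Iio.1 hx])
  have hi := key (Ioi (5 * 1 / 8)) 0 isOpen_Ioi fun x hx =>
    Real.smoothTransition.zero_of_nonpos (by linarith [mem_Ioi.1 hx])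
  obtain ⟨M₁, h1⟩ := (isCompact_Icc (a := (1 / 2 : ℝ)) (b := 5 * 1 / 8)).exists_bound_of_continuousOn
    h'.continuous.continuousOn
  obtain ⟨M₂, h2⟩ := (isCompact_Icc (a := (1 / 2 : ℝ)) (b := 5 * 1 / 8)).exists_bound_of_continuousOn
    h'.continuous_deriv_one.continuousOn
  have a1 := le_abs_self M₁
  have a2 := le_abs_self M₂
  have a3 := abs_nonneg M₁
  have a4 := abs_nonneg M₂
  refine ⟨1 + |M₁| + |M₂|, by linarith, f, deriv f, deriv (deriv f),
    fun x => (h.differentiable (by norm_num) x).hasDerivAt,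
    fun x => (h'.differentiable (by norm_num) x).hasDerivAt, h'.continuous_deriv_one,
    fun x => ⟨?_, ?_⟩, lo, hi⟩
  · rw [abs_of_nonneg (Real.smoothTransition.nonneg _)]
    linarith [Real.smoothTransition.le_one (5 - 8 * x)]
  · rcases lt_or_ge x (1 / 2) with a | a
    · rw [(lo x a).2.1, (lo x a).2.2, abs_zero]
      constructor <;> linarith
    rcases lt_or_ge (5 * 1 / 8) x with b | b
    · rw [(hi x b).2.1, (hi x b).2.2, abs_zero]
      constructor <;> linarith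
    have b1 := h1 x ⟨a, b⟩
    have b2 := h2 x ⟨a, b⟩
    rw [Real.norm_eq_abs] at b1 b2
    constructor <;> linarith

theorem Chi.scale {M P : ℝ} {χ₀ χ₁ χ₂ : ℝ → ℝ} (h : Chi 1 M χ₀ χ₁ χ₂) (hP : 1 ≤ P) :
    Chi P M (fun x => χ₀ (x / P)) (fun x => χ₁ (x / P) / P) fun x => χ₂ (x / P) / P / P := by
  have h0 : 0 < P := by linarith
  refine ⟨fun x => ((h.d0 _).comp x ((hasDerivAt_id' x).div_const P)).congr_deriv (by ring),
    fun x => (((h.d1 _).comp x ((hasDerivAt_id' x).div_const P)).div_const P).congr_deriv (by ring),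
    by have := h.c2; fun_prop, fun x => ?_, fun x hx => ?_, fun x hx => ?_⟩
  · obtain ⟨h1, h2, h3⟩ := h.bd (x / P)
    simp only [abs_div, abs_of_pos h0, mul_div_cancel₀ _ h0.ne']
    exact ⟨h1, by linarith, (div_le_self (abs_nonneg _) hP).trans (by linarith)⟩
  · simpa [h0.ne'] using h.lo (x / P) (by rw [div_lt_iff₀ h0]; linarith)
  · simpa [h0.ne'] using h.hi (x / P) (by rw [lt_div_iff₀ h0]; linarith)

/-- a real function of the real part -/
def rn (f : ℝ → ℝ) (x : BC) : BC := nem (fun z => (f z.re : ℂ)) x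

theorem rn_apply {f : ℝ → ℝ} (hf : Continuous f) (x : BC) (t : ℝ) : rn f x t = f (x t).re := by
  have h : Continuous fun z : ℂ => (f z.re : ℂ) := by fun_prop
  obtain ⟨C, hC⟩ := (isCompact_closedBall (0 : ℂ) ‖x‖).exists_bound_of_continuousOn h.continuousOn
  exact nem_apply (fun _ => h.continuousAt)
    (fun t => hC _ (mem_closedBall_zero_iff.2 (x.norm_coe_le_norm t))) t

/-- the slope of the clamp -/
def b1 (x : ℝ) : ℝ := 1 - cl (4 * x - 3)

/-- the clamp -/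
def b0 (x : ℝ) : ℝ := ∫ s in (0 : ℝ)..x, b1 s

theorem b1_mem (x : ℝ) : b1 x ∈ Icc (0 : ℝ) 1 :=
  ⟨sub_nonneg.2 (cl_mem _).2, sub_le_self _ (cl_mem _).1⟩

theorem cont_b1 : Continuous b1 := continuous_const.sub (continuous_cl.comp (by fun_prop))

theorem der_b0 (x : ℝ) : HasDerivAt b0 (b1 x) x :=
  (cont_b1.integral_hasStrictDerivAt 0 x).hasDerivAt

theorem cont_b0 : Continuous b0 := continuous_iff_continuousAt.2 fun x => (der_b0 x).continuousAt

theorem b0_mono : Monotone b0 := monotone_of_deriv_nonneg (fun x => (der_b0 x).differentiableAt)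
  fun x => (der_b0 x).deriv ▸ (b1_mem x).1

theorem b0_lo {x : ℝ} (h : x ≤ 3 / 4) : b0 x = x := by
  rw [b0, intervalIntegral.integral_congr (g := fun _ => 1) fun s hs => ?_]
  · simp
  · have : s ≤ 3 / 4 := hs.2.trans (max_le (by norm_num) h)
    simp only [b1, cl_of_nonpos (show 4 * s - 3 ≤ 0 by linarith), sub_zero]

theorem b0_hi {x : ℝ} (h : 1 ≤ x) : b0 x = b0 1 := by
  rw [← sub_eq_zero, b0, b0, intervalIntegral.integral_interval_sub_left
    (cont_b1.intervalIntegrable _ _) (cont_b1.intervalIntegrable _ _),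
    intervalIntegral.integral_congr (g := fun _ => 0) fun s hs => ?_]
  · simp
  · have : 1 ≤ s := (le_min le_rfl h).trans hs.1
    simp only [b1, cl_of_one_le (show 1 ≤ 4 * s - 3 by linarith), sub_self]

theorem b0_le (x : ℝ) : b0 x ≤ 1 := by
  have h := intervalIntegral.norm_integral_le_of_norm_le_const (a := 0) (b := 1) (f := b1) (C := 1)
    fun s _ => by rw [Real.norm_of_nonneg (b1_mem s).1]; exact (b1_mem s).2
  refine (b0_mono (le_max_left x 1)).trans ((b0_hi (le_max_right x 1)).trans_le ?_)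
  exact (le_abs_self _).trans (by simpa [b0] using h)

/-- the clamped path -/
def clp (P : ℝ) (γ : Path) : Path :=
  ⟨rn (fun x => P * b0 (x / P)) γ.ze, rn (fun x => b1 (x / P)) γ.ze * rn id γ.g⟩

variable {c K T P M : ℝ} {γ γ' : Path} {a : ℂ} {t : ℝ} {j : EJ} {χ₀ χ₁ χ₂ : ℝ → ℝ}

theorem clp_ze (t : ℝ) : (clp P γ).ze t = (P * b0 ((γ.ze t).re / P) : ℝ) :=
  rn_apply (by have := cont_b0; fun_prop) _ t

theorem clp_g (t : ℝ) : (clp P γ).g t = (b1 ((γ.ze t).re / P) * (γ.g t).re : ℝ) := by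
  change rn _ _ t * rn _ _ t = _
  rw [rn_apply (by have := cont_b1; fun_prop), rn_apply continuous_id, ofReal_mul, id]

theorem clp_ok (hP : P ≠ 0) (ho : γ.Ok) : (clp P γ).Ok := by
  refine ⟨fun t ht => by simp [clp_g, ho.spt t ht], fun t => ?_⟩
  rw [show ((clp P γ).ze : ℝ → ℂ) = _ from funext clp_ze, clp_g]
  refine HasDerivAt.ofReal_comp ((((der_b0 _).comp t
    ((hasDerivAt_re ho t).div_const P)).const_mul P).congr_deriv ?_)
  field_simp

theorem path_ext (ho : γ.Ok) (ho' : γ'.Ok) (h : ∀ t, γ.ze t = γ'.ze t) : γ = γ' := by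
  obtain ⟨z, g⟩ := γ
  obtain ⟨z', g'⟩ := γ'
  obtain rfl : z = z' := BoundedContinuousFunction.ext h
  obtain rfl : g = g' := BoundedContinuousFunction.ext fun t => (ho.der t).unique (ho'.der t)
  rfl

/-- the hypotheses on the path -/
structure Hy (c T P : ℝ) (γ : Path) : Prop where
  c0 : 0 < c
  big : 256 ≤ T
  le : 4 * T ≤ P
  ok : γ.Ok
  st : γ.ze 0 = T
  dir : ∀ t, c * ‖γ.g t‖ ≤ (γ.g t).re
  pre : γ.Pre P

namespace Hy

theorem pos (h : Hy c T P γ) : 0 < P := by linarith [h.big, h.le]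

theorem ze_eq (h : Hy c T P γ) (ht : (γ.ze t).re ≤ 3 * P / 4) : (clp P γ).ze t = γ.ze t := by
  obtain ⟨t₁, -, h1, h2⟩ := h.pre
  have hP := h.pos
  rw [clp_ze, b0_lo (by rw [div_le_iff₀ hP]; linarith), mul_div_cancel₀ _ hP.ne']
  refine Complex.ext rfl ?_
  rw [ofReal_im, ← ze_cl h.ok, h1 _ ⟨(cl_mem t).1, not_lt.1 fun b => ?_⟩]
  have := mono_of_dir h.c0 h.ok h.dir b.le
  simp only [ze_cl h.ok] at this
  linarith

theorem ge (h : Hy c T P γ) (ht : 3 * P / 4 ≤ (γ.ze t).re) : 3 * P / 4 ≤ ((clp P γ).ze t).re := by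
  have hP := h.pos
  have h1 := b0_mono (show 3 / 4 ≤ (γ.ze t).re / P by rw [le_div_iff₀ hP]; linarith)
  rw [b0_lo le_rfl] at h1
  rw [clp_ze, ofReal_re]
  nlinarith

theorem le_P (h : Hy c T P γ) (t : ℝ) : ((clp P γ).ze t).re ≤ P := by
  rw [clp_ze, ofReal_re]
  exact mul_le_of_le_one_right h.pos.le (b0_le _)

theorem P_le (h : Hy c T P γ) : P ≤ (γ.ze 1).re :=
  let ⟨_, _, _, h2⟩ := h.pre
  h2.trans (le_re_of_dir h.c0 h.ok h.dir _).2

theorem real (h : Hy c T P γ) : (clp P γ).RealP T :=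
  ⟨clp_ok h.pos.ne' h.ok, (h.ze_eq (by rw [h.st, ofReal_re]; linarith [h.le, h.pos])).trans h.st,
    fun t => by rw [clp_g, ofReal_im], fun t => by
      rw [clp_g, ofReal_re]
      exact mul_nonneg (b1_mem _).1 ((mul_nonneg h.c0.le (norm_nonneg _)).trans (h.dir t))⟩

theorem g_eq (h : Hy c T P γ) (ht : (γ.ze t).re < 3 * P / 4) : γ.g t = (clp P γ).g t :=
  (h.ok.der t).unique ((h.real.ok.der t).congr_of_eventuallyEq
    (((continuous_re.comp γ.ze.continuous).continuousAt.eventually (gt_mem_nhds ht)).mono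
      fun _ hs => (h.ze_eq hs.le).symm))

theorem hi (h : Hy c T P γ) (ht : 5 * P / 8 < (γ.ze t).re) : 5 * P / 8 < ((clp P γ).ze t).re := by
  rcases le_total (γ.ze t).re (3 * P / 4) with b | b
  · rwa [h.ze_eq b]
  · linarith [h.ge b, h.pos]

theorem one_le (h : Hy c T P γ) (t : ℝ) : 1 ≤ ‖γ.ze t‖ := by
  have := (le_re_of_dir h.c0 h.ok h.dir t).1
  rw [h.st, ofReal_re] at this
  linarith [h.big, re_le_norm (γ.ze t)]

theorem cpre (h : Hy c T P γ) (ho : γ'.Ok) (hd : ∀ t, c * ‖γ'.g t‖ ≤ (γ'.g t).re)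
    (hp : γ.CPre γ' P) : clp P γ' = clp P γ := by
  obtain ⟨t₁, -, h1, h2⟩ := hp
  refine path_ext (clp_ok h.pos.ne' ho) h.real.ok fun t => ?_
  rw [clp_ze, clp_ze, ← ze_cl ho, ← ze_cl h.ok]
  have h0 := (cl_mem t).1
  rcases le_total (cl t) t₁ with b | b
  · rw [(h1 _ ⟨h0, b⟩).2]
  · have b1 := mono_of_dir h.c0 h.ok h.dir b
    have b2 := mono_of_dir h.c0 ho hd b
    rcases le_total 0 t₁ with d | d
    · simp only [(h1 _ ⟨d, le_rfl⟩).2] at b1 b2
      rw [b0_hi ((one_le_div h.pos).2 (h2.trans b1)), b0_hi ((one_le_div h.pos).2 (h2.trans b2))]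
    · have := mono_of_dir h.c0 h.ok h.dir d
      simp only [h.st, ofReal_re] at this
      linarith [h.le, h.big]

end Hy

/-- the cut-off -/
def cut (χ₀ χ₁ χ₂ : ℝ → ℝ) (δ : Path) (a : ℂ) (j : EJ) : EJ :=
  ct (rn χ₀ δ.ze) (rn χ₁ δ.ze) (rn χ₂ δ.ze) (δ.cyl a).Om j

theorem differentiable_cut (χ₀ χ₁ χ₂ : ℝ → ℝ) (δ : Path) :
    Differentiable ℂ fun p : ℂ × EJ => cut χ₀ χ₁ χ₂ δ p.1 p.2 := by
  have h : ∀ b : BC, Differentiable ℂ fun p : ℂ × EJ => (W.C ((δ.cyl p.1).Om * b) : WB) :=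
    fun b => differentiable_C.comp (f := fun p : ℂ × EJ => δ.ze * (2 + p.1 • (δ.ze - 2)) * b)
      (by fun_prop)
  unfold cut ct
  fun_prop

namespace Chi

theorem c1 (x : Chi P M χ₀ χ₁ χ₂) : Continuous χ₁ :=
  continuous_iff_continuousAt.2 fun t => (x.d1 t).continuousAt

theorem c0 (x : Chi P M χ₀ χ₁ χ₂) : Continuous χ₀ :=
  continuous_iff_continuousAt.2 fun t => (x.d0 t).continuousAt

theorem ag1 (x : Chi P M χ₀ χ₁ χ₂) (h : (γ.ze t).re < P / 2) : Ag (cut χ₀ χ₁ χ₂ γ a j) j t :=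
  ct_ag1 (by simp [rn_apply x.c0, x.lo _ h]) (by simp [rn_apply x.c1, x.lo _ h])
    (by simp [rn_apply x.c2, x.lo _ h])

theorem ag0 (x : Chi P M χ₀ χ₁ χ₂) (h : 5 * P / 8 < (γ.ze t).re) : Ag (cut χ₀ χ₁ χ₂ γ a j) 0 t :=
  ct_ag0 (by simp [rn_apply x.c0, x.hi _ h]) (by simp [rn_apply x.c1, x.hi _ h])
    (by simp [rn_apply x.c2, x.hi _ h])

theorem isJet (x : Chi P M χ₀ χ₁ χ₂) (h : γ.RealP T) (v : γ.CV a) (hj : (γ.cyl a).IsJet j) :
    (γ.cyl a).IsJet (cut χ₀ χ₁ χ₂ γ a j) := by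
  have key : ∀ {f f' : ℝ → ℝ}, (∀ x, HasDerivAt f (f' x) x) → Continuous f → Continuous f' →
      (γ.cyl a).Der (rn f γ.ze) (rn f' γ.ze) := fun h1 h2 h3 t => by
    rw [show (rn _ γ.ze : ℝ → ℂ) = _ from funext (rn_apply h2 _), rn_apply h3]
    refine ((h1 _).comp t (hasDerivAt_re h.ok t)).ofReal_comp.congr_deriv ?_
    rw [ofReal_mul, mul_comm]
    congr 1
    exact Complex.ext rfl (h.im t).symm
  exact ct_isJet v.inv (key x.d0 x.c0 x.c1) (key x.d1 x.c1 x.c2) hj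

theorem nrm (x : Chi P M χ₀ χ₁ χ₂) (h : γ.RealP T) (hT : 256 ≤ T) (hP : ∀ t, (γ.ze t).re ≤ P)
    (ha : ‖a‖ ≤ 1 / (4 * P)) (hj : (γ.cyl a).IsJet j) {w w' : BC}
    (hw : ∀ t, (γ.ze t).re ≤ 5 * P / 8 → ‖w t‖ ≤ ‖w' t‖) :
    (γ.cyl a).nrm muCyl w (cut χ₀ χ₁ χ₂ γ a j) ≤ 12 * M * (γ.cyl a).nrm muCyl w' j := by
  have ad := h.admP (by linarith) hP ha
  have hz := h.one_le (by linarith)
  have hM : 0 ≤ M := (abs_nonneg _).trans (x.bd 0).1
  have hP1 : 1 ≤ P := by linarith [h.T_le 0, hP 0]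
  have key : ∀ b : BC, (∀ t, ‖b t‖ ≤ 3 * M) → (∀ t, 5 * P / 8 < (γ.ze t).re → b t = 0) →
      ∀ t, ‖w t * b t‖ ≤ 3 * M * ‖w' t‖ := fun b h1 h2 t => by
    rcases le_or_gt (γ.ze t).re (5 * P / 8) with d | d
    · rw [norm_mul, mul_comm]
      exact mul_le_mul (h1 t) (hw t d) (norm_nonneg _) (by positivity)
    · rw [h2 t d, mul_zero, norm_zero]
      positivity
  have kO : ∀ {f : ℝ → ℝ}, Continuous f → (∀ x, P * |f x| ≤ M) → ∀ t,
      ‖((γ.cyl a).Om * rn f γ.ze) t‖ ≤ 3 * M := fun {f} h1 h2 t => by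
    have b1 := norm_le_insert' (rh a (γ.ze t)) 2
    have b2 := h.rh_near (by linarith) hP ha t
    rw [Complex.norm_ofNat] at b1
    rw [BoundedContinuousFunction.mul_apply, rn_apply h1, γ.cyl_Om, Om, norm_mul, norm_mul,
      h.norm_ze (by linarith), norm_real, Real.norm_eq_abs]
    calc _ ≤ P * 3 * |f (γ.ze t).re| := by
          gcongr
          · exact hP t
          · linarith
      _ ≤ _ := by linarith [h2 (γ.ze t).re]
  refine (ct_nrm (admP_pg' one_half_pos hz (by linarith) ad) (fun m t => ?_) hj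
    (x.isJet h (admP_cv hz (by linarith) ad) hj) (A := 3 * M) (by positivity)
    (key _ (fun t => ?_) fun t d => by simp [rn_apply x.c0, x.hi _ d])
    (key _ (fun t => ?_) fun t d => by simp [rn_apply x.c1, x.hi _ d])
    (key _ (kO x.c1 fun s => (x.bd s).2.1) fun t d => by simp [rn_apply x.c1, x.hi _ d])
    (key _ (kO x.c2 fun s => (x.bd s).2.2) fun t d => by
      simp [rn_apply x.c2, x.hi _ d])).trans_eq (by ring)
  · refine (Ctr.la_le _).trans ?_
    have b1 : ‖(γ.cyl a).io t‖ ≤ 1 := (((γ.cyl a).io.norm_coe_le_norm t).trans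
      (admP_norm_io hz (by linarith) ad)).trans (inv_le_one_of_one_le₀ (by linarith))
    rw [norm_mul, norm_div, norm_real, Real.norm_eq_abs, Complex.norm_ofNat]
    nlinarith [muCyl_le m, one_le_br m, abs_nonneg (muCyl m)]
  · rw [rn_apply x.c0, norm_real, Real.norm_eq_abs]
    linarith [(x.bd (γ.ze t).re).1]
  · rw [rn_apply x.c1, norm_real, Real.norm_eq_abs]
    nlinarith [(x.bd (γ.ze t).re).2.1, abs_nonneg (χ₁ (γ.ze t).re)]

end Chi

theorem coef_le (h : γ.RealP T) (hT : 256 ≤ T) (hP : ∀ t, (γ.ze t).re ≤ P)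
    (ha : ‖a‖ ≤ 1 / (4 * P)) : ‖a‖ ≤ 1 ∧ ‖binv γ.ze‖ ≤ 1 ∧ ‖(γ.cyl a).io‖ ≤ 1 ∧ ‖γ.hh a‖ ≤ 1 ∧
      ‖γ.Oh a‖ ≤ 1 := by
  have ad := h.admP (by linarith) hP ha
  have hz := h.one_le (by linarith)
  have hP1 : 1 ≤ P := by linarith [h.T_le 0, hP 0]
  have h1 : ‖a‖ * P ≤ 1 / 4 := by
    rw [le_div_iff₀ (by positivity)] at ha
    linarith
  have h2 : ‖a‖ ≤ 1 := by nlinarith [norm_nonneg a]
  refine ⟨h2, norm_BC_le fun t => ?_, (admP_norm_io hz (by linarith) ad).trans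
    (inv_le_one_of_one_le₀ (by linarith)), norm_BC_le fun t => ?_, norm_BC_le fun t => ?_⟩
  · rw [h.iz (by linarith), norm_inv]
    exact inv_le_one_of_one_le₀ (hz t)
  · have b1 := norm_le_insert (rh a (γ.ze t)) 2
    have b2 := h.rh_near (by linarith) hP ha t
    rw [Complex.norm_ofNat] at b1
    rw [(admP_cv hz (by linarith) ad).hh, norm_div, norm_mul, Complex.norm_ofNat]
    exact div_le_one_of_le₀ (by linarith) (by positivity)
  · rw [γ.Oh_apply, norm_mul, norm_div, Complex.norm_ofNat, h.norm_ze (by linarith)]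
    nlinarith [hP t, norm_nonneg a]

end CutP

open CutP

theorem cutStmt : CutStmt := by
  obtain ⟨M, hM, χ₀, χ₁, χ₂, hχ⟩ := exists_chi1
  obtain ⟨L, hL, lip⟩ := Ecyl_lip
  refine ⟨clp, fun P γ => cut (fun x => χ₀ (x / P)) (fun x => χ₁ (x / P) / P)
    (fun x => χ₂ (x / P) / P / P) (clp P γ), fun c hc => ⟨12 * M * (L + 1), by nlinarith,
    256 + 128 / c, fun K T P γ hK hT hP ho h0 hd hp => ?_⟩⟩
  have hc' : 0 < 128 / c := by positivity
  have h : Hy c T P γ := ⟨hc, by linarith, hP, ho, h0, hd, hp⟩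
  have x := hχ.scale (P := P) (by linarith)
  beta_reduce
  generalize (fun x => χ₀ (x / P)) = f₀ at x ⊢
  generalize (fun x => χ₁ (x / P) / P) = f₁ at x ⊢
  generalize (fun x => χ₂ (x / P) / P / P) = f₂ at x ⊢
  have hP0 := h.pos
  refine ⟨h.real, h.ge (by linarith [h.P_le]), h.le_P 1, fun t ht => h.ze_eq (by linarith),
    fun γ' h1 h2 h3 => ?_,
    (differentiable_cut _ _ _ _).differentiableOn, fun a j ha ad hj => ?_⟩
  · rw [h.cpre h1 h2 h3]
    exact ⟨rfl, rfl⟩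
  have r := h.real
  have ad' := r.admP (by linarith) h.le_P ha
  have v := admP_cv h.one_le (by linarith) ad
  have v' := admP_cv (r.one_le (by linarith)) (by linarith) ad'
  have pg := admP_pg' hc h.one_le (by linarith) ad
  have pg' := admP_pg' one_half_pos (r.one_le (by linarith)) (by linarith [h.big]) ad'
  have hi : ∀ t, (γ.ze t).re ≤ 3 * P / 4 → (γ.cyl a).io t = ((clp P γ).cyl a).io t :=
    fun t ht => by rw [v.io, v'.io, h.ze_eq ht]
  have j1 := x.isJet r v' hj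
  have nr := fun w w' => x.nrm r h.big h.le_P ha hj (w := w) (w' := w')
  have a0 : ∀ t, 5 * P / 8 < (γ.ze t).re → Ag (cut f₀ f₁ f₂ (clp P γ) a j) 0 t :=
    fun t ht => x.ag0 (h.hi ht)
  have a1 : ∀ t, (γ.ze t).re < P / 2 → Ag (cut f₀ f₁ f₂ (clp P γ) a j) j t :=
    fun t ht => x.ag1 (by rwa [h.ze_eq (by linarith)])
  generalize cut f₀ f₁ f₂ (clp P γ) a j = k at j1 nr a0 a1 ⊢
  have cX := continuous_re.comp γ.ze.continuous
  have j2 : (γ.cyl a).IsJet k := isJet_loc j1 fun t => by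
    rcases lt_or_ge (γ.ze t).re (3 * P / 4) with b | b
    · exact Or.inl ((cX.continuousAt.eventually (gt_mem_nhds b)).mono fun s hs =>
        ⟨h.g_eq hs, hi s hs.le⟩)
    · exact Or.inr ((cX.continuousAt.eventually (lt_mem_nhds
        (show 5 * P / 8 < (γ.ze t).re by linarith))).mono a0)
  have ep : (γ.cyl a).piJ muCyl k = ((clp P γ).cyl a).piJ muCyl k := ext_ct fun m t => by
    rw [← c_tr, ← c_tr]
    rcases le_or_gt (γ.ze t).re (5 * P / 8) with b | b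
    · rw [tr_piJ pg pg' j2 j1 (hi t (by linarith)) Ag.refl]
    · rw [tr_piJ0 pg j2 (a0 t b), tr_piJ0 pg' j1 (a0 t b)]
  have s0 : (γ.ze 0).re < P / 2 := by
    rw [h0, ofReal_re]
    linarith
  have s1 : 5 * P / 8 < (γ.ze 1).re := by linarith [h.P_le]
  have n0 : ∀ w, 0 ≤ ((clp P γ).cyl a).nrm muCyl w j := fun w =>
    (norm_nonneg _).trans (le_max_left _ _)
  refine ⟨j2, (a1 0 s0).1, tr_piJ pg pg' j2 hj (hi 0 (by linarith)) (a1 0 s0),
    (a0 1 s1).1.trans (map_zero _), tr_piJ0 pg j2 (a0 1 s1), fun w w' hw => ?_,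
    fun hE hn w w' A B hA hB h1 h2 => ?_⟩
  · rw [Ctr.nrm, ep]
    refine (nr w w' fun t ht => hw t (not_lt.1 fun b => (h.hi b).not_ge ht)).trans ?_
    exact mul_le_mul_of_nonneg_right (by nlinarith) (n0 _)
  obtain ⟨c1, c2, c3, c4, c5⟩ := coef_le r h.big h.le_P ha
  have k1 : ‖k‖ ≤ 1 := by
    have b1 := (le_max_left _ _).trans (nr 1 1 fun _ _ => le_rfl)
    rw [EJ.wt_one] at b1
    rw [le_div_iff₀ (by positivity)] at hn
    nlinarith [mul_nonneg (mul_nonneg (n0 1) hL) (zero_le_one.trans hM)]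
  have k2 := (lip (clp P γ) a k w' c1 c2 c3 c4 c5 k1).trans (mul_le_mul_of_nonneg_left
    ((le_max_left _ _).trans (nr w' w' fun _ _ => le_rfl)) hL)
  have k3 : ∀ m t, P / 2 ≤ (γ.ze t).re → ‖w t * (γ.Ecyl a 0).c m t‖ ≤
      ‖(W.C (2 * B) : W ℂ).c m‖ := fun m t ht => by
    rw [Ecyl_zero, W.C_apply, W.C_apply, W.c_one1, W.c_one1]
    split_ifs
    · have e : ((-(4 * (1 + a))) • (γ.Oh a * γ.hh a)) t =
          -(1 + a) * (a ^ 2 * γ.ze t / rh a (γ.ze t)) := by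
        rw [BoundedContinuousFunction.smul_apply, BoundedContinuousFunction.mul_apply, v.hh,
          γ.Oh_apply, smul_eq_mul]
        have := v.rh_ne t
        field_simp
        ring
      have b1 : ‖-(1 + a)‖ ≤ 2 := by
        rw [norm_neg]
        exact (norm_add_le _ _).trans (by rw [norm_one]; linarith)
      rw [e, mul_left_comm, norm_mul, norm_mul (w t), norm_mul, Complex.norm_ofNat, norm_real,
        Real.norm_of_nonneg hB]
      exact mul_le_mul b1 (h2 t ht) (by positivity) zero_le_two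
    · simp
  refine (W.norm_le_of_hasSum (((W.C w' * ((clp P γ).Ecyl a k - (clp P γ).Ecyl a 0)).hasSum.mul_left
    A).add (W.C (2 * B) : W ℂ).hasSum) fun m => norm_BC_le fun t => ?_).trans ?_
  · rw [c_C_mul_apply]
    rcases lt_or_ge (γ.ze t).re (P / 2) with b | b
    · rw [← c_tr, tr_Ecyl v v' (h.ze_eq (by linarith)).symm (a1 t b), hE, map_zero, W.c_zero,
        mul_zero, norm_zero]
      positivity
    rcases le_or_gt (γ.ze t).re (5 * P / 8) with d | d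
    · have z := (h.ze_eq (t := t) (by linarith)).symm
      have e : (γ.Ecyl a k).c m t = ((clp P γ).Ecyl a k - (clp P γ).Ecyl a 0).c m t +
          (γ.Ecyl a 0).c m t := by
        rw [← c_tr, ← c_tr, ← c_tr, tr_Ecyl v v' z Ag.refl, tr_Ecyl v v' z Ag.refl, map_sub,
          W.c_sub, sub_add_cancel]
      rw [e, mul_add]
      refine norm_add_le_of_le ?_ (k3 m t b)
      rw [norm_mul]
      calc _ ≤ A * ‖w' t‖ * ‖((clp P γ).Ecyl a k - (clp P γ).Ecyl a 0).c m t‖ := by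
            gcongr
            exact h1 t b d
        _ = A * ‖(W.C w' * ((clp P γ).Ecyl a k - (clp P γ).Ecyl a 0)).c m t‖ := by
            rw [c_C_mul_apply, norm_mul, mul_assoc]
        _ ≤ _ := by gcongr; exact BoundedContinuousFunction.norm_coe_le_norm _ _
    · rw [← c_tr, tr_Ecyl v v rfl (a0 t d), c_tr]
      exact (k3 m t b).trans (le_add_of_nonneg_left (by positivity))
  · rw [W.norm_C, norm_mul 2, Complex.norm_ofNat, norm_real, Real.norm_of_nonneg hB]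
    nlinarith [mul_le_mul_of_nonneg_left k2 hA, mul_nonneg (mul_nonneg hA (n0 w'))
      (zero_le_one.trans hM), mul_nonneg (mul_nonneg hB hL) (zero_le_one.trans hM),
      mul_le_mul_of_nonneg_left hM hB]

end Vale.Agent.P218N.End
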