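import Vale.Agent.P218N.End.ApiBas
import Vale.Agent.P218N.End.NL

/-! Cut-off of jets: the algebra and the estimates. -/

open Filter Topology Metric Set Complex

noncomputable section

namespace Vale.Agent.P218N.End

open Vale.Agent.P218N.J Vale.Agent.P218N.J.PolyP

namespace CutP

/-- the data of the Lipschitz estimate for `cylE` -/
structure LD (R : Type*) [NormedCommRing R] where
  w : R
  b : Fin 5 → R
  x : Fin 6 → R
  p : ℝ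
  hb : ∀ i, ‖b i‖ ≤ 1
  hx : ∀ i, ‖x i‖ ≤ 1 ∧ ‖w * x i‖ ≤ p

theorem cylE_lip (R : Type*) [NormedCommRing R] [NormOneClass R] : ∃ L, 0 ≤ L ∧ ∀ d : LD R,
    ‖d.w * (cylE (d.b 0) (d.b 1) (d.b 2) (d.b 3) (d.b 4) (d.x 0) (d.x 1) (d.x 2) (d.x 3) (d.x 4)
      (d.x 5) - cylE (d.b 0) (d.b 1) (d.b 2) (d.b 3) (d.b 4) 0 0 0 0 0 0)‖ ≤ L * d.p := by
  let s : Scl (LD R) R := ⟨fun _ => 0, LD.w, fun _ => 0, LD.p, fun _ => 0, fun _ => le_rfl,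
    fun d => (norm_nonneg _).trans (d.hx 0).2, fun _ => (zero_mul _).le⟩
  let b : Fin 5 → s.B := fun i => Scl.con le_rfl fun d => d.hb i
  let x : Fin 6 → s.B := fun i => Scl.var (f := fun d => d.x i) (f' := fun _ => 0) le_rfl fun d =>
    ⟨(d.hx i).1, by simp, by simpa using (d.hx i).2⟩
  obtain ⟨L, h0, h1⟩ := (cylE (b 0) (b 1) (b 2) (b 3) (b 4) (x 0) (x 1) (x 2) (x 3) (x 4) (x 5)).2
  refine ⟨L, h0, fun d => ?_⟩
  have : ‖d.w * (Scl.e1 d (cylE (b 0) (b 1) (b 2) (b 3) (b 4) (x 0) (x 1) (x 2) (x 3) (x 4) (x 5)) -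
    Scl.e2 d (cylE (b 0) (b 1) (b 2) (b 3) (b 4) (x 0) (x 1) (x 2) (x 3) (x 4) (x 5)))‖ ≤ L * d.p :=
    (h1 d).2.2
  rw [map_cylE, map_cylE] at this
  exact this

theorem Ecyl_lip : ∃ L, 0 ≤ L ∧ ∀ (γ : Path) (a : ℂ) (j : EJ) (w : BC), ‖a‖ ≤ 1 →
    ‖binv γ.ze‖ ≤ 1 → ‖(γ.cyl a).io‖ ≤ 1 → ‖γ.hh a‖ ≤ 1 → ‖γ.Oh a‖ ≤ 1 → ‖j‖ ≤ 1 →
    ‖W.C w * (γ.Ecyl a j - γ.Ecyl a 0)‖ ≤ L * ‖j.wt w‖ := by
  obtain ⟨L, h0, h⟩ := cylE_lip WB
  refine ⟨L, h0, fun γ a j w h1 h2 h3 h4 h5 h6 => ?_⟩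
  have := h ⟨W.C w, ![algebraMap ℂ WB a, W.C (binv γ.ze), W.C (γ.cyl a).io, W.C (γ.hh a),
    W.C (γ.Oh a)], ![j.y, j.yt, j.ytt, j.op, j.oq, j.pt], ‖j.wt w‖, fun i => by
      fin_cases i <;> simpa, fun i => by
      fin_cases i
      · exact ⟨j.norm_y_le.trans h6, j.wt_y w ▸ (j.wt w).norm_y_le⟩
      · exact ⟨j.norm_yt_le.trans h6, j.wt_yt w ▸ (j.wt w).norm_yt_le⟩
      · exact ⟨j.norm_ytt_le.trans h6, j.wt_ytt w ▸ (j.wt w).norm_ytt_le⟩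
      · exact ⟨j.norm_op_le.trans h6, (j.wt w).norm_op_le⟩
      · exact ⟨j.norm_oq_le.trans h6, (j.wt w).norm_oq_le⟩
      · exact ⟨j.norm_pt_le.trans h6, (j.wt w).norm_pt_le⟩⟩
  have e : γ.Ecyl a 0 = cylE (algebraMap ℂ WB a) (W.C (binv γ.ze)) (W.C (γ.cyl a).io)
      (W.C (γ.hh a)) (W.C (γ.Oh a)) 0 0 0 0 0 0 := by
    rw [Path.Ecyl, show EJ.y 0 = 0 from map_zero _, show EJ.yt 0 = 0 from map_zero _,
      show EJ.ytt 0 = 0 from map_zero _]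
    rfl
  rw [e]
  exact this

theorem Ecyl_zero (γ : Path) (a : ℂ) :
    γ.Ecyl a 0 = W.C ((-(4 * (1 + a))) • (γ.Oh a * γ.hh a)) := ext_ev fun t θ => by
  rw [Path.ev_Ecyl, show EJ.y 0 = 0 from map_zero _, show EJ.yt 0 = 0 from map_zero _,
    show EJ.ytt 0 = 0 from map_zero _, show EJ.op 0 = 0 from rfl, show EJ.oq 0 = 0 from rfl,
    show EJ.pt 0 = 0 from rfl]
  simp only [ev_zero, ev_C, cylE, cylD, cylB, BoundedContinuousFunction.smul_apply,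
    BoundedContinuousFunction.mul_apply, smul_eq_mul]
  ring

/-- two jets agree at a point of the contour -/
def Ag (k k' : EJ) (t : ℝ) : Prop := tr t k.y2 = tr t k'.y2 ∧ tr t k.op = tr t k'.op ∧
  tr t k.oq = tr t k'.oq ∧ tr t k.pt = tr t k'.pt

variable {k k' j : EJ} {t : ℝ} {Γ Γ' : Ctr} {μ : ℤ → ℝ} {X₀ X₁ X₂ O : BC}

theorem Ag.refl : Ag k k t := ⟨rfl, rfl, rfl, rfl⟩

theorem Ag.y (h : Ag k k' t) (m : ℤ) : k.y.c m t = k'.y.c m t := by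
  rw [← c_tr, ← c_tr, EJ.y, EJ.y, tr_mult symb_y, tr_mult symb_y, h.1]

theorem Ag.op (h : Ag k k' t) (m : ℤ) : k.op.c m t = k'.op.c m t := by
  rw [← c_tr, ← c_tr, h.2.1]

theorem Ag.oq (h : Ag k k' t) (m : ℤ) : k.oq.c m t = k'.oq.c m t := by
  rw [← c_tr, ← c_tr, h.2.2.1]

theorem Ag.y0 (h : Ag k 0 t) (m : ℤ) : k.y.c m t = 0 := by
  rw [h.y, show EJ.y 0 = 0 from map_zero _]
  rfl

theorem Ag.op0 (h : Ag k 0 t) (m : ℤ) : k.op.c m t = 0 := h.op m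

theorem Ag.oq0 (h : Ag k 0 t) (m : ℤ) : k.oq.c m t = 0 := h.oq m

theorem tr_Ecyl {γ δ : Path} {a : ℂ} (v : γ.CV a) (v' : δ.CV a) (hz : γ.ze t = δ.ze t)
    (h : Ag k k' t) : tr t (γ.Ecyl a k) = tr t (δ.Ecyl a k') := by
  rw [← trA_apply, ← trA_apply, Path.Ecyl, Path.Ecyl, map_cylE, map_cylE]
  simp only [trA_apply, tr_C, EJ.y, EJ.yt, EJ.ytt, tr_mult symb_y, tr_mult symb_yt,
    tr_mult symb_ytt, h.1, h.2.1, h.2.2.1, h.2.2.2, v.iz, v'.iz, v.io, v'.io, v.hh, v'.hh,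
    Path.Oh_apply, hz]

theorem tr_piJ (hp : Γ.PG μ) (hp' : Γ'.PG μ) (hk : Γ.IsJet k) (hk' : Γ'.IsJet k')
    (hi : Γ.io t = Γ'.io t) (h : Ag k k' t) : tr t (Γ.piJ μ k) = tr t (Γ'.piJ μ k') :=
  W.ext fun m => by rw [c_tr, c_tr, hp.c_piJ hk, hp'.c_piJ hk', hi, h.y, h.op]

theorem tr_piJ0 (hp : Γ.PG μ) (hk : Γ.IsJet k) (h : Ag k 0 t) : tr t (Γ.piJ μ k) = 0 :=
  W.ext fun m => by rw [c_tr, hp.c_piJ hk, h.y0, h.op0, mul_zero, mul_zero, add_zero, W.c_zero]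

theorem isJet_loc (hj : Γ'.IsJet j) (h : ∀ t, (∀ᶠ s in 𝓝 t, Γ.g s = Γ'.g s ∧ Γ.io s = Γ'.io s) ∨
    ∀ᶠ s in 𝓝 t, Ag j 0 s) : Γ.IsJet j := by
  refine fun m => ⟨fun t => ?_, fun t => ?_, BoundedContinuousFunction.ext fun t => ?_⟩
  · rcases h t with h | h
    · refine ((hj m).1 t).congr_deriv ?_
      simp only [BoundedContinuousFunction.mul_apply, h.self_of_nhds.1, h.self_of_nhds.2]
    · refine ((hasDerivAt_const t (0 : ℂ)).congr_of_eventuallyEq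
        (h.mono fun s hs => hs.y0 m)).congr_deriv ?_
      simp [h.self_of_nhds.op0]
  · rcases h t with h | h
    · refine (((hj m).2.1 t).congr_of_eventuallyEq (h.mono fun s hs => ?_)).congr_deriv ?_
      · simp only [BoundedContinuousFunction.mul_apply, hs.2]
      · simp only [BoundedContinuousFunction.mul_apply, h.self_of_nhds.1, h.self_of_nhds.2]
    · refine ((hasDerivAt_const t (0 : ℂ)).congr_of_eventuallyEq
        (h.mono fun s hs => ?_)).congr_deriv ?_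
      · simp [hs.op0]
      · simp [h.self_of_nhds.oq0]
  · rw [(hj m).2.2]
    rcases h t with h | h
    · simp only [BoundedContinuousFunction.mul_apply, BoundedContinuousFunction.smul_apply,
        h.self_of_nhds.2]
    · simp [h.self_of_nhds.op0]

/-- the jet of `X₀ y`, where `X₁, X₂` are the derivatives of `X₀` -/
def ct (X₀ X₁ X₂ O : BC) (j : EJ) : EJ :=
  (W.C X₀ * j.y2, W.C X₀ * j.op + W.C (O * X₁) * j.y,
    W.C X₀ * j.oq + W.C X₁ * j.op + W.C X₁ * j.op + W.C (O * X₂) * j.y,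
    W.C X₀ * j.pt + W.C X₁ * j.yt)

theorem ct_y2 : (ct X₀ X₁ X₂ O j).y2 = W.C X₀ * j.y2 := rfl
theorem ct_op : (ct X₀ X₁ X₂ O j).op = W.C X₀ * j.op + W.C (O * X₁) * j.y := rfl
theorem ct_oq : (ct X₀ X₁ X₂ O j).oq =
    W.C X₀ * j.oq + W.C X₁ * j.op + W.C X₁ * j.op + W.C (O * X₂) * j.y := rfl
theorem ct_pt : (ct X₀ X₁ X₂ O j).pt = W.C X₀ * j.pt + W.C X₁ * j.yt := rfl
theorem ct_y : (ct X₀ X₁ X₂ O j).y = W.C X₀ * j.y := (C_mul_mult sym0_le _ _).symm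

theorem ct_ag1 (h0 : X₀ t = 1) (h1 : X₁ t = 0) (h2 : X₂ t = 0) : Ag (ct X₀ X₁ X₂ O j) j t := by
  simp [Ag, ct_y2, ct_op, ct_oq, ct_pt, tr_mul, tr_C, h0, h1, h2, -map_mul]

theorem ct_ag0 (h0 : X₀ t = 0) (h1 : X₁ t = 0) (h2 : X₂ t = 0) : Ag (ct X₀ X₁ X₂ O j) 0 t := by
  simp only [Ag, ct_y2, ct_op, ct_oq, ct_pt, tr_mul, tr_C, h0, h1, h2, map_add,
    BoundedContinuousFunction.mul_apply, mul_zero, map_zero, zero_mul, add_zero]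
  exact ⟨(map_zero _).symm, (map_zero _).symm, (map_zero _).symm, (map_zero _).symm⟩

theorem ct_isJet (hi : ∀ t, Γ.Om t * Γ.io t = 1) (h0 : Γ.Der X₀ X₁) (h1 : Γ.Der X₁ X₂)
    (hj : Γ.IsJet j) : Γ.IsJet (ct X₀ X₁ X₂ Γ.Om j) := by
  intro m
  have e : Γ.io * (ct X₀ X₁ X₂ Γ.Om j).op.c m = X₀ * (Γ.io * j.op.c m) + X₁ * j.y.c m := by
    ext t
    simp only [ct_op, W.c_add, W.c_C_mul, BoundedContinuousFunction.mul_apply,
      BoundedContinuousFunction.add_apply]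
    linear_combination X₁ t * j.y.c m t * hi t
  rw [e, ct_y, W.c_C_mul]
  refine ⟨fun t => ((h0 t).mul ((hj m).1 t)).congr_deriv ?_,
    fun t => (((h0 t).mul ((hj m).2.1 t)).add ((h1 t).mul ((hj m).1 t))).congr_deriv ?_, ?_⟩
  · simp only [BoundedContinuousFunction.mul_apply, BoundedContinuousFunction.add_apply]
    ring
  · simp only [ct_oq, W.c_add, W.c_C_mul, BoundedContinuousFunction.mul_apply,
      BoundedContinuousFunction.add_apply]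
    linear_combination (-(Γ.g t * X₂ t * j.y.c m t)) * hi t
  · rw [ct_pt, W.c_add, W.c_C_mul, W.c_C_mul, (hj m).2.2, j.c_yt, smul_add, mul_smul_comm,
      mul_smul_comm]

theorem ct_nrm (hp : Γ.PG μ) (hl : ∀ m t, ‖la ((μ m : ℂ) / 2 * Γ.io t)‖ ≤ 3 * br m)
    (hj : Γ.IsJet j) (hj' : Γ.IsJet (ct X₀ X₁ X₂ O j)) {w w' : BC} {A : ℝ} (hA : 0 ≤ A)
    (h0 : ∀ t, ‖w t * X₀ t‖ ≤ A * ‖w' t‖) (h1 : ∀ t, ‖w t * X₁ t‖ ≤ A * ‖w' t‖)
    (h2 : ∀ t, ‖w t * (O * X₁) t‖ ≤ A * ‖w' t‖) (h3 : ∀ t, ‖w t * (O * X₂) t‖ ≤ A * ‖w' t‖) :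
    Γ.nrm μ w (ct X₀ X₁ X₂ O j) ≤ 4 * A * Γ.nrm μ w' j := by
  have key : ∀ {b : BC} {f : WB}, (∀ t, ‖w t * b t‖ ≤ A * ‖w' t‖) → ‖W.C w' * f‖ ≤ ‖j.wt w'‖ →
      ‖W.C w * (W.C b * f)‖ ≤ A * Γ.nrm μ w' j := fun h h' =>
    (wle' hA h _).trans (mul_le_mul_of_nonneg_left (h'.trans (le_max_left _ _)) hA)
  have n0 : 0 ≤ A * Γ.nrm μ w' j := mul_nonneg hA ((norm_nonneg _).trans (le_max_left _ _))
  have ny : ‖W.C w' * j.y‖ ≤ ‖j.wt w'‖ := j.wt_y w' ▸ (j.wt w').norm_y_le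
  have nt : ‖W.C w' * j.yt‖ ≤ ‖j.wt w'‖ := j.wt_yt w' ▸ (j.wt w').norm_yt_le
  refine max_le (EJ.norm_le _ ?_ ?_ ?_ ?_) ?_
  · rw [EJ.wt_y2, ct_y2]
    linarith [key h0 (j.wt w').norm_y2_le]
  · rw [EJ.wt_op, ct_op, mul_add]
    linarith [norm_add_le_of_le (key h0 (j.wt w').norm_op_le) (key h2 ny)]
  · rw [EJ.wt_oq, ct_oq, mul_add, mul_add, mul_add]
    linarith [norm_add_le_of_le (norm_add_le_of_le (norm_add_le_of_le
      (key h0 (j.wt w').norm_oq_le) (key h1 (j.wt w').norm_op_le)) (key h1 (j.wt w').norm_op_le))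
      (key h3 ny)]
  · rw [EJ.wt_pt, ct_pt, mul_add]
    linarith [norm_add_le_of_le (key h0 (j.wt w').norm_pt_le) (key h1 nt)]
  · refine (W.norm_le_of_hasSum (((W.C w' * Γ.piJ μ j).hasSum.mul_left A).add
      ((W.C w' * j.y2).hasSum.mul_left (3 * A))) fun m => norm_BC_le fun t => ?_).trans ?_
    · have e : (W.C w * Γ.piJ μ (ct X₀ X₁ X₂ O j)).c m t = w t * X₀ t * (Γ.piJ μ j).c m t +
          la ((μ m : ℂ) / 2 * Γ.io t) * ((br m : ℝ) : ℂ)⁻¹ * (w t * (O * X₁) t * j.y2.c m t) := by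
        rw [c_C_mul_apply, hp.c_piJ hj', hp.c_piJ hj, ct_y, ct_op, W.c_add,
          BoundedContinuousFunction.add_apply, c_C_mul_apply, c_C_mul_apply, c_C_mul_apply, j.c_y]
        simp only [BoundedContinuousFunction.smul_apply, smul_eq_mul]
        ring
      have k : ∀ {b : BC} (f : WB), (∀ t, ‖w t * b t‖ ≤ A * ‖w' t‖) →
          ‖w t * b t * f.c m t‖ ≤ A * ‖(W.C w' * f).c m‖ := fun f h => by
        rw [norm_mul]
        calc _ ≤ A * ‖w' t‖ * ‖f.c m t‖ := by gcongr; exact h t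
          _ = A * ‖(W.C w' * f).c m t‖ := by rw [c_C_mul_apply, norm_mul, mul_assoc]
          _ ≤ _ := by gcongr; exact BoundedContinuousFunction.norm_coe_le_norm _ _
      have k2 : ‖la ((μ m : ℂ) / 2 * Γ.io t) * ((br m : ℝ) : ℂ)⁻¹‖ ≤ 3 := by
        rw [norm_mul, norm_inv_br, mul_inv_le_iff₀ (br_pos m)]
        exact hl m t
      rw [e, mul_assoc 3]
      exact norm_add_le_of_le (k _ h0) (Scl.n2 k2 (k _ h2))
    · have a1 : ‖W.C w' * Γ.piJ μ j‖ ≤ Γ.nrm μ w' j := le_max_right _ _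
      have a2 : ‖W.C w' * j.y2‖ ≤ Γ.nrm μ w' j := (j.wt w').norm_y2_le.trans (le_max_left _ _)
      nlinarith

end CutP

end Vale.Agent.P218N.End
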