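import Vale.Agent.P218N.End.ApiBas

/-! The change of the slope at a point: the scalar coefficients. -/

open Filter Topology Metric Set Complex
open scoped ComplexConjugate

noncomputable section

namespace Vale.Agent.P218N.End.Cv

open Vale.Agent.P218N.J

theorem sqrt_sq (w : ℂ) : Complex.sqrt w ^ 2 = w := Complex.cpow_ofNat_inv_pow _ 2

theorem sqrt_re (w : ℂ) : 0 ≤ (Complex.sqrt w).re := by
  unfold Complex.sqrt
  rw [Complex.cpow_inv_two_re]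
  exact Real.sqrt_nonneg _

theorem sqrt_eq_of {z w : ℂ} (h : z ^ 2 = w) (hz : 0 < z.re) : Complex.sqrt w = z := by
  rcases sq_eq_sq_iff_eq_or_eq_neg.1 ((sqrt_sq w).trans h.symm) with h1 | h1
  · exact h1
  · have := sqrt_re w
    rw [h1, neg_re] at this
    linarith

theorem norm_sqrt_sub_one (w : ℂ) : ‖Complex.sqrt w - 1‖ ≤ ‖w - 1‖ := by
  have e : w - 1 = (Complex.sqrt w - 1) * (Complex.sqrt w + 1) := by
    linear_combination -sqrt_sq w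
  have h1 : 1 ≤ ‖Complex.sqrt w + 1‖ := le_trans (by simpa using sqrt_re w) (re_le_norm _)
  rw [e, norm_mul]
  exact le_mul_of_one_le_right (norm_nonneg _) h1

theorem re_ge_of {z : ℂ} {r : ℝ} (h : ‖z - 1‖ ≤ r) : 1 - r ≤ z.re := by
  have := (abs_le.1 ((abs_re_le_norm _).trans h)).1
  simp only [sub_re, one_re] at this
  linarith

theorem norm_le_of {z : ℂ} {r : ℝ} (h : ‖z - 1‖ ≤ r) : ‖z‖ ≤ 1 + r := by
  have := norm_le_insert' z 1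
  rw [norm_one] at this
  linarith

theorem re_mul_pos {z w : ℂ} {r : ℝ} (h : ‖z - 1‖ ≤ r) (hw : r * ‖w‖ < w.re) : 0 < (z * w).re := by
  have e : (z * w).re = w.re + ((z - 1) * w).re := by rw [← add_re]; congr 1; ring
  have h1 := (abs_le.1 (abs_re_le_norm ((z - 1) * w))).1
  rw [norm_mul] at h1
  nlinarith [norm_nonneg w]

/-- square roots in a sector -/
theorem re_sqrt_ge {u w : ℂ} {b : ℝ} (hu : ‖u‖ = 1) (hr : 0 ≤ u.re) (h : b * ‖w‖ ≤ (u * w).re) :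
    b / 3 * ‖Complex.sqrt w‖ ≤ (Complex.sqrt w).re := by
  have h0 := sqrt_re w
  rw [← sqrt_sq w] at h
  generalize Complex.sqrt w = S at h h0 ⊢
  rw [norm_pow, mul_re, sq S, mul_re, mul_im] at h
  have h1 : u.re ≤ 1 := (re_le_norm u).trans_eq hu
  have h2 : |u.im| ≤ 1 := (abs_im_le_norm u).trans_eq hu
  have h3 := abs_im_le_norm S
  have h4 := re_le_norm S
  have h5 : -(u.im * S.im) ≤ ‖S‖ := by
    refine (neg_le_abs _).trans ?_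
    rw [abs_mul]
    nlinarith [abs_nonneg u.im, abs_nonneg S.im]
  have h6 : b * ‖S‖ ^ 2 ≤ 3 * ‖S‖ * S.re := by
    nlinarith [mul_nonneg hr (mul_self_nonneg S.im), mul_nonneg h0 (sub_nonneg.2 h1),
      mul_le_mul_of_nonneg_left h5 h0, mul_nonneg h0 h0, mul_le_mul_of_nonneg_left h4 h0]
  rcases (norm_nonneg S).eq_or_lt with h7 | h7
  · rw [← h7, mul_zero]
    exact h0
  · refine le_of_mul_le_mul_left ?_ h7
    nlinarith

theorem gd_re {c : ℝ} {u k : ℂ} (h : Gd c u k) : c ^ 2 / 36 * ‖la k‖ ≤ (Sf k).re := by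
  have h0 := h.c0
  have h1 := h.c1
  have h2 : c / 4 * ‖1 / 64 + k‖ ≤ (u * (1 / 64 + k)).re := by
    have h3 : ‖1 / 64 + k‖ ≤ 1 / 64 + ‖k‖ := (norm_add_le _ _).trans_eq (by simp)
    rcases h.pos with h4 | h4
    · have e : (u * (1 / 64 + k)).re = u.re / 64 + (u * k).re := by
        rw [mul_add, add_re, mul_one_div, div_ofNat_re]
      rw [e]
      nlinarith [h.re, norm_nonneg k]
    · nlinarith [h.re_disc, h4.2]
  have h3 := re_sqrt_ge h.one (h0.le.trans h.re) h2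
  have h4 := h.norm_la
  change c / 4 / 3 * ‖Sf k‖ ≤ (Sf k).re at h3
  nlinarith

theorem la_mul_le (k z : ℂ) : ‖la (k * z)‖ ≤ (2 + ‖z‖) * ‖la k‖ := by
  have h1 : ‖la (k * z)‖ ≤ ‖Sf (k * z)‖ + 1 / 8 := (norm_add_le _ _).trans_eq (by simp)
  have h2 := norm_la_ge k
  have h3 := norm_le_la_sq k
  have h4 : ‖Sf (k * z)‖ ≤ (1 + ‖z‖) * ‖la k‖ := by
    refine le_of_sq_le_sq ?_ (by positivity)
    rw [← norm_pow, Sf_sq]
    have h5 : ‖1 / 64 + k * z‖ ≤ 1 / 64 + ‖k‖ * ‖z‖ := (norm_add_le _ _).trans_eq (by simp)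
    have h6 := norm_nonneg z
    have h7 : ‖k‖ * ‖z‖ ≤ ‖la k‖ ^ 2 * ‖z‖ := by gcongr
    nlinarith [mul_nonneg (sq_nonneg ‖la k‖) h6, mul_nonneg (sq_nonneg ‖la k‖) (sq_nonneg ‖z‖)]
  linarith

theorem la_ratio_le (k z : ℂ) : ‖la (k * z) / la k‖ ≤ 2 + ‖z‖ := by
  rw [norm_div, div_le_iff₀ (norm_pos_iff.2 (la_ne k))]
  exact la_mul_le k z

theorem la_ratio_sub {c : ℝ} {u k : ℂ} (h : Gd c u k) (z : ℂ) :
    ‖la (k * z) / la k - 1‖ ≤ 36 / c ^ 2 * ‖z - 1‖ := by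
  have h0 := h.c0
  have h1 := gd_re h
  have h2 : 0 < ‖la k‖ := norm_pos_iff.2 (la_ne k)
  have e : (la (k * z) - la k) * (Sf (k * z) + Sf k) = k * (z - 1) := by
    unfold la
    linear_combination Sf_sq (k * z) - Sf_sq k
  have h3 : c ^ 2 / 36 * ‖la k‖ ≤ ‖Sf (k * z) + Sf k‖ := by
    refine le_trans ?_ (re_le_norm _)
    rw [add_re]
    linarith [Sf_re_nonneg (k * z)]
  have h4 := congrArg norm e
  rw [norm_mul, norm_mul] at h4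
  have h5 : ‖la (k * z) - la k‖ * (c ^ 2 / 36 * ‖la k‖) ≤ ‖la k‖ ^ 2 * ‖z - 1‖ :=
    (mul_le_mul_of_nonneg_left h3 (norm_nonneg _)).trans (h4.trans_le (by
      gcongr; exact norm_le_la_sq k))
  rw [div_sub_one (la_ne k), norm_div, div_le_iff₀ h2, div_mul_eq_mul_div, div_mul_eq_mul_div,
    le_div_iff₀ (by positivity)]
  refine le_of_mul_le_mul_right ?_ h2
  nlinarith

/-- admissible directions at a point -/
structure Sec (c K : ℝ) (u O : ℂ) : Prop where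
  one : ‖u‖ = 1
  re : c ≤ u.re
  dir : c * ‖O‖ ≤ (conj u * O).re
  big : K ≤ ‖O‖

theorem nmu (m : ℤ) : ‖(muCyl m : ℂ) / 2 * ((br m : ℝ) : ℂ)⁻¹‖ ≤ 1 / 2 := by
  rw [div_mul_eq_mul_div, norm_div, Complex.norm_ofNat, norm_mul, norm_inv_br, Complex.norm_real,
    Real.norm_eq_abs]
  have := (mul_inv_le_iff₀ (br_pos m)).2 (muCyl_le m)
  linarith

namespace Sec

variable {c K : ℝ} {u O : ℂ}

theorem c1 (h : Sec c K u O) : c ≤ 1 := h.re.trans ((re_le_norm u).trans_eq h.one)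

theorem inv (h : Sec c K u O) (hK : 0 < K) : c * ‖O⁻¹‖ ≤ (u * O⁻¹).re := by
  have hn : 0 < ‖O‖ := hK.trans_le h.big
  rw [norm_inv, inv_def, ← mul_assoc, re_mul_ofReal, normSq_eq_norm_sq]
  have e : (u * conj O).re = (conj u * O).re := by simp
  rw [e, le_mul_inv_iff₀ (by positivity)]
  refine le_trans (le_of_eq ?_) h.dir
  field_simp

theorem gd (h : Sec c K u O) (hc : 0 < c) (hK : 128 / c ≤ K) (m : ℤ) :
    Gd c u ((muCyl m : ℂ) / 2 * O⁻¹) := by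
  have hK0 := K_pos hc hK
  have h3 := h.inv hK0
  refine ⟨hc, h.one, h.re, ?_⟩
  have e1 : (u * ((muCyl m : ℂ) / 2 * O⁻¹)).re = muCyl m / 2 * (u * O⁻¹).re := by
    rw [mul_left_comm, show (muCyl m : ℂ) / 2 = ((muCyl m / 2 : ℝ) : ℂ) by push_cast; rfl,
      re_ofReal_mul]
  have e2 : ‖(muCyl m : ℂ) / 2 * O⁻¹‖ = |muCyl m| / 2 * ‖O⁻¹‖ := by simp
  rw [e1, e2]
  rcases le_or_gt 0 (muCyl m) with a | a
  · left
    rw [abs_of_nonneg a]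
    nlinarith
  · right
    have h2 : |muCyl m| ≤ 1 := by
      rw [abs_of_neg a]
      unfold muCyl
      nlinarith [sq_nonneg (m : ℝ)]
    have h5 : ‖O⁻¹‖ ≤ c / 128 := by
      rw [norm_inv, ← inv_div]
      exact inv_anti₀ (by positivity) (hK.trans h.big)
    refine ⟨by rw [abs_of_neg a]; nlinarith, ?_⟩
    nlinarith [abs_nonneg (muCyl m), norm_nonneg O⁻¹]

theorem re_sqrt (h : Sec c K u O) (hc : 0 < c) : c / 3 * ‖Complex.sqrt O‖ ≤ (Complex.sqrt O).re :=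
  re_sqrt_ge (by rw [norm_conj, h.one]) (by rw [conj_re]; exact hc.le.trans h.re) h.dir

end Sec

/-- `Ω' η` at a point -/
def oe (a a' ζ : ℂ) : ℂ := Om a' ζ * (a / (2 * rh a ζ) - a' / (2 * rh a' ζ))

/-- the slopes `a`, `a'` are close at `ζ` -/
structure Nr (a a' ζ : ℂ) : Prop where
  ne : rh a' ζ ≠ 0
  le : tht a a' ζ ≤ 1 / 4

theorem tht_nonneg (a a' ζ : ℂ) : 0 ≤ tht a a' ζ := by unfold tht; positivity

theorem rh_sub (a a' ζ : ℂ) : rh a ζ - rh a' ζ = (a - a') * (ζ - 2) := by unfold rh; ring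

theorem laP_eq {a ζ : ℂ} (h : rh a ζ ≠ 0) (a' : ℂ) (m : ℤ) :
    laP a' ζ m = la ((muCyl m : ℂ) / 2 * (Om a ζ)⁻¹ * (rh a ζ / rh a' ζ)) := by
  unfold laP Om
  congr 1
  rw [mul_inv, mul_inv]
  field_simp

theorem r_bd {a ζ : ℂ} (h : rh a ζ ≠ 0) (a' : ℂ) (m : ℤ) :
    ‖laP a' ζ m / laP a ζ m‖ ≤ 2 + ‖rh a ζ / rh a' ζ‖ := by
  rw [laP_eq h a']
  exact la_ratio_le _ _

theorem oe_eq {a a' ζ : ℂ} (h : rh a ζ ≠ 0) (h' : rh a' ζ ≠ 0) :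
    oe a a' ζ = ζ * (a - a') / rh a ζ := by
  unfold oe Om
  field_simp
  unfold rh
  ring

namespace Nr

variable {a a' a'' ζ : ℂ}

theorem x_eq (h : Nr a a' ζ) : rh a ζ / rh a' ζ - 1 = (a - a') * (ζ - 2) / rh a' ζ := by
  rw [div_sub_one h.ne, rh_sub]

theorem norm_x (h : Nr a a' ζ) : ‖rh a ζ / rh a' ζ - 1‖ = tht a a' ζ := by
  rw [h.x_eq, norm_div, norm_mul, tht]

theorem s1 (h : Nr a a' ζ) : ‖sgm a a' ζ - 1‖ ≤ tht a a' ζ := (norm_sqrt_sub_one _).trans h.norm_x.le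

theorem s1' (h : Nr a a' ζ) : ‖sgm a a' ζ - 1‖ ≤ 1 / 4 := h.s1.trans h.le

theorem s_re (h : Nr a a' ζ) : 3 / 4 ≤ (sgm a a' ζ).re := by linarith [re_ge_of h.s1']

theorem s_ge (h : Nr a a' ζ) : 3 / 4 ≤ ‖sgm a a' ζ‖ := h.s_re.trans (re_le_norm _)

theorem s_le (h : Nr a a' ζ) : ‖sgm a a' ζ‖ ≤ 5 / 4 := by linarith [norm_le_of h.s1']

theorem s_ne (h : Nr a a' ζ) : sgm a a' ζ ≠ 0 := norm_pos_iff.1 (by linarith [h.s_ge])

theorem s_sq (a a' ζ : ℂ) : sgm a a' ζ ^ 2 = rh a ζ / rh a' ζ := sqrt_sq _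

theorem rh_eq (h : Nr a a' ζ) : rh a ζ = sgm a a' ζ ^ 2 * rh a' ζ := by
  rw [s_sq, div_mul_cancel₀ _ h.ne]

theorem Om_eq (h : Nr a a' ζ) : Om a ζ = sgm a a' ζ ^ 2 * Om a' ζ := by
  rw [Om, Om, h.rh_eq]; ring

theorem ne' (h : Nr a a' ζ) : rh a ζ ≠ 0 := by
  rw [h.rh_eq]; exact mul_ne_zero (pow_ne_zero _ h.s_ne) h.ne

theorem x_le (h : Nr a a' ζ) : ‖rh a ζ / rh a' ζ - 1‖ ≤ 1 / 4 := h.norm_x.trans_le h.le

theorem q_ge (h : Nr a a' ζ) : 3 / 4 ≤ ‖rh a ζ / rh a' ζ‖ := by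
  linarith [re_ge_of h.x_le, re_le_norm (rh a ζ / rh a' ζ)]

theorem q_le (h : Nr a a' ζ) : ‖rh a ζ / rh a' ζ‖ ≤ 5 / 4 := by linarith [norm_le_of h.x_le]

theorem k_le (h : Nr a a' ζ) : ‖rh a' ζ / rh a ζ‖ ≤ 4 / 3 := by
  rw [← inv_div, norm_inv]
  exact inv_le_of_inv_le₀ (by norm_num) (by linarith [h.q_ge])

theorem k1 (h : Nr a a' ζ) : ‖rh a' ζ / rh a ζ - 1‖ ≤ 4 / 3 * tht a a' ζ := by
  have e : rh a' ζ / rh a ζ - 1 = -(rh a' ζ / rh a ζ * (rh a ζ / rh a' ζ - 1)) := by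
    have := h.ne
    have := h.ne'
    field_simp
    ring
  rw [e, norm_neg, norm_mul, h.norm_x]
  exact mul_le_mul_of_nonneg_right h.k_le (tht_nonneg _ _ _)

theorem k_s (h : Nr a a' ζ) : rh a' ζ / rh a ζ * sgm a a' ζ ^ 2 = 1 := by
  rw [s_sq]
  have := h.ne
  have := h.ne'
  field_simp

theorem oe_le (h : Nr a a' ζ) (hζ : 4 ≤ ζ.re) : ‖oe a a' ζ‖ ≤ 3 * tht a a' ζ := by
  have h1 : ‖ζ‖ ≤ 2 * ‖ζ - 2‖ := by
    have h2 := norm_le_insert' ζ 2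
    have h3 := re_le_norm (ζ - 2)
    simp only [sub_re, re_ofNat, Complex.norm_ofNat] at h2 h3
    linarith
  have e : oe a a' ζ = rh a' ζ / rh a ζ * (ζ * (a - a') / rh a' ζ) := by
    rw [oe_eq h.ne' h.ne]
    have := h.ne
    field_simp
  rw [e, norm_mul, norm_div (ζ * _), norm_mul]
  calc _ ≤ 4 / 3 * (2 * ‖ζ - 2‖ * ‖a - a'‖ / ‖rh a' ζ‖) := by gcongr; exact h.k_le
    _ = 8 / 3 * tht a a' ζ := by unfold tht; ring
    _ ≤ _ := by linarith [tht_nonneg a a' ζ]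

theorem Om_le (h : Nr a a' ζ) : ‖Om a ζ‖ ≤ 5 / 4 * ‖Om a' ζ‖ := by
  rw [h.Om_eq, norm_mul, s_sq]
  exact mul_le_mul_of_nonneg_right h.q_le (norm_nonneg _)

theorem Om_sub (h : Nr a a' ζ) : ‖Om a ζ - Om a' ζ‖ = tht a a' ζ * ‖Om a' ζ‖ := by
  rw [← h.norm_x, ← norm_mul, h.Om_eq, s_sq]
  congr 1
  ring

theorem sec {c K : ℝ} {u : ℂ} (h : Nr a a' ζ) (hs : Sec c K u (Om a ζ)) (hc : 0 < c)
    (hθ : tht a a' ζ ≤ c / 4) : Sec (c / 2) (K / 2) u (Om a' ζ) := by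
  have h1 := h.Om_sub
  have h2 := h.Om_le
  have h3 := norm_nonneg (Om a' ζ)
  refine ⟨hs.one, by linarith [hs.re], ?_, by linarith [hs.big]⟩
  have h4 := hs.dir
  have h5 := re_le_norm (conj u * (Om a ζ - Om a' ζ))
  rw [norm_mul, norm_conj, hs.one, one_mul, mul_sub, sub_re, h1] at h5
  have h6 := norm_sub_norm_le (Om a' ζ) (Om a ζ)
  rw [norm_sub_rev, h1] at h6
  have h7 : tht a a' ζ * ‖Om a' ζ‖ ≤ c / 4 * ‖Om a' ζ‖ := by gcongr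
  have h8 : tht a a' ζ * ‖Om a' ζ‖ ≤ 1 / 4 * ‖Om a' ζ‖ := by gcongr; exact h.le
  nlinarith

theorem s_mul (h : Nr a a' ζ) (h' : Nr a' a'' ζ) : sgm a' a'' ζ * sgm a a' ζ = sgm a a'' ζ := by
  refine (sqrt_eq_of ?_ (re_mul_pos h'.s1' ?_)).symm
  · rw [mul_pow, s_sq, s_sq]
    have := h.ne
    have := h'.ne
    field_simp
  · linarith [h.s_le, h.s_re]

theorem s_inv (h : Nr a a' ζ) : sgm a' a ζ * sgm a a' ζ = 1 := by
  have h1 : sgm a' a ζ = (sgm a a' ζ)⁻¹ := by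
    refine sqrt_eq_of (by rw [inv_pow, s_sq, inv_div]) ?_
    rw [inv_re]
    exact div_pos (by linarith [h.s_re]) (normSq_pos.2 h.s_ne)
  rw [h1, inv_mul_cancel₀ h.s_ne]

theorem r_le (h : Nr a a' ζ) (m : ℤ) : ‖laP a' ζ m / laP a ζ m‖ ≤ 4 :=
  (r_bd h.ne' a' m).trans (by linarith [h.q_le])

theorem r1 {c K : ℝ} {u : ℂ} (h : Nr a a' ζ) (hs : Sec c K u (Om a ζ)) (hc : 0 < c)
    (hK : 128 / c ≤ K) (m : ℤ) : ‖laP a' ζ m / laP a ζ m - 1‖ ≤ 36 / c ^ 2 * tht a a' ζ := by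
  rw [laP_eq h.ne' a', ← h.norm_x]
  exact la_ratio_sub (hs.gd hc hK m) _

end Nr

theorem laP_br (a ζ : ℂ) (m : ℤ) : ‖laP a ζ m * ((br m : ℝ) : ℂ)⁻¹‖ ≤ 2 + ‖(Om a ζ)⁻¹‖ := by
  have h1 := Ctr.la_le ((muCyl m : ℂ) / 2 * (Om a ζ)⁻¹)
  have h2 := nmu m
  have h3 := symb_y m
  rw [norm_mul] at h1 h2 ⊢
  have h4 := norm_nonneg (Om a ζ)⁻¹
  calc _ ≤ (2 + ‖(muCyl m : ℂ) / 2‖ * ‖(Om a ζ)⁻¹‖) * ‖((br m : ℝ) : ℂ)⁻¹‖ := by gcongr; exact h1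
    _ ≤ _ := by nlinarith

end Vale.Agent.P218N.End.Cv
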