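import Vale.Agent.P218N.End.ApiCv0

/-! The change of the slope at a point: the symbols, the cocycle property. -/

open Filter Topology Metric Set Complex
open scoped ComplexConjugate

noncomputable section

namespace Vale.Agent.P218N.End.Cv

open Vale.Agent.P218N.J

variable {c K : ℝ} {a a' a'' ζ u : ℂ}

/-- the symbol acting on the fast data -/
def s1 (a a' ζ : ℂ) (m : ℤ) : ℂ := sgm a a' ζ * (rh a' ζ / rh a ζ) * (laP a' ζ m / laP a ζ m)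

/-- the symbol acting on the slow data -/
def s2 (a a' ζ : ℂ) (m : ℤ) : ℂ := sgm a a' ζ * ((1 - rh a' ζ / rh a ζ *
  (laP a' ζ m / laP a ζ m)) * (muCyl m : ℂ) / 2 + laP a' ζ m * oe a a' ζ) * ((br m : ℝ) : ℂ)⁻¹

/-- the constant term -/
def s3 (a a' ζ : ℂ) : ℂ := laP a' ζ 0 * sgm a a' ζ * oe a a' ζ - (sgm a a' ζ - 1) / 2

theorem cvP_eq (a a' ζ : ℂ) (d π : WD) : cvP a a' ζ d π =
    mult (s1 a a' ζ) π + mult (s2 a a' ζ) d + s3 a a' ζ • (1 : WD) := rfl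

theorem s2_eq (a a' ζ : ℂ) (m : ℤ) : s2 a a' ζ m = sgm a a' ζ * ((1 - rh a' ζ / rh a ζ *
    (laP a' ζ m / laP a ζ m)) * ((muCyl m : ℂ) / 2 * ((br m : ℝ) : ℂ)⁻¹) +
    laP a' ζ m * ((br m : ℝ) : ℂ)⁻¹ * oe a a' ζ) := by unfold s2; ring

theorem s2_le {A B : ℝ} (m : ℤ) (h1 : ‖1 - rh a' ζ / rh a ζ * (laP a' ζ m / laP a ζ m)‖ ≤ A)
    (h2 : ‖(Om a' ζ)⁻¹‖ ≤ B) :
    ‖s2 a a' ζ m‖ ≤ ‖sgm a a' ζ‖ * (A * (1 / 2) + (2 + B) * ‖oe a a' ζ‖) := by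
  rw [s2_eq, norm_mul]
  refine mul_le_mul_of_nonneg_left ((norm_add_le _ _).trans (add_le_add ?_ ?_)) (norm_nonneg _)
  · rw [norm_mul]
    exact mul_le_mul h1 (nmu m) (norm_nonneg _) ((norm_nonneg _).trans h1)
  · rw [norm_mul]
    exact mul_le_mul_of_nonneg_right ((laP_br _ _ _).trans (by linarith)) (norm_nonneg _)

theorem s1_bd (h : rh a ζ ≠ 0) (a' : ℂ) : ∃ C, ∀ m, ‖s1 a a' ζ m‖ ≤ C :=
  ⟨‖sgm a a' ζ * (rh a' ζ / rh a ζ)‖ * (2 + ‖rh a ζ / rh a' ζ‖), fun m => by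
    rw [s1, norm_mul]
    exact mul_le_mul_of_nonneg_left (r_bd h a' m) (norm_nonneg _)⟩

theorem s2_bd (h : rh a ζ ≠ 0) (a' : ℂ) : ∃ C, ∀ m, ‖s2 a a' ζ m‖ ≤ C :=
  ⟨_, fun m => s2_le (A := 1 + ‖rh a' ζ / rh a ζ‖ * (2 + ‖rh a ζ / rh a' ζ‖)) m
    ((norm_sub_le _ _).trans (by
      rw [norm_one, norm_mul]
      gcongr
      exact r_bd h a' m)) le_rfl⟩

theorem c_cvP (h : rh a ζ ≠ 0) (a' : ℂ) (d π : WD) (m : ℤ) : (cvP a a' ζ d π).c m =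
    s1 a a' ζ m * π.c m + s2 a a' ζ m * d.c m + s3 a a' ζ * (1 : WD).c m := by
  obtain ⟨_, h1⟩ := s1_bd h a'
  obtain ⟨_, h2⟩ := s2_bd h a'
  rw [cvP_eq, W.c_add, W.c_add, c_mult h1, c_mult h2]
  rfl

theorem c_cvY (a a' ζ : ℂ) (d : WD) (m : ℤ) :
    (cvY a a' ζ d).c m = sgm a a' ζ * d.c m + (sgm a a' ζ - 1) * (1 : WD).c m := rfl

theorem c_opD {μ : ℤ → ℝ} {C : ℝ} (h : ∀ m, ‖(μ m : ℂ) / 2 * ((br m : ℝ) : ℂ)⁻¹‖ ≤ C) (O : ℂ)
    (d π : WD) (m : ℤ) : (opD μ O d π).c m = (la ((μ m : ℂ) / 2 * O⁻¹))⁻¹ *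
      (π.c m - (μ m : ℂ) / 2 * ((br m : ℝ) : ℂ)⁻¹ * d.c m) := by
  rw [opD, c_mult (fun _ => Ctr.ila_le _), W.c_sub, c_mult h]
  rfl

theorem opD_inj {O : ℂ} {d π π' : WD} (h : opD muCyl O d π = opD muCyl O d π') : π = π' := by
  ext m
  have h1 := congrArg (fun x : WD => x.c m) h
  simp only [c_opD nmu] at h1
  have h2 := mul_left_cancel₀ (inv_ne_zero (la_ne _)) h1
  linear_combination h2

/-- the function from the slow data -/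
def yD : WD →L[ℂ] WD := mult fun m => ((br m : ℝ) : ℂ)⁻¹

theorem c_yD (d : WD) (m : ℤ) : (yD d).c m = ((br m : ℝ) : ℂ)⁻¹ * d.c m := c_mult symb_y d m

theorem yD_one : yD 1 = 1 := by
  ext m
  rw [c_yD, W.c_one]
  split_ifs with h
  · simp [h, br]
  · simp

theorem yD_cvY (a a' ζ : ℂ) (d : WD) : 1 + yD (cvY a a' ζ d) = sgm a a' ζ • (1 + yD d) := by
  rw [cvY, map_add, map_smul, map_smul, yD_one]
  module

theorem opD_cv (h : rh a ζ ≠ 0) (a' : ℂ) (d π : WD) :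
    opD muCyl (Om a' ζ) (cvY a a' ζ d) (cvP a a' ζ d π) = sgm a a' ζ •
      ((rh a' ζ / rh a ζ) • opD muCyl (Om a ζ) d π + oe a a' ζ • (1 + yD d)) := by
  ext m
  simp only [c_opD nmu, c_cvP h, c_cvY, W.c_smul, W.c_add, c_yD, smul_eq_mul, s1, s2, s3]
  change (laP a' ζ m)⁻¹ * _ = _ * (_ * ((laP a ζ m)⁻¹ * _) + _)
  have h1 : laP a' ζ m ≠ 0 := la_ne _
  have h2 : laP a ζ m ≠ 0 := la_ne _
  rw [W.c_one]
  split_ifs with h0
  · subst h0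
    have e1 : ((muCyl 0 : ℝ) : ℂ) = -1 := by simp [muCyl]
    have e2 : ((br 0 : ℝ) : ℂ) = 1 := by simp [br]
    rw [e1, e2]
    field_simp
    ring
  · field_simp
    ring

theorem cvY_cvY (hs : sgm a' a'' ζ * sgm a a' ζ = sgm a a'' ζ) (d : WD) :
    cvY a' a'' ζ (cvY a a' ζ d) = cvY a a'' ζ d := by
  unfold cvY
  rw [← hs]
  module

theorem oe_add (h : rh a ζ ≠ 0) (h' : rh a' ζ ≠ 0) (h'' : rh a'' ζ ≠ 0) :
    oe a a'' ζ = rh a'' ζ / rh a' ζ * oe a a' ζ + oe a' a'' ζ := by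
  unfold oe Om
  field_simp
  ring

theorem cvP_cvP (h : rh a ζ ≠ 0) (h' : rh a' ζ ≠ 0) (h'' : rh a'' ζ ≠ 0)
    (hs : sgm a' a'' ζ * sgm a a' ζ = sgm a a'' ζ) (d π : WD) :
    cvP a' a'' ζ (cvY a a' ζ d) (cvP a a' ζ d π) = cvP a a'' ζ d π := by
  refine opD_inj (O := Om a'' ζ) (d := cvY a a'' ζ d) ?_
  rw [opD_cv h, ← cvY_cvY hs, opD_cv h', opD_cv h, yD_cvY, ← hs, oe_add h h' h'',
    show rh a'' ζ / rh a ζ = rh a'' ζ / rh a' ζ * (rh a' ζ / rh a ζ) by field_simp]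
  module

theorem sgm_self (h : rh a ζ ≠ 0) : sgm a a ζ = 1 := by rw [sgm, div_self h, Complex.sqrt_one]

theorem cvY_self (h : rh a ζ ≠ 0) (d : WD) : cvY a a ζ d = d := by simp [cvY, sgm_self h]

theorem cvP_self (h : rh a ζ ≠ 0) (d π : WD) : cvP a a ζ d π = π := by
  refine opD_inj (O := Om a ζ) (d := d) ?_
  have := opD_cv h a d π
  rw [cvY_self h, sgm_self h, div_self h] at this
  rw [this]
  simp [oe]

theorem Nr.cvY_inv (h : Nr a a' ζ) (d : WD) : cvY a' a ζ (cvY a a' ζ d) = d := by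
  rw [cvY_cvY (h.s_inv.trans (sgm_self h.ne').symm), cvY_self h.ne']

theorem Nr.cvP_inv (h : Nr a a' ζ) (d π : WD) :
    cvP a' a ζ (cvY a a' ζ d) (cvP a a' ζ d π) = π := by
  rw [cvP_cvP h.ne' h.ne h.ne' (h.s_inv.trans (sgm_self h.ne').symm), cvP_self h.ne']

theorem cvY_sub (a a' ζ : ℂ) (d : WD) : cvY a a' ζ d - d = (sgm a a' ζ - 1) • (1 + d) := by
  unfold cvY
  module

theorem Nr.cvY_le (h : Nr a a' ζ) (d : WD) : ‖cvY a a' ζ d - d‖ ≤ tht a a' ζ * (1 + ‖d‖) := by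
  rw [cvY_sub, norm_smul]
  exact mul_le_mul h.s1 ((norm_add_le _ _).trans_eq (by rw [norm_one])) (norm_nonneg _)
    (tht_nonneg _ _ _)

theorem Nr.cvY_le2 (h : Nr a a' ζ) (d : WD) :
    ‖cvY a a' ζ d - d - ((a - a') * (ζ - 2) / (2 * rh a' ζ)) • (1 : WD)‖ ≤
      tht a a' ζ * (tht a a' ζ + ‖d‖) := by
  have e : (a - a') * (ζ - 2) / (2 * rh a' ζ) = (sgm a a' ζ ^ 2 - 1) / 2 := by
    rw [Nr.s_sq, h.x_eq, div_div, mul_comm (rh a' ζ)]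
  have e2 : cvY a a' ζ d - d - ((sgm a a' ζ ^ 2 - 1) / 2) • (1 : WD) =
      (sgm a a' ζ - 1) • d - ((sgm a a' ζ - 1) ^ 2 / 2) • (1 : WD) := by
    unfold cvY
    match_scalars <;> ring
  rw [e, e2]
  refine (norm_sub_le _ _).trans ?_
  rw [norm_smul, norm_smul, norm_one, norm_div, norm_pow, Complex.norm_ofNat]
  have h1 := h.s1
  have h2 := norm_nonneg (sgm a a' ζ - 1)
  nlinarith [mul_le_mul_of_nonneg_right h1 (norm_nonneg d), mul_self_le_mul_self h2 h1]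

/-- the hypotheses at a point -/
structure Pt (c K : ℝ) (u a a' ζ : ℂ) : Prop where
  c0 : 0 < c
  hK : 128 / c ≤ K
  ze : K ≤ ζ.re
  sec : Sec c K u (Om a ζ)
  nr : Nr a a' ζ

namespace Pt

theorem K128 (h : Pt c K u a a' ζ) : 128 ≤ K :=
  le_trans (by rw [le_div_iff₀ h.c0]; linarith [h.sec.c1]) h.hK

theorem A36 (h : Pt c K u a a' ζ) : 36 ≤ 36 / c ^ 2 := by
  have h0 := h.c0
  rw [le_div_iff₀ (by positivity)]
  nlinarith [h.sec.c1]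

theorem io_le (h : Pt c K u a a' ζ) : ‖(Om a' ζ)⁻¹‖ ≤ 5 / 4 * (1 / K) := by
  have h1 := h.K128
  rw [norm_inv, show 5 / 4 * (1 / K) = (4 / 5 * K)⁻¹ by field_simp]
  exact inv_anti₀ (by positivity) (by linarith [h.nr.Om_le, h.sec.big])

theorem iK (h : Pt c K u a a' ζ) : 1 / K ≤ 1 / 128 :=
  one_div_le_one_div_of_le (by norm_num) h.K128

theorem kr (h : Pt c K u a a' ζ) (m : ℤ) : ‖1 - rh a' ζ / rh a ζ * (laP a' ζ m / laP a ζ m)‖ ≤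
    7 / 5 * (36 / c ^ 2 * tht a a' ζ) := by
  have h1 := h.nr.r1 h.sec h.c0 h.hK m
  have h2 := h.nr.k1
  have h3 := h.nr.k_le
  have h4 := mul_le_mul_of_nonneg_right h.A36 (tht_nonneg a a' ζ)
  generalize rh a' ζ / rh a ζ = k at *
  generalize laP a' ζ m / laP a ζ m = r at *
  rw [show 1 - k * r = -(k * (r - 1) + (k - 1)) by ring, norm_neg]
  refine (norm_add_le _ _).trans ?_
  rw [norm_mul]
  nlinarith [mul_le_mul h3 h1 (norm_nonneg _) (by norm_num), tht_nonneg a a' ζ]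

theorem s1_le (h : Pt c K u a a' ζ) (m : ℤ) : ‖s1 a a' ζ m - 1‖ ≤ 72 / c ^ 2 * tht a a' ζ := by
  have h1 := h.kr m
  have h4 := mul_le_mul_of_nonneg_right h.A36 (tht_nonneg a a' ζ)
  have e : s1 a a' ζ m - 1 = sgm a a' ζ - 1 - sgm a a' ζ *
    (1 - rh a' ζ / rh a ζ * (laP a' ζ m / laP a ζ m)) := by unfold s1; ring
  rw [e, show 72 / c ^ 2 * tht a a' ζ = 2 * (36 / c ^ 2 * tht a a' ζ) by ring]
  refine (norm_sub_le _ _).trans ?_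
  rw [norm_mul]
  nlinarith [mul_le_mul h.nr.s_le h1 (norm_nonneg _) (by norm_num), tht_nonneg a a' ζ, h.nr.s1]

theorem oe_le (h : Pt c K u a a' ζ) : ‖oe a a' ζ‖ ≤ 3 * tht a a' ζ :=
  h.nr.oe_le (by linarith [h.K128, h.ze])

theorem s2_le (h : Pt c K u a a' ζ) (m : ℤ) : ‖s2 a a' ζ m‖ ≤ 72 / c ^ 2 * tht a a' ζ := by
  have h4 := mul_le_mul_of_nonneg_right h.A36 (tht_nonneg a a' ζ)
  have h5 := tht_nonneg a a' ζ
  refine (Cv.s2_le m (h.kr m) (B := 1) (h.io_le.trans (by linarith [h.iK]))).trans ?_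
  rw [show 72 / c ^ 2 * tht a a' ζ = 2 * (36 / c ^ 2 * tht a a' ζ) by ring]
  refine (mul_le_mul_of_nonneg_right h.nr.s_le (by positivity)).trans ?_
  linarith [h.oe_le]

theorem s3_le (h : Pt c K u a a' ζ) : ‖s3 a a' ζ‖ ≤ 21 * (tht a a' ζ * (1 / K + tht a a' ζ)) := by
  have h0 := tht_nonneg a a' ζ
  have hn := h.nr.ne
  have hs := h.nr.s_ne
  have hK := h.K128
  have h1 : K / 2 ≤ ‖ζ - 2‖ := by
    have := re_le_norm (ζ - 2)
    simp only [sub_re, re_ofNat] at this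
    linarith [h.ze]
  have h2 : ‖(a - a') / rh a' ζ‖ ≤ 2 * (tht a a' ζ * (1 / K)) := by
    rw [mul_one_div, ← mul_div_assoc, le_div_iff₀ (by linarith), norm_div, tht]
    calc _ = 2 * (‖a - a'‖ * (K / 2) / ‖rh a' ζ‖) := by ring
      _ ≤ _ := by gcongr
  have h3 : ‖nu ((muCyl 0 : ℂ) / 2 * (Om a' ζ)⁻¹)‖ ≤ 5 * (1 / K) := by
    refine (norm_nu_le' _).trans ?_
    rw [norm_mul, show ‖(muCyl 0 : ℂ) / 2‖ = 1 / 2 by simp [muCyl]]
    linarith [h.io_le]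
  have h4 : ‖(sgm a a' ζ)⁻¹‖ ≤ 4 / 3 := by
    rw [norm_inv]
    exact inv_le_of_inv_le₀ (by norm_num) (by linarith [h.nr.s_ge])
  have e : s3 a a' ζ = (sgm a a' ζ)⁻¹ * (((a - a') / rh a' ζ) / 2 - (sgm a a' ζ - 1) ^ 2 / 4) +
      nu ((muCyl 0 : ℂ) / 2 * (Om a' ζ)⁻¹) * (sgm a a' ζ * oe a a' ζ) := by
    have e1 : sgm a a' ζ ^ 2 * oe a a' ζ = sgm a a' ζ ^ 2 - 1 + 2 * ((a - a') / rh a' ζ) := by
      rw [oe_eq h.nr.ne' hn, Nr.s_sq, h.nr.x_eq]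
      have := h.nr.ne'
      field_simp
      ring
    rw [s3, laP, la_eq]
    field_simp
    field_simp at e1
    linear_combination 2 * e1
  rw [e]
  refine (norm_add_le _ _).trans ?_
  rw [norm_mul, norm_mul, norm_mul]
  have h5 : ‖((a - a') / rh a' ζ) / 2 - (sgm a a' ζ - 1) ^ 2 / 4‖ ≤
      tht a a' ζ * (1 / K) + tht a a' ζ ^ 2 / 4 := by
    refine (norm_sub_le _ _).trans ?_
    rw [norm_div _ 2, norm_div _ 4, norm_pow, Complex.norm_ofNat, Complex.norm_ofNat]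
    have := pow_le_pow_left₀ (norm_nonneg _) h.nr.s1 2
    linarith
  have h6 := mul_le_mul h4 h5 (norm_nonneg _) (by norm_num)
  have h7 := mul_le_mul h3 (mul_le_mul h.nr.s_le h.oe_le (norm_nonneg _) (by norm_num))
    (by positivity) (by positivity)
  have h8 : 0 ≤ tht a a' ζ * (1 / K) := by positivity
  nlinarith

theorem C_le (h : Pt c K u a a' ζ) : 72 / c ^ 2 * tht a a' ζ ≤ 18 / c ^ 2 := by
  have := h.c0
  calc _ ≤ 72 / c ^ 2 * (1 / 4) := by gcongr; exact h.nr.le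
    _ = _ := by ring

theorem s1_le' (h : Pt c K u a a' ζ) (m : ℤ) : ‖s1 a a' ζ m‖ ≤ 36 / c ^ 2 := by
  have h1 := norm_le_of (h.s1_le m)
  have h2 := h.A36
  have e : 36 / c ^ 2 = 2 * (18 / c ^ 2) := by ring
  linarith [h.C_le]

theorem s2_le' (h : Pt c K u a a' ζ) (m : ℤ) : ‖s2 a a' ζ m‖ ≤ 36 / c ^ 2 := by
  have h2 := h.A36
  have e : 36 / c ^ 2 = 2 * (18 / c ^ 2) := by ring
  linarith [h.C_le, h.s2_le m]

theorem lin_le (h : Pt c K u a a' ζ) (d π : WD) :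
    ‖mult (s1 a a' ζ) π + mult (s2 a a' ζ) d - π‖ ≤ 72 / c ^ 2 * tht a a' ζ * (‖π‖ + ‖d‖) := by
  have e : mult (s1 a a' ζ) π + mult (s2 a a' ζ) d - π =
      mult (fun m => s1 a a' ζ m - 1) π + mult (s2 a a' ζ) d := by
    ext m
    simp only [W.c_add, W.c_sub, c_mult h.s1_le', c_mult h.s1_le, smul_eq_mul]
    ring
  rw [e, mul_add]
  exact (norm_add_le _ _).trans
    (add_le_add (norm_mult_apply_le h.s1_le _) (norm_mult_apply_le h.s2_le _))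

theorem cvP_le (h : Pt c K u a a' ζ) (d π : WD) : ‖cvP a a' ζ d π - π‖ ≤
    72 / c ^ 2 * tht a a' ζ * (‖π‖ + ‖d‖ + 1 / K + tht a a' ζ) := by
  rw [cvP_eq, add_sub_right_comm]
  refine (norm_add_le _ _).trans ?_
  rw [norm_smul, norm_one, mul_one]
  have h0 := tht_nonneg a a' ζ
  have hK := h.K128
  have h1 : 0 ≤ tht a a' ζ * (1 / K + tht a a' ζ) := by positivity
  have h2 := mul_le_mul_of_nonneg_right h.A36 h1
  have e : 72 / c ^ 2 * tht a a' ζ * (‖π‖ + ‖d‖ + 1 / K + tht a a' ζ) =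
    72 / c ^ 2 * tht a a' ζ * (‖π‖ + ‖d‖) +
      2 * (36 / c ^ 2 * (tht a a' ζ * (1 / K + tht a a' ζ))) := by ring
  linarith [h.lin_le d π, h.s3_le]

theorem cvP_sub (h : Pt c K u a a' ζ) (d π d' π' : WD) :
    ‖cvP a a' ζ d π - cvP a a' ζ d' π' - (π - π')‖ ≤
      72 / c ^ 2 * tht a a' ζ * (‖π - π'‖ + ‖d - d'‖) := by
  refine le_trans (le_of_eq ?_) (h.lin_le (d - d') (π - π'))
  rw [cvP_eq, cvP_eq, map_sub, map_sub]
  congr 1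
  abel

theorem cvP_ns (h : Pt c K u a a' ζ) (d π : WD) :
    ‖nsD (cvP a a' ζ d π)‖ ≤ 36 / c ^ 2 * (‖nsD π‖ + ‖nsD d‖) := by
  have hn : ∀ m : ℤ, ‖(if m = 0 then 0 else 1 : ℂ)‖ ≤ 1 := fun m => by split_ifs <;> simp
  have e : nsD (cvP a a' ζ d π) = mult (s1 a a' ζ) (nsD π) + mult (s2 a a' ζ) (nsD d) := by
    ext m
    simp only [nsD, W.c_add, c_mult hn, c_mult h.s1_le', c_mult h.s2_le', c_cvP h.nr.ne',
      W.c_one, smul_eq_mul]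
    split_ifs <;> ring
  rw [e, mul_add]
  exact (norm_add_le _ _).trans
    (add_le_add (norm_mult_apply_le h.s1_le' _) (norm_mult_apply_le h.s2_le' _))

end Pt

end Vale.Agent.P218N.End.Cv
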