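import Vale.Agent.P218N.End.ApiCv1

/-! The change of the slope at a point: invariance of the Lagrangian and of the flux. -/

open Filter Topology Metric Set Complex
open scoped ComplexConjugate

noncomputable section

namespace Vale.Agent.P218N.End.Cv

open Vale.Agent.P218N.J

variable {c K T : ℝ} {a a' ζ u y yt op y' yt' op' : ℂ} {γ : Path}

theorem hasDerivAt_csqrt {z : ℂ} (h : z ∈ slitPlane) :
    HasDerivAt Complex.sqrt (1 / (2 * Complex.sqrt z)) z := by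
  refine HasDerivAt.congr_deriv (Complex.hasDerivAt_sqrt h) ?_
  rw [show (-1 / 2 : ℂ) = -2⁻¹ by norm_num, Complex.cpow_neg]
  unfold Complex.sqrt
  generalize z ^ (2⁻¹ : ℂ) = w
  rw [one_div, mul_inv, mul_comm, div_eq_mul_inv]

theorem Nr.slit (h : Nr a a' ζ) : rh a ζ / rh a' ζ ∈ slitPlane :=
  Or.inl (by linarith [re_ge_of h.x_le])

theorem Nr.sqrt_Om (h : Nr a a' ζ) (hs : Sec c K u (Om a' ζ)) (hc : 0 < c) (hK : 0 < K)
    (hθ : tht a a' ζ ≤ c / 4) : Complex.sqrt (Om a ζ) = sgm a a' ζ * Complex.sqrt (Om a' ζ) := by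
  refine sqrt_eq_of (by rw [mul_pow, sqrt_sq, h.Om_eq]) (re_mul_pos (h.s1.trans hθ) ?_)
  have h1 : 0 < ‖Complex.sqrt (Om a' ζ)‖ := by
    refine norm_pos_iff.2 fun h0 => ?_
    have h2 := hs.big
    rw [← sqrt_sq (Om a' ζ), h0] at h2
    simp at h2
    linarith
  nlinarith [hs.re_sqrt hc]

theorem sqrt_mul_sq {s D : ℂ} (hs : ‖s - 1‖ ≤ 1 / 4) (hD : ‖D - 1‖ ≤ 1 / 2) :
    Complex.sqrt (s ^ 2 * D) = s * Complex.sqrt D := by
  have h1 := (norm_sqrt_sub_one D).trans hD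
  exact sqrt_eq_of (by rw [mul_pow, sqrt_sq])
    (re_mul_pos hs (by linarith [re_ge_of h1, norm_le_of h1]))

theorem sqrt_ne {D : ℂ} (hD : ‖D - 1‖ ≤ 1 / 2) : Complex.sqrt D ≠ 0 :=
  norm_pos_iff.1 (by linarith [re_ge_of ((norm_sqrt_sub_one D).trans hD), re_le_norm (Complex.sqrt D)])

theorem ze_le (hζ : 4 ≤ ζ.re) : ‖ζ‖ ≤ 2 * ‖ζ - 2‖ := by
  have h2 := norm_le_insert' ζ 2
  have h3 := re_le_norm (ζ - 2)
  simp only [sub_re, re_ofNat, Complex.norm_ofNat] at h2 h3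
  linarith

theorem hh_le (hK : 4 ≤ K) (hζ : K ≤ ζ.re) (hO : K ≤ ‖Om a ζ‖) :
    ‖a / (2 * rh a ζ)‖ ≤ 3 * (1 / K) := by
  have h0 : Om a ζ ≠ 0 := norm_pos_iff.1 (by linarith)
  have h1 : rh a ζ ≠ 0 := right_ne_zero_of_mul h0
  have h2 : ζ ≠ 0 := left_ne_zero_of_mul h0
  have e : a / (2 * rh a ζ) * (ζ - 2) = 1 / 2 - ζ * (Om a ζ)⁻¹ := by
    unfold Om
    field_simp
    unfold rh
    ring
  have h3 : ‖(Om a ζ)⁻¹‖ ≤ 1 / K := by
    rw [norm_inv, one_div]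
    exact inv_anti₀ (by linarith) hO
  have h4 : ‖a / (2 * rh a ζ)‖ * ‖ζ - 2‖ ≤ 1 / 2 + ‖ζ‖ * (1 / K) := by
    rw [← norm_mul, e]
    refine (norm_sub_le _ _).trans ?_
    rw [norm_mul]
    gcongr
    simp
  have h5 := ze_le (hK.trans hζ)
  have h6 : K ≤ ‖ζ‖ := hζ.trans (re_le_norm _)
  have h7 : 1 ≤ ‖ζ‖ * (1 / K) := by rw [mul_one_div, le_div_iff₀ (by linarith)]; linarith
  refine le_of_mul_le_mul_right ?_ (norm_pos_iff.2 h2)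
  nlinarith [norm_nonneg (a / (2 * rh a ζ))]

theorem Ohh_le (hK : 4 ≤ K) (hζ : K ≤ ζ.re) (hO : K ≤ ‖Om a ζ‖) (ha : ‖a‖ ≤ 1 / K) :
    ‖a / 2 * ζ * (a / (2 * rh a ζ))‖ ≤ 7 * (1 / K) := by
  have h0 : Om a ζ ≠ 0 := norm_pos_iff.1 (by linarith)
  have h1 : rh a ζ ≠ 0 := right_ne_zero_of_mul h0
  have e : a / 2 * ζ * (a / (2 * rh a ζ)) = a / 4 + (a - 1) * (a / (2 * rh a ζ)) := by
    field_simp
    unfold rh
    ring
  have h2 := hh_le hK hζ hO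
  have h3 : 1 / K ≤ 1 / 4 := one_div_le_one_div_of_le (by norm_num) hK
  have h4 : ‖a - 1‖ ≤ 2 := (norm_sub_le _ _).trans (by rw [norm_one]; linarith)
  rw [e]
  refine (norm_add_le _ _).trans ?_
  rw [norm_mul, norm_div a 4, Complex.norm_ofNat]
  nlinarith [mul_le_mul h4 h2 (norm_nonneg _) zero_le_two, norm_nonneg a]

theorem Dc_near (hK : 700 ≤ K) (hζ : K ≤ ζ.re) (hO : K ≤ ‖Om a ζ‖) (ha : ‖a‖ ≤ 1 / K)
    (hy : ‖y‖ ≤ 1 / 100) (hyt : ‖yt‖ ≤ 1 / 100) (hop : ‖op‖ ≤ 1 / 100) :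
    ‖Dc a ζ y yt op - 1‖ ≤ 1 / 2 := by
  have h3 : 1 / K ≤ 1 / 700 := one_div_le_one_div_of_le (by norm_num) hK
  have h1 : ‖a / (2 * rh a ζ)‖ ≤ 1 / 100 := (hh_le (by linarith) hζ hO).trans (by linarith)
  have h2 : ‖a / 2 * ζ * (a / (2 * rh a ζ))‖ ≤ 1 / 100 :=
    (Ohh_le (by linarith) hζ hO ha).trans (by linarith)
  have h4 : ‖(ζ * rh a ζ)⁻¹‖ ≤ 1 := by
    rw [norm_inv]
    exact inv_le_one_of_one_le₀ (le_trans (by linarith) hO)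
  have hY : ‖1 + y‖ ≤ 101 / 100 := (norm_add_le _ _).trans (by rw [norm_one]; linarith)
  have hB : ‖cylB (ζ * rh a ζ)⁻¹ (a / (2 * rh a ζ)) (a / 2 * ζ) y op‖ ≤ 1 / 50 := by
    unfold cylB
    generalize a / (2 * rh a ζ) = h at *
    refine (norm_add₃_le).trans ?_
    rw [norm_mul _ (op ^ 2), norm_mul _ ((1 + y) ^ 2), norm_pow, norm_pow, norm_mul _ (1 + y),
      norm_mul _ op, norm_mul 2, Complex.norm_ofNat]
    calc _ ≤ (1 : ℝ) * (1 / 100) ^ 2 + 2 * (1 / 100) * (1 / 100) * (101 / 100) +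
          1 / 100 * (101 / 100) ^ 2 := by gcongr
      _ ≤ _ := by norm_num
  unfold Dc cylD
  generalize cylB (ζ * rh a ζ)⁻¹ (a / (2 * rh a ζ)) (a / 2 * ζ) y op = B at hB ⊢
  rw [show (1 + y) ^ 2 * (1 + 4 * B) + yt ^ 2 - 1 = y * (1 + (1 + y)) + 4 * (1 + y) ^ 2 * B +
    yt ^ 2 by ring]
  refine (norm_add₃_le).trans ?_
  have hY' : ‖1 + (1 + y)‖ ≤ 3 := (norm_add_le _ _).trans (by rw [norm_one]; linarith)
  rw [norm_mul, norm_mul, norm_mul, norm_pow, norm_pow, Complex.norm_ofNat]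
  calc _ ≤ (1 : ℝ) / 100 * 3 + 4 * (101 / 100) ^ 2 * (1 / 50) + (1 / 100) ^ 2 := by gcongr
    _ ≤ _ := by norm_num

/-- the values of the jets for the two slopes -/
structure Rl (a a' ζ y yt op y' yt' op' : ℂ) : Prop where
  hy : 1 + y' = sgm a a' ζ * (1 + y)
  ht : yt' = sgm a a' ζ * yt
  ho : op' = sgm a a' ζ * (rh a' ζ / rh a ζ * op + oe a a' ζ * (1 + y))

theorem Rl.b (r : Rl a a' ζ y yt op y' yt' op') (h : Nr a a' ζ) :
    sgm a a' ζ * (op' + a' / 2 * ζ * (1 + y')) = op + a / 2 * ζ * (1 + y) := by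
  have h1 := h.ne'
  have e : oe a a' ζ + a' / 2 * ζ = rh a' ζ / rh a ζ * (a / 2 * ζ) := by
    rw [oe_eq h1 h.ne]
    field_simp
    unfold rh
    ring
  rw [r.ho, r.hy]
  linear_combination (op + a / 2 * ζ * (1 + y)) * h.k_s + sgm a a' ζ ^ 2 * (1 + y) * e

theorem cylB_eq (hζ : ζ ≠ 0) (h : rh a ζ ≠ 0) :
    cylB (ζ * rh a ζ)⁻¹ (a / (2 * rh a ζ)) (a / 2 * ζ) y op =
      (op + a / 2 * ζ * (1 + y)) ^ 2 / (ζ * rh a ζ) := by
  unfold cylB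
  field_simp
  ring

theorem Rl.Dc (r : Rl a a' ζ y yt op y' yt' op') (h : Nr a a' ζ) (hζ : ζ ≠ 0) :
    Dc a' ζ y' yt' op' = sgm a a' ζ ^ 2 * Dc a ζ y yt op := by
  unfold End.Dc cylD
  rw [cylB_eq hζ h.ne, cylB_eq hζ h.ne', ← r.b h, h.rh_eq, mul_pow (sgm a a' ζ), r.ht]
  nth_rewrite 1 [r.hy]
  have := h.s_ne
  have := h.ne
  field_simp

theorem Rl.r2 (r : Rl a a' ζ y yt op y' yt' op') (h : Nr a a' ζ) :
    rh a' ζ * (1 + y') ^ 2 = rh a ζ * (1 + y) ^ 2 := by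
  rw [r.hy, h.rh_eq]
  ring

theorem Rl.lag (r : Rl a a' ζ y yt op y' yt' op') (h : Nr a a' ζ) (hζ : ζ ≠ 0)
    (hO : Complex.sqrt (Om a ζ) = sgm a a' ζ * Complex.sqrt (Om a' ζ))
    (hD : ‖End.Dc a ζ y yt op - 1‖ ≤ 1 / 2) : lagCyl a' ζ y' yt' op' = lagCyl a ζ y yt op := by
  unfold lagCyl
  unfold Om at hO
  rw [r.Dc h hζ, sqrt_mul_sq h.s1' hD, r.r2 h, hO]
  ring

theorem Rl.flux (r : Rl a a' ζ y yt op y' yt' op') (h : Nr a a' ζ) (hζ : ζ ≠ 0)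
    (hO : Complex.sqrt (Om a ζ) = sgm a a' ζ * Complex.sqrt (Om a' ζ))
    (hD : ‖End.Dc a ζ y yt op - 1‖ ≤ 1 / 2) (da dy : ℂ) :
    fluxCyl a ζ y yt op da dy = fluxCyl a' ζ y' yt' op' 0
      (sgm a a' ζ * (dy + (1 + y) * (ζ - 2) * da / (2 * rh a ζ))) := by
  unfold fluxCyl
  unfold Om at hO
  rw [r.Dc h hζ, sqrt_mul_sq h.s1' hD, r.r2 h, hO, ← r.b h, mul_zero, zero_div, add_zero]
  generalize op' + a' / 2 * ζ * (1 + y') = b
  generalize dy + (1 + y) * (ζ - 2) * da / (2 * rh a ζ) = e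
  rw [r.hy]
  have := h.s_ne
  have := sqrt_ne hD
  field_simp

/-! ### Admissible paths -/

theorem cv_of (hK : 0 < K) (h : ∀ t, K ≤ ‖Om a (γ.ze t)‖) : γ.CV a := by
  have hp : 0 < ‖γ.rho a‖ + 1 := by positivity
  have hq : 0 < ‖γ.ze‖ + 1 := by positivity
  refine ⟨fun t => norm_pos_iff.1 (hK.trans_le (h t)), fun t => ?_, fun t => ?_⟩
  · refine binv_apply (c := K / (‖γ.rho a‖ + 1)) (by positivity) (fun t => ?_) t
    have h1 := h t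
    rw [Om, norm_mul, ← AdmP.rho_apply] at h1
    rw [div_le_iff₀ hp]
    nlinarith [(γ.rho a).norm_coe_le_norm t, norm_nonneg (γ.ze t)]
  · refine binv_apply (c := K / (‖γ.ze‖ + 1)) (by positivity) (fun t => ?_) t
    have h1 := h t
    rw [Om, norm_mul] at h1
    rw [AdmP.rho_apply, div_le_iff₀ hq]
    nlinarith [γ.ze.norm_coe_le_norm t, norm_nonneg (rh a (γ.ze t))]

theorem sec_of (h : AdmP c K T a γ) (t : ℝ) : ∃ u, Sec c K u (Om a (γ.ze t)) :=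
  let ⟨u, h1, h2, h3, _⟩ := h.dir t; ⟨u, h1, h2, h3, h.big t⟩

theorem pg_of (hc : 0 < c) (hK : 128 / c ≤ K) (h : AdmP c K T a γ) : (γ.cyl a).PG muCyl := by
  have hv := cv_of (K_pos hc hK) h.big
  refine ⟨hv.inv, fun m t => ?_, 1, muCyl_le⟩
  obtain ⟨u, hu⟩ := sec_of h t
  rw [hv.io]
  exact (hu.gd hc hK m).slit

theorem tr_op {Γ : Ctr} {μ : ℤ → ℝ} (h : Γ.PG μ) {j : EJ} (hj : Γ.IsJet j) {t : ℝ} {O : ℂ}
    (hO : Γ.io t = O⁻¹) : tr t j.op = opD μ O (tr t j.y2) (tr t (Γ.piJ μ j)) := by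
  obtain ⟨C, hC⟩ := h.nmu2
  ext m
  rw [c_opD hC, c_tr, c_tr, c_tr, h.c_piJ hj, hO, EJ.c_y]
  have := la_ne ((μ m : ℂ) / 2 * O⁻¹)
  simp only [BoundedContinuousFunction.smul_apply, smul_eq_mul]
  generalize la ((μ m : ℂ) / 2 * O⁻¹) = L at this ⊢
  field_simp
  ring

end Vale.Agent.P218N.End.Cv
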