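import Vale.Agent.P218N.End.ApiCv2
import Vale.Agent.P218N.End.GeoR

/-! The change of the slope along a path: jets, the equation, composition. -/

open Filter Topology Metric Set Complex
open scoped ComplexConjugate

noncomputable section

namespace Vale.Agent.P218N.End.Cv

open Vale.Agent.P218N.J

variable {a a' a'' : ℂ} {γ : Path} {j : EJ}

/-- `√(ρ₀(a) / ρ₀(a'))` -/
def sB (γ : Path) (a a' : ℂ) : BC := nem Complex.sqrt (γ.rho a * binv (γ.rho a'))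
/-- `ρ₀(a') / ρ₀(a)` -/
def kB (γ : Path) (a a' : ℂ) : BC := γ.rho a' * binv (γ.rho a)
/-- `h(a) - h(a')` -/
def eB (γ : Path) (a a' : ℂ) : BC := γ.hh a - γ.hh a'
/-- `Ω(a') η` -/
def oB (γ : Path) (a a' : ℂ) : BC := (γ.cyl a').Om * eB γ a a'
/-- `η - 2 (h(a) + h(a'))` -/
def fB (γ : Path) (a a' : ℂ) : BC := eB γ a a' - 2 * (γ.hh a + γ.hh a')

section eqs
variable (γ a a' j)

theorem conv_y2 : (γ.conv a a' j).y2 = W.C (sB γ a a') * j.y2 + W.C (sB γ a a' - 1) := rfl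
theorem conv_op : (γ.conv a a' j).op =
    W.C (sB γ a a') * (W.C (kB γ a a') * j.op + W.C (oB γ a a') * (1 + j.y)) := rfl
theorem conv_oq : (γ.conv a a' j).oq = W.C (sB γ a a') * (W.C (kB γ a a') * j.oq +
    2 * W.C (eB γ a a' * kB γ a a') * j.op + W.C (oB γ a a' * fB γ a a') * (1 + j.y)) := rfl
theorem conv_pt : (γ.conv a a' j).pt = W.C (sB γ a a') * (j.pt + W.C (eB γ a a') * j.yt) := rfl

theorem mult_C {σ : ℤ → ℂ} {K : ℝ} (h : ∀ m, ‖σ m‖ ≤ K) (x : BC) :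
    mult σ (W.C x : WB) = σ 0 • W.C x := by
  ext1 m
  rw [c_mult h, W.c_smul, W.C_apply, W.c_one1]
  split_ifs with h0 <;> simp [h0]

theorem conv_y : 1 + (γ.conv a a' j).y = W.C (sB γ a a') * (1 + j.y) := by
  rw [EJ.y, conv_y2, map_add, mult_C_mul symb_y, mult_C symb_y, map_sub, map_one, mul_add]
  simp only [br, Int.cast_zero, ne_eq, OfNat.ofNat_ne_zero, not_false_eq_true, zero_pow, add_zero,
    ofReal_one, inv_one, one_smul, mul_one, EJ.y]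
  abel

theorem conv_yt : (γ.conv a a' j).yt = W.C (sB γ a a') * j.yt := by
  rw [EJ.yt, conv_y2, map_add, mult_C_mul symb_yt, mult_C symb_yt]
  simp [EJ.yt]

theorem conv_ytt : (γ.conv a a' j).ytt = W.C (sB γ a a') * j.ytt := by
  rw [EJ.ytt, conv_y2, map_add, mult_C_mul symb_ytt, mult_C symb_ytt]
  simp [EJ.ytt]

theorem ev_conv_y (t θ : ℝ) : ev (γ.conv a a' j).y t θ = sB γ a a' t * (1 + ev j.y t θ) - 1 := by
  have := congrArg (fun f => ev f t θ) (conv_y a a' γ j)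
  simp only [ev_add, ev_one, ev_mul, ev_C] at this
  linear_combination this

end eqs

/-- the slopes are close along the path -/
structure PN (γ : Path) (a a' : ℂ) : Prop where
  cv : γ.CV a
  cv' : γ.CV a'
  nr : ∀ t, Nr a a' (γ.ze t)

theorem PN.of (h : γ.CV a) (hn : ∀ t, Nr a a' (γ.ze t)) : PN γ a a' := by
  refine ⟨h, ⟨fun t => mul_ne_zero (h.ze_ne t) (hn t).ne, h.iz, fun t => ?_⟩, hn⟩
  refine nem_apply (φ := fun z => z⁻¹) (C := ‖binv (γ.rho a)‖ * (5 / 4))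
    (fun t => continuousAt_inv₀ (hn t).ne) (fun t => ?_) t
  have e : (γ.rho a' t)⁻¹ = binv (γ.rho a) t * (rh a (γ.ze t) / rh a' (γ.ze t)) := by
    rw [h.ir, AdmP.rho_apply, div_eq_mul_inv, inv_mul_cancel_left₀ (h.rh_ne t)]
  rw [e, norm_mul]
  exact mul_le_mul ((binv (γ.rho a)).norm_coe_le_norm t) (hn t).q_le (norm_nonneg _)
    (norm_nonneg _)

/-- either `ρ₀(a')` has no zero on the path, or it vanishes identically -/
theorem ne_or (h : γ.CV a) (ht : ∀ t, tht a a' (γ.ze t) ≤ 1 / 4) :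
    (∀ t, rh a' (γ.ze t) ≠ 0) ∨ ∀ t, rh a' (γ.ze t) = 0 := by
  have e : {t | rh a' (γ.ze t) = 0}ᶜ = {t | ‖γ.rho a t‖ ≤ 5 / 4 * ‖γ.rho a' t‖} := by
    ext t
    simp only [mem_compl_iff, mem_ofPred_eq, AdmP.rho_apply]
    refine ⟨fun h0 => ?_, fun h1 h0 => ?_⟩
    · have := (Nr.mk h0 (ht t)).q_le
      rwa [norm_div, div_le_iff₀ (norm_pos_iff.2 h0)] at this
    · rw [h0, norm_zero, mul_zero] at h1
      exact h.rh_ne t (norm_le_zero_iff.1 h1)
  have h1 : IsClopen {t | rh a' (γ.ze t) = 0} := by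
    refine ⟨isClosed_eq (γ.rho a').continuous continuous_const, isClosed_compl_iff.1 ?_⟩
    rw [e]
    exact isClosed_le (by fun_prop) (by fun_prop)
  rcases isClopen_iff.1 h1 with h2 | h2
  · exact Or.inl fun t h0 => (eq_empty_iff_forall_notMem.1 h2 t) h0
  · exact Or.inr fun t => eq_univ_iff_forall.1 h2 t

theorem q_apply (h : γ.CV a') (a : ℂ) (t : ℝ) :
    (γ.rho a * binv (γ.rho a')) t = rh a (γ.ze t) / rh a' (γ.ze t) := by
  rw [BoundedContinuousFunction.mul_apply, h.ir, div_eq_mul_inv, AdmP.rho_apply]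

theorem k_apply (h : γ.CV a) (a' : ℂ) (t : ℝ) :
    kB γ a a' t = rh a' (γ.ze t) / rh a (γ.ze t) := q_apply h a' t

theorem hasDerivAt_hh (h : γ.CV a) (ho : γ.Ok) (t : ℝ) :
    HasDerivAt (γ.hh a) (γ.g t * (-2 * γ.hh a t ^ 2)) t := by
  have e : (γ.hh a : ℝ → ℂ) = fun t => a / (2 * (2 + a * (γ.ze t - 2))) := funext h.hh
  have h1 := h.rh_ne t
  rw [h.hh, e]
  refine ((hasDerivAt_const t a).div (((((ho.der t).sub_const 2).const_mul a).const_add 2).const_mul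
    2) (mul_ne_zero two_ne_zero h1)).congr_deriv ?_
  unfold rh at h1 ⊢
  field_simp
  ring

theorem cylE_conv {a a' ζ σ y yt ytt op oq pt : ℂ} (hζ : ζ ≠ 0) (h : rh a ζ ≠ 0)
    (h' : rh a' ζ ≠ 0) (hσ : rh a ζ = σ ^ 2 * rh a' ζ) {η : ℂ}
    (hη : η = a / (2 * rh a ζ) - a' / (2 * rh a' ζ)) :
    rh a' ζ * cylE a' ζ⁻¹ (Om a' ζ)⁻¹ (a' / (2 * rh a' ζ)) (a' / 2 * ζ) (σ * (1 + y) - 1) (σ * yt)
      (σ * ytt) (σ * (rh a' ζ / rh a ζ * op + Om a' ζ * η * (1 + y)))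
      (σ * (rh a' ζ / rh a ζ * oq + 2 * (η * (rh a' ζ / rh a ζ)) * op + Om a' ζ * η *
        (η - 2 * (a / (2 * rh a ζ) + a' / (2 * rh a' ζ))) * (1 + y))) (σ * (pt + η * yt)) =
    rh a ζ * cylE a ζ⁻¹ (Om a ζ)⁻¹ (a / (2 * rh a ζ)) (a / 2 * ζ) y yt ytt op oq pt := by
  have key : ∀ (b sg y yt ytt y1 y2 pt : ℂ), rh b ζ ≠ 0 → sg ^ 2 = rh b ζ →
      rh b ζ * cylE b ζ⁻¹ (Om b ζ)⁻¹ (b / (2 * rh b ζ)) (b / 2 * ζ) y yt ytt (Om b ζ * y1)
        (Om b ζ * y2) pt = radE ζ (sg * (1 + y)) (sg * yt) (sg * ytt)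
        (sg * (y1 + b / (2 * rh b ζ) * (1 + y))) (sg * (y2 + 2 * (b / (2 * rh b ζ)) * y1 -
          (b / (2 * rh b ζ)) ^ 2 * (1 + y))) (sg * (pt + b / (2 * rh b ζ) * yt)) :=
    fun b sg y yt ytt y1 y2 pt hb hs => (radE_eq_cylE hs rfl (inv_mul_cancel₀ hζ)
      (inv_mul_cancel₀ (mul_ne_zero hζ hb)) (by field_simp) (by ring)).symm
  have hO : Om a ζ ≠ 0 := mul_ne_zero hζ h
  obtain ⟨y1, rfl⟩ : ∃ y1, op = Om a ζ * y1 := ⟨op / Om a ζ, by field_simp⟩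
  obtain ⟨y2, rfl⟩ : ∃ y2, oq = Om a ζ * y2 := ⟨oq / Om a ζ, by field_simp⟩
  have e : rh a' ζ / rh a ζ * Om a ζ = Om a' ζ := by
    unfold Om
    field_simp
  rw [key a (σ * Complex.sqrt (rh a' ζ)) _ _ _ _ _ _ h (by rw [mul_pow, sqrt_sq, hσ]),
    show σ * (rh a' ζ / rh a ζ * (Om a ζ * y1) + Om a' ζ * η * (1 + y)) =
      Om a' ζ * (σ * (y1 + η * (1 + y))) by rw [← e]; ring,
    show σ * (rh a' ζ / rh a ζ * (Om a ζ * y2) + 2 * (η * (rh a' ζ / rh a ζ)) * (Om a ζ * y1) +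
      Om a' ζ * η * (η - 2 * (a / (2 * rh a ζ) + a' / (2 * rh a' ζ))) * (1 + y)) =
      Om a' ζ * (σ * (y2 + 2 * η * y1 + η * (η - 2 * (a / (2 * rh a ζ) + a' / (2 * rh a' ζ))) *
        (1 + y))) by rw [← e]; ring,
    key a' (Complex.sqrt (rh a' ζ)) _ _ _ _ _ _ h' (sqrt_sq _), hη]
  congr 1 <;> ring

namespace PN

theorem s_apply (h : PN γ a a') (t : ℝ) : sB γ a a' t = sgm a a' (γ.ze t) := by
  have e := q_apply h.cv' a
  rw [sB, nem_apply (C := 5 / 4) (fun t => ?_) (fun t => ?_), e, sgm]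
  · rw [e]
    exact (differentiableAt_sqrt (h.nr t).slit).continuousAt
  · rw [e]
    exact (h.nr t).s_le

theorem e_apply (h : PN γ a a') (t : ℝ) :
    eB γ a a' t = a / (2 * rh a (γ.ze t)) - a' / (2 * rh a' (γ.ze t)) := by
  rw [eB, BoundedContinuousFunction.sub_apply, h.cv.hh, h.cv'.hh]

theorem o_apply (h : PN γ a a') (t : ℝ) : oB γ a a' t = oe a a' (γ.ze t) := by
  rw [oB, BoundedContinuousFunction.mul_apply, h.e_apply, γ.cyl_Om, oe]

theorem io_k (h : PN γ a a') (t : ℝ) : (γ.cyl a').io t * kB γ a a' t = (γ.cyl a).io t := by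
  rw [h.cv.io, h.cv'.io, k_apply h.cv, Om, Om]
  have := h.cv'.rh_ne t
  field_simp

theorem io_o (h : PN γ a a') (t : ℝ) : (γ.cyl a').io t * oB γ a a' t = eB γ a a' t := by
  rw [oB, BoundedContinuousFunction.mul_apply]
  linear_combination eB γ a a' t * h.cv'.inv t

theorem der_s (h : PN γ a a') (ho : γ.Ok) (t : ℝ) :
    HasDerivAt (sB γ a a') (γ.g t * (sB γ a a' t * eB γ a a' t)) t := by
  have e : (sB γ a a' : ℝ → ℂ) = fun t => Complex.sqrt ((2 + a * (γ.ze t - 2)) /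
    (2 + a' * (γ.ze t - 2))) := funext h.s_apply
  have n := h.nr t
  rw [h.s_apply, h.e_apply, e]
  refine ((hasDerivAt_csqrt n.slit).scomp t
    (((((ho.der t).sub_const 2).const_mul a).const_add 2).div
      ((((ho.der t).sub_const 2).const_mul a').const_add 2) n.ne)).congr_deriv ?_
  change (a * γ.g t * rh a' (γ.ze t) - rh a (γ.ze t) * (a' * γ.g t)) / rh a' (γ.ze t) ^ 2 *
    (1 / (2 * sgm a a' (γ.ze t))) = _
  have := n.ne
  have := n.s_ne
  rw [n.rh_eq]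
  field_simp

theorem der_e (h : PN γ a a') (ho : γ.Ok) (t : ℝ) :
    HasDerivAt (eB γ a a') (γ.g t * (eB γ a a' t * (fB γ a a' t - eB γ a a' t))) t := by
  refine ((hasDerivAt_hh h.cv ho t).sub (hasDerivAt_hh h.cv' ho t)).congr_deriv ?_
  change _ = γ.g t * ((γ.hh a t - γ.hh a' t) * (γ.hh a t - γ.hh a' t - 2 * (γ.hh a t + γ.hh a' t) -
    (γ.hh a t - γ.hh a' t)))
  ring

theorem ev_jP (h : PN γ a a') (j : EJ) (t θ : ℝ) : ev ((γ.cyl a').jP (γ.conv a a' j)) t θ =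
    sB γ a a' t * (ev ((γ.cyl a).jP j) t θ + eB γ a a' t * (1 + ev j.y t θ)) := by
  simp only [Ctr.ev_jP, conv_op, ev_add, ev_mul, ev_C, ev_one, ← h.io_k t, ← h.io_o t]
  ring

theorem isJet (h : PN γ a a') (ho : γ.Ok) (hj : (γ.cyl a).IsJet j) :
    (γ.cyl a').IsJet (γ.conv a a' j) := by
  refine Ctr.isJet_of_ev (fun t θ => ?_) (fun t θ => ?_) fun t θ => ?_
  · simp only [ev_conv_y, h.ev_jP]
    refine (((h.der_s ho t).mul ((hj.hasDerivAt_y_t t θ).const_add 1)).sub_const 1).congr_deriv ?_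
    change _ + _ * (γ.g t * _) = γ.g t * _
    ring
  · simp only [h.ev_jP]
    refine ((h.der_s ho t).mul ((hj.hasDerivAt_P_t t θ).add ((h.der_e ho t).mul
      ((hj.hasDerivAt_y_t t θ).const_add 1)))).congr_deriv ?_
    change _ * (_ + _ * _) + _ * (γ.g t * _ + (_ + _ * (γ.g t * _))) = γ.g t * _
    simp only [Ctr.ev_jP, Ctr.ev_jQ, conv_oq, ev_add, ev_mul, ev_C, ev_one, ev_ofNat,
      BoundedContinuousFunction.mul_apply, ← h.io_k t]
    linear_combination (-(γ.g t * sB γ a a' t * fB γ a a' t * (1 + ev j.y t θ))) * h.io_o t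
  · simp only [h.ev_jP, conv_pt, ev_add, ev_mul, ev_C]
    exact ((hj.hasDerivAt_P_theta t θ).add
      (((j.hasDerivAt_y_theta t θ).const_add 1).const_mul _)).const_mul _

theorem eqn (h : PN γ a a') (j : EJ) :
    W.C (γ.rho a') * γ.Ecyl a' (γ.conv a a' j) = W.C (γ.rho a) * γ.Ecyl a j := by
  refine ext_ev fun t θ => ?_
  simp only [ev_mul, ev_C, Path.ev_Ecyl, ev_conv_y, conv_yt, conv_ytt, conv_op, conv_oq, conv_pt,
    ev_add, ev_one, ev_ofNat, BoundedContinuousFunction.mul_apply, h.cv.iz, h.cv.io, h.cv'.io,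
    h.cv.hh, h.cv'.hh, Path.Oh_apply, AdmP.rho_apply, k_apply h.cv, oB, γ.cyl_Om]
  have e : fB γ a a' t = eB γ a a' t - 2 * (a / (2 * rh a (γ.ze t)) + a' / (2 * rh a' (γ.ze t))) := by
    rw [← h.cv.hh, ← h.cv'.hh]
    rfl
  rw [e]
  exact cylE_conv (h.cv.ze_ne t) (h.cv.rh_ne t) (h.cv'.rh_ne t)
    (by rw [h.s_apply]; exact (h.nr t).rh_eq) (h.e_apply t)

theorem s_mul (h : PN γ a a') (h' : PN γ a' a'') : sB γ a a'' = sB γ a' a'' * sB γ a a' := by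
  have e : (fun t => Complex.sqrt ((γ.rho a * binv (γ.rho a'')) t)) = sB γ a' a'' * sB γ a a' := by
    ext t
    rw [q_apply h'.cv', Pi.mul_apply, h.s_apply, h'.s_apply, (h.nr t).s_mul (h'.nr t), sgm]
  ext t
  rw [sB, nem, e]
  exact mkB_apply (sB γ a' a'' * sB γ a a').continuous (sB γ a' a'' * sB γ a a').norm_coe_le_norm t

theorem conv_conv (h : PN γ a a') (h' : PN γ a' a'') (j : EJ) :
    γ.conv a' a'' (γ.conv a a' j) = γ.conv a a'' j := by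
  have hk : ∀ t, kB γ a a'' t = kB γ a' a'' t * kB γ a a' t := fun t => by
    rw [k_apply h.cv, k_apply h.cv, k_apply h.cv']
    have := h.cv'.rh_ne t
    field_simp
  have hO : ∀ t, (γ.cyl a'').Om t = kB γ a' a'' t * (γ.cyl a').Om t := fun t => by
    rw [k_apply h.cv', γ.cyl_Om, γ.cyl_Om, Om, Om]
    have := h.cv'.rh_ne t
    field_simp
  have h2 : ∀ t, (2 : BC) t = 2 := fun _ => rfl
  refine Prod.ext (?_ : EJ.y2 _ = EJ.y2 _) (Prod.ext (?_ : EJ.op _ = EJ.op _)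
    (Prod.ext (?_ : EJ.oq _ = EJ.oq _) (?_ : EJ.pt _ = EJ.pt _))) <;>
  refine ext_ev fun t θ => ?_ <;>
  simp only [conv_y2, conv_op, conv_oq, conv_pt, conv_yt, ev_conv_y, ev_add, ev_mul, ev_C, ev_one,
    ev_ofNat, h.s_mul h', hk, hO, oB, fB, eB, h2, BoundedContinuousFunction.mul_apply,
    BoundedContinuousFunction.sub_apply, BoundedContinuousFunction.add_apply,
    BoundedContinuousFunction.coe_one, Pi.one_apply] <;>
  ring

end PN

theorem conv_zero (h : ∀ t, rh a'' (γ.ze t) = 0) (a a' : ℂ) (j j' : EJ) :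
    γ.conv a a'' j = γ.conv a' a'' j' := by
  have h0 : ∀ φ : ℂ → ℂ, φ 0 = 0 → nem φ 0 = 0 := fun φ hφ => by
    ext t
    exact (mkB_apply (f := fun _ => φ 0) continuous_const (fun _ => le_rfl) t).trans hφ
  have h1 : γ.rho a'' = 0 := BoundedContinuousFunction.ext h
  have h2 : ∀ b, sB γ b a'' = 0 := fun b => by
    rw [sB, h1, binv, h0 _ inv_zero, mul_zero, h0 _ Complex.sqrt_zero]
  refine Prod.ext (?_ : EJ.y2 _ = EJ.y2 _) (Prod.ext (?_ : EJ.op _ = EJ.op _)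
    (Prod.ext (?_ : EJ.oq _ = EJ.oq _) (?_ : EJ.pt _ = EJ.pt _))) <;>
  simp only [conv_y2, conv_op, conv_oq, conv_pt, h2, map_zero, zero_mul]

end Vale.Agent.P218N.End.Cv
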