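import Vale.Agent.P218N.End.ApiPt

/-! (Fl): the fluxes only depend on the data at the point, and not on the slope. -/

open Filter Topology Metric Set Complex
open scoped ComplexConjugate

noncomputable section

namespace Vale.Agent.P218N.End

open Vale.Agent.P218N.J

namespace Cv

variable {a a' ζ : ℂ}

/-- the angular derivative from the slow data -/
def ytD : WD →L[ℂ] WD := mult fun m => m * I * ((br m : ℝ) : ℂ)⁻¹

theorem ytD_one : ytD 1 = 0 := by
  ext m
  rw [ytD, c_mult symb_yt, W.c_one]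
  split_ifs with h <;> simp [h]

theorem ytD_cvY (a a' ζ : ℂ) (d : WD) : ytD (cvY a a' ζ d) = sgm a a' ζ • ytD d := by
  rw [cvY, map_add, map_smul, map_smul, ytD_one, smul_zero, add_zero]

theorem sumL_one (θ : ℝ) : W.sumL θ (1 : WD) = 1 := map_one (W.sumA θ)

theorem rl_cv (h : rh a ζ ≠ 0) (d π : WD) (θ : ℝ) :
    Rl a a' ζ (W.sumL θ (yD d)) (W.sumL θ (ytD d)) (W.sumL θ (opD muCyl (Om a ζ) d π))
      (W.sumL θ (yD (cvY a a' ζ d))) (W.sumL θ (ytD (cvY a a' ζ d)))
      (W.sumL θ (opD muCyl (Om a' ζ) (cvY a a' ζ d) (cvP a a' ζ d π))) := by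
  refine ⟨?_, by rw [ytD_cvY, map_smul, smul_eq_mul], ?_⟩
  · simpa only [map_add, map_smul, sumL_one, smul_eq_mul] using
      congrArg (W.sumL θ) (yD_cvY a a' ζ d)
  · simp only [opD_cv h, map_add, map_smul, sumL_one, smul_eq_mul]

theorem Nr.hasDerivAt_sgm (h : Nr a a' ζ) :
    HasDerivAt (fun a => sgm a a' ζ) (sgm a a' ζ * (ζ - 2) / (2 * rh a ζ)) a := by
  have h1 : HasDerivAt (fun a => rh a ζ / rh a' ζ) ((ζ - 2) / rh a' ζ) a := by
    simpa [rh] using ((((hasDerivAt_id a).mul_const (ζ - 2)).const_add 2).div_const (rh a' ζ))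
  refine ((hasDerivAt_csqrt h.slit).comp a h1).congr_deriv ?_
  change 1 / (2 * sgm a a' ζ) * _ = _
  have := h.s_ne
  have := h.ne
  rw [h.rh_eq]
  field_simp

theorem Nr.fderiv_cvY (h : Nr a a' ζ) (d dd : WD) (da : ℂ) :
    fderiv ℂ (fun p : ℂ × WD => cvY p.1 a' ζ p.2) (a, d) (da, dd) =
      sgm a a' ζ • dd + (sgm a a' ζ * (ζ - 2) / (2 * rh a ζ) * da) • (1 + d) := by
  have h1 := HasFDerivAt.comp (f := Prod.fst) ((a, d) : ℂ × WD) h.hasDerivAt_sgm.hasFDerivAt
    hasFDerivAt_fst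
  have h2 : HasFDerivAt (fun p : ℂ × WD => cvY p.1 a' ζ p.2) _ (a, d) :=
    (h1.smul hasFDerivAt_snd).add ((h1.sub_const 1).smul_const (1 : WD))
  rw [h2.fderiv]
  simp only [add_apply, smul_apply,
    ContinuousLinearMap.smulRight_apply, ContinuousLinearMap.comp_apply, Function.comp,
    ContinuousLinearMap.coe_fst', ContinuousLinearMap.coe_snd',
    ContinuousLinearMap.toSpanSingleton_apply, smul_eq_mul]
  match_scalars <;> ring

theorem norm_opD_le (O : ℂ) (d π : WD) : ‖opD muCyl O d π‖ ≤ 8 * (‖π‖ + 1 / 2 * ‖d‖) :=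
  (norm_mult_apply_le (fun _ => Ctr.ila_le _) _).trans (by
    gcongr
    exact (norm_sub_le _ _).trans (by gcongr; exact norm_mult_apply_le nmu _))

theorem fl3 {T : ℝ} {a : ℂ} (da : ℂ) {d π : WD} (dd : WD) (hT : 1200 ≤ T) (ha : ‖a‖ < 1 / (100 * T))
    (hd : ‖d‖ ≤ 1 / 1200) (hπ : ‖π‖ ≤ 1 / 1200) :
    flC a T d π da dd = flC 0 T (cvY a 0 T d) (cvP a 0 T d π) 0
      (fderiv ℂ (fun p : ℂ × WD => cvY p.1 0 T p.2) (a, d) (da, dd)) := by
  have h2 : (2 : ℝ) ≤ T := by linarith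
  have h3 := mul_T h2 (by norm_num) ha
  have n : Nr a 0 T := nr_T0 h2 (by linarith)
  have p := pt_T (by linarith) (by linarith) n
  have ht : tht a 0 T ≤ 1 / 100 :=
    (tht_T h2 (by simp)).trans (by rw [sub_zero]; exact h3.le)
  have hO := n.sqrt_Om (n.sec p.sec p.c0 (by linarith)) (by norm_num) (by linarith) (by linarith)
  have hz : (T : ℂ) ≠ 0 := ofReal_ne_zero.2 (by linarith)
  unfold flC
  refine intervalIntegral.integral_congr fun θ _ => ?_
  have hD : ‖Dc a T (W.sumL θ (yD d)) (W.sumL θ (ytD d))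
      (W.sumL θ (opD muCyl (Om a T) d π)) - 1‖ ≤ 1 / 2 := by
    refine Dc_near (K := T) (by linarith) le_rfl p.sec.big ?_ ((W.norm_sumL_le _ _).trans ?_)
      ((W.norm_sumL_le _ _).trans ?_) ((W.norm_sumL_le _ _).trans ?_)
    · rw [le_div_iff₀ (by linarith)]
      linarith
    · exact (norm_mult_apply_le symb_y d).trans (by linarith)
    · exact (norm_mult_apply_le symb_yt d).trans (by linarith)
    · linarith [norm_opD_le (Om a T) d π]
  refine ((rl_cv n.ne' d π θ).flux n hz hO hD da (W.sumL θ (yD dd))).trans ?_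
  congr 1
  change _ = W.sumL θ (yD _)
  simp only [n.fderiv_cvY, map_add, map_smul, yD_one, sumL_one, smul_eq_mul]
  ring

end Cv

open Cv in
theorem flStmt : FlStmt := by
  refine ⟨fun c K T a da γ j dj t hc hK h hj => ?_, fun T cc ka γ j dj t hT h hj => ?_, 1200,
    fun T a da d π dd => fl3 da dd⟩
  · unfold Path.FluxCyl flC
    simp only [← tr_op (pg_of hc hK h) hj ((cv_of (K_pos hc hK) h.big).io t), ← tr_mult symb_y,
      ← tr_mult symb_yt, sumL_tr]
    rfl
  · unfold Path.FluxCone flK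
    simp only [← tr_op (h.cone_pg hT cc) hj ((h.cone_io hT t).trans (mul_inv _ _).symm),
      ← tr_mult symb_y, ← tr_mult symb_yt, sumL_tr]
    rfl

end Vale.Agent.P218N.End
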