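import Vale.Agent.P218N.End.Api2
import Vale.Agent.P218N.End.LagB

/-! The statement (Lag), and the torque on admissible paths. -/

open Filter Topology Metric Set Complex

noncomputable section

namespace Vale.Agent.P218N.End

open Vale.Agent.P218N.J Vale.Agent.P218N.Core Lag

namespace Lag

theorem coneD_near {ka w al be : ℂ} (hk : ‖ka * w‖ ≤ 1 / 100) (ha : ‖al‖ ≤ 1 / 10)
    (hb : ‖be‖ ≤ 1 / 10) : ‖coneD ka w al be - 1‖ ≤ 1 / 2 := by
  have e : coneD ka w al be - 1 = ka * w * (ka * w - 2) * (1 + al ^ 2) + al ^ 2 + be ^ 2 := by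
    unfold coneD; ring
  have h1 : ‖ka * w - 2‖ ≤ 3 := (norm_sub_le _ _).trans (by rw [Complex.norm_two]; linarith)
  have h2 : ‖al ^ 2‖ ≤ 1 / 100 := by rw [norm_pow]; nlinarith [norm_nonneg al]
  have h3 : ‖be ^ 2‖ ≤ 1 / 100 := by rw [norm_pow]; nlinarith [norm_nonneg be]
  have h4 : ‖1 + al ^ 2‖ ≤ 2 := (norm_add_le _ _).trans (by rw [norm_one]; linarith)
  have h5 : ‖ka * w * (ka * w - 2) * (1 + al ^ 2)‖ ≤ 1 / 100 * 3 * 2 := by
    rw [norm_mul, norm_mul (ka * w)]; gcongr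
  rw [e]
  linarith [norm_add₃_le (a := ka * w * (ka * w - 2) * (1 + al ^ 2)) (b := al ^ 2) (c := be ^ 2)]

theorem sqrt_le_of {ρ ζ : ℂ} {B : ℝ} (hz : 1 ≤ ‖ζ‖) (h : ‖ρ‖ ≤ B) : √(‖ρ‖ / ‖ζ‖) ≤ 1 + B := by
  have h0 := norm_nonneg ρ
  refine Real.sqrt_le_iff.2 ⟨by linarith, (div_le_self h0 hz).trans ?_⟩
  nlinarith

theorem az_le {a ζ : ℂ} {B : ℝ} (ha : ‖a‖ ≤ 1 / 128) (h : ‖rh a ζ‖ ≤ B) : ‖a * ζ‖ ≤ B + 3 := by
  rw [show a * ζ = rh a ζ - 2 + 2 * a by unfold rh; ring]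
  refine (norm_add_le _ _).trans ?_
  rw [norm_mul, Complex.norm_two]
  linarith [norm_sub_le (rh a ζ) 2, Complex.norm_two]

theorem exp_le {ρ : ℂ} {B x : ℝ} (h : ‖ρ‖ ≤ B) :
    Real.exp (‖ρ‖ / 3 - x / 4) ≤ Real.exp B * Real.exp (-(x / 4)) := by
  rw [← Real.exp_add, Real.exp_le_exp]
  linarith [norm_nonneg ρ]

end Lag

theorem coneOk_of_small {γ : Path} {cc T B δ : ℝ} {ka : WD} {k : EJ} (hz : ∀ t, T ≤ ‖γ.ze t‖)
    (hT : 100 * (1 + |B|) ≤ T) (hy : ‖k.y2‖ ≤ δ) (hδ : δ * (1 + ‖ka‖ + |cc|) ≤ 1 / 100)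
    (hop : ‖k.op‖ ≤ B) : γ.ConeOk cc ka k := by
  have h0 : 0 ≤ δ := (norm_nonneg _).trans hy
  have h1 := abs_nonneg B
  have h2 := mul_nonneg h0 (norm_nonneg ka)
  have h3 := mul_nonneg h0 (abs_nonneg cc)
  refine ⟨⟨T, by linarith, hz⟩, fun t θ => coneD_near ?_ ((norm_add_le _ _).trans ?_) ?_⟩
  · rw [norm_mul]
    nlinarith [mul_le_mul (W.norm_sumL_le θ ka) ((norm_ev_le _ t θ).trans (k.norm_y_le'.trans hy))
      (norm_nonneg _) (norm_nonneg _)]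
  · have h4 : ‖(γ.ze t)⁻¹ * ev k.op t θ‖ ≤ 1 / 100 := by
      rw [norm_mul, norm_inv, inv_mul_le_iff₀ (by linarith [hz t])]
      linarith [norm_ev_le k.op t θ, le_abs_self B, hz t]
    rw [mul_assoc, norm_mul, Complex.norm_two]
    linarith [(norm_ev_le _ t θ).trans (k.norm_y_le'.trans hy)]
  · rw [norm_mul, Complex.norm_real, Real.norm_eq_abs]
    nlinarith [mul_le_mul_of_nonneg_left ((norm_ev_le _ t θ).trans (k.norm_yt_le'.trans hy))
      (abs_nonneg cc)]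

section adm
variable {c K T B : ℝ} {a : ℂ} {γ : Path} {j : EJ}

theorem norm_FluxCyl_adm (hc : 0 < c) (hK : 128 ≤ K) (hT : K ≤ T) (h : AdmP c K T a γ)
    (ha : ‖a‖ ≤ 1 / 128) (hj : ‖j‖ ≤ 1 / 100) (t : ℝ) (hB : ‖rh a (γ.ze t)‖ ≤ B) (da : ℂ)
    (dy : WB) : ‖γ.FluxCyl a j t da dy‖ ≤ 168 * (1 + B) ^ 2 * Real.exp B *
      Real.exp (-((γ.ze t).re / 4)) * (‖tr t dy‖ + uu a (γ.ze t) * ‖da‖) := by
  have hz : 128 ≤ ‖γ.ze t‖ := (hK.trans (hT.trans (h.T_le hc t))).trans (re_le_norm _)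
  have h0 : 0 ≤ B := (norm_nonneg _).trans hB
  have h1 : ‖tr t j.op‖ + ‖a * γ.ze t‖ ≤ 4 * (1 + B) := by
    linarith [az_le ha hB, (norm_tr_apply_le t j.op).trans (j.norm_op_le.trans hj)]
  have h2 : ‖tr t dy‖ + ‖(γ.ze t - 2) * da / rh a (γ.ze t)‖ ≤
      2 * (‖tr t dy‖ + uu a (γ.ze t) * ‖da‖) := by
    have h3 : ‖γ.ze t - 2‖ ≤ 2 * ‖γ.ze t‖ := (norm_sub_le _ _).trans (by
      rw [Complex.norm_two]; linarith)
    have h4 : ‖(γ.ze t - 2) * da / rh a (γ.ze t)‖ ≤ 2 * (uu a (γ.ze t) * ‖da‖) := by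
      rw [uu, norm_div, norm_div, norm_mul]
      calc _ ≤ 2 * ‖γ.ze t‖ * ‖da‖ / ‖rh a (γ.ze t)‖ := by gcongr
        _ = _ := by ring
    linarith [norm_nonneg (tr t dy)]
  refine ((cylOk_of_admP hc hK h ha hj).norm_FluxCyl (j.norm_y2_le.trans hj) t da dy).trans ?_
  calc _ ≤ 21 * (1 + B) * (4 * (1 + B)) * (Real.exp B * Real.exp (-((γ.ze t).re / 4))) *
        (2 * (‖tr t dy‖ + uu a (γ.ze t) * ‖da‖)) := by
        gcongr
        exacts [sqrt_le_of (by linarith) hB, exp_le hB]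
    _ = _ := by ring

theorem norm_TqCyl_adm (hc : 0 < c) (hK : 128 ≤ K) (hT : K ≤ T) (h : AdmP c K T a γ)
    (ha : ‖a‖ ≤ 1 / 128) (hj : ‖j‖ ≤ 1 / 100) (t : ℝ) (hB : ‖rh a (γ.ze t)‖ ≤ B) (α : C3) :
    ‖TqCyl γ a j t α‖ ≤
      441 * (1 + B) ^ 2 * Real.exp B * Real.exp (-((γ.ze t).re / 4)) * ‖α‖ := by
  have hz : 128 ≤ ‖γ.ze t‖ := (hK.trans (hT.trans (h.T_le hc t))).trans (re_le_norm _)
  have h0 : 0 ≤ B := (norm_nonneg _).trans hB
  have h1 : ‖tr t j.op‖ + ‖a * γ.ze t‖ ≤ 4 * (1 + B) := by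
    linarith [az_le ha hB, (norm_tr_apply_le t j.op).trans (j.norm_op_le.trans hj)]
  have h2 : ‖rh a (γ.ze t)‖ + (‖tr t j.op‖ + ‖a * γ.ze t‖) * (1 + √(‖rh a (γ.ze t)‖ / ‖γ.ze t‖)) ≤
      9 * (1 + B) ^ 2 := by
    have h3 := mul_le_mul h1 (add_le_add_right (sqrt_le_of (ζ := γ.ze t) (by linarith) hB) 1)
      (by positivity) (by positivity)
    nlinarith
  refine ((cylOk_of_admP hc hK h ha hj).norm_TqCyl (j.norm_y2_le.trans hj) t α).trans ?_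
  calc _ ≤ 49 * (9 * (1 + B) ^ 2) * (Real.exp B * Real.exp (-((γ.ze t).re / 4))) * ‖α‖ := by
        gcongr
        exact exp_le hB
    _ = _ := by ring

theorem TqCyl_const_adm (hc : 0 < c) (hK : 128 ≤ K) (h : AdmP c K T a γ) (ha : ‖a‖ ≤ 1 / 128)
    (hj : ‖j‖ ≤ 1 / 100) (hs : γ.IsCyl a j) (α : C3) (t t' : ℝ) :
    TqCyl γ a j t α = TqCyl γ a j t' α :=
  TqCyl_const h.ok (cylOk_of_admP hc hK h ha hj) hs α t t'

theorem Path.RealP.admP0 (h : γ.RealP T) (hT : 2 ≤ T) : AdmP (1 / 2) T T 0 γ :=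
  h.admP (P := (γ.ze 1).re) hT (fun t => (le_re_of_dir one_pos h.ok h.dir t).2) (by
    have := h.T_le 1
    rw [norm_zero]
    exact div_nonneg zero_le_one (by linarith))

/-- the torque on a real path, for the slope zero -/
theorem tq_real (hT : 128 ≤ T) (h : γ.RealP T) (hj : ‖j‖ ≤ 1 / 100) (α : C3) :
    (γ.IsCyl 0 j → ∀ t t', TqCyl γ 0 j t α = TqCyl γ 0 j t' α) ∧
      ∀ t, ‖TqCyl γ 0 j t α‖ ≤ 40000 * Real.exp (-((γ.ze t).re / 4)) * ‖α‖ := by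
  have h1 := h.admP0 (by linarith)
  refine ⟨fun hs => TqCyl_const_adm one_half_pos hT h1 (by simp) hj hs α, fun t => ?_⟩
  refine (norm_TqCyl_adm (B := 2) one_half_pos hT le_rfl h1 (by simp) hj t (by simp [rh]) α).trans ?_
  have h2 : Real.exp 2 ≤ 9 := by
    rw [show (2 : ℝ) = 1 + 1 by norm_num, Real.exp_add]
    nlinarith [Real.exp_one_lt_d9, Real.exp_pos 1]
  gcongr
  linarith

end adm

theorem lagStmt : LagStmt := by
  refine ⟨fun c hc => ⟨200 + 28 / c, by linarith [div_pos (by norm_num : (0 : ℝ) < 28) hc], 128,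
    fun K hK T hT => ?_⟩, fun cc ka kd B hc hkd => ?_⟩
  · have h1 : 0 < 28 / c := by positivity
    have ha : ∀ {a : ℂ}, ‖a‖ ≤ 1 / K → ‖a‖ ≤ 1 / 128 := fun h =>
      h.trans (one_div_le_one_div_of_le (by norm_num) hK)
    have hj : ∀ {j : EJ}, ‖j‖ ≤ 1 / (200 + 28 / c) → ‖j‖ ≤ 1 / 100 := fun h =>
      h.trans (one_div_le_one_div_of_le (by norm_num) (by linarith))
    refine ⟨fun X _ _ U a γ j hU h2 h3 h4 h5 h6 t₀ t₁ => Path.differentiableOn_FCI hU h3 h4 h2 h5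
      (fun x hx => cylOk_of_admP hc hK (h6 x hx).2.1 (ha (h6 x hx).1) (hj (h6 x hx).2.2)) t₀ t₁,
      fun X _ _ U a γ j hU h2 h5 h6 x hx v t₀ t₁ => Path.fderiv_FCI_sol hU (h6 x hx).2.1.ok h2 h5
        (fun x hx => (h6 x hx).2.2.2.1) (fun x hx => cylOk_of_admP hc hK (h6 x hx).2.1
          (ha (h6 x hx).1) (hj (h6 x hx).2.2.1)) hx (h6 x hx).2.2.2 v t₀ t₁,
      fun a γ j B h2 h3 h4 => ?_⟩
    have k := cylOk_of_admP hc hK h3 (ha h2) (hj h4)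
    refine ⟨k.FCI_add, fun hB => ⟨fun t₀ t₁ ht => ?_, fun t da dy => ?_⟩⟩
    · have h0 : 0 ≤ B := (norm_nonneg _).trans (hB 0)
      refine (k.norm_FCI_adm (M := (1 + B) * Real.exp B) (j.norm_y2_le.trans (hj h4)) hc h3 ht
        fun t _ => ?_).trans ?_
      · refine mul_le_mul (sqrt_le_of ?_ (hB t)) (Real.exp_le_exp.2 ?_) (Real.exp_pos _).le
          (by linarith)
        · linarith [h3.T_le hc t, re_le_norm (γ.ze t)]
        · linarith [hB t, norm_nonneg (rh a (γ.ze t))]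
      · rw [← mul_assoc]
        gcongr
        linarith
    · refine (norm_FluxCyl_adm hc hK hT h3 (ha h2) (hj h4) t (hB t) da dy).trans ?_
      have h0 : 0 ≤ uu a (γ.ze t) := norm_nonneg _
      gcongr
      exacts [by linarith, norm_tr_apply_le t dy]
  · set C := 100 * (1 + ‖ka‖ + |cc|) + 42 / |cc| * (15 + 2 * |B|) with hC
    have h1 : 0 < |cc| := abs_pos.2 hc.ne'
    have h2 : 0 ≤ 42 / |cc| * (15 + 2 * |B|) := by positivity
    have h3 := norm_nonneg ka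
    have h4 : 100 * (1 + ‖ka‖ + |cc|) ≤ C := by linarith
    have hC0 : 0 < C := by linarith
    have h5 : 1 / C * (1 + ‖ka‖ + |cc|) ≤ 1 / 100 := by
      rw [one_div_mul_eq_div, div_le_iff₀ hC0]; linarith
    have h6 : 0 ≤ 1 / C := by positivity
    refine ⟨C, by linarith, 100 * (1 + |B|), fun T hT γ hγ => ?_⟩
    have hT0 : 0 ≤ T := le_trans (by positivity) hT
    have ok : ∀ {k : EJ}, ‖k.y2‖ ≤ 1 / C → ‖k.op‖ ≤ B → γ.ConeOk cc ka k := fun h h' =>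
      coneOk_of_small (fun t => (hγ.T_le t).trans (re_le_norm _)) hT h h5 h'
    refine ⟨fun X _ _ U k hU hk h => ⟨fun t₀ t₁ => Path.differentiableOn_FKI (γ := fun _ => γ) hU
      (differentiableOn_const _) (differentiableOn_const _) hk
      (fun x hx => ok (h x hx).1 (h x hx).2) t₀ t₁, fun hs x hx v t₀ t₁ =>
      Path.fderiv_FKI_sol hU hγ.ok hc.ne' hkd hk (fun x hx => (hs x hx).1)
        (fun x hx => ok (h x hx).1 (h x hx).2) hx (hs x hx) v t₀ t₁⟩, fun k h h' => ?_⟩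
    have h7 : 1 / C ≤ 1 / 3 := by nlinarith
    refine ⟨(ok h h').D, (ok h h').FKI_add, fun t₀ t₁ ht => ?_, fun t dy => ?_⟩
    · refine ((ok h h').norm_FKI_real hT0 hγ (k.norm_y_le'.trans (h.trans h7)) ht).trans ?_
      refine mul_le_mul_of_nonneg_right ?_ (Real.exp_pos _).le
      have : 35 / |cc| ≤ 42 / |cc| * (15 + 2 * |B|) := by
        rw [div_mul_eq_mul_div]
        exact div_le_div_of_nonneg_right (by linarith [abs_nonneg B]) h1.le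
      linarith
    · refine ((ok h h').norm_FluxCone_real hT0 hγ (k.norm_y_le'.trans h) (by nlinarith) h7 t
        dy).trans ?_
      have : 42 / |cc| * (15 + 2 * ‖tr t k.op‖) ≤ 42 / |cc| * (15 + 2 * |B|) := by
        gcongr
        exact (norm_tr_apply_le t _).trans (h'.trans (le_abs_self B))
      gcongr
      exacts [by linarith, norm_tr_apply_le t dy]

end Vale.Agent.P218N.End
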