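import Vale.Agent.P218N.End.ApiBas
import Vale.Agent.P218N.End.NL

/-! The same function with another slope on real paths: the statement `NaStmt`. -/

open Filter Topology Metric Set Complex

noncomputable section

namespace Vale.Agent.P218N.End

open Vale.Agent.P218N.J

namespace NaP

/-- the dependence of the fast rate on its argument -/
theorem la_sub {κ η : ℂ} (h : -(1 / 128) ≤ κ.re) :
    ‖la (κ * (1 + η)) - la κ‖ ≤ 3 * ‖η‖ * ‖la κ‖ := by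
  have h1 := congrArg Complex.re (Sf_sq κ)
  have h0 := Sf_re_nonneg κ
  have h0' := Sf_re_nonneg (κ * (1 + η))
  simp only [sq, mul_re, add_re, div_ofNat_re, one_re] at h1
  have h2 : 1 / 12 ≤ (Sf κ).re := by
    by_contra hn
    nlinarith [mul_self_nonneg (Sf κ).im]
  have h3 : ‖la κ‖ ≤ 3 * (Sf κ).re := by
    refine le_of_sq_le_sq ?_ (by positivity)
    rw [Complex.sq_norm, normSq_apply]
    simp only [la, add_re, add_im, div_ofNat_re, div_ofNat_im, one_re, one_im]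
    nlinarith
  have h4 : (la (κ * (1 + η)) - la κ) * (Sf (κ * (1 + η)) + Sf κ) = κ * η := by
    unfold la
    linear_combination Sf_sq (κ * (1 + η)) - Sf_sq κ
  have h5 : (Sf κ).re ≤ ‖Sf (κ * (1 + η)) + Sf κ‖ := by
    refine le_trans ?_ (re_le_norm _)
    rw [add_re]
    linarith
  have h6 := congrArg norm h4
  rw [norm_mul, norm_mul] at h6
  have h7 := norm_le_la_sq κ
  refine le_of_mul_le_mul_right ?_ (by linarith : 0 < (Sf κ).re)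
  calc _ ≤ ‖la (κ * (1 + η)) - la κ‖ * ‖Sf (κ * (1 + η)) + Sf κ‖ := by gcongr
    _ ≤ ‖la κ‖ ^ 2 * ‖η‖ := by rw [h6]; gcongr
    _ = ‖la κ‖ * ‖la κ‖ * ‖η‖ := by ring
    _ ≤ ‖la κ‖ * (3 * (Sf κ).re) * ‖η‖ := by gcongr
    _ = _ := by ring

theorem pt_est {l l' k op y η : ℂ} {θ Y : ℝ} (h1 : ‖l' - l‖ ≤ 3 * ‖η‖ * ‖l‖)
    (h2 : ‖η‖ ≤ 4 / 7 * θ) (h3 : ‖k - 1‖ ≤ 4 / 7 * θ) (h4 : ‖k‖ ≤ 9 / 7) (h5 : ‖y‖ ≤ Y) :
    ‖l' * (k * op) + y - (l * op + y)‖ ≤ 3 * θ * (‖l * op + y‖ + Y) := by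
  have h0 : 0 ≤ θ := by linarith [norm_nonneg η]
  have h6 : ‖l‖ * ‖op‖ ≤ ‖l * op + y‖ + Y := by
    rw [← norm_mul]
    linarith [norm_le_add_norm_add (l * op) y]
  have h7 : ‖k * (l' - l) + (k - 1) * l‖ ≤ 3 * θ * ‖l‖ := by
    refine (norm_add_le _ _).trans ?_
    rw [norm_mul, norm_mul]
    calc _ ≤ 9 / 7 * (3 * (4 / 7 * θ) * ‖l‖) + 4 / 7 * θ * ‖l‖ := by
          gcongr
          exact h1.trans (by gcongr)
      _ ≤ _ := by nlinarith [mul_nonneg h0 (norm_nonneg l)]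
  rw [show l' * (k * op) + y - (l * op + y) = (k * (l' - l) + (k - 1) * l) * op by ring, norm_mul]
  calc _ ≤ 3 * θ * ‖l‖ * ‖op‖ := by gcongr
    _ = 3 * θ * (‖l‖ * ‖op‖) := by ring
    _ ≤ _ := by gcongr

/-- the data of the estimate for the equation -/
structure NaD (R : Type*) [NormedCommRing R] where
  u : R
  w : R
  b : Fin 6 → R
  b' : Fin 6 → R
  x : Fin 6 → R
  ε : ℝ
  p : ℝ
  hb : ∀ i, ‖b i‖ ≤ 2 ∧ ‖b' i‖ ≤ 2 ∧ ‖w * (b i - b' i)‖ ≤ p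
  hx : ∀ i, ‖x i‖ ≤ 2
  hs : ∀ i, ‖u * x i‖ ≤ ε
  h1 : ‖u * (b 4 * b 3)‖ ≤ ε ∧ ‖u * (b' 4 * b' 3)‖ ≤ ε
  h2 : ‖u * w * (b 4 * b 3 - b' 4 * b' 3)‖ ≤ ε * p

theorem cylE_zero {R : Type*} [CommRing R] (a iz io h Oh : R) (e : Oh * h = 0) :
    cylE a iz io h Oh 0 0 0 0 0 0 = 0 := by
  unfold cylE cylD cylB
  linear_combination (-4 * (1 + a)) * e

theorem cylE_lip (R : Type*) [NormedCommRing R] [NormOneClass R] : ∃ C, 0 ≤ C ∧ ∀ d : NaD R,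
    ‖d.u * d.w * (cylE (d.b 0) (d.b 1) (d.b 2) (d.b 3) (d.b 4) (d.x 0) (d.x 1) (d.x 2)
      (d.b 5 * d.x 3) (d.b 5 * d.x 4) (d.x 5) - cylE (d.b' 0) (d.b' 1) (d.b' 2) (d.b' 3) (d.b' 4)
      (d.x 0) (d.x 1) (d.x 2) (d.b' 5 * d.x 3) (d.b' 5 * d.x 4) (d.x 5))‖ ≤ C * (d.ε * d.p) := by
  let s : Scl (NaD R) R := ⟨NaD.u, NaD.w, NaD.ε, NaD.p, fun d => d.ε * d.p,
    fun d => (norm_nonneg _).trans (d.hs 0), fun d => (norm_nonneg _).trans (d.hb 0).2.2,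
    fun _ => le_rfl⟩
  let b : Fin 6 → s.B := fun i => Scl.var one_le_two fun d => d.hb i
  let x : Fin 6 → s.B := fun i => Scl.con one_le_two fun d => d.hx i
  have hx : ∀ i, Ideal.Quotient.mk s.G (x i) = 0 := fun i =>
    Ideal.Quotient.eq_zero_iff_mem.2 (Scl.con_mem_G _ _ fun d => d.hs i)
  have hG : b 4 * b 3 ∈ s.G := ⟨⟨1, zero_le_one, fun d => by rw [one_mul]; exact d.h1⟩,
    1, zero_le_one, fun d => by rw [one_mul]; exact d.h2⟩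
  have h : cylE (b 0) (b 1) (b 2) (b 3) (b 4) (x 0) (x 1) (x 2) (b 5 * x 3) (b 5 * x 4) (x 5) ∈
      s.G := by
    rw [← Ideal.Quotient.eq_zero_iff_mem, map_cylE, map_mul, map_mul, hx, hx, hx, hx, hx, hx,
      mul_zero]
    exact cylE_zero _ _ _ _ _ (by rw [← map_mul]; exact Ideal.Quotient.eq_zero_iff_mem.2 hG)
  obtain ⟨C, h0, h1⟩ := Scl.G_bound h
  refine ⟨C, h0, fun d => ?_⟩
  have := (h1 d).1
  rw [map_cylE, map_cylE, map_mul, map_mul, map_mul, map_mul] at this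
  exact this

/-- the hypotheses on the path and the slope -/
structure Hy (T P : ℝ) (a : ℂ) (γ : Path) : Prop where
  hT : 256 ≤ T
  re : γ.RealP T
  hP : ∀ t, (γ.ze t).re ≤ P
  ha : ‖a‖ ≤ 1 / (4 * P)

namespace Hy

variable {T P : ℝ} {a a' : ℂ} {γ : Path} {j : EJ}

theorem adm (h : Hy T P a γ) : AdmP (1 / 2) T T a γ :=
  h.re.admP (by linarith [h.hT]) h.hP h.ha

theorem z1 (h : Hy T P a γ) (t : ℝ) : 1 ≤ ‖γ.ze t‖ := h.re.one_le (by linarith [h.hT]) t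

theorem cv (h : Hy T P a γ) : γ.CV a := admP_cv h.z1 (by linarith [h.hT]) h.adm

theorem pg (h : Hy T P a γ) : (γ.cyl a).PG muCyl :=
  admP_pg' (by norm_num) h.z1 (by linarith [h.hT]) h.adm

theorem near (h : Hy T P a γ) (t : ℝ) : ‖rh a (γ.ze t) - 2‖ ≤ 1 / 4 :=
  h.re.rh_near (by linarith [h.hT]) h.hP h.ha t

theorem rh_re (h : Hy T P a γ) (t : ℝ) : 7 / 4 ≤ (rh a (γ.ze t)).re := by
  have h2 := (abs_le.1 ((abs_re_le_norm _).trans (h.near t))).1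
  simp only [sub_re, re_ofNat] at h2
  linarith

theorem rh_le (h : Hy T P a γ) (t : ℝ) : ‖rh a (γ.ze t)‖ ≤ 9 / 4 := by
  have h3 := norm_le_insert' (rh a (γ.ze t)) 2
  rw [Complex.norm_ofNat] at h3
  linarith [h.near t]

theorem irh (h : Hy T P a γ) (t : ℝ) : ‖(rh a (γ.ze t))⁻¹‖ ≤ 4 / 7 := by
  rw [norm_inv]
  exact (inv_anti₀ (by norm_num) ((h.rh_re t).trans (re_le_norm _))).trans (by norm_num)

theorem iz (h : Hy T P a γ) (t : ℝ) : ‖(γ.ze t)⁻¹‖ ≤ 1 := by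
  rw [norm_inv]
  exact inv_le_one_of_one_le₀ (h.z1 t)

theorem az (h : Hy T P a γ) (t : ℝ) : ‖a‖ * ‖γ.ze t‖ ≤ 1 / 4 := by
  have h1 := h.re.T_le t
  have h2 := h.hP t
  have h3 := h.hT
  rw [h.re.norm_ze (by linarith)]
  calc _ ≤ 1 / (4 * P) * P := mul_le_mul h.ha h2 (by linarith) ((norm_nonneg _).trans h.ha)
    _ = 1 / 4 := by
      have : P ≠ 0 := by linarith
      field_simp

theorem a_le (h : Hy T P a γ) : ‖a‖ ≤ 1 / 4 :=
  (le_mul_of_one_le_right (norm_nonneg _) (h.z1 0)).trans (h.az 0)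

theorem z2 (h : Hy T P a γ) (t : ℝ) : ‖γ.ze t - 2‖ ≤ ‖γ.ze t‖ := by
  have h1 := h.re.T_le t
  have h3 := h.hT
  rw [h.re.norm_ze (by linarith), h.re.ze_eq, ← ofReal_ofNat, ← ofReal_sub, norm_real,
    Real.norm_of_nonneg (by linarith), ofReal_re]
  linarith

theorem th (h : Hy T P a γ) (h' : Hy T P a' γ) (t : ℝ) : ‖a - a'‖ * ‖γ.ze t‖ ≤ 1 / 2 := by
  have := mul_le_mul_of_nonneg_right (norm_sub_le a a') (norm_nonneg (γ.ze t))
  linarith [h.az t, h'.az t]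

theorem kap (h : Hy T P a γ) (m : ℤ) (t : ℝ) :
    -(1 / 128) ≤ ((muCyl m : ℂ) / 2 * (γ.cyl a).io t).re := by
  rw [h.cv.io, ← ofReal_ofNat, ← ofReal_div, re_ofReal_mul]
  have h1 : 0 ≤ (Om a (γ.ze t))⁻¹.re := by
    rw [inv_re, Om, mul_re, h.re.im_ze, zero_mul, sub_zero]
    have := h.re.T_le t
    exact div_nonneg (mul_nonneg (by linarith [h.hT]) (by linarith [h.rh_re t])) (normSq_nonneg _)
  have h2 : (Om a (γ.ze t))⁻¹.re ≤ 1 / 256 := by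
    refine (re_le_norm _).trans ?_
    rw [norm_inv, one_div]
    exact inv_anti₀ (by norm_num) (h.hT.trans (h.adm.big t))
  have h3 : -1 ≤ muCyl m := by
    unfold muCyl
    nlinarith [sq_nonneg (m : ℝ)]
  nlinarith

theorem k_apply (h : Hy T P a γ) (a' : ℂ) (t : ℝ) :
    (γ.rho a' * binv (γ.rho a)) t = rh a' (γ.ze t) * (rh a (γ.ze t))⁻¹ := by
  rw [BoundedContinuousFunction.mul_apply, h.cv.ir]
  rfl

theorem k_eq (h : Hy T P a γ) (a' : ℂ) (t : ℝ) : rh a' (γ.ze t) * (rh a (γ.ze t))⁻¹ - 1 =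
    (a' - a) * (γ.ze t - 2) * (rh a (γ.ze t))⁻¹ := by
  have := h.cv.rh_ne t
  field_simp
  unfold rh
  ring

theorem k_sub (h : Hy T P a γ) (a' : ℂ) (t : ℝ) :
    ‖rh a' (γ.ze t) * (rh a (γ.ze t))⁻¹ - 1‖ ≤ 4 / 7 * (‖a - a'‖ * ‖γ.ze t‖) := by
  rw [h.k_eq, norm_mul, norm_mul, mul_comm, norm_sub_rev a' a]
  gcongr
  exacts [h.irh t, h.z2 t]

theorem k_le (h : Hy T P a γ) (h' : Hy T P a' γ) (t : ℝ) :
    ‖rh a' (γ.ze t) * (rh a (γ.ze t))⁻¹‖ ≤ 9 / 7 := by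
  rw [norm_mul]
  exact (mul_le_mul (h'.rh_le t) (h.irh t) (norm_nonneg _) (by norm_num)).trans (by norm_num)

theorem io_k (h : Hy T P a γ) (h' : Hy T P a' γ) (f : BC) :
    (γ.cyl a').io * (γ.rho a' * binv (γ.rho a) * f) = (γ.cyl a).io * f := by
  rw [← mul_assoc]
  congr 1
  ext t
  rw [BoundedContinuousFunction.mul_apply, h.k_apply, h.cv.io, h'.cv.io, Om, Om]
  have h1 := h.cv.rh_ne t
  have h2 := h'.cv.rh_ne t
  have h3 := h.cv.ze_ne t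
  field_simp

theorem jet (h : Hy T P a γ) (h' : Hy T P a' γ) (hj : (γ.cyl a).IsJet j) :
    (γ.cyl a').IsJet (γ.resc a a' j) := fun m => by
  have e1 : (γ.resc a a' j).op.c m = γ.rho a' * binv (γ.rho a) * j.op.c m := W.c_C_mul _ _ _
  have e2 : (γ.resc a a' j).oq.c m = γ.rho a' * binv (γ.rho a) * j.oq.c m := W.c_C_mul _ _ _
  rw [e1, e2, h.io_k h', h.io_k h']
  exact hj m

/-- the change of the fast components at a point -/
theorem dpi (h : Hy T P a γ) (h' : Hy T P a' γ) (hj : (γ.cyl a).IsJet j) (m : ℤ) (t : ℝ) :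
    ‖((γ.cyl a').piJ muCyl (γ.resc a a' j)).c m t - ((γ.cyl a).piJ muCyl j).c m t‖ ≤
      3 * (‖a - a'‖ * ‖γ.ze t‖) * (‖((γ.cyl a).piJ muCyl j).c m t‖ + ‖j.y2.c m t‖) := by
  have e1 : (γ.resc a a' j).op.c m t = rh a' (γ.ze t) * (rh a (γ.ze t))⁻¹ * j.op.c m t := by
    rw [← h.k_apply]
    exact c_C_mul_apply _ _ _ _
  have e2 : (muCyl m : ℂ) / 2 * (γ.cyl a').io t = (muCyl m : ℂ) / 2 * (γ.cyl a).io t *
      (1 + (rh a (γ.ze t) * (rh a' (γ.ze t))⁻¹ - 1)) := by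
    rw [h.cv.io, h'.cv.io, Om, Om]
    have h1 := h.cv.rh_ne t
    have h2 := h'.cv.rh_ne t
    have h3 := h.cv.ze_ne t
    field_simp
    ring
  have h2 := h'.k_sub a t
  rw [norm_sub_rev a' a] at h2
  have h5 : ‖(muCyl m : ℂ) / 2 * j.y.c m t‖ ≤ ‖j.y2.c m t‖ := by
    rw [EJ.c_y, BoundedContinuousFunction.smul_apply, smul_eq_mul, ← mul_assoc, norm_mul]
    refine mul_le_of_le_one_left (norm_nonneg _) ?_
    rw [div_mul_eq_mul_div, norm_div, Complex.norm_ofNat, norm_mul, norm_inv_br, norm_real,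
      Real.norm_eq_abs]
    have := (mul_inv_le_iff₀ (br_pos m)).2 (muCyl_le m)
    linarith
  rw [h'.pg.c_piJ (h.jet h' hj), h.pg.c_piJ hj, e1, e2]
  exact pt_est (la_sub (h.kap m t)) h2 (h.k_sub a' t) (h.k_le h' t) h5

theorem tr_le (h : Hy T P a γ) (h' : Hy T P a' γ) (hj : (γ.cyl a).IsJet j) (t : ℝ) :
    ‖tr t ((γ.cyl a').piJ muCyl (γ.resc a a' j)) - tr t ((γ.cyl a).piJ muCyl j)‖ ≤
      3 * (‖a - a'‖ * ‖γ.ze t‖) * (‖tr t ((γ.cyl a).piJ muCyl j)‖ + ‖tr t j.y2‖) := by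
  refine W.norm_le_of_hasSum (((W.hasSum _).add (W.hasSum _)).mul_left _) fun m => ?_
  rw [W.c_sub, c_tr, c_tr, c_tr]
  exact h.dpi h' hj m t

theorem nrm_le (h : Hy T P a γ) (h' : Hy T P a' γ) (hj : (γ.cyl a).IsJet j) (w : BC) :
    (γ.cyl a').nrm muCyl w (γ.resc a a' j) ≤ 4 * (γ.cyl a).nrm muCyl w j := by
  have h1 : ‖j.wt w‖ ≤ (γ.cyl a).nrm muCyl w j := le_max_left _ _
  have h2 : ‖W.C w * (γ.cyl a).piJ muCyl j‖ ≤ (γ.cyl a).nrm muCyl w j := le_max_right _ _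
  have h3 : ‖W.C w * j.y2‖ ≤ ‖j.wt w‖ := (j.wt w).norm_y2_le
  have h4 : ‖W.C w * j.op‖ ≤ ‖j.wt w‖ := (j.wt w).norm_op_le
  have h5 : ‖W.C w * j.oq‖ ≤ ‖j.wt w‖ := (j.wt w).norm_oq_le
  have h6 : ‖W.C w * j.pt‖ ≤ ‖j.wt w‖ := (j.wt w).norm_pt_le
  have h0 := norm_nonneg (j.wt w)
  have hk : ∀ f : WB, ‖W.C w * (W.C (γ.rho a' * binv (γ.rho a)) * f)‖ ≤ 9 / 7 * ‖W.C w * f‖ :=
    wle' (by norm_num) fun t => by
      rw [norm_mul, h.k_apply, mul_comm]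
      gcongr
      exact h.k_le h' t
  refine max_le (EJ.norm_le _ (h3.trans ?_) ((hk _).trans ?_) ((hk _).trans ?_) (h6.trans ?_)) ?_
  iterate 4 linarith
  have h7 : ‖W.C w * ((γ.cyl a').piJ muCyl (γ.resc a a' j) - (γ.cyl a).piJ muCyl j)‖ ≤
      3 / 2 * (‖W.C w * (γ.cyl a).piJ muCyl j‖ + ‖W.C w * j.y2‖) := by
    refine W.norm_le_of_hasSum (((W.hasSum _).add (W.hasSum _)).mul_left _) fun m =>
      norm_BC_le fun t => ?_
    have b1 := ((W.C w * (γ.cyl a).piJ muCyl j).c m).norm_coe_le_norm t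
    have b2 := ((W.C w * j.y2).c m).norm_coe_le_norm t
    rw [c_C_mul_apply, norm_mul] at b1 b2
    rw [c_C_mul_apply, norm_mul, W.c_sub, BoundedContinuousFunction.sub_apply]
    calc _ ≤ ‖w t‖ * (3 * (1 / 2) * (‖((γ.cyl a).piJ muCyl j).c m t‖ + ‖j.y2.c m t‖)) := by
          gcongr
          exact (h.dpi h' hj m t).trans (by gcongr; exact h.th h' t)
      _ ≤ _ := by linarith
  rw [mul_sub] at h7
  linarith [norm_le_insert' (W.C w * (γ.cyl a').piJ muCyl (γ.resc a a' j))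
    (W.C w * (γ.cyl a).piJ muCyl j)]

theorem hh_le (h : Hy T P a γ) (t : ℝ) : ‖γ.hh a t‖ ≤ ‖a‖ := by
  rw [h.cv.hh, div_mul_eq_div_div, div_eq_mul_inv (a / 2), norm_mul, norm_div, Complex.norm_ofNat]
  nlinarith [h.irh t, norm_nonneg a]

theorem hh_sub (h : Hy T P a γ) (h' : Hy T P a' γ) (t : ℝ) :
    γ.hh a t - γ.hh a' t = (a - a') * ((rh a (γ.ze t))⁻¹ * (rh a' (γ.ze t))⁻¹) := by
  rw [h.cv.hh, h'.cv.hh]
  have h1 := h.cv.rh_ne t
  have h2 := h'.cv.rh_ne t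
  field_simp
  unfold rh
  ring

theorem irh2 (h : Hy T P a γ) (h' : Hy T P a' γ) (t : ℝ) :
    ‖(rh a (γ.ze t))⁻¹ * (rh a' (γ.ze t))⁻¹‖ ≤ 1 :=
  (Scl.n2 (h.irh t) (h'.irh t)).trans (by norm_num)

theorem Oh_le (h : Hy T P a γ) (t : ℝ) : ‖γ.Oh a t‖ ≤ 1 := by
  rw [γ.Oh_apply, norm_mul, norm_div, Complex.norm_ofNat]
  linarith [h.az t]

/-- the coefficients of the equation -/
def co (γ : Path) (a : ℂ) (k : BC) : Fin 6 → BC :=
  ![a • 1, binv γ.ze, (γ.cyl a).io, γ.hh a, γ.Oh a, k]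

theorem co_le (h : Hy T P a γ) {k : BC} (hk : ∀ t, ‖k t‖ ≤ 2) (i : Fin 6) :
    ‖(W.C (co γ a k i) : WB)‖ ≤ 2 := by
  rw [W.norm_C]
  refine norm_BC_le fun t => ?_
  fin_cases i
  · change ‖a * 1‖ ≤ 2
    rw [mul_one]
    linarith [h.a_le]
  · change ‖binv γ.ze t‖ ≤ 2
    rw [h.cv.iz]
    linarith [h.iz t]
  · change ‖(γ.cyl a).io t‖ ≤ 2
    rw [h.cv.io, Om, mul_inv]
    exact (Scl.n2 (h.iz t) (h.irh t)).trans (by norm_num)
  · change ‖γ.hh a t‖ ≤ 2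
    linarith [h.hh_le t, h.a_le]
  · change ‖γ.Oh a t‖ ≤ 2
    linarith [h.Oh_le t]
  · exact hk t

theorem co_sub (h : Hy T P a γ) (h' : Hy T P a' γ) (i : Fin 6) (t : ℝ) :
    ‖co γ a' (γ.rho a' * binv (γ.rho a)) i t - co γ a 1 i t‖ ≤ ‖a - a'‖ * ‖γ.ze t‖ := by
  have h0 : ‖a - a'‖ ≤ ‖a - a'‖ * ‖γ.ze t‖ := le_mul_of_one_le_right (norm_nonneg _) (h.z1 t)
  have h1 := norm_nonneg (a - a')
  fin_cases i
  · change ‖a' * 1 - a * 1‖ ≤ _
    rwa [mul_one, mul_one, norm_sub_rev a']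
  · change ‖binv γ.ze t - binv γ.ze t‖ ≤ _
    rw [sub_self, norm_zero]
    positivity
  · change ‖(γ.cyl a').io t - (γ.cyl a).io t‖ ≤ _
    have e : (γ.cyl a).io t - (γ.cyl a').io t = (γ.ze t)⁻¹ * (rh a' (γ.ze t))⁻¹ *
        (rh a' (γ.ze t) * (rh a (γ.ze t))⁻¹ - 1) := by
      rw [h.cv.io, h'.cv.io, Om, Om]
      have h1 := h.cv.rh_ne t
      have h2 := h'.cv.rh_ne t
      have h3 := h.cv.ze_ne t
      field_simp
    rw [norm_sub_rev, e]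
    exact (Scl.n2 (Scl.n2 (h.iz t) (h'.irh t)) (h.k_sub a' t)).trans (by linarith)
  · change ‖γ.hh a' t - γ.hh a t‖ ≤ _
    rw [norm_sub_rev, h.hh_sub h']
    exact (Scl.n2 le_rfl (h.irh2 h' t)).trans (by linarith)
  · change ‖γ.Oh a' t - γ.Oh a t‖ ≤ _
    rw [norm_sub_rev, γ.Oh_apply, γ.Oh_apply, ← sub_mul, ← sub_div, norm_mul, norm_div,
      Complex.norm_ofNat]
    linarith
  · change ‖(γ.rho a' * binv (γ.rho a)) t - 1‖ ≤ _
    rw [h.k_apply]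
    linarith [h.k_sub a' t]

theorem src_le (h : Hy T P a γ) (u : BC) :
    ‖(W.C u * (W.C (γ.Oh a) * W.C (γ.hh a)) : WB)‖ ≤ ‖a‖ * ‖u‖ := by
  rw [← map_mul, ← map_mul, W.norm_C]
  refine norm_BC_le fun t => ?_
  exact (Scl.n2 (u.norm_coe_le_norm t) (Scl.n2 (h.Oh_le t) (h.hh_le t))).trans_eq (by ring)

theorem src_sub (h : Hy T P a γ) (h' : Hy T P a' γ) (u : BC) :
    ‖(W.C u * W.C (binv γ.ze) * (W.C (γ.Oh a') * W.C (γ.hh a') - W.C (γ.Oh a) * W.C (γ.hh a)) :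
      WB)‖ ≤ (‖a‖ + ‖a'‖) * ‖u‖ * ‖a - a'‖ := by
  rw [← map_mul, ← map_mul, ← map_mul, ← map_sub, ← map_mul, W.norm_C]
  refine norm_BC_le fun t => ?_
  have e : (u * binv γ.ze * (γ.Oh a' * γ.hh a' - γ.Oh a * γ.hh a)) t = -(u t * (a - a') *
      (2⁻¹ * γ.hh a t + 2⁻¹ * a' * ((rh a (γ.ze t))⁻¹ * (rh a' (γ.ze t))⁻¹))) := by
    change u t * binv γ.ze t * (γ.Oh a' t * γ.hh a' t - γ.Oh a t * γ.hh a t) = _
    rw [h.cv.iz, γ.Oh_apply, γ.Oh_apply]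
    linear_combination (-(u t * a' / 2) * (γ.ze t * (γ.ze t)⁻¹)) * h.hh_sub h' t -
      (u t * (a - a') * (2⁻¹ * γ.hh a t + 2⁻¹ * a' * ((rh a (γ.ze t))⁻¹ * (rh a' (γ.ze t))⁻¹))) *
        mul_inv_cancel₀ (h.cv.ze_ne t)
  have h2 : ‖(2⁻¹ : ℂ)‖ ≤ 1 := by norm_num
  rw [e, norm_neg]
  exact (Scl.n2 (Scl.n2 (u.norm_coe_le_norm t) le_rfl) (norm_add_le_of_le (Scl.n2 h2 (h.hh_le t))
    (Scl.n2 (Scl.n2 h2 le_rfl) (h.irh2 h' t)))).trans_eq (by ring)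

/-- the data for the change of the equation -/
def dat (h : Hy T P a γ) (h' : Hy T P a' γ) (hn : (γ.cyl a).nrm muCyl 1 j ≤ 1 / 100) (w : BC) :
    NaD WB where
  u := W.C (w * γ.ze)
  w := W.C (binv γ.ze)
  b i := W.C (co γ a' (γ.rho a' * binv (γ.rho a)) i)
  b' i := W.C (co γ a 1 i)
  x := ![j.y, j.yt, j.ytt, j.op, j.oq, j.pt]
  ε := (γ.cyl a).nrm muCyl (w * γ.ze) j + (‖a‖ + ‖a'‖) * ‖w * γ.ze‖
  p := ‖a - a'‖
  hb i := by
    refine ⟨h'.co_le (fun t => ?_) i, h.co_le (fun t => by simp) i, ?_⟩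
    · rw [h.k_apply]
      linarith [h.k_le h' t]
    · rw [← map_sub, ← map_mul, W.norm_C]
      refine norm_BC_le fun t => ?_
      rw [BoundedContinuousFunction.mul_apply, BoundedContinuousFunction.sub_apply, norm_mul,
        h.cv.iz, norm_inv, inv_mul_le_iff₀ (one_pos.trans_le (h.z1 t))]
      exact (h.co_sub h' i t).trans_eq (mul_comm _ _)
  hx i := by
    have h1 : ‖j‖ ≤ 2 := by
      have := (le_max_left _ _).trans hn
      rw [EJ.wt_one] at this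
      linarith
    fin_cases i
    exacts [j.norm_y_le.trans h1, j.norm_yt_le.trans h1, j.norm_ytt_le.trans h1,
      j.norm_op_le.trans h1, j.norm_oq_le.trans h1, j.norm_pt_le.trans h1]
  hs i := by
    have h1 : ‖j.wt (w * γ.ze)‖ ≤
        (γ.cyl a).nrm muCyl (w * γ.ze) j + (‖a‖ + ‖a'‖) * ‖w * γ.ze‖ :=
      (le_max_left _ _).trans (le_add_of_nonneg_right (by positivity))
    have h2 := (j.wt (w * γ.ze)).norm_y_le.trans h1
    have h3 := (j.wt (w * γ.ze)).norm_yt_le.trans h1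
    have h4 := (j.wt (w * γ.ze)).norm_ytt_le.trans h1
    rw [EJ.wt_y] at h2
    rw [EJ.wt_yt] at h3
    rw [EJ.wt_ytt] at h4
    fin_cases i
    exacts [h2, h3, h4, (j.wt _).norm_op_le.trans h1, (j.wt _).norm_oq_le.trans h1,
      (j.wt _).norm_pt_le.trans h1]
  h1 := by
    have h1 : 0 ≤ (γ.cyl a).nrm muCyl (w * γ.ze) j := (norm_nonneg _).trans (le_max_left _ _)
    have h2 := mul_nonneg (norm_nonneg a) (norm_nonneg (w * γ.ze))
    have h3 := mul_nonneg (norm_nonneg a') (norm_nonneg (w * γ.ze))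
    exact ⟨(h'.src_le _).trans (by linarith), (h.src_le _).trans (by linarith)⟩
  h2 := by
    refine (h.src_sub h' _).trans ?_
    gcongr
    exact le_add_of_nonneg_left ((norm_nonneg _).trans (le_max_left _ _))

end Hy

end NaP

theorem naStmt : NaStmt := by
  obtain ⟨C, h0, hC⟩ := NaP.cylE_lip WB
  refine ⟨C + 4, by linarith, 256, fun T P a a' γ j w hT hγ hP ha ha' hj hn => ?_⟩
  have h : NaP.Hy T P a γ := ⟨hT, hγ, hP, ha⟩
  have h' : NaP.Hy T P a' γ := ⟨hT, hγ, hP, ha'⟩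
  have h1 : ∀ w, 0 ≤ (γ.cyl a).nrm muCyl w j := fun w => (norm_nonneg _).trans (le_max_left _ _)
  refine ⟨h.jet h' hj, (h.nrm_le h' hj w).trans (by gcongr; exacts [h1 _, by linarith]), ?_,
    fun t => (h.tr_le h' hj t).trans ?_⟩
  · have h2 := hC (h.dat h' hn w)
    have e1 : (W.C (w * γ.ze) * W.C (binv γ.ze) : WB) = W.C w := by
      rw [← map_mul, mul_assoc]
      congr 1
      ext t
      change w t * (γ.ze t * binv γ.ze t) = _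
      rw [h.cv.iz, mul_inv_cancel₀ (h.cv.ze_ne t), mul_one]
    have e2 : ∀ z : ℂ, (W.C (z • 1) : WB) = algebraMap ℂ WB z := fun z => by
      rw [← Algebra.algebraMap_eq_smul_one, AlgHom.commutes]
    change ‖W.C (w * γ.ze) * W.C (binv γ.ze) * (cylE (W.C (a' • 1)) _ _ _ _ _ _ _ _ _ _ -
      cylE (W.C (a • 1)) _ _ _ _ _ _ _ (W.C 1 * _) (W.C 1 * _) _)‖ ≤ C * ((_ + _) * ‖a - a'‖) at h2
    rw [e1, e2, e2, map_one, one_mul, one_mul] at h2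
    refine h2.trans ?_
    rw [mul_comm _ ‖a - a'‖, ← mul_assoc]
    have := h1 (w * γ.ze)
    gcongr
    linarith
  · rw [← mul_assoc]
    gcongr
    linarith

end Vale.Agent.P218N.End
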