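import Vale.Agent.P218N.End.ApiCv2
import Vale.Agent.P218N.End.ApiCvS

/-! (Pt): the change of the slope at a point. -/

open Filter Topology Metric Set Complex
open scoped ComplexConjugate

noncomputable section

namespace Vale.Agent.P218N.End.Cv

open Vale.Agent.P218N.J

variable {c K T : ℝ} {a a' ζ u : ℂ}

theorem rh_zero (ζ : ℂ) : rh 0 ζ = 2 := by simp [rh]

section hol
variable {E : Type*} [NormedAddCommGroup E] [NormedSpace ℂ E] {f g : E → ℂ} {x : E}

theorem dAt_rh (hf : DifferentiableAt ℂ f x) : DifferentiableAt ℂ (fun x => rh (f x) ζ) x := by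
  unfold rh
  fun_prop

theorem dAt_div (hf : DifferentiableAt ℂ f x) (hg : DifferentiableAt ℂ g x) (h : g x ≠ 0) :
    DifferentiableAt ℂ (fun x => f x / g x) x := by
  simp only [div_eq_mul_inv]
  exact hf.mul (hg.inv h)

theorem dAt_sgm (hf : DifferentiableAt ℂ f x) (hg : DifferentiableAt ℂ g x)
    (h : Nr (f x) (g x) ζ) : DifferentiableAt ℂ (fun x => sgm (f x) (g x) ζ) x :=
  (differentiableAt_sqrt h.slit).comp x (dAt_div (dAt_rh hf) (dAt_rh hg) h.ne)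

theorem dAt_laP (hf : DifferentiableAt ℂ f x) (hc : 0 < c) (hK : 128 / c ≤ K)
    (h : Sec c K u (Om (f x) ζ)) (m : ℤ) : DifferentiableAt ℂ (fun x => laP (f x) ζ m) x := by
  have h1 : Om (f x) ζ ≠ 0 := norm_pos_iff.1 ((K_pos hc hK).trans_le h.big)
  have h2 : DifferentiableAt ℂ (fun x => (muCyl m : ℂ) / 2 * (Om (f x) ζ)⁻¹) x :=
    (((dAt_rh hf).const_mul ζ).inv h1).const_mul _
  exact ((hasDerivAt_Sf (h.gd hc hK m).slit).differentiableAt.comp x h2).add_const _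

theorem dAt_oe (hf : DifferentiableAt ℂ f x) (h : rh (f x) ζ ≠ 0) :
    DifferentiableAt ℂ (fun x => oe (f x) a' ζ) x :=
  (((dAt_div hf ((dAt_rh hf).const_mul 2) (mul_ne_zero two_ne_zero h))).sub_const _).const_mul _

theorem dAt_cvY (hf : DifferentiableAt ℂ f x) (hg : DifferentiableAt ℂ g x)
    (h : Nr (f x) (g x) ζ) {d : E → WD} (hd : DifferentiableAt ℂ d x) :
    DifferentiableAt ℂ (fun x => cvY (f x) (g x) ζ (d x)) x :=
  ((dAt_sgm hf hg h).smul hd).add (((dAt_sgm hf hg h).sub_const 1).smul_const _)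

end hol

theorem norm_T2 (hT : 2 ≤ T) : ‖(T : ℂ) - 2‖ ≤ T := by
  rw [← ofReal_ofNat, ← ofReal_sub, norm_real, Real.norm_of_nonneg (by linarith)]
  linarith

theorem mul_T (hT : 2 ≤ T) {k : ℝ} (hk : 0 < k) (ha : ‖a‖ < 1 / (k * T)) : ‖a‖ * T < 1 / k := by
  rw [lt_div_iff₀ (by positivity)] at ha
  rw [lt_div_iff₀ hk]
  linarith

theorem rh_T (hT : 2 ≤ T) (ha : ‖a‖ * T ≤ 1 / 4) : ‖rh a T - 2‖ ≤ 1 / 4 := by
  rw [rh, add_sub_cancel_left, norm_mul]
  exact le_trans (by gcongr; exact norm_T2 hT) ha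

theorem rh_T_re (hT : 2 ≤ T) (ha : ‖a‖ * T ≤ 1 / 4) : 7 / 4 ≤ (rh a T).re := by
  have h2 := (abs_le.1 ((abs_re_le_norm _).trans (rh_T hT ha))).1
  simp only [sub_re, re_ofNat] at h2
  linarith

theorem rh_T_ne (hT : 2 ≤ T) (ha : ‖a‖ * T ≤ 1 / 4) : rh a T ≠ 0 :=
  norm_pos_iff.1 (by linarith [rh_T_re hT ha, re_le_norm (rh a T)])

theorem tht_T (hT : 2 ≤ T) (ha : ‖a'‖ * T ≤ 1 / 4) : tht a a' T ≤ ‖a - a'‖ * T := by
  have h1 : 1 ≤ ‖rh a' T‖ := by linarith [rh_T_re hT ha, re_le_norm (rh a' T)]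
  exact (div_le_self (by positivity) h1).trans (by gcongr; exact norm_T2 hT)

theorem nr_T (hT : 2 ≤ T) (ha : ‖a'‖ * T ≤ 1 / 4) (h : ‖a - a'‖ * T ≤ 1 / 4) : Nr a a' T :=
  ⟨rh_T_ne hT ha, (tht_T hT ha).trans h⟩

theorem pt_T (hT : 256 ≤ T) (ha : ‖a‖ * T ≤ 1 / 4) (h : Nr a a' T) : Pt (1 / 2) T 1 a a' T := by
  have h1 := rh_T_re (by linarith) ha
  have h3 := norm_le_insert' (rh a T) 2
  have h4 := rh_T (by linarith) ha
  rw [Complex.norm_ofNat] at h3
  have hre : (Om a T).re = T * (rh a T).re := by rw [Om, re_ofReal_mul]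
  refine ⟨by norm_num, by linarith, le_rfl, ⟨norm_one, by norm_num, ?_, ?_⟩, h⟩
  · rw [map_one, one_mul, hre, Om, norm_mul, norm_real, Real.norm_of_nonneg (by linarith)]
    nlinarith
  · refine le_trans ?_ (re_le_norm _)
    rw [hre]
    nlinarith

theorem nr_T0 (hT : 2 ≤ T) (ha : ‖a‖ * T ≤ 1 / 4) : Nr a 0 T :=
  nr_T hT (by simp) (by simpa using ha)

theorem hol_cvP (hT : 256 ≤ T) : DifferentiableOn ℂ
    (fun p : ℂ × WD × WD => cvP p.1 0 T p.2.1 p.2.2) {p | ‖p.1‖ < 1 / (4 * T)} := by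
  have hU : IsOpen {p : ℂ × WD × WD | ‖p.1‖ < 1 / (4 * T)} := isOpen_lt (by fun_prop) (by fun_prop)
  have h2 : (2 : ℝ) ≤ T := by linarith
  have hp : ∀ p ∈ {p : ℂ × WD × WD | ‖p.1‖ < 1 / (4 * T)}, Pt (1 / 2) T 1 p.1 0 T := fun p hp =>
    pt_T hT (mul_T h2 four_pos hp).le (nr_T0 h2 (mul_T h2 four_pos hp).le)
  have hs : ∀ p ∈ {p : ℂ × WD × WD | ‖p.1‖ < 1 / (4 * T)},
      DifferentiableAt ℂ (fun p : ℂ × WD × WD => sgm p.1 0 T) p := fun p h =>
    dAt_sgm differentiableAt_fst (differentiableAt_const _) (hp p h).nr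
  have ho : ∀ p ∈ {p : ℂ × WD × WD | ‖p.1‖ < 1 / (4 * T)},
      DifferentiableAt ℂ (fun p : ℂ × WD × WD => oe p.1 0 T) p := fun p h =>
    dAt_oe differentiableAt_fst (hp p h).nr.ne'
  have hk : ∀ p ∈ {p : ℂ × WD × WD | ‖p.1‖ < 1 / (4 * T)},
      DifferentiableAt ℂ (fun p : ℂ × WD × WD => rh 0 T / rh p.1 T) p := fun p h =>
    dAt_div (differentiableAt_const _) (dAt_rh differentiableAt_fst) (hp p h).nr.ne'
  have hr : ∀ m, ∀ p ∈ {p : ℂ × WD × WD | ‖p.1‖ < 1 / (4 * T)},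
      DifferentiableAt ℂ (fun p : ℂ × WD × WD => laP 0 T m / laP p.1 T m) p := fun m p h =>
    dAt_div (differentiableAt_const _)
      (dAt_laP differentiableAt_fst (hp p h).c0 (hp p h).hK (hp p h).sec m) (la_ne _)
  simp only [cvP_eq]
  refine DifferentiableOn.add (DifferentiableOn.add ?_ ?_) fun p h => ?_
  · refine differentiableOn_diag (T := fun (p : ℂ × WD × WD) m => s1 p.1 0 T m •
      ContinuousLinearMap.id ℂ ℂ) hU (fun p h => norm_symb_le (hp p h).s1_le') (fun m p h => ?_)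
      (by fun_prop)
    exact ((((hs p h).mul (hk p h)).mul (hr m p h)).smul_const _).differentiableWithinAt
  · refine differentiableOn_diag (T := fun (p : ℂ × WD × WD) m => s2 p.1 0 T m •
      ContinuousLinearMap.id ℂ ℂ) hU (fun p h => norm_symb_le (hp p h).s2_le') (fun m p h => ?_)
      (by fun_prop)
    exact ((((hs p h).mul ((dAt_div ((((hk p h).mul (hr m p h)).const_sub 1).mul_const _)
      (differentiableAt_const _) two_ne_zero).add
      ((ho p h).const_mul _))).mul_const _).smul_const _).differentiableWithinAt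
  · exact (((((hs p h).const_mul _).mul (ho p h)).sub (dAt_div ((hs p h).sub_const 1)
      (differentiableAt_const _) two_ne_zero)).smul_const _).differentiableWithinAt

theorem lip_cvP (hT : 256 ≤ T) (ha : ‖a‖ * T ≤ 1 / 8) (ha' : ‖a'‖ * T ≤ 1 / 8) (d π : WD) :
    ‖cvP a 0 T d π - cvP a' 0 T d π‖ ≤
      100000 * ‖a - a'‖ * (1 + T * (‖π‖ + ‖d‖ + T * (‖a‖ + ‖a'‖))) := by
  have h2 : (2 : ℝ) ≤ T := by linarith
  have hS : ‖a - a'‖ * T ≤ T * (‖a‖ + ‖a'‖) := by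
    rw [mul_comm]
    gcongr
    exact norm_sub_le _ _
  have n1 : Nr a a' T := nr_T h2 (by linarith) (by linarith)
  have n2 : Nr a' 0 T := nr_T0 h2 (by linarith)
  have p1 := pt_T hT (by linarith) n1
  have p2 := pt_T hT (by linarith) n2
  have t1 := tht_T (a := a) (a' := a') h2 (by linarith)
  have t2 := tht_T (a := a') (a' := 0) h2 (by simp)
  rw [sub_zero] at t2
  have b1 := p1.cvP_le d π
  have b2 := n1.cvY_le d
  have b3 := p2.cvP_sub (cvY a a' T d) (cvP a a' T d π) d π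
  rw [cvP_cvP n1.ne' n1.ne n2.ne (n1.s_mul n2)] at b3
  have b4 := norm_le_insert' (cvP a 0 T d π - cvP a' 0 T d π) (cvP a a' T d π - π)
  norm_num only at b1 b3
  have h0 := tht_nonneg a a' T
  have h0' := tht_nonneg a' 0 T
  have hd := norm_nonneg d
  have hπ := norm_nonneg π
  have hδ := norm_nonneg (a - a')
  have hT0 : 0 < T := by linarith
  set X := 1 + T * (‖π‖ + ‖d‖ + T * (‖a‖ + ‖a'‖)) with hX
  have hX0 : 0 ≤ ‖a - a'‖ * X := by positivity
  have c1 : tht a a' T * (‖π‖ + ‖d‖ + 1 / T + tht a a' T) ≤ ‖a - a'‖ * X := by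
    calc _ ≤ ‖a - a'‖ * T * (‖π‖ + ‖d‖ + 1 / T + T * (‖a‖ + ‖a'‖)) := by
          gcongr
          exact t1.trans hS
      _ = _ := by rw [hX]; field_simp; ring
  have c2 : tht a' 0 T * ‖cvY a a' T d - d‖ ≤ ‖a - a'‖ * X := by
    have e1 : tht a' 0 T * (1 + ‖d‖) ≤ ‖d‖ + T * (‖a‖ + ‖a'‖) := by
      nlinarith [mul_nonneg hT0.le (norm_nonneg a)]
    calc _ ≤ tht a' 0 T * (‖a - a'‖ * T * (1 + ‖d‖)) := by
          gcongr
          exact b2.trans (by gcongr)
      _ = ‖a - a'‖ * T * (tht a' 0 T * (1 + ‖d‖)) := by ring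
      _ ≤ ‖a - a'‖ * T * (‖d‖ + T * (‖a‖ + ‖a'‖)) := by gcongr
      _ ≤ _ := by rw [hX]; nlinarith [mul_nonneg hδ (mul_nonneg hT0.le hπ)]
  have c3 : ‖cvP a a' T d π - π‖ ≤ 288 * (‖a - a'‖ * X) := by nlinarith
  have c4 : tht a' 0 T * ‖cvP a a' T d π - π‖ ≤ 1 * (288 * (‖a - a'‖ * X)) :=
    mul_le_mul (by linarith) c3 (norm_nonneg _) zero_le_one
  nlinarith

theorem lip_cvY (hT : 2 ≤ T) (ha : ‖a‖ * T ≤ 1 / 8) (ha' : ‖a'‖ * T ≤ 1 / 8) (d : WD) :
    ‖cvY a 0 T d - cvY a' 0 T d - ((a - a') * (T - 2) / 4) • (1 : WD)‖ ≤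
      ‖a - a'‖ * T * (‖d‖ + T * (‖a‖ + ‖a'‖)) := by
  have n1 : Nr a 0 T := nr_T0 hT (by linarith)
  have n2 : Nr a' 0 T := nr_T0 hT (by linarith)
  have t1 := n1.s1.trans (tht_T (a := a) (a' := 0) hT (by simp))
  have t2 := n2.s1.trans (tht_T (a := a') (a' := 0) hT (by simp))
  rw [sub_zero] at t1 t2
  have e : (a - a') * (T - 2) / 2 = (sgm a 0 T - sgm a' 0 T) * (sgm a 0 T + sgm a' 0 T) := by
    have e1 := Nr.s_sq a 0 T
    have e2 := Nr.s_sq a' 0 T
    rw [rh_zero, rh] at e1 e2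
    linear_combination e2 - e1
  have h1 : ‖sgm a 0 T - sgm a' 0 T‖ ≤ ‖a - a'‖ * T := by
    have h2 := congrArg norm e
    have h3 := re_le_norm (sgm a 0 T + sgm a' 0 T)
    rw [add_re] at h3
    rw [norm_div, norm_mul, norm_mul, Complex.norm_ofNat] at h2
    nlinarith [n1.s_re, n2.s_re, norm_nonneg (sgm a 0 T - sgm a' 0 T),
      mul_le_mul_of_nonneg_left (norm_T2 hT) (norm_nonneg (a - a')),
      mul_nonneg (norm_nonneg (a - a')) (norm_nonneg ((T : ℂ) - 2))]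
  have e2 : cvY a 0 T d - cvY a' 0 T d - ((a - a') * (T - 2) / 4) • (1 : WD) =
      (sgm a 0 T - sgm a' 0 T) • (d - ((sgm a 0 T - 1 + (sgm a' 0 T - 1)) / 2) • (1 : WD)) := by
    rw [show (a - a') * (T - 2) / 4 = (a - a') * (T - 2) / 2 / 2 by ring, e]
    unfold cvY
    match_scalars <;> ring
  rw [e2, norm_smul]
  refine mul_le_mul h1 ((norm_sub_le _ _).trans ?_) (norm_nonneg _) (by positivity)
  rw [norm_smul, norm_one, mul_one, norm_div, Complex.norm_ofNat]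
  linarith [norm_add_le (sgm a 0 T - 1) (sgm a' 0 T - 1), norm_nonneg (sgm a 0 T - 1),
    norm_nonneg (sgm a' 0 T - 1)]

end Cv

open Cv in
theorem ptStmt' : PtStmt' := fun c hc => by
  have h0 : 0 < 72 / c ^ 2 := by positivity
  refine ⟨72 / c ^ 2 + 100000, by linarith, max (128 / c) 256, ?_, fun T hT => ?_⟩
  · intro K a a' ζ u d π hK hζ _ _ h1 h2 h3 h4 h5 h6
    have hs : Sec c K u (J.Om a ζ) := ⟨h1, h2, h3, h4⟩
    have h : Pt c K u a a' ζ :=
      ⟨hc, (le_max_left _ _).trans hK, hζ, hs, h6, h5.trans (by linarith [hs.c1])⟩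
    have ht := tht_nonneg a a' ζ
    have hK0 := h.K128
    have k1 : tht a a' ζ ≤ (72 / c ^ 2 + 100000) * tht a a' ζ := by nlinarith
    refine ⟨(h.nr.cvY_le d).trans (by gcongr), (h.nr.cvY_le2 d).trans (by gcongr),
      (h.cvP_le d π).trans (by gcongr; linarith), (h.cvP_ns d π).trans ?_,
      fun d' π' => (h.cvP_sub d π d' π').trans (by gcongr; linarith), h.nr.cvY_inv d,
      h.nr.cvP_inv d π⟩
    have : 36 / c ^ 2 ≤ 72 / c ^ 2 := by gcongr; norm_num
    gcongr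
    linarith
  · have hT' : 256 ≤ T := (le_max_right _ _).trans hT
    have h2 : (2 : ℝ) ≤ T := by linarith
    refine ⟨hol_cvP hT', fun p hp => ?_, fun p hp => ?_, fun a a' d π ha ha' => ?_⟩
    · have h3 := (mul_T h2 four_pos hp).le
      exact (dAt_cvY (differentiableAt_const _) differentiableAt_fst
        (nr_T h2 h3 (by simpa using h3)) differentiableAt_snd).differentiableWithinAt
    · exact (dAt_cvY differentiableAt_fst (differentiableAt_const _)
        (nr_T0 h2 (mul_T h2 four_pos hp).le) differentiableAt_snd).differentiableWithinAt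
    · have h3 := (mul_T h2 (by norm_num) ha).le
      have h4 := (mul_T h2 (by norm_num) ha').le
      refine ⟨(lip_cvP hT' h3 h4 d π).trans (by gcongr; linarith), (lip_cvY h2 h3 h4 d).trans ?_⟩
      gcongr
      nlinarith [norm_nonneg (a - a')]

end Vale.Agent.P218N.End
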