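import Vale.Agent.P218N.End.ApiPt
import Vale.Agent.P218N.End.Api2

/-! (Pt2): composition and conjugation of the changes of slope at a real point. -/

open Filter Topology Metric Set Complex
open scoped ComplexConjugate

noncomputable section

namespace Vale.Agent.P218N.End

open Vale.Agent.P218N.J

namespace Cv

variable {T : ℝ} {a a' : ℂ}

theorem sgm_T (hT : 2 ≤ T) (ha : ‖a‖ * T ≤ 1 / 4) (ha' : ‖a'‖ * T ≤ 1 / 4) :
    ‖sgm a a' T - 1‖ ≤ 1 / 3 := by
  refine (norm_sqrt_sub_one _).trans ?_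
  have h1 : 7 / 4 ≤ ‖rh a' T‖ := (rh_T_re hT ha').trans (re_le_norm _)
  rw [div_sub_one (rh_T_ne hT ha'), norm_div, div_le_iff₀ (by linarith)]
  have h2 := norm_sub_le (rh a T - 2) (rh a' T - 2)
  rw [sub_sub_sub_cancel_right] at h2
  linarith [rh_T hT ha, rh_T hT ha']

theorem conj_rh (a : ℂ) (T : ℝ) : conj (rh a T) = rh (conj a) T := by
  simp only [rh, map_add, map_mul, map_sub, map_ofNat, conj_ofReal]

theorem conj_Om (a : ℂ) (T : ℝ) : conj (Om a T) = Om (conj a) T := by
  rw [Om, Om, map_mul, conj_ofReal, conj_rh]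

theorem conj_oe (a a' : ℂ) (T : ℝ) : conj (oe a a' T) = oe (conj a) (conj a') T := by
  simp only [oe, map_mul, map_sub, map_div₀, map_ofNat, conj_rh, conj_Om]

theorem conj_sgm (h : ‖sgm a a' T - 1‖ ≤ 1 / 3) :
    conj (sgm a a' T) = sgm (conj a) (conj a') T := by
  refine (sqrt_eq_of ?_ ?_).symm
  · rw [← map_pow, Nr.s_sq, map_div₀, conj_rh, conj_rh]
  · rw [conj_re]
    linarith [re_ge_of h]

theorem conj_laP (hT : 256 ≤ T) (ha : ‖a‖ * T ≤ 1 / 4) (m : ℤ) :
    conj (laP a T (-m)) = laP (conj a) T m := by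
  have p := pt_T hT ha (nr_T0 (by linarith) ha)
  rw [laP, conj_la (p.sec.gd p.c0 p.hK _).slit, muCyl_neg, laP]
  simp only [map_mul, map_div₀, map_inv₀, map_ofNat, conj_ofReal, conj_Om]

end Cv

open Cv in
theorem pt2Stmt : Pt2Stmt := fun T a a' a'' d π hT ha ha' ha'' => by
  have h2 : (2 : ℝ) ≤ T := by linarith
  have b := (mul_T h2 four_pos ha).le
  have b' := (mul_T h2 four_pos ha').le
  have b'' := (mul_T h2 four_pos ha'').le
  have n := rh_T_ne h2 b
  have n' := rh_T_ne h2 b'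
  have n'' := rh_T_ne h2 b''
  have s := sgm_T h2 b b'
  have hs : sgm a' a'' T * sgm a a' T = sgm a a'' T := by
    refine (sqrt_eq_of ?_ (re_mul_pos (sgm_T h2 b' b'') ?_)).symm
    · rw [mul_pow, Nr.s_sq, Nr.s_sq]
      field_simp
    · linarith [re_ge_of s, norm_le_of s]
  refine ⟨cvY_self n d, cvP_self n d π, cvY_cvY hs d, cvP_cvP n n' n'' hs d π, ?_, ?_⟩
  · simp only [cvY, W.cj_add, W.cj_smul, W.cj_one, map_sub, map_one, conj_sgm s]
  · have hT' : (256 : ℝ) ≤ T := by linarith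
    have e1 : (fun m => conj (s1 a a' T (-m))) = s1 (conj a) (conj a') T := funext fun m => by
      simp only [s1, map_mul, map_div₀, conj_sgm s, conj_rh, conj_laP hT' b, conj_laP hT' b']
    have e2 : (fun m => conj (s2 a a' T (-m))) = s2 (conj a) (conj a') T := funext fun m => by
      simp only [s2, map_mul, map_div₀, map_add, map_sub, map_one, map_inv₀, map_ofNat, conj_ofReal,
        conj_sgm s, conj_rh, conj_laP hT' b, conj_laP hT' b', conj_oe, muCyl_neg, br_neg]
    have e3 : conj (s3 a a' T) = s3 (conj a) (conj a') T := by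
      simp only [s3, map_mul, map_div₀, map_sub, map_one, map_ofNat, conj_sgm s, conj_oe,
        ← conj_laP hT' b' 0, neg_zero]
    rw [cvP_eq, cvP_eq, W.cj_add, W.cj_add, W.cj_smul, W.cj_one, cj_mult', cj_mult', e1, e2, e3]

end Vale.Agent.P218N.End
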