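import Vale.Agent.P218N.End.ApiTr
import Vale.Agent.P218N.End.Api2

/-! Admissibility and the Gaussian area under reparametrisation. -/

open Filter Topology Metric Set Complex
open scoped ComplexConjugate

noncomputable section

namespace Vale.Agent.P218N.End

open Vale.Agent.P218N.J Vale.Agent.P218N.J.PolyP TrP

namespace RpP

theorem chord {z g : ℝ → ℂ} (hz : ∀ t, HasDerivAt z (g t) t) (L : ℂ →L[ℝ] ℝ) {k u v : ℝ}
    (hk : 0 ≤ k) (huv : u ≤ v) (h : ∀ x ∈ Icc u v, k * ‖g x‖ ≤ L (g x)) :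
    k * ‖z v - z u‖ ≤ L (z v - z u) := by
  have hf : ∀ x, HasDerivAt (fun x => k • (z x - z u)) (k • g x) x := fun x =>
    ((hz x).sub_const _).const_smul k
  have hB : ∀ x, HasDerivAt (fun x => L (z x - z u)) (L (g x)) x := fun x =>
    L.hasFDerivAt.comp_hasDerivAt x ((hz x).sub_const (z u))
  have := image_norm_le_of_norm_deriv_right_le_deriv_boundary
    (fun x _ => (hf x).continuousAt.continuousWithinAt) (fun x _ => (hf x).hasDerivWithinAt)
    (a := u) (b := v) (by simp) hB (fun x hx => by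
      rw [norm_smul, Real.norm_of_nonneg hk]
      exact h x (Ico_subset_Icc_self hx)) (x := v) ⟨huv, le_rfl⟩
  rwa [norm_smul, Real.norm_of_nonneg hk] at this

theorem dir_cmp {z g : ℝ → ℂ} (hz : ∀ t, HasDerivAt z (g t) t) (L : ℂ →L[ℝ] ℝ) {ψ : ℝ → ℝ}
    (hψ : Continuous ψ) (hm : Monotone ψ) {g' : ℂ} {t k : ℝ} (hk : 0 ≤ k)
    (hz' : HasDerivAt (fun t => z (ψ t)) g' t) (h : ∀ᶠ x in 𝓝 (ψ t), k * ‖g x‖ ≤ L (g x)) :
    k * ‖g'‖ ≤ L g' := by
  obtain ⟨δ, hδ, h⟩ := Metric.eventually_nhds_iff_ball.1 h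
  have h1 := (hasDerivAt_iff_tendsto_slope.1 hz').mono_left (nhdsGT_le_nhdsNE t)
  refine le_of_tendsto_of_tendsto (h1.norm.const_mul k) ((L.continuous.tendsto _).comp h1) ?_
  filter_upwards [self_mem_nhdsWithin,
    mem_nhdsWithin_of_mem_nhds (hψ.continuousAt.preimage_mem_nhds (ball_mem_nhds (ψ t) hδ))]
    with s hs hs'
  have h2 : 0 ≤ (s - t)⁻¹ := inv_nonneg.2 (sub_nonneg.2 (le_of_lt hs))
  have := chord hz L hk (hm (le_of_lt hs)) fun x hx =>
    h x ((convex_ball (ψ t) δ).ordConnected.out (mem_ball_self hδ) hs' hx)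
  simp only [Function.comp, slope, vsub_eq_sub, norm_smul, map_smul, smul_eq_mul,
    Real.norm_of_nonneg h2]
  nlinarith [mul_le_mul_of_nonneg_left this h2]

theorem admP_rep {c K T t₀ : ℝ} {a : ℂ} {γ γ' : Path} {φ : ℝ → ℝ} (hc : 0 < c)
    (ha : AdmP c K T a γ) (ho : γ'.Ok) (h : Rep φ γ γ' t₀) : AdmP c K T a γ' := by
  have hs : Sub φ γ γ' := ⟨h.cont, h.maps, h.eq⟩
  have hze := hs.ze ho
  have hm : Monotone fun t => φ (cl t) := fun s t hst =>
    h.mono (cl_mem s) (cl_mem t) (cl_mono hst)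
  refine ⟨ho, by rw [h.eq 0 (by simp), h.zero, ha.st], fun t => ?_, fun t => hze t ▸ ha.big _⟩
  by_cases h0 : γ'.g t = 0
  · obtain ⟨u, h1, h2, h3, -⟩ := ha.dir (φ (cl t))
    exact ⟨u, h1, h2, hze t ▸ h3, by simp [h0]⟩
  have hn : 0 < ‖γ'.g t‖ := norm_pos_iff.2 h0
  have hn' : ((‖γ'.g t‖ : ℝ) : ℂ) ≠ 0 := ofReal_ne_zero.2 hn.ne'
  have e1 := dir_cmp ha.ok.der reCLM hs.cont' hm hc.le (hs.der ho t)
    (Eventually.of_forall ha.re_g)
  set O := Om a (γ'.ze t) with hO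
  have e3 : ∀ ε ∈ Ioo 0 (c * ‖O‖), (c * ‖O‖ - ε) * ‖γ'.g t‖ ≤ (conj (γ'.g t) * O).re := by
    intro ε hε
    have := dir_cmp ha.ok.der (reCLM.comp ((ContinuousLinearMap.mul ℝ ℂ O).comp
      (conjCLE : ℂ →L[ℝ] ℂ))) hs.cont' hm (sub_nonneg.2 hε.2.le) (hs.der ho t) ?_
    · simpa [mul_comm] using this
    have hcO : Continuous fun x => Om a (γ.ze x) := by
      unfold Om rh
      fun_prop
    have h2 : ∀ᶠ x in 𝓝 (φ (cl t)), ‖Om a (γ.ze x) - O‖ < ε / 2 := by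
      rw [hO, hze]
      exact (tendsto_iff_norm_sub_tendsto_zero.1 hcO.continuousAt).eventually
        (Iio_mem_nhds (half_pos hε.1))
    filter_upwards [h2] with x hx
    obtain ⟨u, h1, -, h3, h4⟩ := ha.dir x
    have h5 : ‖O‖ - ‖Om a (γ.ze x)‖ ≤ ε / 2 :=
      (norm_sub_norm_le _ _).trans (norm_sub_rev O _ ▸ hx.le)
    have h6 : (conj u * (Om a (γ.ze x) - O)).re ≤ ε / 2 :=
      (re_le_norm _).trans (by rw [norm_mul, RCLike.norm_conj, h1, one_mul]; exact hx.le)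
    rw [mul_sub, sub_re] at h6
    have h7 : c * ‖O‖ - ε ≤ (conj u * O).re := by nlinarith [admP_c1 ha, hε.1]
    change _ ≤ (O * conj (γ.g x)).re
    conv_rhs => rw [h4, map_mul, conj_ofReal, mul_left_comm, re_ofReal_mul, mul_comm O]
    rw [mul_comm]
    exact mul_le_mul_of_nonneg_left h7 (norm_nonneg _)
  have e2 : c * ‖O‖ * ‖γ'.g t‖ ≤ (conj (γ'.g t) * O).re := by
    rcases (norm_nonneg O).eq_or_lt with h1 | h1
    · simp [norm_eq_zero.1 h1.symm]
    have h2 : Tendsto (fun ε : ℝ => (c * ‖O‖ - ε) * ‖γ'.g t‖) (𝓝[>] 0)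
        (𝓝 ((c * ‖O‖ - 0) * ‖γ'.g t‖)) :=
      (Continuous.tendsto (by fun_prop) _).mono_left nhdsWithin_le_nhds
    rw [sub_zero] at h2
    exact le_of_tendsto h2 (mem_of_superset (Ioo_mem_nhdsGT (mul_pos hc h1)) e3)
  refine ⟨γ'.g t / (‖γ'.g t‖ : ℝ), by simp [hn.ne'], ?_, ?_, by field_simp⟩
  · rw [div_ofReal_re, le_div_iff₀ hn]
    exact e1
  · rw [map_div₀, conj_ofReal, div_mul_eq_mul_div, div_ofReal_re, le_div_iff₀ hn]
    exact e2

end RpP

theorem rpStmt : RpStmt := by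
  refine ⟨fun c K T t₀ a γ γ' φ hc ha ho h => RpP.admP_rep hc ha ho h, fun c hc =>
    ⟨128 / c, fun K T a γ γ' φ j hK _ hs ha ho' h _ hn t₀ h₀ t₁ h₁ => ?_⟩⟩
  have hψ := h.cont'
  have hK0 := K_pos hc hK
  have hP : Continuous fun t => ∫ θ in (0 : ℝ)..2 * Real.pi,
      lagCyl a (γ.ze t) (ev j.y t θ) (ev j.yt t θ) (ev j.op t θ) :=
    intervalIntegral.continuous_parametric_intervalIntegral_of_continuous'
      (cont_lagCyl (γ.ze.continuous.comp continuous_fst) (continuous_ev j.y)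
        (continuous_ev j.yt) (continuous_ev j.op) (fun p => ha.slit hc hK0 p.1) fun p =>
        Dc_near (hs.trans (one_div_le_one_div_of_le (by norm_num) (admP_K hc hK ha)))
          ((admP_K hc hK ha).trans (ha.big p.1))
          ((norm_ev_le _ _ _).trans (j.norm_y_le.trans hn))
          ((norm_ev_le _ _ _).trans (j.norm_yt_le.trans hn))
          ((norm_ev_le _ _ _).trans (j.norm_op_le.trans hn))) _ _
  have := int_cmp hc ha.ok.der ha.re_g γ.g.continuous hP hψ γ'.g.continuous (h.der ho') t₀ t₁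
  rw [cl_of_mem h₀, cl_of_mem h₁] at this
  rw [Path.FCI, Path.FCI, ← this, cmp_y hψ, cmp_yt hψ, cmp_op]
  simp only [ev_cmpW hψ, h.ze ho']

end Vale.Agent.P218N.End
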