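import Vale.Agent.P218N.End.ApiTr

/-! Existence of parametrisations of parts of a path. -/

open Filter Topology Metric Set Complex

noncomputable section

namespace Vale.Agent.P218N.End

open Vale.Agent.P218N.J Vale.Agent.P218N.J.PolyP TrP

namespace SubP

variable {γ : Path} {α β T Q : ℝ}

/-- the change of the parameter -/
def fi (α β u : ℝ) : ℝ := α + β * sm u

/-- its derivative -/
def fd (β t : ℝ) : ℝ := β * (6 * cl t * (1 - cl t))

/-- the part `[α, α + β]` of a path -/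
def part (γ : Path) (α β : ℝ) : Path :=
  ⟨cmpB (fi α β) γ.ze, mkB (fun t => (fd β t : ℂ)) * cmpB (fi α β) γ.g⟩

theorem hasDerivAt_fi (α β t : ℝ) : HasDerivAt (fun t => fi α β (cl t)) (fd β t) t :=
  ((hasDerivAt_smcl t).const_mul β).const_add α

theorem cont_fi (α β : ℝ) : Continuous fun t => fi α β (cl t) :=
  continuous_iff_continuousAt.2 fun t => (hasDerivAt_fi α β t).continuousAt

theorem fi_mem (hβ : 0 ≤ β) {u : ℝ} (hu : u ∈ Icc (0 : ℝ) 1) : fi α β u ∈ Icc α (α + β) := by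
  have h1 := sm_zero.ge.trans (sm_le le_rfl hu.1 hu.2)
  have h2 := (sm_le hu.1 hu.2 le_rfl).trans sm_one.le
  unfold fi
  constructor <;> nlinarith

theorem fd_nonneg (hβ : 0 ≤ β) (t : ℝ) : 0 ≤ fd β t :=
  mul_nonneg hβ (mul_nonneg (mul_nonneg (by norm_num) (cl_mem t).1) (sub_nonneg.2 (cl_mem t).2))

theorem part_ze (t : ℝ) : (part γ α β).ze t = γ.ze (fi α β (cl t)) := cmpB_apply (cont_fi α β) _ t

theorem part_g (t : ℝ) : (part γ α β).g t = fd β t * γ.g (fi α β (cl t)) := by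
  have h1 : Continuous (fd β) := by
    have := continuous_cl
    unfold fd
    fun_prop
  change mkB _ t * cmpB _ _ t = _
  rw [cmpB_apply (cont_fi α β), mkB_apply (f := fun t => (fd β t : ℂ))
    (continuous_ofReal.comp h1) (C := |β| * 6) fun t => ?_]
  rw [norm_real, fd, norm_mul, Real.norm_eq_abs, Real.norm_of_nonneg
    (mul_nonneg (mul_nonneg (by norm_num) (cl_mem t).1) (sub_nonneg.2 (cl_mem t).2))]
  gcongr
  nlinarith [(cl_mem t).1, (cl_mem t).2]

theorem part_ok (ho : γ.Ok) : (part γ α β).Ok := by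
  refine ⟨fun t ht => ?_, fun t => ?_⟩
  · rw [part_g, fd]
    rcases not_and_or.1 ht with h | h
    · simp [cl_of_nonpos (not_le.1 h).le]
    · simp [cl_of_one_le (not_le.1 h).le]
  · rw [show ((part γ α β).ze : ℝ → ℂ) = _ from funext part_ze, part_g]
    exact (ho.der _).scomp t (hasDerivAt_fi α β t)

theorem part_sub (hα : 0 ≤ α) (hβ : 0 ≤ β) (h : α + β ≤ 1) : Sub (fi α β) γ (part γ α β) := by
  refine ⟨Continuous.continuousOn ?_, fun u hu => Icc_subset_Icc hα h (fi_mem hβ hu),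
    fun t ht => by rw [part_ze, cl_of_mem ht]⟩
  unfold fi sm
  fun_prop

theorem sg_g (T Q t : ℝ) :
    (sg T Q).g t = (((sp 0 t + sp 1 t + sp 2 t) * ((Q - T) / 3) : ℝ) : ℂ) := by
  rw [sg, pg_g]
  push_cast
  ring

theorem sg_realP (h : T ≤ Q) : (sg T Q).RealP T :=
  ⟨pg_ok, pg_zero, fun t => by rw [sg_g, ofReal_im], fun t => by
    rw [sg_g, ofReal_re]
    exact mul_nonneg (add_nonneg (add_nonneg (sp_nonneg _ _) (sp_nonneg _ _)) (sp_nonneg _ _))
      (by linarith)⟩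

theorem ivt (γ : Path) {t₁ x : ℝ} (h : 0 ≤ t₁) (h0 : (γ.ze 0).re ≤ x) (h1 : x ≤ (γ.ze t₁).re) :
    ∃ t ∈ Icc 0 t₁, (γ.ze t).re = x :=
  intermediate_value_Icc h (continuous_re.comp γ.ze.continuous).continuousOn ⟨h0, h1⟩

end SubP

open SubP

theorem subStmt : SubStmt := by
  refine ⟨fun T Q h => ⟨sg_realP h, pg_one⟩, fun γ T Q h hQ h1 => ?_,
    fun γ c T P Q hc ho h0 hd ⟨t₁, ht₁, him, hP⟩ hT hQ => ?_⟩
  · have hi : ∀ t ∈ Icc (0 : ℝ) 1, ∃ u ∈ Icc (0 : ℝ) 1, γ.ze t = (sg T Q).ze u := fun t ht => by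
      obtain ⟨u, hu, e⟩ := ivt (sg T Q) (x := (γ.ze t).re) zero_le_one
        (by rw [(sg_realP hQ.le).st, ofReal_re]; exact h.T_le t)
        (by rw [sg, pg_one, ofReal_re]; exact (h.mono ht.2).trans h1)
      exact ⟨u, hu, by rw [h.ze_eq, (sg_realP hQ.le).ze_eq, e]⟩
    obtain ⟨t₀, ht₀, e⟩ := hi 1 ⟨zero_le_one, le_rfl⟩
    obtain ⟨φ, hφ⟩ := exists_rep (γ := sg T Q) pg_ok h.ok
      (pg_strictMono (by simp; linarith) (by simp; linarith) (by simp; linarith))
      (h.mono.monotoneOn _) (h.st.trans pg_zero.symm) ht₀ e hi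
    exact ⟨φ, ⟨hφ.cont, hφ.maps, hφ.eq⟩, hφ.zero⟩
  · obtain ⟨s, hs, e⟩ := ivt γ (x := Q) ht₁.1 (by rwa [h0, ofReal_re]) (hQ.trans hP)
    have e' : γ.ze s = Q := Complex.ext e (him s hs)
    have hs1 := hs.2.trans ht₁.2
    refine ⟨⟨fi 0 s, part γ 0 s, ⟨part_ok ho, ?_, fun t => ?_, fun t => ?_⟩, ?_,
      part_sub le_rfl hs.1 (by linarith), by simp [fi, sm_zero]⟩, fi s (1 - s), part γ s (1 - s),
      part_ok ho, ?_, part_sub hs.1 (by linarith) (by linarith), by simp [fi, sm_one],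
      fun t => ⟨_, fd_nonneg (by linarith) t, part_g t⟩⟩
    · simp [part_ze, fi, cl_of_nonpos, sm_zero, h0]
    · have h1 : (fun t => ((part γ 0 s).ze t).im) = fun _ => 0 := funext fun t => by
        have := fi_mem (α := 0) hs.1 (cl_mem t)
        rw [part_ze]
        exact him _ ⟨this.1, by linarith [this.2, hs.2]⟩
      have h2 : HasDerivAt (fun t => ((part γ 0 s).ze t).im) ((part γ 0 s).g t).im t :=
        imCLM.hasFDerivAt.comp_hasDerivAt t ((part_ok ho).der t)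
      rw [h1] at h2
      exact h2.unique (hasDerivAt_const t 0)
    · rw [part_g, re_ofReal_mul]
      exact mul_nonneg (fd_nonneg hs.1 t) ((mul_nonneg hc.le (norm_nonneg _)).trans (hd _))
    · simp [part_ze, fi, cl_of_one_le, sm_one, e']
    · simp [part_ze, fi, cl_of_nonpos, sm_zero, e']

end Vale.Agent.P218N.End
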