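import Vale.Agent.P218N.End.ApiBas
import Vale.Agent.P218N.End.ApiAB

/-! The explicit weights on the ends. -/

open Filter Topology Metric Set Complex
open scoped ComplexConjugate

noncomputable section

namespace Vale.Agent.P218N.End

open Vale.Agent.P218N.J

namespace WtP

variable {c K T : ℝ} {a : ℂ} {γ : Path}

/-- the weights from a primitive -/
theorem norm_prim {Γ : Ctr} {φ : BC} (hs : Spt Γ.g) {b : ℝ → ℂ}
    (hb : ∀ t, HasDerivAt b (Γ.g t * φ t) t) (t : ℝ) :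
    ‖Γ.iW φ p0 t‖ = Real.exp (-((b t).re - (b 0).re)) ∧
      ‖Γ.Wt φ p0 t‖ = Real.exp ((b t).re - (b 0).re) := by
  have h : V p0 (Γ.g * φ) t = b t - b 0 := by
    rw [(hs.mul φ).V_eq]
    exact intervalIntegral.integral_eq_sub_of_hasDerivAt (fun x _ => hb x)
      ((Γ.g * φ).continuous.intervalIntegrable _ _)
  exact ⟨by rw [Ctr.norm_iW, h, sub_re], by rw [Ctr.Wt, norm_ex_V, h, sub_re]⟩

/-- the exponential weights -/
theorem norm_exp (ho : γ.Ok) (h0 : γ.ze 0 = T) {Γ : Ctr} (e : Γ.g = γ.g) (κ t : ℝ) :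
    ‖Γ.iW ((κ : ℂ) • 1) p0 t‖ = Real.exp (-(κ * ((γ.ze t).re - T))) ∧
      ‖Γ.Wt ((κ : ℂ) • 1) p0 t‖ = Real.exp (κ * ((γ.ze t).re - T)) := by
  have h := norm_prim (Γ := Γ) (φ := (κ : ℂ) • 1) (e ▸ ho.spt) (b := fun t => κ * γ.ze t)
    (fun t => ((ho.der t).const_mul (κ : ℂ)).congr_deriv (by simp [e, mul_comm])) t
  simp only [re_ofReal_mul, h0, ofReal_re, ← mul_sub] at h
  exact h

theorem re_exp (Γ : Ctr) (κ t : ℝ) : (Γ.g t * ((κ : ℂ) • (1 : BC)) t).re = κ * (Γ.g t).re := by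
  simp [mul_comm]

theorem re_two (Γ : Ctr) (t : ℝ) : (2 * Γ.g t * Γ.io t).re = 2 * (Γ.g t * Γ.io t).re := by
  rw [mul_assoc, show (2 : ℂ) = (2 : ℝ) from rfl, re_ofReal_mul]

/-- the standing hypotheses on a cylindrical end -/
structure Hy (c K T : ℝ) (a : ℂ) (γ : Path) : Prop where
  c0 : 0 < c
  cK : 128 ≤ c * K
  KT : K ≤ T
  sm : ‖a‖ ≤ 1 / K
  adm : AdmP c K T a γ

namespace Hy

theorem K_ge (h : Hy c K T a γ) : 128 ≤ K := admP_K h.c0 ((div_le_iff₀' h.c0).2 h.cK) h.adm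

theorem K0 (h : Hy c K T a γ) : 0 < K := by linarith [h.K_ge]

theorem T0 (h : Hy c K T a γ) : 0 < T := h.K0.trans_le h.KT

theorem iK (h : Hy c K T a γ) : 1 / K ≤ c / 128 := by
  rw [div_le_div_iff₀ h.K0 (by norm_num)]
  linarith [h.cK]

theorem a_le (h : Hy c K T a γ) : ‖a‖ ≤ c / 128 := h.sm.trans h.iK

theorem two_sub (h : Hy c K T a γ) : 1 ≤ ‖2 - 2 * a‖ ∧ ‖2 - 2 * a‖ ≤ 3 := by
  have h1 := h.a_le
  have h2 := admP_c1 h.adm
  have h3 := norm_sub_le (2 : ℂ) (2 * a)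
  have h4 := norm_sub_norm_le (2 : ℂ) (2 * a)
  rw [norm_mul, Complex.norm_ofNat] at h3 h4
  constructor <;> linarith

theorem io_eq (h : Hy c K T a γ) (t : ℝ) : (γ.cyl a).io t = (Om a (γ.ze t))⁻¹ :=
  AB.io_apply h.c0 h.K0 h.T0 h.adm t

theorem io_le (h : Hy c K T a γ) (t : ℝ) : ‖(Om a (γ.ze t))⁻¹‖ ≤ c / 128 := by
  rw [norm_inv, ← one_div]
  exact (one_div_le_one_div_of_le h.K0 (h.adm.big t)).trans h.iK

theorem iz_le (h : Hy c K T a γ) (t : ℝ) : ‖(γ.ze t)⁻¹‖ ≤ c / 128 := by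
  rw [norm_inv, ← one_div]
  exact (one_div_le_one_div_of_le h.K0 (h.KT.trans (AB.T_le_norm h.c0 h.adm t))).trans h.iK

theorem uu_eq (h : Hy c K T a γ) (t : ℝ) : uu a (γ.ze t) = Real.exp (sE a (γ.ze t)).re :=
  AB.uu_eq (AB.Om_ne h.K0 h.adm t)

theorem der_sE (h : Hy c K T a γ) (t : ℝ) : HasDerivAt (fun t => (sE a (γ.ze t)).re)
    (γ.g t * ((2 - 2 * a) * (Om a (γ.ze t))⁻¹)).re t :=
  reCLM.hasFDerivAt.comp_hasDerivAt t (AB.hasDerivAt_sE h.c0 h.K0 h.T0 h.adm t)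

theorem norm_pw (h : Hy c K T a γ) (p t : ℝ) :
    ‖(γ.cyl a).iW (γ.pw a p) p0 t‖ = (uu a T / uu a (γ.ze t)) ^ p ∧
      ‖(γ.cyl a).Wt (γ.pw a p) p0 t‖ = (uu a (γ.ze t) / uu a T) ^ p := by
  have h1 := norm_prim (Γ := γ.cyl a) (φ := γ.pw a p) h.adm.ok.spt
    (b := fun t => p * sE a (γ.ze t)) (fun t =>
      ((AB.hasDerivAt_sE h.c0 h.K0 h.T0 h.adm t).const_mul (p : ℂ)).congr_deriv (by
        rw [Path.pw, BoundedContinuousFunction.smul_apply, h.io_eq, smul_eq_mul]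
        change _ = γ.g t * _
        ring)) t
  rw [← h.adm.st, h.uu_eq, h.uu_eq, ← Real.exp_sub, ← Real.exp_sub, ← Real.exp_mul,
    ← Real.exp_mul, h1.1, h1.2, re_ofReal_mul, re_ofReal_mul]
  constructor <;> congr 1 <;> ring

theorem mono_uu (h : Hy c K T a γ) : Monotone fun t => uu a (γ.ze t) := by
  simp only [h.uu_eq]
  refine Real.exp_monotone.comp (monotone_of_deriv_nonneg
    (fun t => (h.der_sE t).differentiableAt) fun t => ?_)
  rw [(h.der_sE t).deriv]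
  refine le_trans ?_ (AB.speed_le h.K0 (h.a_le.trans (by linarith [h.c0])) h.adm t)
  have := h.c0
  positivity

theorem uu_facts (h : Hy c K T a γ) (t : ℝ) : 0 < uu a (γ.ze t) ∧
    1 / ‖γ.ze t‖ ≤ 1 / uu a (γ.ze t) + ‖a‖ ∧
      ‖a‖ ^ 2 * uu a (γ.ze t) ≤ 20 * (‖a‖ + 1 / ‖γ.ze t‖ + 1 / ‖Om a (γ.ze t)‖) := by
  have h1 := AB.ze_ne h.K0 h.adm t
  have h2 := AB.rh_ne h.K0 h.adm t
  obtain ⟨h3, h4⟩ := h.two_sub
  refine ⟨h.uu_eq t ▸ Real.exp_pos _, ?_, ?_⟩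
  · have e : (2 - 2 * a) * (γ.ze t)⁻¹ = (γ.ze t / rh a (γ.ze t))⁻¹ - a := by
      field_simp
      unfold rh
      ring
    have h5 := norm_sub_le (γ.ze t / rh a (γ.ze t))⁻¹ a
    rw [← e, norm_mul, norm_inv, norm_inv] at h5
    rw [uu, one_div, one_div]
    exact (le_mul_of_one_le_left (by positivity) h3).trans h5
  · have e : a ^ 2 * (γ.ze t / rh a (γ.ze t)) =
        a - (2 - 2 * a) * (γ.ze t)⁻¹ + (2 - 2 * a) * (2 - 2 * a) * (Om a (γ.ze t))⁻¹ := by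
      unfold Om
      field_simp
      unfold rh
      ring
    rw [uu, ← norm_pow, ← norm_mul, e, one_div, one_div]
    refine (norm_add_le _ _).trans ((add_le_add (norm_sub_le _ _) le_rfl).trans ?_)
    simp only [norm_mul, norm_inv]
    have h5 : 0 ≤ ‖γ.ze t‖⁻¹ := by positivity
    have h6 : 0 ≤ ‖Om a (γ.ze t)‖⁻¹ := by positivity
    have h7 : ‖2 - 2 * a‖ * ‖2 - 2 * a‖ ≤ 3 * 3 := by gcongr
    nlinarith [norm_nonneg a]

theorem exp_le (h : Hy c K T a γ) (t : ℝ) :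
    Real.exp (-(1 / 8 * ((γ.ze 1).re - (γ.ze t).re))) ≤ uu a (γ.ze t) / uu a (γ.ze 1) := by
  have hd : ∀ t, HasDerivAt (fun t => 1 / 8 * (γ.ze t).re - (sE a (γ.ze t)).re)
      (1 / 8 * (γ.g t).re - (γ.g t * ((2 - 2 * a) * (Om a (γ.ze t))⁻¹)).re) t := fun t =>
    ((AB.hasDerivAt_re h.adm.ok t).const_mul _).sub (h.der_sE t)
  have hm : Monotone fun t => 1 / 8 * (γ.ze t).re - (sE a (γ.ze t)).re := by
    refine monotone_of_deriv_nonneg (fun t => (hd t).differentiableAt) fun t => ?_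
    rw [(hd t).deriv]
    have h1 := re_le_norm (γ.g t * ((2 - 2 * a) * (Om a (γ.ze t))⁻¹))
    rw [norm_mul, norm_mul] at h1
    have h2 : ‖γ.g t‖ * (‖2 - 2 * a‖ * ‖(Om a (γ.ze t))⁻¹‖) ≤ ‖γ.g t‖ * (3 * (c / 128)) := by
      gcongr
      exacts [h.two_sub.2, h.io_le t]
    have h3 := AB.re_g h.adm t
    nlinarith [mul_nonneg h.c0.le (norm_nonneg (γ.g t))]
  have h1 := hm (cl_mem t).2
  simp only [PolyP.ze_cl h.adm.ok] at h1
  rw [h.uu_eq, h.uu_eq, ← Real.exp_sub]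
  exact Real.exp_le_exp.2 (by linarith)

theorem le_x (h : Hy c K T a γ) (t : ℝ) :
    c * (‖γ.g t‖ * ‖(γ.cyl a).io t‖) ≤ (γ.g t * (γ.cyl a).io t).re := by
  obtain ⟨u, -, -, h3, h4⟩ := (AB.adm0 h.c0 h.K0 h.T0 h.adm).2 t
  change γ.g t = (‖γ.g t‖ : ℝ) * u at h4
  rw [Ctr.re_dir h4, mul_left_comm]
  exact mul_le_mul_of_nonneg_left h3 (norm_nonneg _)

theorem x_nonneg (h : Hy c K T a γ) (t : ℝ) : 0 ≤ (γ.g t * (γ.cyl a).io t).re :=
  le_trans (by have := h.c0; positivity) (h.le_x t)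

theorem re_pw (h : Hy c K T a γ) {p : ℝ} (hp : |p| ≤ 1) (t : ℝ) :
    |(γ.g t * γ.pw a p t).re - 2 * p * (γ.g t * (γ.cyl a).io t).re| ≤
      (γ.g t * (γ.cyl a).io t).re / 64 := by
  have e : (γ.g t * γ.pw a p t).re - 2 * p * (γ.g t * (γ.cyl a).io t).re =
      -(2 * p * (a * (γ.g t * (γ.cyl a).io t)).re) := by
    rw [← re_ofReal_mul, ← re_ofReal_mul, ← sub_re, ← neg_re]
    simp only [Path.pw, BoundedContinuousFunction.smul_apply, smul_eq_mul]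
    congr 1
    push_cast
    ring
  have h1 := (Complex.abs_re_le_norm (a * (γ.g t * (γ.cyl a).io t))).trans_eq
    (by rw [norm_mul, norm_mul])
  rw [e, abs_neg, abs_mul, abs_mul, abs_two]
  calc _ ≤ 2 * 1 * (c / 128 * (‖γ.g t‖ * ‖(γ.cyl a).io t‖)) := by
        gcongr
        exact h1.trans (by gcongr; exact h.a_le)
    _ = c * (‖γ.g t‖ * ‖(γ.cyl a).io t‖) / 64 := by ring
    _ ≤ _ := by gcongr; exact h.le_x t

theorem wc_pw (h : Hy c K T a γ) {p l u : ℝ} (hp : |p| ≤ 1) (hl : l + 1 / 128 ≤ p)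
    (hu : p + 1 / 128 ≤ u) : (γ.cyl a).WC (γ.pw a p) l u 0 := fun t => by
  obtain ⟨h1, h2⟩ := abs_le.1 (h.re_pw hp t)
  have h3 := h.x_nonneg t
  rw [re_two]
  change l * (2 * (γ.g t * _).re) ≤ (γ.g t * _).re ∧ (γ.g t * _).re ≤ u * (2 * (γ.g t * _).re) + _
  constructor <;> nlinarith

theorem wc_exp (h : Hy c K T a γ) :
    (γ.cyl a).WC (((1 / 8 : ℝ) : ℂ) • 1) (21 / 20) 0 (1 / 5) := fun t => by
  have h1 := re_le_norm (γ.g t * (γ.cyl a).io t)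
  have h2 : ‖γ.g t‖ * ‖(γ.cyl a).io t‖ ≤ ‖γ.g t‖ * (c / 128) := by
    gcongr
    rw [h.io_eq]
    exact h.io_le t
  have h3 := AB.re_g h.adm t
  have h4 := mul_nonneg h.c0.le (norm_nonneg (γ.g t))
  rw [norm_mul] at h1
  rw [re_two, re_exp]
  change _ * (2 * (γ.g t * _).re) ≤ _ * (γ.g t).re ∧ _ * (γ.g t).re ≤ _ + _ * (γ.g t).re
  constructor <;> linarith

theorem lo_le (h : Hy c K T a γ) (t : ℝ) : ‖(γ.cyl a).lo t‖ ≤ 5 * (c / 128) := by
  have h1 := AB.ze_ne h.K0 h.adm t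
  have h2 := AB.rh_ne h.K0 h.adm t
  have e : (γ.cyl a).lo t = 2 * (γ.ze t)⁻¹ - (2 - 2 * a) * (Om a (γ.ze t))⁻¹ := by
    rw [AB.lo_apply h.c0 h.K0 h.T0 h.adm]
    unfold Om
    field_simp
    unfold rh
    ring
  rw [e]
  refine (norm_sub_le _ _).trans ?_
  rw [norm_mul, norm_mul, Complex.norm_ofNat]
  have h3 : ‖2 - 2 * a‖ * ‖(Om a (γ.ze t))⁻¹‖ ≤ 3 * (c / 128) := by
    gcongr
    exacts [h.two_sub.2, h.io_le t]
  linarith [h.iz_le t]

/-- the boundary layer of the mode `0` -/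
theorem layer (h : Hy c K T a γ) (j : EJ) (N : ℝ) (hj : (γ.cyl a).IsJet j)
    (hN : ‖W.C ((γ.cyl a).iW (((1 / 8 : ℝ) : ℂ) • 1) p0) * j.op‖ ≤ N) :
    ‖j.y2.c 0 1 - j.y2.c 0 0‖ ≤ 20 / c * N * Real.exp (1 / 8 * ((γ.ze 1).re - T)) /
      ‖Om a (γ.ze 1)‖ := by
  have hc := h.c0
  have hN0 : 0 ≤ N := (norm_nonneg _).trans hN
  set φ : BC := ((1 / 8 : ℝ) : ℂ) • 1 with hφ
  set E : BC := (γ.cyl a).iW φ p0 with hE
  have hEd : ∀ t, HasDerivAt E (-(γ.g t * φ t) * E t) t := fun t => by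
    have h1 := (h.adm.ok.spt.mul φ).neg.hasDerivAt_ex p0 t
    rw [map_neg] at h1
    exact h1
  have hy : j.y.c 0 = j.y2.c 0 := by
    rw [EJ.c_y]
    simp [br]
  have h1 := norm_le_of_fw (a := fun t => γ.g t * ((γ.cyl a).lo t - φ t))
    (b := fun t => γ.g t * (E t * j.op.c 0 t))
    (y := fun t => E t * Om a (γ.ze t) * (j.y2.c 0 t - j.y2.c 0 0)) (M := 20 / c * N)
    zero_le_one (by fun_prop) (by fun_prop) (fun t => ?_) (fun t _ => ?_) (by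
      rw [sub_self, mul_zero, norm_zero]
      positivity)
  · have hO : 0 < ‖Om a (γ.ze 1)‖ := h.K0.trans_le (h.adm.big 1)
    rw [norm_mul, norm_mul, hE, hφ, (norm_exp h.adm.ok h.adm.st (Γ := γ.cyl a) rfl _ 1).1,
      Real.exp_neg, mul_assoc, inv_mul_le_iff₀ (Real.exp_pos _)] at h1
    rw [le_div_iff₀ hO]
    linarith
  · have h2 := (hj 0).1 t
    rw [hy] at h2
    refine (((hEd t).mul (AB.hasDerivAt_Om h.adm.ok a t)).mul (h2.sub_const _)).congr_deriv ?_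
    have h3 := AB.ze_ne h.K0 h.adm t
    have h4 := AB.rh_ne h.K0 h.adm t
    rw [BoundedContinuousFunction.mul_apply, h.io_eq, AB.lo_apply h.c0 h.K0 h.T0 h.adm]
    change _ + _ * (γ.g t * _) = _
    simp only [Pi.mul_apply, Om]
    field_simp
    ring
  · have h2 : ‖E t * j.op.c 0 t‖ ≤ N := by
      rw [← c_C_mul_apply]
      exact (BoundedContinuousFunction.norm_coe_le_norm _ t).trans ((W.norm_c_le _ 0).trans hN)
    have h3 := re_le_norm (γ.g t * (γ.cyl a).lo t)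
    have h4 : ‖γ.g t‖ * ‖(γ.cyl a).lo t‖ ≤ ‖γ.g t‖ * (5 * (c / 128)) := by
      gcongr
      exact h.lo_le t
    have h5 := AB.re_g h.adm t
    have h6 : (γ.g t * φ t).re = 1 / 8 * (γ.g t).re := re_exp (γ.cyl a) _ t
    have h7 := mul_nonneg hc.le (norm_nonneg (γ.g t))
    rw [norm_mul] at h3
    rw [norm_mul, mul_sub, sub_re, h6]
    calc _ ≤ ‖γ.g t‖ * N := by gcongr
      _ = 20 / c * N * (c * ‖γ.g t‖ / 20) := by field_simp
      _ ≤ _ := by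
        gcongr
        linarith

end Hy

/-! ### Conical ends -/

theorem re_cone (h : γ.RealP T) (hT : 1 ≤ T) (A p t : ℝ) :
    (γ.g t * ((A : ℂ) • γ.cone.io + γ.pz p) t).re =
      (γ.g t).re * (A * ((γ.ze t).re⁻¹ * (γ.ze t).re⁻¹) + p * (γ.ze t).re⁻¹) := by
  rw [Path.pz, BoundedContinuousFunction.add_apply, BoundedContinuousFunction.smul_apply,
    BoundedContinuousFunction.smul_apply, h.cone_io hT, h.iz hT, mul_comm, h.ze_eq, smul_eq_mul,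
    smul_eq_mul, ← ofReal_inv, ← ofReal_mul, ← ofReal_mul, ← ofReal_mul, ← ofReal_add,
    re_ofReal_mul, mul_comm, ofReal_re]

theorem re_io (h : γ.RealP T) (hT : 1 ≤ T) (t : ℝ) :
    (γ.g t * γ.cone.io t).re = (γ.g t).re * ((γ.ze t).re⁻¹ * (γ.ze t).re⁻¹) := by
  rw [h.cone_io hT, mul_comm, h.ze_eq, ← ofReal_inv, ← ofReal_mul, re_ofReal_mul, mul_comm,
    ofReal_re]

theorem small {Λ z : ℝ} (hΛ : 0 ≤ Λ) (hz : 30 + 20 * Λ ≤ z) :
    0 < z⁻¹ ∧ z⁻¹ ≤ 1 / 30 ∧ Λ * z⁻¹ ≤ 1 / 20 := by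
  have h0 : 0 < z := by linarith
  refine ⟨by positivity, ?_, ?_⟩
  · rw [inv_le_comm₀ h0 (by norm_num)]
    linarith
  · rw [mul_inv_le_iff₀ h0]
    linarith

theorem cone_pz {Λ p : ℝ} (hΛ : 0 ≤ Λ) (hT : 30 + 20 * Λ ≤ T) (h : γ.RealP T)
    (hp : p ∈ Icc (0 : ℝ) 3) :
    γ.cone.WC (((2 * Λ : ℝ) : ℂ) • γ.cone.io + γ.pz p) Λ 0 (1 / 5) ∧ ∀ t,
      ‖γ.cone.iW (((2 * Λ : ℝ) : ℂ) • γ.cone.io + γ.pz p) p0 t‖ ≤ (T / (γ.ze t).re) ^ p ∧
      ‖γ.cone.Wt (((2 * Λ : ℝ) : ℂ) • γ.cone.io + γ.pz p) p0 t‖ ≤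
        2 * ((γ.ze t).re / T) ^ p := by
  have hT1 : 1 ≤ T := by linarith
  refine ⟨fun t => ?_, fun t => ?_⟩
  · obtain ⟨h1, h2, h3⟩ := small hΛ (hT.trans (h.T_le t))
    rw [re_two]
    change _ * (2 * (γ.g t * _).re) ≤ (γ.g t * _).re ∧ (γ.g t * _).re ≤ _ + _ * (γ.g t).re
    rw [re_cone h hT1, re_io h hT1]
    have h4 := h.re t
    generalize (γ.ze t).re⁻¹ = i at *
    have h5 : Λ * i * i ≤ 1 / 20 * (1 / 30) := by gcongr
    have h6 : p * i ≤ 3 * (1 / 30) := by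
      gcongr
      exact hp.2
    constructor
    · nlinarith [mul_nonneg h4 (mul_nonneg hp.1 h1.le)]
    · nlinarith
  · have hz : ∀ t, γ.ze t ∈ slitPlane := fun t => Or.inl (by linarith [h.T_le t])
    have h1 := norm_prim (Γ := γ.cone) (φ := ((2 * Λ : ℝ) : ℂ) • γ.cone.io + γ.pz p) h.ok.spt
      (b := fun t => ((2 * Λ : ℝ) : ℂ) * -(γ.ze t)⁻¹ + p * Complex.log (γ.ze t)) (fun t =>
        ((((h.ok.der t).inv (slitPlane_ne_zero (hz t))).neg.const_mul _).add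
          (((h.ok.der t).clog_real (hz t)).const_mul _)).congr_deriv (by
          rw [Path.pz, BoundedContinuousFunction.add_apply, BoundedContinuousFunction.smul_apply,
            BoundedContinuousFunction.smul_apply, h.cone_io hT1, h.iz hT1, smul_eq_mul,
            smul_eq_mul]
          change _ = γ.g t * _
          have := slitPlane_ne_zero (hz t)
          field_simp)) t
    have h2 : ∀ t, (((2 * Λ : ℝ) : ℂ) * -(γ.ze t)⁻¹ + p * Complex.log (γ.ze t)).re =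
        2 * Λ * -(γ.ze t).re⁻¹ + p * Real.log (γ.ze t).re := fun t => by
      rw [add_re, re_ofReal_mul, re_ofReal_mul, log_re, h.norm_ze (by linarith), neg_re]
      congr 3
      rw [h.ze_eq, ← ofReal_inv, ofReal_re, ofReal_re]
    have h3 := h.T_le t
    have h4 : (γ.ze t).re⁻¹ ≤ T⁻¹ := inv_anti₀ (by linarith) h3
    obtain ⟨h5, -, -⟩ := small hΛ (hT.trans h3)
    obtain ⟨-, -, h6⟩ := small hΛ hT
    have hz0 : 0 < (γ.ze t).re := by linarith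
    have hT0 : 0 < T := by linarith
    simp only [h2] at h1
    simp only [h.st, ofReal_re] at h1
    rw [h1.1, h1.2, Real.rpow_def_of_pos (by positivity), Real.rpow_def_of_pos (by positivity),
      Real.log_div hT0.ne' hz0.ne', Real.log_div hz0.ne' hT0.ne']
    refine ⟨Real.exp_le_exp.2 (by nlinarith [mul_nonneg hΛ (sub_nonneg.2 h4)]), ?_⟩
    have h7 : Real.exp (1 / 2) ≤ 2 := by
      have h8 := Real.add_one_le_exp (-(1 / 2))
      rw [Real.exp_neg, le_inv_comm₀ (by norm_num) (Real.exp_pos _)] at h8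
      linarith
    refine le_trans (Real.exp_le_exp.2 ?_) ((Real.exp_add _ _).trans_le
      (mul_le_mul_of_nonneg_right h7 (Real.exp_pos _).le))
    nlinarith [mul_nonneg hΛ h5.le]

theorem cone_exp {Λ : ℝ} (hΛ : 0 ≤ Λ) (hT : 30 + 20 * Λ ≤ T) (h : γ.RealP T) :
    γ.cone.WC (((1 / 8 : ℝ) : ℂ) • 1) Λ 0 (1 / 5) := fun t => by
  obtain ⟨h1, h2, h3⟩ := small hΛ (hT.trans (h.T_le t))
  rw [re_two, re_exp]
  change _ * (2 * (γ.g t * _).re) ≤ _ * (γ.g t).re ∧ _ * (γ.g t).re ≤ _ + _ * (γ.g t).re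
  rw [re_io h (by linarith)]
  have h4 := h.re t
  generalize (γ.ze t).re⁻¹ = i at *
  have h5 : Λ * i * i ≤ 1 / 20 * (1 / 30) := by gcongr
  constructor <;> nlinarith

end WtP

theorem wtStmt : WtStmt := by
  refine ⟨fun c hc => ⟨128 / c, fun K T a γ hK hT ha hγ => ?_⟩,
    fun Λ hΛ => ⟨30 + 20 * Λ, fun T γ hT h => ⟨fun p hp => WtP.cone_pz hΛ hT h hp,
      WtP.cone_exp hΛ hT h, WtP.norm_exp h.ok h.st rfl⟩⟩⟩
  have h : WtP.Hy c K T a γ := ⟨hc, (div_le_iff₀' hc).1 hK, hT, ha, hγ⟩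
  refine ⟨h.norm_pw, h.mono_uu, AB.mono_re hc hγ, h.uu_facts, WtP.norm_exp hγ.ok hγ.st rfl,
    h.exp_le, fun p hp => Or.inl ⟨rfl, ?_⟩, fun p hp => Or.inr (Or.inl ⟨rfl, ?_⟩),
    Or.inr (Or.inr ⟨rfl, h.wc_exp⟩), h.layer⟩
  · exact h.wc_pw (abs_le.2 ⟨by linarith [hp.1], by linarith [hp.2]⟩) (by linarith [hp.1])
      (by linarith [hp.2])
  · exact h.wc_pw (abs_le.2 ⟨by linarith [hp.1], by linarith [hp.2]⟩) (by linarith [hp.1])
      (by linarith [hp.2])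

end Vale.Agent.P218N.End
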