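import Vale.Agent.P218N.End.Mode

/-! Weighted estimates and holomorphic dependence for one mode. -/

open Filter Topology Metric Set Complex
open scoped BoundedContinuousFunction

noncomputable section

namespace Vale.Agent.P218N.End

namespace Ctr
variable (Γ : Ctr) (μ : ℝ)

/-- the weight `exp ∫ φ dζ`, equal to one at `r` -/
def Wt (φ : BC) (r : Icc (0 : ℝ) 1) : BC := ex (V r (Γ.g * φ))
/-- the inverse weight -/
def iW (φ : BC) (r : Icc (0 : ℝ) 1) : BC := ex (-V r (Γ.g * φ))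

/-- margin for the fast component -/
def FM (φ : BC) (c₁ : ℝ) : Prop :=
  ∀ t, c₁ * (‖Γ.g t‖ * ‖Γ.laB μ t‖) ≤ (Γ.g t * (Γ.laB μ t + Γ.de μ t - φ t)).re

/-- margin for the slow component, solved from `s` -/
def SM (φ : BC) (s : Icc (0 : ℝ) 1) (ρ : ℝ) : Prop := 0 < ρ ∧
  ((s = p0 ∧ ∀ t, ‖Γ.g t * Γ.io t * Γ.il μ t‖ ≤ ρ * (Γ.g t * (Γ.nuB μ t + φ t)).re) ∨
  (s = p1 ∧ ∀ t, ‖Γ.g t * Γ.io t * Γ.il μ t‖ ≤ ρ * -(Γ.g t * (Γ.nuB μ t + φ t)).re))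

/-- admissible contours -/
def Adm0 (c : ℝ) : Prop := 0 < c ∧ ∀ t, ∃ u : ℂ, ‖u‖ = 1 ∧ c ≤ u.re ∧
  c * ‖Γ.io t‖ ≤ (u * Γ.io t).re ∧ Γ.g t = (‖Γ.g t‖ : ℝ) * u

variable {Γ μ} {c c₁ ρ : ℝ} {φ : BC}

theorem Wt_mul_iW (φ : BC) (r : Icc (0 : ℝ) 1) : Γ.Wt φ r * Γ.iW φ r = 1 := ex_mul_neg _

@[simp] theorem iW_zero (r : Icc (0 : ℝ) 1) : Γ.iW 0 r = 1 := by simp [iW]

theorem iW_self (φ : BC) (r : Icc (0 : ℝ) 1) : Γ.iW φ r r = 1 := by simp [iW]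

theorem norm_iW (φ : BC) (r : Icc (0 : ℝ) 1) (t : ℝ) :
    ‖Γ.iW φ r t‖ = Real.exp (-(V r (Γ.g * φ) t).re) := by
  rw [iW, ex_apply, Complex.norm_exp]; rfl

theorem V_change (r s : Icc (0 : ℝ) 1) (f : BC) (t : ℝ) : V r f t = V r f s + V s f t := by
  rw [V_apply, V_apply, V_apply, cl_of_mem s.2, intervalIntegral.integral_add_adjacent_intervals
    (f.continuous.intervalIntegrable _ _) (f.continuous.intervalIntegrable _ _)]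

theorem iW_mul_ex (φ a : BC) (r s : Icc (0 : ℝ) 1) :
    Γ.iW φ r * ex (V s a) = Γ.iW φ r s • ex (V s (a - Γ.g * φ)) := by
  ext t
  simp only [iW, BoundedContinuousFunction.mul_apply, ex_apply, BoundedContinuousFunction.neg_apply,
    BoundedContinuousFunction.smul_apply, smul_eq_mul, map_sub, BoundedContinuousFunction.sub_apply,
    ← Complex.exp_add]
  rw [V_change r s _ t]
  congr 1
  ring

theorem norm_Pi (ho : Γ.Ok) (hF : Γ.FM μ φ c₁) (h1 : 0 < c₁) (r : Icc (0 : ℝ) 1) (f : BC) :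
    ‖Γ.iW φ r * Γ.Pi μ f‖ ≤ 1 / (2 * c₁) * ‖Γ.iW φ r * f‖ := by
  have s1 := ho.spt.mul (Γ.laB μ + Γ.de μ)
  have s2 := ((ho.spt.mul (Γ.laB μ)).smul (1 / 2)).mul f
  have s3 := ho.spt.mul φ
  have e := Sol_conj s1 s2 s3 p1 r
  refine (congrArg norm e).trans_le (norm_Sol_bw ?_ (s2.mul' _) (by positivity) fun t => ?_)
  · rw [sub_eq_add_neg]; exact s1.add s3.neg
  · have h2 := (Γ.iW φ r * f).norm_coe_le_norm t
    have h3 := hF t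
    have e1 : (ex (-V r (Γ.g * φ)) * ((1 / 2 : ℂ) • (Γ.g * Γ.laB μ) * f)) t =
        1 / 2 * (Γ.g t * Γ.laB μ t) * (Γ.iW φ r * f) t := by
      simp only [iW, BoundedContinuousFunction.mul_apply, BoundedContinuousFunction.smul_apply,
        smul_eq_mul]
      ring
    have e2 : (Γ.g * (Γ.laB μ + Γ.de μ) - Γ.g * φ) t = Γ.g t * (Γ.laB μ t + Γ.de μ t - φ t) := by
      simp only [BoundedContinuousFunction.mul_apply, BoundedContinuousFunction.sub_apply,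
        BoundedContinuousFunction.add_apply]
      ring
    rw [e1, e2, norm_mul, norm_mul, norm_mul]
    calc _ ≤ 1 / 2 * (‖Γ.g t‖ * ‖Γ.laB μ t‖) * ‖Γ.iW φ r * f‖ := by
          gcongr
          simp
      _ = 1 / (2 * c₁) * ‖Γ.iW φ r * f‖ * (c₁ * (‖Γ.g t‖ * ‖Γ.laB μ t‖)) := by field_simp
      _ ≤ _ := by gcongr

theorem norm_hPi (ho : Γ.Ok) (hF : Γ.FM μ φ c₁) (h1 : 0 < c₁) (r : Icc (0 : ℝ) 1) :
    ‖Γ.iW φ r * Γ.hPi μ‖ ≤ ‖Γ.iW φ r 1‖ := by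
  rw [hPi, iW_mul_ex, norm_smul]
  refine mul_le_of_le_one_right (norm_nonneg _) (norm_ex_bw ?_ fun t => ?_)
  · rw [sub_eq_add_neg]; exact (ho.spt.mul _).add (ho.spt.mul φ).neg
  · refine le_trans (le_trans (by positivity) (hF t)) (le_of_eq ?_)
    simp only [BoundedContinuousFunction.mul_apply, BoundedContinuousFunction.sub_apply,
      BoundedContinuousFunction.add_apply]
    congr 1
    ring

theorem norm_Ys (ho : Γ.Ok) {s : Icc (0 : ℝ) 1} (hS : Γ.SM μ φ s ρ) (r : Icc (0 : ℝ) 1) (π : BC) :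
    ‖Γ.iW φ r * Γ.Ys μ s π‖ ≤ ρ * ‖Γ.iW φ r * π‖ := by
  have s1 := (ho.spt.mul (Γ.nuB μ)).neg
  have s2 := ((ho.spt.mul Γ.io).mul (Γ.il μ)).mul π
  have s3 := ho.spt.mul φ
  have s4 : Spt (-(Γ.g * Γ.nuB μ) - Γ.g * φ) := by rw [sub_eq_add_neg]; exact s1.add s3.neg
  have e := Sol_conj s1 s2 s3 s r
  have hρ := hS.1
  have e1 : ∀ t, ‖(ex (-V r (Γ.g * φ)) * (Γ.g * Γ.io * Γ.il μ * π)) t‖ ≤
      ‖Γ.g t * Γ.io t * Γ.il μ t‖ * ‖Γ.iW φ r * π‖ := fun t => by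
    have h2 := (Γ.iW φ r * π).norm_coe_le_norm t
    refine le_trans (le_of_eq ?_) (mul_le_mul_of_nonneg_left h2 (norm_nonneg _))
    rw [← norm_mul]
    simp only [iW, BoundedContinuousFunction.mul_apply]
    congr 1
    ring
  have e2 : ∀ t, ((-(Γ.g * Γ.nuB μ) - Γ.g * φ) t).re = -(Γ.g t * (Γ.nuB μ t + φ t)).re := fun t => by
    rw [← Complex.neg_re]
    simp only [BoundedContinuousFunction.mul_apply, BoundedContinuousFunction.sub_apply,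
      BoundedContinuousFunction.neg_apply]
    congr 1
    ring
  refine (congrArg norm e).trans_le ?_
  rcases hS.2 with ⟨rfl, h⟩ | ⟨rfl, h⟩
  · refine norm_Sol_fw s4 (s2.mul' _) (by positivity) fun t => (e1 t).trans ?_
    rw [e2, neg_neg]
    calc _ ≤ ρ * (Γ.g t * (Γ.nuB μ t + φ t)).re * ‖Γ.iW φ r * π‖ := by gcongr; exact h t
      _ = _ := by ring
  · refine norm_Sol_bw s4 (s2.mul' _) (by positivity) fun t => (e1 t).trans ?_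
    rw [e2]
    calc _ ≤ ρ * -(Γ.g t * (Γ.nuB μ t + φ t)).re * ‖Γ.iW φ r * π‖ := by gcongr; exact h t
      _ = _ := by ring

theorem norm_hY (ho : Γ.Ok) {s : Icc (0 : ℝ) 1} (hS : Γ.SM μ φ s ρ) (r : Icc (0 : ℝ) 1) :
    ‖Γ.iW φ r * Γ.hY μ s‖ ≤ ‖Γ.iW φ r s‖ := by
  rw [hY, iW_mul_ex, norm_smul]
  have s4 : Spt (-(Γ.g * Γ.nuB μ) - Γ.g * φ) := by
    rw [sub_eq_add_neg]; exact (ho.spt.mul _).neg.add (ho.spt.mul φ).neg
  have e2 : ∀ t, ((-(Γ.g * Γ.nuB μ) - Γ.g * φ) t).re = -(Γ.g t * (Γ.nuB μ t + φ t)).re := fun t => by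
    rw [← Complex.neg_re]
    simp only [BoundedContinuousFunction.mul_apply, BoundedContinuousFunction.sub_apply,
      BoundedContinuousFunction.neg_apply]
    congr 1
    ring
  have hρ := hS.1
  refine mul_le_of_le_one_right (norm_nonneg _) ?_
  rcases hS.2 with ⟨rfl, h⟩ | ⟨rfl, h⟩
  · refine norm_ex_fw s4 fun t => ?_
    rw [e2, neg_nonpos]
    exact nonneg_of_mul_nonneg_right ((norm_nonneg _).trans (h t)) hρ
  · refine norm_ex_bw s4 fun t => ?_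
    rw [e2]
    exact nonneg_of_mul_nonneg_right ((norm_nonneg _).trans (h t)) hρ

/-! ### Margins -/

theorem Adm0.adm (h : Γ.Adm0 c) (hμ : 0 ≤ μ ∨ |μ| * ‖Γ.io‖ ≤ c / 128) : Γ.Adm μ c := fun t => by
  obtain ⟨u, h1, h2, h3, h4⟩ := h.2 t
  refine ⟨u, ⟨h.1, h1, h2, ?_⟩, h4⟩
  have e1 : (u * Γ.kk μ t).re = μ / 2 * (u * Γ.io t).re := by
    rw [kk_apply, mul_left_comm, show (μ : ℂ) / 2 = ((μ / 2 : ℝ) : ℂ) by push_cast; rfl,
      re_ofReal_mul]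
  have e2 : ‖Γ.kk μ t‖ = |μ| / 2 * ‖Γ.io t‖ := by simp [kk_apply]
  rw [e1, e2]
  rcases le_or_gt 0 μ with a | a
  · left
    rw [abs_of_nonneg a]
    nlinarith
  · right
    have h5 := Γ.io.norm_coe_le_norm t
    have h6 := hμ.resolve_left (not_le.2 a)
    refine ⟨by rw [abs_of_neg a]; nlinarith, ?_⟩
    nlinarith [abs_nonneg μ]

theorem re_dir {g u : ℂ} (h : g = (‖g‖ : ℝ) * u) (z : ℂ) : (g * z).re = ‖g‖ * (u * z).re := by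
  conv_lhs => rw [h, mul_assoc, re_ofReal_mul]

theorem Adm.norm_io_il (h : Γ.Adm μ c) (t : ℝ) :
    |μ| * ‖Γ.g t * Γ.io t * Γ.il μ t‖ = 2 * (‖Γ.g t‖ * ‖Γ.nuB μ t‖) := by
  have e : (μ : ℂ) * (Γ.g t * Γ.io t * Γ.il μ t) = 2 * (Γ.g t * Γ.nuB μ t) := by
    linear_combination (2 * Γ.g t * Γ.nuB μ t) * h.la_il t - (2 * Γ.g t * Γ.il μ t) * h.nu_la t
  have := congrArg norm e
  simpa using this

/-- the fast margin for weights growing at most like `exp (κ Re ζ)`, `κ < 1/4` -/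
theorem Adm0.fm (h : Γ.Adm0 c) {κ : ℝ} (hκ0 : 0 ≤ κ) (hκ : κ < 1 / 4)
    (hμ : 0 ≤ μ ∨ |μ| * ‖Γ.io‖ ≤ c * (1 - 4 * κ) / 128)
    (hlo : ‖Γ.lo‖ ≤ c ^ 2 * (1 - 4 * κ) / 96)
    (hφ : ∀ t, (Γ.g t * φ t).re ≤ κ * (Γ.g t).re) : Γ.FM μ φ (c * (1 - 4 * κ) / 4) := fun t => by
  have h0 := h.1
  have ha : Γ.Adm μ c := h.adm (hμ.imp_right fun a => a.trans (by nlinarith))
  obtain ⟨u, h1, h2, h3, h4⟩ := h.2 t
  have hc1 := ha.c1
  have h5 : ‖Γ.de μ t‖ ≤ c * (1 - 4 * κ) / 4 * ‖Γ.laB μ t‖ := by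
    refine (ha.norm_de t).trans (mul_le_mul_of_nonneg_right ?_ (norm_nonneg _))
    calc 24 / c * ‖Γ.lo‖ ≤ 24 / c * (c ^ 2 * (1 - 4 * κ) / 96) := by gcongr
      _ = _ := by field_simp; ring
  have h6 : -‖Γ.de μ t‖ ≤ (u * Γ.de μ t).re := by
    have := Complex.abs_re_le_norm (u * Γ.de μ t)
    rw [norm_mul, h1, one_mul] at this
    exact (abs_le.1 this).1
  have h7 : ‖Γ.laB μ t‖ ≤ 1 / 4 + ‖Γ.nuB μ t‖ := by
    rw [ha.la_eq]; exact (norm_add_le _ _).trans_eq (by simp)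
  have h8 : c * (1 - 4 * κ) / 2 * ‖Γ.laB μ t‖ ≤ (1 / 4 - κ) * u.re + (u * Γ.nuB μ t).re := by
    have b1 : (1 / 4 - κ) * c ≤ (1 / 4 - κ) * u.re := by gcongr
    have e1 : (u * Γ.kk μ t).re = μ / 2 * (u * Γ.io t).re := by
      rw [kk_apply, mul_left_comm, show (μ : ℂ) / 2 = ((μ / 2 : ℝ) : ℂ) by push_cast; rfl,
        re_ofReal_mul]
    have e2 : ‖Γ.kk μ t‖ = |μ| / 2 * ‖Γ.io t‖ := by simp [kk_apply]
    have b2 : c * (1 - 4 * κ) / 2 * ‖Γ.laB μ t‖ ≤ c * (1 - 4 * κ) / 2 * (1 / 4 + ‖Γ.nuB μ t‖) := by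
      gcongr; nlinarith
    rcases hμ with a | a
    · have b3 : c * ‖Γ.kk μ t‖ ≤ (u * Γ.kk μ t).re := by
        rw [e1, e2, abs_of_nonneg a]; nlinarith
      have b4 := Gd.slow_pos ⟨h0, h1, h2, Or.inl b3⟩ b3
      rw [← ha.nuB_apply] at b4
      nlinarith [norm_nonneg (Γ.nuB μ t), mul_nonneg h0.le (norm_nonneg (Γ.nuB μ t)),
        mul_nonneg hκ0 (mul_nonneg h0.le (norm_nonneg (Γ.nuB μ t)))]
    · have b3 := norm_nu_le' (Γ.kk μ t)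
      rw [← ha.nuB_apply, e2] at b3
      have b4 := Complex.abs_re_le_norm (u * Γ.nuB μ t)
      rw [norm_mul, h1, one_mul] at b4
      have b5 : |μ| * ‖Γ.io t‖ ≤ |μ| * ‖Γ.io‖ := by gcongr; exact Γ.io.norm_coe_le_norm t
      have b6 : ‖Γ.nuB μ t‖ ≤ c * (1 - 4 * κ) / 32 := by linarith
      have b7 : c * (1 - 4 * κ) ≤ 1 := by nlinarith
      have b8 : 0 ≤ c * (1 - 4 * κ) := by nlinarith
      nlinarith [(abs_le.1 b4).1, norm_nonneg (Γ.nuB μ t)]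
  have e3 : (Γ.g t * (Γ.laB μ t + Γ.de μ t - φ t)).re = ‖Γ.g t‖ * (u.re / 4 + (u * Γ.nuB μ t).re +
      (u * Γ.de μ t).re) - (Γ.g t * φ t).re := by
    rw [mul_sub, sub_re, re_dir h4, ha.la_eq, mul_add, mul_add, add_re, add_re, mul_one_div,
      div_ofNat_re]
  have e4 : (Γ.g t).re = ‖Γ.g t‖ * u.re := by simpa using re_dir h4 1
  have h9 := hφ t
  rw [e3]
  rw [e4] at h9
  have h10 : c * (1 - 4 * κ) / 4 * ‖Γ.laB μ t‖ ≤
      (1 / 4 - κ) * u.re + (u * Γ.nuB μ t).re + (u * Γ.de μ t).re := by linarith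
  nlinarith [mul_le_mul_of_nonneg_left h10 (norm_nonneg (Γ.g t))]

/-- the slow margin for positive modes and weights decaying at most like `exp (-2γ ∫ dζ/Ω)` -/
theorem Adm0.sm_pos (h : Γ.Adm0 c) {γ : ℝ} (hγ0 : 0 ≤ γ) (hγ : γ < 1) (hμ : 1 ≤ μ)
    (hio : γ * ‖Γ.io‖ ≤ c ^ 2 * (1 - γ) / 32)
    (hφ : ∀ t, -(2 * γ * (Γ.g t * Γ.io t).re) ≤ (Γ.g t * φ t).re) :
    Γ.SM μ φ p0 (4 / (c * (1 - γ) * μ)) := by
  have h0 := h.1
  have ha : Γ.Adm μ c := h.adm (Or.inl (by linarith))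
  have hγ1 : 0 < 1 - γ := by linarith
  refine ⟨by positivity, Or.inl ⟨rfl, fun t => ?_⟩⟩
  obtain ⟨u, h1, h2, h3, h4⟩ := h.2 t
  have e1 : (u * Γ.kk μ t).re = μ / 2 * (u * Γ.io t).re := by
    rw [kk_apply, mul_left_comm, show (μ : ℂ) / 2 = ((μ / 2 : ℝ) : ℂ) by push_cast; rfl,
      re_ofReal_mul]
  have e2 : ‖Γ.kk μ t‖ = μ / 2 * ‖Γ.io t‖ := by simp [kk_apply, abs_of_nonneg (by linarith : 0 ≤ μ)]
  have k1 := Gd.key_re u (Γ.kk μ t)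
  have k2 := Gd.key_norm (Γ.kk μ t)
  have k3 := Sf_re_pos (ha.slit t)
  have k4 : (Sf (Γ.kk μ t)).re ≤ 1 / 8 + ‖nu (Γ.kk μ t)‖ := by
    have := Complex.re_le_norm (nu (Γ.kk μ t))
    simp only [nu, sub_re, div_ofNat_re, one_re] at this ⊢
    linarith
  rw [← ha.nuB_apply] at k1 k2 k4
  rw [e1] at k1
  rw [e2] at k2
  have h5 : γ * ‖Γ.io t‖ ≤ c ^ 2 * (1 - γ) / 32 :=
    (mul_le_mul_of_nonneg_left (Γ.io.norm_coe_le_norm t) hγ0).trans hio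
  have h6 : (u * Γ.io t).re ≤ ‖Γ.io t‖ := by
    have := Complex.re_le_norm (u * Γ.io t)
    rwa [norm_mul, h1, one_mul] at this
  have h7 : c * (1 - γ) / 2 * ‖Γ.nuB μ t‖ ≤ (u * Γ.nuB μ t).re - 2 * γ * (u * Γ.io t).re := by
    refine le_of_mul_le_mul_left ?_ (by linarith : 0 < 2 * (Sf (Γ.kk μ t)).re)
    set x := (u * Γ.io t).re
    set n := ‖Γ.nuB μ t‖
    set i := ‖Γ.io t‖
    set S := (Sf (Γ.kk μ t)).re
    have hn : 0 ≤ n := norm_nonneg _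
    have hi : 0 ≤ i := norm_nonneg _
    have hx : 0 ≤ x := le_trans (by positivity) h3
    have a1 : γ * x * S ≤ γ * x * (1 / 8 + n) := by gcongr
    have a2 : γ * x * n ≤ γ * i * n := by gcongr
    have a3 : c * (4 * γ * i * n) ≤ c * (c / 2 * n ^ 2 + c * (1 - γ) / 4 * i) := by
      have a4 : γ * i * (γ * i) ≤ c ^ 2 * (1 - γ) / 32 * i :=
        mul_le_mul h5 (mul_le_of_le_one_left hi hγ.le) (by positivity) (by positivity)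
      nlinarith [sq_nonneg (c * n - 4 * (γ * i))]
    have a5 := le_of_mul_le_mul_left a3 h0
    have a6 : n ^ 2 * c ≤ n ^ 2 * u.re := by gcongr
    have a7 : c * (1 - γ) / 2 * (2 * S * n) ≤ c * (1 - γ) / 2 * (μ / 2 * i + n ^ 2) := by gcongr
    have a8 : (1 - γ) * μ * (c * i) ≤ (1 - γ) * μ * x := by gcongr
    have a9 : γ * x ≤ γ * μ * x := by nlinarith [mul_nonneg hγ0 hx]
    have a10 : (1 - γ) * (c * i) ≤ (1 - γ) * μ * (c * i) := by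
      nlinarith [mul_nonneg hγ1.le (mul_nonneg h0.le hi)]
    nlinarith [mul_nonneg (mul_nonneg h0.le hγ0) (sq_nonneg n)]
  have h8 := ha.norm_io_il t
  rw [abs_of_nonneg (by linarith : 0 ≤ μ)] at h8
  have h9 := hφ t
  rw [re_dir h4 (Γ.io t)] at h9
  rw [mul_add, add_re, re_dir h4 (Γ.nuB μ t), div_mul_eq_mul_div, le_div_iff₀ (by positivity)]
  have h10 := mul_le_mul_of_nonneg_left h7 (norm_nonneg (Γ.g t))
  have h11 : ‖Γ.g t * Γ.io t * Γ.il μ t‖ * (c * (1 - γ) * μ) =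
      c * (1 - γ) * (2 * (‖Γ.g t‖ * ‖Γ.nuB μ t‖)) := by rw [← h8]; ring
  rw [h11]
  nlinarith

/-- the slow margin for negative modes, solved backwards, and decaying weights -/
theorem Adm0.sm_neg (h : Γ.Adm0 c) (hμ : μ < 0) (hio : |μ| * ‖Γ.io‖ ≤ c / 128)
    (hφ : ∀ t, (Γ.g t * φ t).re ≤ 0) : Γ.SM μ φ p1 (6 / (c * |μ|)) := by
  have h0 := h.1
  have ha : Γ.Adm μ c := h.adm (Or.inr hio)
  have hμ' : 0 < |μ| := abs_pos.2 hμ.ne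
  refine ⟨by positivity, Or.inr ⟨rfl, fun t => ?_⟩⟩
  obtain ⟨u, h1, h2, h3, h4⟩ := h.2 t
  have e1 : (u * Γ.kk μ t).re = μ / 2 * (u * Γ.io t).re := by
    rw [kk_apply, mul_left_comm, show (μ : ℂ) / 2 = ((μ / 2 : ℝ) : ℂ) by push_cast; rfl,
      re_ofReal_mul]
  have e2 : ‖Γ.kk μ t‖ = |μ| / 2 * ‖Γ.io t‖ := by simp [kk_apply]
  have b1 : (u * Γ.kk μ t).re ≤ -(c * ‖Γ.kk μ t‖) := by rw [e1, e2, abs_of_neg hμ]; nlinarith
  have b2 : ‖Γ.kk μ t‖ ≤ c / 256 := by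
    have : |μ| * ‖Γ.io t‖ ≤ |μ| * ‖Γ.io‖ := by gcongr; exact Γ.io.norm_coe_le_norm t
    rw [e2]; linarith
  have b3 := Gd.slow_neg ⟨h0, h1, h2, Or.inr ⟨b1, b2⟩⟩ b1 b2
  rw [← ha.nuB_apply] at b3
  have h8 := ha.norm_io_il t
  have h9 := hφ t
  rw [mul_add, add_re, re_dir h4 (Γ.nuB μ t), div_mul_eq_mul_div, le_div_iff₀ (by positivity)]
  have h10 := mul_le_mul_of_nonneg_left b3 (norm_nonneg (Γ.g t))
  nlinarith

/-- the slow margin for small modes, solved forwards, and exponentially growing weights -/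
theorem Adm0.sm_exp (h : Γ.Adm0 c) {κ : ℝ} (hκ : 0 < κ) (hκ1 : κ ≤ 1 / 4)
    (hio : |μ| * ‖Γ.io‖ ≤ c * κ / 32) (hρ : 0 < ρ) (hρ' : 16 * ‖Γ.io‖ ≤ ρ * (c * κ))
    (hφ : ∀ t, κ * (Γ.g t).re ≤ (Γ.g t * φ t).re) : Γ.SM μ φ p0 ρ := by
  have h0 := h.1
  have ha : Γ.Adm μ c := h.adm (Or.inr (hio.trans (by nlinarith)))
  refine ⟨hρ, Or.inl ⟨rfl, fun t => ?_⟩⟩
  obtain ⟨u, h1, h2, h3, h4⟩ := h.2 t
  have e2 : ‖Γ.kk μ t‖ = |μ| / 2 * ‖Γ.io t‖ := by simp [kk_apply]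
  have b3 := norm_nu_le' (Γ.kk μ t)
  rw [← ha.nuB_apply, e2] at b3
  have b4 := Complex.abs_re_le_norm (u * Γ.nuB μ t)
  rw [norm_mul, h1, one_mul] at b4
  have b0 := Γ.io.norm_coe_le_norm t
  have b5 : |μ| * ‖Γ.io t‖ ≤ |μ| * ‖Γ.io‖ := by gcongr
  have e4 : (Γ.g t).re = ‖Γ.g t‖ * u.re := by simpa using re_dir h4 1
  have h9 := hφ t
  rw [e4] at h9
  have b6 : c * κ / 2 ≤ κ * u.re + (u * Γ.nuB μ t).re := by nlinarith [(abs_le.1 b4).1]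
  have b7 : ‖Γ.g t‖ * (c * κ / 2) ≤ (Γ.g t * (Γ.nuB μ t + φ t)).re := by
    rw [mul_add, add_re, re_dir h4 (Γ.nuB μ t)]
    nlinarith [mul_le_mul_of_nonneg_left b6 (norm_nonneg (Γ.g t))]
  have b8 : ‖Γ.il μ t‖ ≤ 8 := ((Γ.il μ).norm_coe_le_norm t).trans ha.norm_il
  calc ‖Γ.g t * Γ.io t * Γ.il μ t‖ ≤ ‖Γ.g t‖ * ‖Γ.io‖ * 8 := by
        rw [norm_mul, norm_mul]; gcongr
    _ ≤ ρ * (‖Γ.g t‖ * (c * κ / 2)) := by
        nlinarith [mul_le_mul_of_nonneg_left hρ' (norm_nonneg (Γ.g t))]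
    _ ≤ _ := by gcongr

end Ctr

end Vale.Agent.P218N.End
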