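import Vale.Agent.P218N.End.Ap

/-! Holomorphic dependence of the solver on the contour; existence of solutions. -/

open Filter Topology Metric Set Complex
open scoped BoundedContinuousFunction

noncomputable section

namespace Vale.Agent.P218N.End

/-- Picard iteration for a contraction in the norm `‖T ·‖` -/
theorem picard {B : Type*} [NormedAddCommGroup B] [NormedSpace ℂ B] [CompleteSpace B]
    (T : B →L[ℂ] B) {M R : ℝ} (hM : 0 ≤ M) (hT : ∀ b, ‖b‖ ≤ M * ‖T b‖) {Φ : B → B}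
    (hc : ∀ b b', ‖T b‖ ≤ R → ‖T b'‖ ≤ R → ‖T (Φ b - Φ b')‖ ≤ 1 / 2 * ‖T (b - b')‖)
    (h0 : ‖T (Φ 0)‖ ≤ R / 2) : ∃ z, Tendsto (fun n => Φ^[n] 0) atTop (𝓝 z) ∧ Φ z = z ∧
      ‖T z‖ ≤ R ∧ ∀ n, ‖T (Φ^[n] 0)‖ ≤ R := by
  have hR : 0 ≤ R := by linarith [norm_nonneg (T (Φ 0))]
  have hz : ‖T 0‖ ≤ R := by simpa using hR
  have h1 : ∀ n, ‖T (Φ^[n] 0)‖ ≤ R := fun n => by
    induction n with
    | zero => exact hz
    | succ n ih =>
      have a1 := hc _ _ ih hz
      have a2 := norm_le_norm_sub_add (T (Φ (Φ^[n] 0))) (T (Φ 0))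
      rw [map_sub, sub_zero] at a1
      rw [Function.iterate_succ_apply']
      linarith
  have h2 : ∀ n, ‖T (Φ^[n] 0 - Φ^[n + 1] 0)‖ ≤ R / 2 / 2 ^ n := fun n => by
    induction n with
    | zero => simpa using h0
    | succ n ih =>
      have a1 := hc _ _ (h1 n) (h1 (n + 1))
      rw [Function.iterate_succ_apply', Function.iterate_succ_apply' Φ (n + 1), pow_succ]
      refine a1.trans ((mul_le_mul_of_nonneg_left ih (by norm_num)).trans_eq (by ring))
  obtain ⟨z, hz'⟩ := cauchySeq_tendsto_of_complete (cauchySeq_of_le_geometric_two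
    (f := fun n => Φ^[n] 0) (C := M * R) fun n => by
      rw [dist_eq_norm]
      exact (hT _).trans ((mul_le_mul_of_nonneg_left (h2 n) hM).trans_eq (by ring)))
  have h3 : ‖T z‖ ≤ R := le_of_tendsto' ((T.continuous.tendsto z).comp hz').norm h1
  refine ⟨z, hz', ?_, h3, h1⟩
  have h4 : Tendsto (fun n => Φ^[n + 1] 0) atTop (𝓝 (Φ z)) := by
    rw [tendsto_iff_norm_sub_tendsto_zero]
    refine squeeze_zero (fun _ => norm_nonneg _) (fun n => ?_)
      (g := fun n => M * (1 / 2 * ‖T (Φ^[n] 0 - z)‖)) ?_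
    · rw [Function.iterate_succ_apply']
      exact (hT _).trans (mul_le_mul_of_nonneg_left (hc _ _ (h1 n) h3) hM)
    · simpa using ((((T.continuous.tendsto _).comp (hz'.sub_const z)).norm.const_mul
        2⁻¹).const_mul M)
  exact tendsto_nhds_unique h4 (hz'.comp (tendsto_add_atTop_nat 1))

variable {E : Type*} [NormedAddCommGroup E] [NormedSpace ℂ E] {U : Set E}

/-- mode-wise operators with a continuous bound -/
theorem differentiableOn_diag' {A B : Type*} [NormedAddCommGroup A] [NormedSpace ℂ A]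
    [NormedAddCommGroup B] [NormedSpace ℂ B] [CompleteSpace B] {T : E → ℤ → A →L[ℂ] B}
    {f : E → W A} (hU : IsOpen U) {M : E → ℝ} (hc : ContinuousOn M U)
    (hM : ∀ y ∈ U, ∀ m, ‖T y m‖ ≤ M y) (hT : ∀ m, DifferentiableOn ℂ (fun y => T y m) U)
    (hf : DifferentiableOn ℂ f U) : DifferentiableOn ℂ (fun y => W.diag (T y) (f y)) U := by
  intro x hx
  have h1 : ∀ᶠ y in 𝓝 x, y ∈ U ∧ M y < M x + 1 := Eventually.and (hU.mem_nhds hx)
    ((hc.continuousAt (hU.mem_nhds hx)).eventually (gt_mem_nhds (lt_add_one _)))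
  obtain ⟨r, hr, h2⟩ := Metric.eventually_nhds_iff_ball.1 h1
  have h3 : ball x r ⊆ U := fun y hy => (h2 y hy).1
  exact ((differentiableOn_diag isOpen_ball (fun y hy m => (hM y (h3 hy) m).trans (h2 y hy).2.le)
    (fun m => (hT m).mono h3) (hf.mono h3)).differentiableAt
      (ball_mem_nhds x hr)).differentiableWithinAt

theorem DifferentiableOn.mulL {a : E → BC} (h : DifferentiableOn ℂ a U) :
    DifferentiableOn ℂ (fun y => ContinuousLinearMap.mul ℂ BC (a y)) U :=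
  (ContinuousLinearMap.mul ℂ BC).differentiable.comp_differentiableOn h

theorem DifferentiableOn.smulR {a : E → BC} (h : DifferentiableOn ℂ a U) :
    DifferentiableOn ℂ (fun y => (ContinuousLinearMap.id ℂ ℂ).smulRight (a y)) U :=
  (ContinuousLinearMap.smulRightL ℂ ℂ BC (ContinuousLinearMap.id ℂ ℂ)).differentiable.comp_differentiableOn h

theorem DifferentiableOn.WC {a : E → BC} (h : DifferentiableOn ℂ a U) :
    DifferentiableOn ℂ (fun y => (W.C (a y) : WB)) U := differentiable_C.comp_differentiableOn h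

theorem DifferentiableOn.exV {a : E → BC} (h : DifferentiableOn ℂ a U) (s : Icc (0 : ℝ) 1) :
    DifferentiableOn ℂ (fun y => ex (V s (a y))) U :=
  differentiable_ex.comp_differentiableOn ((V s).differentiable.comp_differentiableOn h)

theorem DifferentiableOn.Sol {a : E → BC} (h : DifferentiableOn ℂ a U) (s : Icc (0 : ℝ) 1) :
    DifferentiableOn ℂ (fun y => Sol s (a y)) U :=
  Differentiable.comp_differentiableOn (G := BC →L[ℂ] BC) (differentiable_Sol s) h

theorem DifferentiableOn.clm {A B : Type*} [NormedAddCommGroup A] [NormedSpace ℂ A]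
    [NormedAddCommGroup B] [NormedSpace ℂ B] {a : E → A} (h : DifferentiableOn ℂ a U)
    (T : A →L[ℂ] B) : DifferentiableOn ℂ (fun y => T (a y)) U :=
  T.differentiable.comp_differentiableOn h

namespace Ctr

/-- holomorphic families of contours -/
structure Hol (Γ : E → Ctr) (U : Set E) : Prop where
  op : IsOpen U
  g : DifferentiableOn ℂ (fun x => (Γ x).g) U
  Om : DifferentiableOn ℂ (fun x => (Γ x).Om) U
  io : DifferentiableOn ℂ (fun x => (Γ x).io) U
  lo : DifferentiableOn ℂ (fun x => (Γ x).lo) U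

theorem Hol.const (Γ : Ctr) (hU : IsOpen U) : Hol (fun _ : E => Γ) U :=
  ⟨hU, differentiableOn_const _, differentiableOn_const _, differentiableOn_const _,
    differentiableOn_const _⟩

namespace Hol
variable {Γ : E → Ctr}

section mode
variable {μ c : ℝ} (h : Hol Γ U) (ha : ∀ x ∈ U, (Γ x).Adm μ c) (hi : ∀ x ∈ U, ‖(Γ x).io‖ ≤ 1)
include h

theorem kk (μ : ℝ) : DifferentiableOn ℂ (fun x => (Γ x).kk μ) U := h.io.fun_const_smul _

include ha

theorem il : DifferentiableOn ℂ (fun x => (Γ x).il μ) U :=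
  differentiableOn_nem (φ := fun k => (la k)⁻¹) h.op (h.kk μ) (fun x hx => (ha x hx).dil)
    fun _ _ _ => ila_le _

theorem iS : DifferentiableOn ℂ (fun x => (Γ x).iS μ) U :=
  differentiableOn_nem (φ := fun k => (Sf k)⁻¹) h.op (h.kk μ) (fun x hx => (ha x hx).diS)
    fun x hx => (ha x hx).iS_le

theorem ee : DifferentiableOn ℂ (fun x => (Γ x).ee μ) U := (h.lo.fun_mul (h.iS ha)).fun_const_smul _

theorem de : DifferentiableOn ℂ (fun x => (Γ x).de μ) U :=
  h.lo.fun_add (((h.io.fun_mul (h.ee ha)).fun_const_smul _).fun_mul (h.il ha))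

include hi

omit h ha [NormedAddCommGroup E] [NormedSpace ℂ E] in
theorem la_bd (x : E) (hx : x ∈ U) (t : ℝ) : ‖la ((Γ x).kk μ t)‖ ≤ 2 + |μ| / 2 := by
  have h1 : ‖(Γ x).kk μ t‖ = |μ| / 2 * ‖(Γ x).io t‖ := by simp [kk_apply]
  have h2 := ((Γ x).io.norm_coe_le_norm t).trans (hi x hx)
  have h3 := mul_le_of_le_one_right (by positivity : 0 ≤ |μ| / 2) h2
  linarith [la_le ((Γ x).kk μ t)]

theorem laB : DifferentiableOn ℂ (fun x => (Γ x).laB μ) U :=
  differentiableOn_nem h.op (h.kk μ) (fun x hx => (ha x hx).dla) (la_bd hi)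

theorem nuB : DifferentiableOn ℂ (fun x => (Γ x).nuB μ) U :=
  differentiableOn_nem h.op (h.kk μ) (fun x hx => (ha x hx).dnu)
    fun x hx t => (norm_nu_le _).trans (la_bd hi x hx t)

theorem Pi : DifferentiableOn ℂ (fun x => (Γ x).Pi μ) U :=
  (DifferentiableOn.Sol (h.g.fun_mul ((h.laB ha hi).fun_add (h.de ha))) p1).clm_comp
    (DifferentiableOn.mulL ((h.g.fun_mul (h.laB ha hi)).fun_const_smul _))

theorem Ys (s : Icc (0 : ℝ) 1) : DifferentiableOn ℂ (fun x => (Γ x).Ys μ s) U :=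
  (DifferentiableOn.Sol (h.g.fun_mul (h.nuB ha hi)).fun_neg s).clm_comp
    (DifferentiableOn.mulL ((h.g.fun_mul h.io).fun_mul (h.il ha)))

theorem hPi : DifferentiableOn ℂ (fun x => (Γ x).hPi μ) U :=
  DifferentiableOn.exV (h.g.fun_mul ((h.laB ha hi).fun_add (h.de ha))) p1

theorem hY (s : Icc (0 : ℝ) 1) : DifferentiableOn ℂ (fun x => (Γ x).hY μ s) U :=
  DifferentiableOn.exV (h.g.fun_mul (h.nuB ha hi)).fun_neg s

end mode

variable {μ : ℤ → ℝ} {s : ℤ → Icc (0 : ℝ) 1} {φ : E → BC} {c c₁ K : ℝ} (h : Hol Γ U)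
  (hφ : ContinuousOn φ U) (hG : ∀ x ∈ U, (Γ x).Good μ s (φ x) c c₁ K)
include h

section
include hφ

theorem cWt (r : Icc (0 : ℝ) 1) : ContinuousOn (fun x => (Γ x).Wt (φ x) r) U :=
  differentiable_ex.continuous.comp_continuousOn
    ((V r).continuous.comp_continuousOn (h.g.continuousOn.mul hφ))

theorem ciW (r : Icc (0 : ℝ) 1) : ContinuousOn (fun x => (Γ x).iW (φ x) r) U :=
  differentiable_ex.continuous.comp_continuousOn
    ((V r).continuous.comp_continuousOn (h.g.continuousOn.mul hφ)).neg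

end

include hG

theorem Err {f : E → WB} (hf : DifferentiableOn ℂ f U) :
    DifferentiableOn ℂ (fun x => (Γ x).Err μ (f x)) U :=
  differentiableOn_diag' h.op (M := fun x => 8 / c * ‖(Γ x).lo‖ * K)
    ((continuousOn_const.mul h.lo.continuousOn.norm).mul continuousOn_const)
    (fun x hx m => (norm_mulL_le _).trans ((hG x hx).nee m))
    (fun m => DifferentiableOn.mulL ((h.ee fun x hx => (hG x hx).adm m).fun_const_smul _)) hf

theorem ilW {f : E → WB} (hf : DifferentiableOn ℂ f U) :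
    DifferentiableOn ℂ (fun x => (Γ x).ilW μ (f x)) U :=
  differentiableOn_diag h.op (fun x hx m => (norm_mulL_le _).trans ((hG x hx).adm m).norm_il)
    (fun m => DifferentiableOn.mulL (h.il fun x hx => (hG x hx).adm m)) hf

theorem ptW {f : E → WB} (hf : DifferentiableOn ℂ f U) :
    DifferentiableOn ℂ (fun x => (Γ x).ptW μ (f x)) U :=
  differentiableOn_diag h.op (fun x hx m => (norm_mulL_le _).trans ((hG x hx).npt1 m))
    (fun m => DifferentiableOn.mulL ((h.io.fun_mul (h.il fun x hx => (hG x hx).adm m)).fun_const_smul _)) hf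

/-- the fast component of a holomorphic family -/
theorem piJ {j : E → EJ} (hj : DifferentiableOn ℂ j U) :
    DifferentiableOn ℂ (fun x => (Γ x).piJ μ (j x)) U := by
  have h1 : DifferentiableOn ℂ (fun x => (j x).op) U := DifferentiableOn.clm hj EJ.opL
  have hn := fun m => h.nuB (fun x hx => (hG x hx).adm m) fun x hx => (hG x hx).io_le
  have h2 : DifferentiableOn ℂ (fun x => W.diag (fun m : ℤ => if m = 0 then
      ContinuousLinearMap.mul ℂ BC ((Γ x).nuB (μ m)) else 0) (j x).op) U := by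
    refine differentiableOn_diag h.op (M := 2 + |μ 0| / 2) (fun x hx m => ?_) (fun m => ?_) h1
    · split_ifs with a
      · subst a
        refine (norm_mulL_le _).trans (norm_BC_le fun t => ?_)
        rw [((hG x hx).adm 0).nuB_apply]
        exact (norm_nu_le _).trans (la_bd (fun x hx => (hG x hx).io_le) x hx t)
      · rw [norm_zero]; positivity
    · split_ifs
      exacts [DifferentiableOn.mulL (hn m), differentiableOn_const _]
  have h3 : DifferentiableOn ℂ (fun x => W.diag (fun m : ℤ => ContinuousLinearMap.mul ℂ BC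
      (((m : ℂ) * I)⁻¹ • ((Γ x).Om * (Γ x).nuB (μ m)))) (j x).pt) U :=
    differentiableOn_diag' h.op (M := fun x => √(‖(Γ x).Om‖ * K))
      (h.Om.continuousOn.norm.mul continuousOn_const).sqrt
      (fun x hx m => (norm_mulL_le _).trans ((hG x hx).nOn m))
      (fun m => DifferentiableOn.mulL ((h.Om.fun_mul (hn m)).fun_const_smul _))
      (DifferentiableOn.clm hj EJ.ptL)
  exact (((h1.fun_const_smul _).fun_add h2).fun_add h3).fun_add
    (DifferentiableOn.clm (DifferentiableOn.clm hj EJ.y2L) _)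

include hφ

/-- the solver is holomorphic in all its data -/
theorem solve {f : E → WB} {d ω : E → WD} (hf : DifferentiableOn ℂ f U)
    (hd : DifferentiableOn ℂ d U) (hω : DifferentiableOn ℂ ω U) :
    DifferentiableOn ℂ (fun x => (Γ x).solve μ s (f x) (d x) (ω x)) U := by
  have ha := fun m x hx => (hG x hx).adm m
  have hi := fun x hx => (hG x hx).io_le
  have c1 := (h.cWt hφ p0).norm
  have c2 := (h.ciW hφ p0).norm
  have h1 : DifferentiableOn ℂ (fun x => (Γ x).PiD μ (ω x) + (Γ x).PiW μ (f x)) U :=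
    (differentiableOn_diag' h.op (c1.mul c2) (fun x hx => (hG x hx).nhPi)
      (fun m => DifferentiableOn.smulR (h.hPi (ha m) hi)) hω).fun_add
    (differentiableOn_diag' h.op ((c1.mul continuousOn_const).mul c2) (fun x hx => (hG x hx).nPi)
      (fun m => h.Pi (ha m) hi) hf)
  have h2 : DifferentiableOn ℂ (fun x => (Γ x).YD μ s (d x) +
      (Γ x).YW μ s ((Γ x).PiD μ (ω x) + (Γ x).PiW μ (f x))) U :=
    (differentiableOn_diag' h.op (c1.mul c2) (fun x hx => (hG x hx).nhY)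
      (fun m => DifferentiableOn.smulR (h.hY (ha m) hi (s m))) hd).fun_add
    (differentiableOn_diag' h.op ((c1.mul continuousOn_const).mul c2) (fun x hx => (hG x hx).nYs)
      (fun m => (h.Ys (ha m) hi (s m)).fun_const_smul _) h1)
  have h3 := DifferentiableOn.clm h2 (mult fun m => (μ m : ℂ) / 2 * ((br m : ℝ) : ℂ)⁻¹)
  have h4 := h.ilW hG (h1.fun_sub h3)
  exact h2.prodMk (h4.prodMk (((((h4.fun_const_smul _).fun_add h3).fun_add
    (hf.fun_const_smul _)).fun_sub ((h.Err hG h2).fun_const_smul _)).prodMk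
      (h.ptW hG (h1.fun_sub h3))))

end Hol

end Ctr

open Ctr

/-- the weighted size of the data of an end problem -/
def dsz (s : ℤ → Icc (0 : ℝ) 1) (w : BC) (d ω : WD) (f : WB) : ℝ :=
  ‖slowD s (W.C w * cst d)‖ + ‖w 1‖ * ‖ω‖ + ‖W.C w * f‖

theorem dsz_nonneg (s : ℤ → Icc (0 : ℝ) 1) (w : BC) (d ω : WD) (f : WB) : 0 ≤ dsz s w d ω f := by
  unfold dsz; positivity

theorem dsz_le (s : ℤ → Icc (0 : ℝ) 1) (w : BC) (d ω : WD) (f : WB) :
    dsz s w d ω f ≤ ‖w‖ * (‖d‖ + ‖ω‖ + ‖f‖) := by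
  have h1 := (norm_slowD_le s _).trans (norm_C_mul_le w (cst d))
  have h2 := mul_le_mul_of_nonneg_right (w.norm_coe_le_norm 1) (norm_nonneg ω)
  have h3 := norm_C_mul_le w f
  rw [norm_cst_apply] at h1
  unfold dsz
  linarith

theorem slowD_C_mul (s : ℤ → Icc (0 : ℝ) 1) (w : BC) (f : WB) :
    slowD s (W.C w * f) = slowD s (W.C w * cst (slowD s f)) := by ext m; simp

theorem norm_tr_C_mul (t : ℝ) (w : BC) (f : WB) : ‖tr t (W.C w * f)‖ = ‖w t‖ * ‖tr t f‖ := by
  rw [← norm_smul]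
  congr 1
  ext m
  simp

section one
variable {k : Cst} {Γ : Ctr} {μ : ℤ → ℝ} {s : ℤ → Icc (0 : ℝ) 1} {φ σ : BC} {F : EJ → WB}
  (r : Icc (0 : ℝ) 1)

theorem Lin.nm_solve (h : Lin k Γ μ s φ σ) (f : WB) (d ω : WD) :
    nm σ (Γ.iW φ r) (Γ.solve μ s f d ω) ≤ k.C₁ * dsz s (Γ.iW φ r) d ω f := by
  have h1 := h.nm_le r (h.good.isJet_solve f d ω)
  rwa [slowD_C_mul, norm_tr_C_mul, h.good.slowD_solve, h.good.tr_piJ_solve, h.good.src_solve] at h1

theorem Lin.y_solve (h : Lin k Γ μ s φ σ) (f : WB) (d ω : WD) :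
    k.A * ‖W.C (Γ.iW φ r) * (Γ.solve μ s f d ω).y‖ ≤ k.A * ‖slowD s (W.C (Γ.iW φ r) * cst d)‖ +
      ‖Γ.iW φ r 1‖ * ‖ω‖ + 1 / 2 * ‖W.C (Γ.iW φ r) * f‖ := by
  have hj := h.good.isJet_solve f d ω
  have a1 := mul_le_mul_of_nonneg_left (h.ap_y r hj) h.ok.A0
  have a2 := mul_le_mul_of_nonneg_left (norm_slowD_y_le s (Γ.iW φ r) (Γ.solve μ s f d ω)) h.ok.A0
  have c0 := h.ok.c₁0
  have a3 := mul_le_mul h.ok.Aρ (h.good.l_pi r hj) (norm_nonneg _) c0.le
  rw [slowD_C_mul s _ (EJ.y2 _), h.good.slowD_solve] at a2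
  rw [norm_tr_C_mul, h.good.tr_piJ_solve, h.good.src_solve, mul_add, ← mul_assoc k.c₁ (1 / _),
    show k.c₁ * (1 / (2 * k.c₁)) = 1 / 2 by field_simp] at a3
  have a4 := mul_le_of_le_one_left (mul_nonneg (norm_nonneg (Γ.iW φ r 1)) (norm_nonneg ω)) h.ok.c₁1
  linarith

/-- the iteration converges -/
theorem Box.picard (h : Box k Γ μ s φ σ F) {d ω : WD}
    (hs : ‖Γ.Wt φ r‖ * (k.C * dsz s (Γ.iW φ r) d ω (F 0)) ≤ k.δ) :
    ∃ f, Tendsto (fun n => (fun f => f - (1 / 2 : ℂ) • F (Γ.solve μ s f d ω))^[n] 0) atTop (𝓝 f) ∧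
      (∀ n, ‖(fun f => f - (1 / 2 : ℂ) • F (Γ.solve μ s f d ω))^[n] 0‖ ≤ k.δ) ∧
      F (Γ.solve μ s f d ω) = 0 ∧
      nm σ (Γ.iW φ r) (Γ.solve μ s f d ω) ≤ k.C * dsz s (Γ.iW φ r) d ω (F 0) ∧
      nm σ 1 (Γ.solve μ s f d ω) ≤ k.δ := by
  set S := dsz s (Γ.iW φ r) d ω (F 0) with hS
  have S0 : 0 ≤ S := dsz_nonneg _ _ _ _ _
  have a0 : 1 ≤ k.C₁ := le_trans (by linarith [h.ok.one_le_inv]) h.ok.le_C₁
  have hA := h.ok.A0
  have hn : 0 ≤ k.ε + 2 * k.e := add_nonneg h.ok.ε0 (mul_nonneg zero_le_two h.ok.e0)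
  have hT : ∀ b : WB, ‖b‖ ≤ ‖Γ.Wt φ r‖ * ‖mulW (W.C (Γ.iW φ r)) b‖ := fun b => by
    conv_lhs => rw [← one_mul b, ← map_one W.C, ← Wt_mul_iW (Γ := Γ) φ r, map_mul, mul_assoc]
    exact norm_C_mul_le _ _
  have b1 : ∀ f, ‖W.C (Γ.iW φ r) * f‖ ≤ (2 + k.A) * S →
      nm σ (Γ.iW φ r) (Γ.solve μ s f d ω) ≤ k.C * S := fun f hf => by
    refine (h.nm_solve r f d ω).trans ?_
    have : dsz s (Γ.iW φ r) d ω f ≤ 2 * (2 + k.A) * S := by
      have := norm_nonneg (W.C (Γ.iW φ r) * F 0)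
      have := mul_nonneg hA S0
      unfold dsz at *
      linarith
    calc _ ≤ k.C₁ * (2 * (2 + k.A) * S) := by gcongr
      _ = _ := by unfold Cst.C; ring
  have b2 : ∀ f, ‖W.C (Γ.iW φ r) * f‖ ≤ (2 + k.A) * S → nm σ 1 (Γ.solve μ s f d ω) ≤ k.δ :=
    fun f hf => (nm_one_le φ r σ _).trans
      ((mul_le_mul_of_nonneg_left (b1 f hf) (norm_nonneg _)).trans hs)
  have b3 : ∀ (f : WB) (d ω : WD), (k.ε + 2 * k.e) / 2 * nm σ (Γ.iW φ r) (Γ.solve μ s f d ω) ≤
      1 / 4 * dsz s (Γ.iW φ r) d ω f := fun f d ω => by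
    have := mul_le_mul_of_nonneg_left (h.nm_solve r f d ω) hn
    have := mul_le_mul_of_nonneg_right h.ok.sm (dsz_nonneg s (Γ.iW φ r) d ω f)
    linarith
  obtain ⟨f, h1, h2, h3, h4⟩ := End.picard (mulW (W.C (Γ.iW φ r))) (R := (2 + k.A) * S)
    (norm_nonneg _) hT (Φ := fun f => f - (1 / 2 : ℂ) • F (Γ.solve μ s f d ω))
    (fun f f' hf hf' => by
      have e := h.err (b2 f hf) (b2 f' hf') (Γ.iW φ r)
      have e1 := b3 (f - f') (d - d) (ω - ω)
      have e2 := h.y_solve r (f - f') (d - d) (ω - ω)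
      rw [← solve_sub, h.good.src_solve] at e
      simp only [dsz, sub_self, map_zero, mul_zero, norm_zero, zero_add] at e e1 e2
      simp only [mulW_apply]
      rw [sub_sub_sub_comm, ← smul_sub]
      linarith) (by
      have e := h.err (b2 0 (by rw [mul_zero, norm_zero]; positivity)) (v' := 0)
        (by rw [nm_zero]; exact h.ok.δ0.le) (Γ.iW φ r)
      have e1 := b3 0 d ω
      have e2 := h.y_solve r 0 d ω
      have e3 := norm_le_norm_sub_add (W.C (Γ.iW φ r) * (0 - (1 / 2 : ℂ) • F (Γ.solve μ s 0 d ω)))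
        (-((1 / 2 : ℂ) • (W.C (Γ.iW φ r) * F 0)))
      rw [sub_zero, h.good.src_solve] at e
      rw [sub_neg_eq_add, ← mul_smul_comm, ← mul_add, norm_neg, mul_smul_comm, norm_smul,
        show ‖(1 / 2 : ℂ)‖ = 1 / 2 by simp, sub_add, ← smul_sub] at e3
      have e4 := mul_nonneg hA (mul_nonneg (norm_nonneg (Γ.iW φ r 1)) (norm_nonneg ω))
      have e5 := mul_nonneg hA (norm_nonneg (W.C (Γ.iW φ r) * F 0))
      have e6 := mul_nonneg (norm_nonneg (Γ.iW φ r 1)) (norm_nonneg ω)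
      have e7 := norm_nonneg (W.C (Γ.iW φ r) * F 0)
      have e8 := norm_nonneg (slowD s (W.C (Γ.iW φ r) * cst d))
      simp only [dsz, mul_zero, norm_zero, add_zero, mulW_apply, hS] at e1 e2 ⊢
      linarith)
  refine ⟨f, h1, fun n => (hT _).trans (le_trans ?_ hs), ?_, b1 f h3, b2 f h3⟩
  · refine mul_le_mul_of_nonneg_left ((h4 n).trans ?_) (norm_nonneg _)
    unfold Cst.C
    gcongr
    nlinarith
  · simpa using h2

end one

/-- **existence**, with holomorphic dependence on parameters -/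
theorem exists_sol {k : Cst} {Γ : E → Ctr} {μ : ℤ → ℝ} {s : ℤ → Icc (0 : ℝ) 1} {φ σ : E → BC}
    {F : E → EJ → WB} {d ω : E → WD} (r : Icc (0 : ℝ) 1) (hΓ : Hol Γ U) (hφ : ContinuousOn φ U)
    (hF : ∀ v : E → EJ, DifferentiableOn ℂ v U → DifferentiableOn ℂ (fun x => F x (v x)) U)
    (hd : DifferentiableOn ℂ d U) (hω : DifferentiableOn ℂ ω U)
    (hB : ∀ x ∈ U, Box k (Γ x) μ s (φ x) (σ x) (F x))
    (hs : ∀ x ∈ U, ‖(Γ x).Wt (φ x) r‖ *
      (k.C * dsz s ((Γ x).iW (φ x) r) (d x) (ω x) (F x 0)) ≤ k.δ) :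
    ∃ v : E → EJ, DifferentiableOn ℂ v U ∧ ∀ x ∈ U, (Γ x).IsJet (v x) ∧ F x (v x) = 0 ∧
      slowD s (v x).y2 = d x ∧ tr 1 ((Γ x).piJ μ (v x)) = ω x ∧
      nm (σ x) ((Γ x).iW (φ x) r) (v x) ≤ k.C * dsz s ((Γ x).iW (φ x) r) (d x) (ω x) (F x 0) ∧
      nm (σ x) 1 (v x) ≤ k.δ := by
  choose! f h1 h2 h3 using fun x hx => (hB x hx).picard r (hs x hx)
  have hG := fun x hx => (hB x hx).good
  have h4 : DifferentiableOn ℂ f U := by
    refine differentiableOn_of_tendsto hΓ.op (Eventually.of_forall fun n x hx => h2 x hx n)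
      (Eventually.of_forall fun n => ?_) h1
    induction n with
    | zero => exact differentiableOn_const _
    | succ n ih =>
      simp only [Function.iterate_succ_apply']
      exact ih.fun_sub ((hF _ (hΓ.solve hφ hG ih hd hω)).fun_const_smul _)
  exact ⟨fun x => (Γ x).solve μ s (f x) (d x) (ω x), hΓ.solve hφ hG h4 hd hω, fun x hx =>
    ⟨(hG x hx).isJet_solve _ _ _, (h3 x hx).1, (hG x hx).slowD_solve _ _ _,
      (hG x hx).tr_piJ_solve _ _ _, (h3 x hx).2⟩⟩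

/-- existence without parameters -/
theorem Box.exists_sol {k : Cst} {Γ : Ctr} {μ : ℤ → ℝ} {s : ℤ → Icc (0 : ℝ) 1} {φ σ : BC}
    {F : EJ → WB} (h : Box k Γ μ s φ σ F) (r : Icc (0 : ℝ) 1) {d ω : WD}
    (hs : ‖Γ.Wt φ r‖ * (k.C * dsz s (Γ.iW φ r) d ω (F 0)) ≤ k.δ) :
    ∃ v, Γ.IsJet v ∧ F v = 0 ∧ slowD s v.y2 = d ∧ tr 1 (Γ.piJ μ v) = ω ∧
      nm σ (Γ.iW φ r) v ≤ k.C * dsz s (Γ.iW φ r) d ω (F 0) ∧ nm σ 1 v ≤ k.δ := by
  obtain ⟨f, -, -, h3⟩ := h.picard r hs
  exact ⟨_, h.good.isJet_solve f d ω, h3.1, h.good.slowD_solve _ _ _, h.good.tr_piJ_solve _ _ _,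
    h3.2⟩

end Vale.Agent.P218N.End
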