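import Mathlib

/-! Holomorphic maps between Banach spaces: weak implies strong, limits, fixed points. -/

open Filter Topology Metric Set

noncomputable section

namespace Vale.Agent.P218N.End

variable {E B : Type*} [NormedAddCommGroup E] [NormedSpace ℂ E] [NormedAddCommGroup B]
  [NormedSpace ℂ B]

/-- second order Schwarz lemma -/
theorem schwarz2 {f : E → B} {x : E} {r M : ℝ} (hd : DifferentiableOn ℂ f (ball x r))
    (hM : ∀ y ∈ ball x r, ‖f y‖ ≤ M) {h : E} (hh : ‖h‖ < r) :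
    ‖f (x + h) - f x - fderiv ℂ f x h‖ ≤ 4 * M * (‖h‖ / r) ^ 2 := by
  have hr : 0 < r := (norm_nonneg _).trans_lt hh
  have hx : x ∈ ball x r := mem_ball_self hr
  have h2 : MapsTo f (ball x r) (closedBall (f x) (2 * M)) := fun y hy => by
    rw [mem_closedBall, dist_eq_norm]
    linarith [norm_sub_le (f y) (f x), hM y hy, hM x hx]
  have h3 : ‖fderiv ℂ f x‖ ≤ 2 * M / r := Complex.norm_fderiv_le_div_of_mapsTo_ball hd h2 hr
  have hM0 : 0 ≤ M := (norm_nonneg _).trans (hM x hx)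
  set g : E → B := fun y => f y - fderiv ℂ f x (y - x) with hg
  have hgd : DifferentiableOn ℂ g (ball x r) :=
    hd.sub ((fderiv ℂ f x).differentiable.comp (differentiable_id.sub_const x)).differentiableOn
  have hgx : g x = f x := by simp [hg]
  have h4 : MapsTo g (ball x r) (closedBall (g x) (4 * M)) := fun y hy => by
    rw [mem_closedBall, dist_eq_norm, hgx]
    have h5 : ‖fderiv ℂ f x (y - x)‖ ≤ 2 * M := by
      refine ((fderiv ℂ f x).le_of_opNorm_le h3 _).trans ?_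
      rw [mem_ball, dist_eq_norm] at hy
      calc 2 * M / r * ‖y - x‖ ≤ 2 * M / r * r := by gcongr
        _ = 2 * M := by field_simp
    have h6 := h2 hy
    rw [mem_closedBall, dist_eq_norm] at h6
    calc ‖f y - fderiv ℂ f x (y - x) - f x‖ = ‖(f y - f x) - fderiv ℂ f x (y - x)‖ := by
          congr 1; abel
      _ ≤ 2 * M + 2 * M := (norm_sub_le _ _).trans (add_le_add h6 h5)
      _ = 4 * M := by ring
  have h7 : (fun y => g y - g x) =o[𝓝 x] fun w => ‖w - x‖ ^ 1 := by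
    have h8 := ((hd x hx).differentiableAt (isOpen_ball.mem_nhds hx)).hasFDerivAt.isLittleO
    simp only [pow_one]
    refine (h8.congr_left fun y => ?_).norm_right
    rw [hgx, hg]
    simp only
    abel
  have h9 := Complex.dist_le_mul_div_pow_of_mapsTo_ball_of_isLittleO (n := 1) (z := x + h) hgd h4 h7
    (by simpa using hh)
  rw [dist_eq_norm, dist_eq_norm, hgx, add_sub_cancel_left] at h9
  simp only [hg, add_sub_cancel_left] at h9
  calc _ = ‖f (x + h) - fderiv ℂ f x h - f x‖ := by congr 1; abel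
    _ ≤ _ := h9

theorem norm_fderiv_le_of_bdd {f : E → B} {x : E} {r M : ℝ} (hr : 0 < r)
    (hd : DifferentiableOn ℂ f (ball x r)) (hM : ∀ y ∈ ball x r, ‖f y‖ ≤ M) :
    ‖fderiv ℂ f x‖ ≤ 2 * M / r :=
  Complex.norm_fderiv_le_div_of_mapsTo_ball hd (fun y hy => by
    rw [mem_closedBall, dist_eq_norm]
    linarith [norm_sub_le (f y) (f x), hM y hy, hM x (mem_ball_self hr)]) hr

/-- A map which can be tested, up to any error, by holomorphic scalar functions is holomorphic.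
`Λ` is a family of pairs (test function `φ`, error `ε`): think of `φ = λ ∘ f`. -/
theorem hasFDerivAt_of_quad [CompleteSpace B] {f : E → B} {x : E} {r K : ℝ} (hr : 0 < r)
    (hq : ∀ (h k : E) (s t : ℂ), ‖h‖ < r → ‖k‖ < r → ‖s • h + t • k‖ < r →
      ‖f (x + (s • h + t • k)) - f x - s • (f (x + h) - f x) - t • (f (x + k) - f x)‖ ≤
        K * (‖s • h + t • k‖ ^ 2 + ‖s‖ * ‖h‖ ^ 2 + ‖t‖ * ‖k‖ ^ 2))
    (hb : ∀ h : E, ‖h‖ < r → ‖f (x + h) - f x‖ ≤ K * ‖h‖) : DifferentiableAt ℂ f x := by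
  have hK : ∀ h : E, 0 ≤ K * ‖h‖ := by
    intro h
    rcases eq_or_ne h 0 with rfl | h0
    · simp
    · have hp : 0 < ‖h‖ := norm_pos_iff.2 h0
      have h1 := hb ((r / 2 / ‖h‖ : ℝ) • h) (by
        rw [norm_smul, Real.norm_of_nonneg (by positivity), div_mul_cancel₀ _ hp.ne']; linarith)
      rw [norm_smul, Real.norm_of_nonneg (by positivity), div_mul_cancel₀ _ hp.ne'] at h1
      have h2 : 0 ≤ K * (r / 2) := (norm_nonneg _).trans h1
      have h3 : 0 ≤ K := by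
        by_contra h4
        nlinarith
      positivity
  -- difference quotients
  set q : E → ℕ → B := fun h n => ((2 : ℂ) ^ n) • (f (x + ((2 : ℂ) ^ n)⁻¹ • h) - f x) with hqd
  have hn2 : ∀ n : ℕ, ‖((2 : ℂ) ^ n)⁻¹‖ = (1 / 2 : ℝ) ^ n := fun n => by simp
  have hsm : ∀ h : E, Tendsto (fun n : ℕ => ‖((2 : ℂ) ^ n)⁻¹ • h‖) atTop (𝓝 0) := fun h => by
    simp only [norm_smul, hn2]
    have := (tendsto_pow_atTop_nhds_zero_of_lt_one (r := (1 / 2 : ℝ)) (by norm_num)
      (by norm_num)).mul_const ‖h‖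
    rwa [zero_mul] at this
  have hev : ∀ h : E, ∀ᶠ n : ℕ in atTop, ‖((2 : ℂ) ^ n)⁻¹ • h‖ < r := fun h =>
    (hsm h).eventually (gt_mem_nhds hr)
  -- comparison of a difference quotient with a value
  have hcmp : ∀ (h : E) (n : ℕ), ‖h‖ < r → ‖f (x + h) - f x - q h n‖ ≤ 2 * K * ‖h‖ ^ 2 := by
    intro h n hh
    have h2 : (2 : ℂ) ^ n ≠ 0 := pow_ne_zero _ two_ne_zero
    have h1 : ‖((2 : ℂ) ^ n)⁻¹ • h‖ ≤ ‖h‖ := by
      rw [norm_smul, hn2]
      exact mul_le_of_le_one_left (norm_nonneg _) (pow_le_one₀ (by norm_num) (by norm_num))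
    have h3 := hq (((2 : ℂ) ^ n)⁻¹ • h) 0 ((2 : ℂ) ^ n) 0 (h1.trans_lt hh) (by simpa using hr)
      (by simpa [smul_smul, h2] using hh)
    simp only [smul_smul, mul_inv_cancel₀ h2, one_smul, smul_zero, add_zero, zero_smul, sub_zero,
      norm_zero, zero_mul] at h3
    refine h3.trans ?_
    have h4 : ‖(2 : ℂ) ^ n‖ * ‖((2 : ℂ) ^ n)⁻¹ • h‖ = ‖h‖ := by
      rw [← norm_smul, smul_smul, mul_inv_cancel₀ h2, one_smul]
    have h5 : ‖(2 : ℂ) ^ n‖ * ‖((2 : ℂ) ^ n)⁻¹ • h‖ ^ 2 ≤ ‖h‖ ^ 2 := by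
      rw [sq, ← mul_assoc, h4, sq]
      gcongr
    have h6 := hK h
    rcases eq_or_ne h 0 with rfl | h0
    · simp
    · have hp : 0 < ‖h‖ := norm_pos_iff.2 h0
      have h7 : 0 ≤ K := by by_contra h8; nlinarith
      nlinarith
  have hshift : ∀ (h : E) (n m : ℕ), q h (n + m) = ((2 : ℂ) ^ n) • q (((2 : ℂ) ^ n)⁻¹ • h) m := by
    intro h n m
    simp only [hqd, smul_smul, pow_add, mul_inv, mul_comm]
  have hcau : ∀ h : E, ∃ D : B, Tendsto (q h) atTop (𝓝 D) := by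
    intro h
    refine cauchySeq_tendsto_of_complete (Metric.cauchySeq_iff'.2 fun ε hε => ?_)
    have h1 : Tendsto (fun n : ℕ => 2 * K * (‖h‖ * ‖((2 : ℂ) ^ n)⁻¹ • h‖)) atTop (𝓝 0) := by
      simpa using ((hsm h).const_mul ‖h‖).const_mul (2 * K)
    obtain ⟨N, hN1, hN2⟩ := ((hev h).and (h1.eventually (gt_mem_nhds hε))).exists
    refine ⟨N, fun n hn => ?_⟩
    obtain ⟨m, rfl⟩ := Nat.exists_eq_add_of_le hn
    have h2 : (2 : ℂ) ^ N ≠ 0 := pow_ne_zero _ two_ne_zero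
    rw [dist_comm, dist_eq_norm, hshift]
    have h3 := hcmp _ m hN1
    have h4 : ‖(2 : ℂ) ^ N‖ * ‖((2 : ℂ) ^ N)⁻¹ • h‖ = ‖h‖ := by
      rw [← norm_smul, smul_smul, mul_inv_cancel₀ h2, one_smul]
    calc ‖q h N - (2 : ℂ) ^ N • q (((2 : ℂ) ^ N)⁻¹ • h) m‖
        = ‖(2 : ℂ) ^ N‖ * ‖f (x + ((2 : ℂ) ^ N)⁻¹ • h) - f x - q (((2 : ℂ) ^ N)⁻¹ • h) m‖ := by
          rw [← norm_smul, smul_sub]
      _ ≤ ‖(2 : ℂ) ^ N‖ * (2 * K * ‖((2 : ℂ) ^ N)⁻¹ • h‖ ^ 2) := by gcongr
      _ = 2 * K * (‖h‖ * ‖((2 : ℂ) ^ N)⁻¹ • h‖) := by rw [← h4]; ring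
      _ < ε := hN2
  choose D hD using hcau
  have hlin : ∀ (h k : E) (s t : ℂ), D (s • h + t • k) = s • D h + t • D k := by
    intro h k s t
    have h1 : Tendsto (fun n => q (s • h + t • k) n - s • q h n - t • q k n) atTop
        (𝓝 (D (s • h + t • k) - s • D h - t • D k)) :=
      ((hD _).sub ((hD h).const_smul s)).sub ((hD k).const_smul t)
    have h2 : Tendsto (fun n => q (s • h + t • k) n - s • q h n - t • q k n) atTop (𝓝 0) := by
      have h3 : Tendsto (fun n : ℕ => K * (‖s • h + t • k‖ * ‖((2 : ℂ) ^ n)⁻¹ • (s • h + t • k)‖ +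
          ‖s‖ * (‖h‖ * ‖((2 : ℂ) ^ n)⁻¹ • h‖) + ‖t‖ * (‖k‖ * ‖((2 : ℂ) ^ n)⁻¹ • k‖))) atTop
          (𝓝 0) := by
        simpa using ((((hsm (s • h + t • k)).const_mul ‖s • h + t • k‖).add
          (((hsm h).const_mul ‖h‖).const_mul ‖s‖)).add
          (((hsm k).const_mul ‖k‖).const_mul ‖t‖)).const_mul K
      refine squeeze_zero_norm' ?_ h3
      filter_upwards [hev h, hev k, hev (s • h + t • k)] with n n1 n2 n3
      have h2 : (2 : ℂ) ^ n ≠ 0 := pow_ne_zero _ two_ne_zero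
      have e : s • ((2 : ℂ) ^ n)⁻¹ • h + t • ((2 : ℂ) ^ n)⁻¹ • k =
          ((2 : ℂ) ^ n)⁻¹ • (s • h + t • k) := by
        rw [smul_add, smul_comm s, smul_comm t]
      have h4 := hq _ _ s t n1 n2 (by rwa [e])
      rw [e] at h4
      have h5 : ∀ v : E, ‖(2 : ℂ) ^ n‖ * ‖((2 : ℂ) ^ n)⁻¹ • v‖ = ‖v‖ := fun v => by
        rw [← norm_smul, smul_smul, mul_inv_cancel₀ h2, one_smul]
      calc _ = ‖(2 : ℂ) ^ n‖ * ‖f (x + ((2 : ℂ) ^ n)⁻¹ • (s • h + t • k)) - f x -
            s • (f (x + ((2 : ℂ) ^ n)⁻¹ • h) - f x) - t • (f (x + ((2 : ℂ) ^ n)⁻¹ • k) - f x)‖ := by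
            rw [← norm_smul, smul_sub, smul_sub ((2 : ℂ) ^ n) (_ - _), smul_comm _ s, smul_comm _ t]
        _ ≤ ‖(2 : ℂ) ^ n‖ * (K * (‖((2 : ℂ) ^ n)⁻¹ • (s • h + t • k)‖ ^ 2 +
            ‖s‖ * ‖((2 : ℂ) ^ n)⁻¹ • h‖ ^ 2 + ‖t‖ * ‖((2 : ℂ) ^ n)⁻¹ • k‖ ^ 2)) := by gcongr
        _ = _ := by
            have b1 := h5 h
            have b2 := h5 k
            have b3 := h5 (s • h + t • k)
            generalize ‖((2 : ℂ) ^ n)⁻¹ • h‖ = u1 at *
            generalize ‖((2 : ℂ) ^ n)⁻¹ • k‖ = u2 at *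
            generalize ‖((2 : ℂ) ^ n)⁻¹ • (s • h + t • k)‖ = u3 at *
            rw [← b1, ← b2, ← b3]
            ring
    have h3 := tendsto_nhds_unique h1 h2
    rw [sub_sub, sub_eq_zero] at h3
    exact h3
  have hDb : ∀ h : E, ‖D h‖ ≤ K * ‖h‖ := by
    intro h
    refine le_of_tendsto (hD h).norm ?_
    filter_upwards [hev h] with n n1
    have h2 : (2 : ℂ) ^ n ≠ 0 := pow_ne_zero _ two_ne_zero
    have h5 : ‖(2 : ℂ) ^ n‖ * ‖((2 : ℂ) ^ n)⁻¹ • h‖ = ‖h‖ := by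
      rw [← norm_smul, smul_smul, mul_inv_cancel₀ h2, one_smul]
    calc ‖q h n‖ = ‖(2 : ℂ) ^ n‖ * ‖f (x + ((2 : ℂ) ^ n)⁻¹ • h) - f x‖ := norm_smul _ _
      _ ≤ ‖(2 : ℂ) ^ n‖ * (K * ‖((2 : ℂ) ^ n)⁻¹ • h‖) := by gcongr; exact hb _ n1
      _ = K * ‖h‖ := by rw [mul_left_comm, h5]
  let L : E →L[ℂ] B := LinearMap.mkContinuous
    ⟨⟨D, fun h k => by simpa using hlin h k 1 1⟩, fun s h => by simpa using hlin h 0 s 0⟩ K hDb
  refine HasFDerivAt.differentiableAt (f' := L) ?_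
  rw [hasFDerivAt_iff_isLittleO_nhds_zero]
  refine Asymptotics.IsBigO.trans_isLittleO (g := fun h : E => ‖h‖ ^ 2) ?_ ?_
  · refine Asymptotics.IsBigO.of_bound (2 * K) ?_
    filter_upwards [ball_mem_nhds (0 : E) hr] with h hh
    rw [mem_ball_zero_iff] at hh
    rw [Real.norm_of_nonneg (by positivity)]
    refine le_of_tendsto ((tendsto_const_nhds.sub (hD h)).norm) ?_
    exact Eventually.of_forall fun n => hcmp h n hh
  · exact (Asymptotics.isLittleO_norm_pow_id one_lt_two)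

/-- the two inequalities of `hasFDerivAt_of_quad` hold for bounded holomorphic maps -/
theorem quad_of_bdd {f : E → B} {x : E} {r M : ℝ} (hd : DifferentiableOn ℂ f (ball x r))
    (hM : ∀ y ∈ ball x r, ‖f y‖ ≤ M) (hr : 0 < r) :
    (∀ (h k : E) (s t : ℂ), ‖h‖ < r → ‖k‖ < r → ‖s • h + t • k‖ < r →
      ‖f (x + (s • h + t • k)) - f x - s • (f (x + h) - f x) - t • (f (x + k) - f x)‖ ≤
        (4 * M / r ^ 2 + 2 * M / r) * (‖s • h + t • k‖ ^ 2 + ‖s‖ * ‖h‖ ^ 2 + ‖t‖ * ‖k‖ ^ 2)) ∧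
    ∀ h : E, ‖h‖ < r → ‖f (x + h) - f x‖ ≤ (4 * M / r ^ 2 + 2 * M / r) * ‖h‖ := by
  have hM0 : 0 ≤ M := (norm_nonneg _).trans (hM x (mem_ball_self hr))
  constructor
  · intro h k s t h1 h2 h3
    have e : f (x + (s • h + t • k)) - f x - s • (f (x + h) - f x) - t • (f (x + k) - f x) =
        (f (x + (s • h + t • k)) - f x - fderiv ℂ f x (s • h + t • k)) -
        s • (f (x + h) - f x - fderiv ℂ f x h) - t • (f (x + k) - f x - fderiv ℂ f x k) := by
      simp only [map_add, map_smul, smul_sub]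
      abel
    rw [e]
    have a1 := schwarz2 hd hM h1
    have a2 := schwarz2 hd hM h2
    have a3 := schwarz2 hd hM h3
    calc _ ≤ 4 * M * (‖s • h + t • k‖ / r) ^ 2 + ‖s‖ * (4 * M * (‖h‖ / r) ^ 2) +
          ‖t‖ * (4 * M * (‖k‖ / r) ^ 2) := by
          refine (norm_sub_le _ _).trans (add_le_add ((norm_sub_le _ _).trans
            (add_le_add a3 ?_)) ?_) <;> rw [norm_smul] <;> gcongr
      _ = 4 * M / r ^ 2 * (‖s • h + t • k‖ ^ 2 + ‖s‖ * ‖h‖ ^ 2 + ‖t‖ * ‖k‖ ^ 2) := by ring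
      _ ≤ _ := by gcongr; linarith [show 0 ≤ 2 * M / r by positivity]
  · intro h hh
    have h2 : MapsTo f (ball x r) (closedBall (f x) (2 * M)) := fun y hy => by
      rw [mem_closedBall, dist_eq_norm]
      linarith [norm_sub_le (f y) (f x), hM y hy, hM x (mem_ball_self hr)]
    have h3 := Complex.dist_le_div_mul_dist_of_mapsTo_ball (z := x + h) hd h2 (by simpa using hh)
    rw [dist_eq_norm, dist_eq_norm, add_sub_cancel_left] at h3
    refine h3.trans ?_
    gcongr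
    linarith [show 0 ≤ 4 * M / r ^ 2 by positivity]

/-- A set of continuous linear maps of norm at most one which computes norms. -/
structure Norming {V : Type*} [NormedAddCommGroup V] [NormedSpace ℂ V] (Λ : Set (B →L[ℂ] V)) :
    Prop where
  le : ∀ l ∈ Λ, ∀ b, ‖l b‖ ≤ ‖b‖
  ge : ∀ (b : B) (C : ℝ), 0 ≤ C → (∀ l ∈ Λ, ‖l b‖ ≤ C) → ‖b‖ ≤ C

/-- weakly holomorphic and locally bounded implies holomorphic -/
theorem Norming.differentiableOn [CompleteSpace B] {V : Type*} [NormedAddCommGroup V]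
    [NormedSpace ℂ V] {Λ : Set (B →L[ℂ] V)} (hΛ : Norming Λ) {f : E → B} {U : Set E}
    (hU : IsOpen U) {M : ℝ} (hM : ∀ y ∈ U, ‖f y‖ ≤ M)
    (hw : ∀ l ∈ Λ, DifferentiableOn ℂ (fun y => l (f y)) U) : DifferentiableOn ℂ f U := by
  intro x hx
  obtain ⟨r, hr, hrU⟩ := Metric.isOpen_iff.1 hU x hx
  have hM0 : 0 ≤ M := (norm_nonneg _).trans (hM x hx)
  have hq := fun l (hl : l ∈ Λ) => quad_of_bdd (M := M) ((hw l hl).mono hrU)
    (fun y hy => (hΛ.le l hl _).trans (hM y (hrU hy))) hr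
  refine (hasFDerivAt_of_quad (K := 4 * M / r ^ 2 + 2 * M / r) hr ?_ ?_).differentiableWithinAt
  · intro h k s t h1 h2 h3
    refine hΛ.ge _ _ (by positivity) fun l hl => ?_
    simpa using (hq l hl).1 h k s t h1 h2 h3
  · intro h hh
    refine hΛ.ge _ _ (by positivity) fun l hl => ?_
    simpa using (hq l hl).2 h hh

/-- a pointwise limit of uniformly bounded holomorphic maps is holomorphic -/
theorem differentiableOn_of_tendsto [CompleteSpace B] {ι : Type*} {l : Filter ι} [l.NeBot]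
    {F : ι → E → B} {f : E → B} {U : Set E} (hU : IsOpen U) {M : ℝ}
    (hM : ∀ᶠ n in l, ∀ y ∈ U, ‖F n y‖ ≤ M) (hd : ∀ᶠ n in l, DifferentiableOn ℂ (F n) U)
    (hl : ∀ y ∈ U, Tendsto (fun n => F n y) l (𝓝 (f y))) : DifferentiableOn ℂ f U := by
  intro x hx
  obtain ⟨r, hr, hrU⟩ := Metric.isOpen_iff.1 hU x hx
  have hmem : ∀ h : E, ‖h‖ < r → x + h ∈ U := fun h hh => hrU (by simpa using hh)
  refine (hasFDerivAt_of_quad (K := 4 * M / r ^ 2 + 2 * M / r) hr ?_ ?_).differentiableWithinAt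
  · intro h k s t h1 h2 h3
    refine le_of_tendsto ((((hl _ (hmem _ h3)).sub (hl x hx)).sub
      (((hl _ (hmem _ h1)).sub (hl x hx)).const_smul s)).sub
      (((hl _ (hmem _ h2)).sub (hl x hx)).const_smul t)).norm ?_
    filter_upwards [hM, hd] with n a1 a2
    exact (quad_of_bdd (a2.mono hrU) (fun y hy => a1 y (hrU hy)) hr).1 h k s t h1 h2 h3
  · intro h hh
    refine le_of_tendsto ((hl _ (hmem _ hh)).sub (hl x hx)).norm ?_
    filter_upwards [hM, hd] with n a1 a2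
    exact (quad_of_bdd (a2.mono hrU) (fun y hy => a1 y (hrU hy)) hr).2 h hh

/-- Holomorphic fixed points: `Φ y` maps the open ball of radius `R` into the closed ball of radius
`r < R` and is a contraction. -/
theorem exists_fixed [CompleteSpace B] {Φ : E → B → B} {U : Set E} (hU : IsOpen U) {b₀ : B}
    {r R κ : ℝ} (hr : 0 ≤ r) (hR : r < R) (hκ0 : 0 ≤ κ) (hκ : κ < 1)
    (hd : DifferentiableOn ℂ (fun p : E × B => Φ p.1 p.2) (U ×ˢ ball b₀ R))
    (hm : ∀ y ∈ U, ∀ b ∈ ball b₀ R, Φ y b ∈ closedBall b₀ r)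
    (hc : ∀ y ∈ U, ∀ b ∈ ball b₀ R, ∀ b' ∈ ball b₀ R, ‖Φ y b - Φ y b'‖ ≤ κ * ‖b - b'‖) :
    ∃ z : E → B, DifferentiableOn ℂ z U ∧ ∀ y ∈ U, z y ∈ closedBall b₀ r ∧ Φ y (z y) = z y ∧
      ∀ b ∈ ball b₀ R, Φ y b = b → b = z y := by
  have hsub : closedBall b₀ r ⊆ ball b₀ R := closedBall_subset_ball hR
  let s : ℕ → E → B := fun n y => (Φ y)^[n] b₀
  have hs : ∀ n, ∀ y ∈ U, s n y ∈ closedBall b₀ r := by
    intro n y hy
    induction n with
    | zero => exact mem_closedBall_self hr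
    | succ n ih =>
      simp only [s, Function.iterate_succ_apply']
      exact hm y hy _ (hsub ih)
  have hsd : ∀ n, DifferentiableOn ℂ (s n) U := by
    intro n
    induction n with
    | zero => exact differentiableOn_const b₀
    | succ n ih =>
      have : s (n + 1) = fun y => Φ y (s n y) := funext fun y => by
        simp only [s, Function.iterate_succ_apply']
      rw [this]
      exact hd.comp (differentiableOn_id.prodMk ih) fun y hy => ⟨hy, hsub (hs n y hy)⟩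
  have hstep : ∀ y ∈ U, ∀ n, dist (s n y) (s (n + 1) y) ≤ r * κ ^ n := by
    intro y hy n
    induction n with
    | zero =>
      have := hs 1 y hy
      rw [mem_closedBall, dist_comm] at this
      simpa [s] using this
    | succ n ih =>
      have e1 : s (n + 1) y = Φ y (s n y) := by simp only [s, Function.iterate_succ_apply']
      have e2 : s (n + 1 + 1) y = Φ y (s (n + 1) y) := by
        simp only [s, Function.iterate_succ_apply']
      rw [dist_eq_norm] at *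
      have h1 := hc y hy _ (hsub (hs n y hy)) _ (hsub (hs (n + 1) y hy))
      rw [← e1, ← e2] at h1
      calc _ ≤ κ * ‖s n y - s (n + 1) y‖ := h1
        _ ≤ κ * (r * κ ^ n) := by gcongr
        _ = r * κ ^ (n + 1) := by ring
  have hex : ∀ y, ∃ z : B, y ∈ U → Tendsto (fun n => s n y) atTop (𝓝 z) := by
    intro y
    by_cases hy : y ∈ U
    · obtain ⟨z, hz⟩ := cauchySeq_tendsto_of_complete (cauchySeq_of_le_geometric κ r hκ (hstep y hy))
      exact ⟨z, fun _ => hz⟩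
    · exact ⟨b₀, fun h => absurd h hy⟩
  choose z hz using hex
  refine ⟨z, differentiableOn_of_tendsto (l := atTop) hU (M := ‖b₀‖ + r) ?_
    (Eventually.of_forall hsd) fun y hy => hz y hy, fun y hy => ?_⟩
  · refine Eventually.of_forall fun n y hy => ?_
    have := hs n y hy
    rw [mem_closedBall, dist_eq_norm] at this
    linarith [norm_le_insert' (s n y) b₀]
  · have hzm : z y ∈ closedBall b₀ r :=
      isClosed_closedBall.mem_of_tendsto (hz y hy) (Eventually.of_forall fun n => hs n y hy)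
    have hfix : Φ y (z y) = z y := by
      have h1 : Tendsto (fun n => s (n + 1) y) atTop (𝓝 (z y)) :=
        (hz y hy).comp (tendsto_add_atTop_nat 1)
      have h2 : Tendsto (fun n => s (n + 1) y) atTop (𝓝 (Φ y (z y))) := by
        rw [tendsto_iff_norm_sub_tendsto_zero]
        have h3 : Tendsto (fun n => κ * ‖s n y - z y‖) atTop (𝓝 0) := by
          simpa using (tendsto_iff_norm_sub_tendsto_zero.1 (hz y hy)).const_mul κ
        refine squeeze_zero (fun _ => norm_nonneg _) (fun n => ?_) h3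
        simp only [s, Function.iterate_succ_apply']
        exact hc y hy _ (hsub (hs n y hy)) _ (hsub hzm)
      exact tendsto_nhds_unique h2 h1
    refine ⟨hzm, hfix, fun b hb hb' => ?_⟩
    have h1 := hc y hy b hb _ (hsub hzm)
    rw [hb', hfix] at h1
    have h2 : ‖b - z y‖ = 0 := by nlinarith [norm_nonneg (b - z y)]
    rwa [norm_eq_zero, sub_eq_zero] at h2

end Vale.Agent.P218N.End
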