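import Vale.Agent.P218N.End.JSD
import Vale.Agent.P218N.End.ToJ
import Vale.Agent.P218N.End.EvR

/-! The jets of functions on the real ends. -/

open Filter Topology Metric Set Complex
open scoped BoundedContinuousFunction ContDiff

noncomputable section

namespace Vale.Agent.P218N.End

/-! ### Functions of `(σ t, θ)` -/

/-- continuous bounded changes of the variable -/
structure Rng (σ : ℝ → ℝ) : Prop where
  cont : Continuous σ
  bdd : ∃ a b, ∀ t, σ t ∈ Icc a b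

/-- the function `v (σ t, θ)` -/
def lft (σ : ℝ → ℝ) (v : ℝ × ℝ → ℝ) : WB := toW fun t θ => (v (σ t, θ) : ℂ)

section lft
variable {σ : ℝ → ℝ} {v : ℝ × ℝ → ℝ}

theorem Per.hasDerivAt_dtC (h : Per v) (s θ : ℝ) :
    HasDerivAt (fun θ => (v (s, θ) : ℂ)) (End.dt v (s, θ) : ℂ) θ := (h.hasDerivAt_dt s θ).ofReal_comp

theorem Per.fdom (h : Per v) (hσ : Continuous σ) {K : ℝ → ℝ} {K₀ : ℝ} (hK : ∀ t, K t ≤ K₀)
    (h0 : ∀ t θ, |v (σ t, θ)| ≤ K t) (h2 : ∀ t θ, |End.dt (End.dt v) (σ t, θ)| ≤ K t) :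
    FDom K b2 fun t θ => (v (σ t, θ) : ℂ) :=
  fdom_C2 hK (continuous_ofReal.comp (h.smooth.continuous.comp (by fun_prop)))
    (fun t θ => congrArg ofReal (h.per _ θ)) (fun t θ => h.hasDerivAt_dtC _ θ)
    (fun t θ => h.dt.hasDerivAt_dtC _ θ)
    (fun t => continuous_ofReal.comp (h.dt.dt.smooth.continuous.comp (by fun_prop)))
    (fun t θ => by simpa using h0 t θ) fun t θ => by simpa using h2 t θ

theorem Per.exists_fdom (h : Per v) (hσ : Rng σ) :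
    ∃ K : ℝ, FDom (fun _ => K) b2 fun t θ => (v (σ t, θ) : ℂ) := by
  obtain ⟨a, b, hab⟩ := hσ.bdd
  obtain ⟨K, hK⟩ := h.exists_bound a b
  obtain ⟨K', hK'⟩ := h.dt.dt.exists_bound a b
  exact ⟨max K K', h.fdom hσ.cont (fun _ => le_rfl)
    (fun t θ => (hK _ (hab t) θ).trans (le_max_left _ _))
    fun t θ => (hK' _ (hab t) θ).trans (le_max_right _ _)⟩

theorem Per.ev_lft (h : Per v) (hσ : Rng σ) (t θ : ℝ) : ev (lft σ v) t θ = v (σ t, θ) :=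
  let ⟨_, hK⟩ := h.exists_fdom hσ; hK.ev_toW t θ

theorem Per.c_lft_dt (h : Per v) (hσ : Rng σ) (m : ℤ) :
    (lft σ (End.dt v)).c m = ((m : ℂ) * I) • (lft σ v).c m :=
  c_of_hasDerivAt_ev (fun t θ => by
    simpa only [h.ev_lft hσ, h.dt.ev_lft hσ] using h.hasDerivAt_dtC (σ t) θ) m

theorem Per.isRl_lft (h : Per v) (hσ : Rng σ) : W.IsRl (lft σ v) :=
  isRl_iff_ev.2 fun t θ => by rw [h.ev_lft hσ, ofReal_im]

/-- the weighted bound -/
theorem Per.norm_wt_lft_le (h : Per v) (hσ : Rng σ) {K : ℝ → ℝ} {K₀ : ℝ} (hK : ∀ t, K t ≤ K₀)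
    (h0 : ∀ t θ, |v (σ t, θ)| ≤ K t) (h2 : ∀ t θ, |End.dt (End.dt v) (σ t, θ)| ≤ K t) (w : BC)
    {K₁ : ℝ} (hw : ∀ t, ‖w t‖ * K t ≤ K₁) : ‖W.C w * lft σ v‖ ≤ 5 * K₁ :=
  ((h.fdom hσ.cont hK h0 h2).norm_wt_le w hw).trans (mul_le_mul_of_nonneg_right tsum_b2_le
    ((mul_nonneg (norm_nonneg _) ((abs_nonneg _).trans (h0 0 0))).trans (hw 0)))

theorem Per.norm_lft_le (h : Per v) (hσ : Rng σ) {K : ℝ} (h0 : ∀ t θ, |v (σ t, θ)| ≤ K)
    (h2 : ∀ t θ, |End.dt (End.dt v) (σ t, θ)| ≤ K) : ‖lft σ v‖ ≤ 5 * K := by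
  simpa using h.norm_wt_lft_le hσ (K := fun _ => K) (fun _ => le_rfl) h0 h2 1 (K₁ := K) (by simp)

theorem _root_.Vale.Agent.P218N.Decays.tendsto_lft (h : Decays v) {ι : Type*} {l : Filter ι}
    {σ : ι → ℝ → ℝ} (h1 : ∀ᶠ i in l, Rng (σ i)) (h2 : ∀ s₀ : ℝ, ∀ᶠ i in l, ∀ t, s₀ ≤ σ i t) :
    Tendsto (fun i => lft (σ i) v) l (𝓝 0) := by
  refine NormedAddGroup.tendsto_nhds_zero.2 fun ε hε => ?_
  obtain ⟨s₀, a1, a2⟩ := ((h.abs_le (ε := ε / 10) (by positivity)).and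
    (h.dt.dt.abs_le (ε := ε / 10) (by positivity))).exists
  filter_upwards [h1, h2 s₀] with i b1 b2
  refine (h.toPer.norm_lft_le b1 (fun t θ => a1 _ (b2 t)) fun t θ => a2 _ (b2 t)).trans_lt ?_
  linarith

end lft

/-! ### Jets -/

theorem EJ.y_eq_of {j : EJ} {f f1 f2 : WB} (h1 : ∀ m : ℤ, f1.c m = ((m : ℂ) * I) • f.c m)
    (h2 : ∀ m : ℤ, f2.c m = ((m : ℂ) * I) • f1.c m) (h : j.y2 = f - f2) :
    j.y = f ∧ j.yt = f1 ∧ j.ytt = f2 := by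
  have a : j.y = f := by
    ext m t
    rw [EJ.c_y, h, W.c_sub, h2, h1]
    simp only [BoundedContinuousFunction.smul_apply, BoundedContinuousFunction.sub_apply,
      smul_eq_mul]
    rw [inv_mul_eq_iff_eq_mul₀ (br_ne m), br]
    push_cast
    linear_combination (-(m : ℂ) ^ 2 * f.c m t) * Complex.I_mul_I
  have b : j.yt = f1 := by
    ext1 m
    rw [EJ.c_yt, a, h1]
  refine ⟨a, b, ?_⟩
  ext1 m
  rw [EJ.c_ytt, b, h2]

/-- Jets are determined by their values. -/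
theorem EJ.ext_ev {j j' : EJ} (h1 : ∀ t θ, ev j.y t θ = ev j'.y t θ)
    (h2 : ∀ t θ, ev j.op t θ = ev j'.op t θ) (h3 : ∀ t θ, ev j.oq t θ = ev j'.oq t θ)
    (h4 : ∀ t θ, ev j.pt t θ = ev j'.pt t θ) : j = j' := by
  refine EJ.ext' ?_ (End.ext_ev h2) (End.ext_ev h3) (End.ext_ev h4)
  ext1 m
  rw [EJ.c_y2, EJ.c_y2, End.ext_ev h1]

theorem EJ.isRl_of {j : EJ} (h1 : W.IsRl j.y2) (h2 : W.IsRl j.op) (h3 : W.IsRl j.oq)
    (h4 : W.IsRl j.pt) : j.IsRl := EJ.ext' h1 h2 h3 h4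

/-- The jet of `v (σ t, θ)`; `a = Ω σ'`, `b = Ω σ'²`, `c = Ω σ''`, `d = σ'` with `' = d/dζ`. -/
def jetG (σ : ℝ → ℝ) (a b c d : BC) (v : ℝ × ℝ → ℝ) : EJ :=
  (lft σ v - lft σ (dt (dt v)), W.C a * lft σ (ds v),
    W.C b * lft σ (ds (ds v)) + W.C c * lft σ (ds v), W.C d * lft σ (dt (ds v)))

section jetG
variable {σ : ℝ → ℝ} {a b c d : BC} {v : ℝ × ℝ → ℝ}

theorem jetG_y2 : (jetG σ a b c d v).y2 = lft σ v - lft σ (dt (dt v)) := rfl
theorem jetG_op : (jetG σ a b c d v).op = W.C a * lft σ (ds v) := rfl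
theorem jetG_oq :
    (jetG σ a b c d v).oq = W.C b * lft σ (ds (ds v)) + W.C c * lft σ (ds v) := rfl
theorem jetG_pt : (jetG σ a b c d v).pt = W.C d * lft σ (dt (ds v)) := rfl

theorem Per.jetG_y (h : Per v) (hσ : Rng σ) : (jetG σ a b c d v).y = lft σ v ∧
    (jetG σ a b c d v).yt = lft σ (End.dt v) ∧ (jetG σ a b c d v).ytt = lft σ (End.dt (End.dt v)) :=
  EJ.y_eq_of (h.c_lft_dt hσ) (h.dt.c_lft_dt hσ) rfl

theorem Per.isJet_jetG (h : Per v) (hσ : Rng σ) {G : Ctr} {σ' : ℝ → ℝ}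
    (h1 : ∀ t, HasDerivAt σ (σ' t) t) (h2 : ∀ t, (σ' t : ℂ) = G.g t * d t)
    (h3 : ∀ t, HasDerivAt d (G.g t * (G.io t * c t)) t) (h4 : ∀ t, G.io t * a t = d t)
    (h5 : ∀ t, G.io t * b t = d t ^ 2) : G.IsJet (jetG σ a b c d v) := by
  have e : ∀ {u : ℝ × ℝ → ℝ}, Per u → ∀ t θ, HasDerivAt (fun t => (u (σ t, θ) : ℂ))
      (G.g t * d t * End.ds u (σ t, θ)) t := fun hu t θ =>
    ((hu.hasDerivAt_ds (σ t) θ).comp t (h1 t)).ofReal_comp.congr_deriv (by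
      rw [← h2]; push_cast; ring)
  have eP : ∀ t θ, ev (G.jP (jetG σ a b c d v)) t θ = d t * End.ds v (σ t, θ) := fun t θ => by
    rw [Ctr.ev_jP, jetG_op, ev_mul, ev_C, h.ds.ev_lft hσ, ← mul_assoc, h4]
  refine Ctr.isJet_of_ev (fun t θ => ?_) (fun t θ => ?_) fun t θ => ?_
  · simp only [(h.jetG_y hσ).1, h.ev_lft hσ, eP]
    exact (e h t θ).congr_deriv (mul_assoc _ _ _)
  · simp only [eP, Ctr.ev_jQ, jetG_oq, ev_add, ev_mul, ev_C, h.ds.ev_lft hσ, h.ds.ds.ev_lft hσ]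
    refine ((h3 t).mul (e h.ds t θ)).congr_deriv ?_
    linear_combination (-(G.g t * (End.ds (End.ds v) (σ t, θ) : ℂ))) * h5 t
  · simp only [eP, jetG_pt, ev_mul, ev_C, h.ds.dt.ev_lft hσ]
    exact (h.ds.hasDerivAt_dtC _ θ).const_mul _

theorem Per.isRl_jetG (h : Per v) (hσ : Rng σ) (ha : ∀ t, (a t).im = 0) (hb : ∀ t, (b t).im = 0)
    (hc : ∀ t, (c t).im = 0) (hd : ∀ t, (d t).im = 0) : (jetG σ a b c d v).IsRl :=
  EJ.isRl_of ((h.isRl_lft hσ).sub (h.dt.dt.isRl_lft hσ))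
    ((W.isRl_C (star_BC_eq_iff.2 ha)).mul (h.ds.isRl_lft hσ))
    (((W.isRl_C (star_BC_eq_iff.2 hb)).mul (h.ds.ds.isRl_lft hσ)).add
      ((W.isRl_C (star_BC_eq_iff.2 hc)).mul (h.ds.isRl_lft hσ)))
    ((W.isRl_C (star_BC_eq_iff.2 hd)).mul (h.ds.dt.isRl_lft hσ))

end jetG

/-! ### Real paths -/

namespace Path

/-- real paths in the region `ζ ≥ Z` -/
structure Real (γ : Path) (Z : ℝ) : Prop where
  ok : γ.Ok
  ze_im : ∀ t, (γ.ze t).im = 0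
  g_im : ∀ t, (γ.g t).im = 0
  g_nonneg : ∀ t, 0 ≤ (γ.g t).re
  le : ∀ t, Z ≤ (γ.ze t).re

variable (γ : Path)

/-- `z = √ζ` -/
def zc (t : ℝ) : ℝ := √(γ.ze t).re
/-- `s = log r` -/
def sc (t : ℝ) : ℝ := Real.log (γ.ze t).re / 2
/-- `z = √ζ` -/
def zB : BC := mkB fun t => (γ.zc t : ℂ)
/-- `1 / (2 z)` -/
def dB : BC := mkB fun t => (2 * γ.zc t : ℂ)⁻¹

/-- paths far out -/
def far : Filter Path := ⨅ Z : ℝ, 𝓟 {γ | γ.Real Z}

namespace Real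
variable {γ} {Z : ℝ}

theorem mono (h : γ.Real Z) {Z' : ℝ} (hZ : Z' ≤ Z) : γ.Real Z' :=
  ⟨h.ok, h.ze_im, h.g_im, h.g_nonneg, fun t => hZ.trans (h.le t)⟩

theorem isRl (h : γ.Real Z) : γ.IsRl := isRl_iff.2 ⟨h.ze_im, h.g_im⟩

theorem ze_eq (h : γ.Real Z) (t : ℝ) : γ.ze t = ((γ.ze t).re : ℝ) :=
  Complex.ext rfl (h.ze_im t)

theorem g_eq (h : γ.Real Z) (t : ℝ) : γ.g t = ((γ.g t).re : ℝ) := Complex.ext rfl (h.g_im t)

theorem hasDerivAt_re (h : γ.Real Z) (t : ℝ) :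
    HasDerivAt (fun t => (γ.ze t).re) (γ.g t).re t :=
  Complex.reCLM.hasFDerivAt.comp_hasDerivAt t (h.ok.der t)

theorem re_le (γ : Path) (t : ℝ) : (γ.ze t).re ≤ ‖γ.ze‖ :=
  (Complex.re_le_norm _).trans (γ.ze.norm_coe_le_norm t)

theorem pos (h : γ.Real 1) (t : ℝ) : 0 < (γ.ze t).re := one_pos.trans_le (h.le t)

theorem one_le_norm (h : γ.Real 1) (t : ℝ) : 1 ≤ ‖γ.ze t‖ := (h.le t).trans (Complex.re_le_norm _)

theorem ze_ne (h : γ.Real 1) (t : ℝ) : γ.ze t ≠ 0 :=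
  norm_pos_iff.1 (one_pos.trans_le (h.one_le_norm t))

theorem one_le_zc (h : γ.Real 1) (t : ℝ) : 1 ≤ γ.zc t := Real.one_le_sqrt.2 (h.le t)

theorem zc_ne (h : γ.Real 1) (t : ℝ) : (γ.zc t : ℂ) ≠ 0 :=
  ofReal_ne_zero.2 (one_pos.trans_le (h.one_le_zc t)).ne'

theorem zc_sq (h : γ.Real 1) (t : ℝ) : γ.ze t = (γ.zc t : ℂ) ^ 2 := by
  rw [← ofReal_pow, zc, Real.sq_sqrt (h.pos t).le, ← h.ze_eq]

theorem exp_sc (h : γ.Real 1) (t : ℝ) : γ.ze t = (Real.exp (2 * γ.sc t) : ℝ) := by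
  rw [sc, mul_div_cancel₀ _ two_ne_zero, Real.exp_log (h.pos t), ← h.ze_eq]

theorem rng_zc (γ : Path) : Rng γ.zc :=
  ⟨(Complex.continuous_re.comp γ.ze.continuous).sqrt, 0, √‖γ.ze‖,
    fun t => ⟨Real.sqrt_nonneg _, Real.sqrt_le_sqrt (re_le γ t)⟩⟩

theorem rng_sc (h : γ.Real 1) : Rng γ.sc :=
  ⟨((Complex.continuous_re.comp γ.ze.continuous).log fun t => (h.pos t).ne').div_const _, 0,
    Real.log ‖γ.ze‖ / 2, fun t => ⟨div_nonneg (Real.log_nonneg (h.le t)) zero_le_two,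
      div_le_div_of_nonneg_right (Real.log_le_log (h.pos t) (re_le γ t)) zero_le_two⟩⟩

theorem zB_apply (γ : Path) (t : ℝ) : γ.zB t = γ.zc t :=
  mkB_apply (f := fun t => (γ.zc t : ℂ)) (continuous_ofReal.comp (rng_zc γ).cont) (C := √‖γ.ze‖)
    (fun t => by
    rw [Complex.norm_real, zc, Real.norm_of_nonneg (Real.sqrt_nonneg _)]
    exact Real.sqrt_le_sqrt (re_le γ t)) t

theorem norm_d_le (h : γ.Real 1) (t : ℝ) : ‖(2 * γ.zc t : ℂ)⁻¹‖ ≤ 1 / 2 := by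
  have := h.one_le_zc t
  rw [norm_inv, norm_mul, Complex.norm_real, Real.norm_of_nonneg (by linarith), one_div]
  exact inv_anti₀ two_pos (by simpa using this)

theorem dB_apply (h : γ.Real 1) (t : ℝ) : γ.dB t = (2 * γ.zc t : ℂ)⁻¹ :=
  mkB_apply ((continuous_const.mul (continuous_ofReal.comp (rng_zc γ).cont)).inv₀
    fun t => mul_ne_zero two_ne_zero (h.zc_ne t)) h.norm_d_le t

theorem norm_dB_le (h : γ.Real 1) : ‖γ.dB‖ ≤ 1 / 2 := norm_BC_le fun t => by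
  rw [h.dB_apply]; exact h.norm_d_le t

theorem binv_ze (h : γ.Real 1) (t : ℝ) : binv γ.ze t = (γ.ze t)⁻¹ :=
  binv_apply one_pos h.one_le_norm t

theorem rho_zero (γ : Path) (t : ℝ) : γ.rho 0 t = 2 := by simp [rho]

theorem binv_rho (γ : Path) (t : ℝ) : binv (γ.rho 0) t = 2⁻¹ := by
  rw [binv_apply two_pos (fun t => by simp [rho_zero]), rho_zero]

theorem cyl_io (h : γ.Real 1) (t : ℝ) : (γ.cyl 0).io t = (2 * γ.ze t)⁻¹ := by
  change binv γ.ze t * binv (γ.rho 0) t = _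
  rw [h.binv_ze, binv_rho, mul_inv, mul_comm]

theorem cyl_Om (γ : Path) (t : ℝ) : (γ.cyl 0).Om t = 2 * γ.ze t := by
  change γ.ze t * γ.rho 0 t = _
  rw [rho_zero, mul_comm]

theorem cone_io (h : γ.Real 1) (t : ℝ) : γ.cone.io t = (γ.ze t ^ 2)⁻¹ := by
  change binv γ.ze t * binv γ.ze t = _
  rw [h.binv_ze, sq, mul_inv]

theorem hasDerivAt_binv (h : γ.Real 1) (t : ℝ) :
    HasDerivAt (binv γ.ze) (-γ.g t / γ.ze t ^ 2) t := by
  rw [show (binv γ.ze : ℝ → ℂ) = fun t => (γ.ze t)⁻¹ from funext h.binv_ze]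
  exact (h.ok.der t).inv (h.ze_ne t)

theorem cyl_ok (h : γ.Real 1) : (γ.cyl 0).Ok := by
  refine ⟨h.ok.spt, ?_, fun t => ?_⟩
  · ext t
    rw [BoundedContinuousFunction.mul_apply, h.cyl_io, cyl_Om,
      mul_inv_cancel₀ (mul_ne_zero two_ne_zero (h.ze_ne t))]
    rfl
  · have e : ((γ.cyl 0).io : ℝ → ℂ) = fun t => binv γ.ze t * 2⁻¹ :=
      funext fun t => congrArg (binv γ.ze t * ·) (binv_rho γ t)
    rw [e]
    refine ((h.hasDerivAt_binv t).mul_const _).congr_deriv ?_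
    have := h.ze_ne t
    simp only [cyl, zero_smul, add_zero, h.binv_ze]
    field_simp

theorem cone_ok (h : γ.Real 1) : γ.cone.Ok := by
  refine ⟨h.ok.spt, ?_, fun t => ?_⟩
  · ext t
    rw [BoundedContinuousFunction.mul_apply, h.cone_io]
    exact (congrArg (· * _) (sq (γ.ze t)).symm).trans (mul_inv_cancel₀ (pow_ne_zero 2 (h.ze_ne t)))
  · refine ((h.hasDerivAt_binv t).mul (h.hasDerivAt_binv t)).congr_deriv ?_
    have := h.ze_ne t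
    simp only [cone, BoundedContinuousFunction.smul_apply, BoundedContinuousFunction.mul_apply,
      h.binv_ze, smul_eq_mul]
    field_simp
    ring

theorem hasDerivAt_zc (h : γ.Real 1) (t : ℝ) :
    HasDerivAt γ.zc ((γ.g t).re / (2 * γ.zc t)) t := (h.hasDerivAt_re t).sqrt (h.pos t).ne'

theorem hasDerivAt_sc (h : γ.Real 1) (t : ℝ) :
    HasDerivAt γ.sc ((γ.g t).re / (γ.ze t).re / 2) t :=
  ((h.hasDerivAt_re t).log (h.pos t).ne').div_const 2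

end Real

theorem eventually_far {p : Path → Prop} :
    (∀ᶠ γ in far, p γ) ↔ ∃ Z : ℝ, ∀ γ : Path, γ.Real Z → p γ := by
  have h := hasBasis_iInf_principal (s := fun Z : ℝ => {γ : Path | γ.Real Z})
    fun a b => ⟨max a b, fun _ h => h.mono (le_max_left _ _), fun _ h => h.mono (le_max_right _ _)⟩
  simpa using! h.eventually_iff

theorem far_real (Z : ℝ) : ∀ᶠ γ in far, γ.Real Z := eventually_far.2 ⟨Z, fun _ h => h⟩

theorem far_zc (s₀ : ℝ) : ∀ᶠ γ in far, ∀ t, s₀ ≤ γ.zc t :=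
  (far_real (s₀ ^ 2)).mono fun _ h t => Real.le_sqrt_of_sq_le (h.le t)

theorem far_sc (s₀ : ℝ) : ∀ᶠ γ in far, ∀ t, s₀ ≤ γ.sc t :=
  (far_real (Real.exp (2 * s₀))).mono fun γ h t => by
    have := Real.log_le_log (Real.exp_pos _) (h.le t)
    rw [Real.log_exp] at this
    rw [sc]
    linarith

end Path

/-! ### The canonical jets -/

/-- the jet of `v (√ζ, θ)` on a cylindrical end with slope zero -/
def jetC (v : ℝ × ℝ → ℝ) (γ : Path) : EJ :=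
  jetG γ.zc γ.zB ((1 / 2 : ℂ) • 1) (-γ.dB) γ.dB v

/-- the jet of `h (log ζ / 2, θ)` on a conical end -/
def jetK (h : ℝ × ℝ → ℝ) (γ : Path) : EJ :=
  jetG γ.sc ((1 / 2 : ℂ) • γ.ze) ((1 / 4 : ℂ) • 1) ((-1 / 2 : ℂ) • 1) ((1 / 2 : ℂ) • binv γ.ze) h

namespace Per
variable {v : ℝ × ℝ → ℝ} {γ : Path}

open Path.Real

theorem isJet_jetC (hv : Per v) (h : γ.Real 1) : (γ.cyl 0).IsJet (jetC v γ) := by
  refine hv.isJet_jetG (rng_zc γ) h.hasDerivAt_zc (fun t => ?_) (fun t => ?_) (fun t => ?_)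
    fun t => ?_
  · rw [h.dB_apply, ofReal_div, ← h.g_eq]
    push_cast
    rfl
  · rw [show (γ.dB : ℝ → ℂ) = fun t => (2 * γ.zc t : ℂ)⁻¹ from funext h.dB_apply]
    have h0 := h.zc_ne t
    refine (((h.hasDerivAt_zc t).ofReal_comp.const_mul 2).inv
      (mul_ne_zero two_ne_zero h0)).congr_deriv ?_
    rw [BoundedContinuousFunction.neg_apply, h.dB_apply, h.cyl_io, h.zc_sq, ofReal_div, ← h.g_eq]
    change _ = γ.g t * _
    push_cast
    field_simp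
  · have h0 := h.zc_ne t
    rw [h.dB_apply, h.cyl_io, h.zc_sq, zB_apply]
    field_simp
  · have h0 := h.zc_ne t
    rw [h.dB_apply, h.cyl_io, h.zc_sq]
    simp only [BoundedContinuousFunction.smul_apply, BoundedContinuousFunction.coe_one,
      Pi.one_apply, smul_eq_mul]
    field_simp

theorem isJet_jetK (hv : Per v) (h : γ.Real 1) : γ.cone.IsJet (jetK v γ) := by
  refine hv.isJet_jetG h.rng_sc h.hasDerivAt_sc (fun t => ?_) (fun t => ?_) (fun t => ?_)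
    fun t => ?_
  · rw [ofReal_div, ofReal_div, ← h.g_eq, ← h.ze_eq, BoundedContinuousFunction.smul_apply,
      h.binv_ze, smul_eq_mul]
    change _ = γ.g t * _
    push_cast
    ring
  · refine ((h.hasDerivAt_binv t).const_mul (1 / 2 : ℂ)).congr_deriv ?_
    simp only [h.cone_io, BoundedContinuousFunction.smul_apply, BoundedContinuousFunction.coe_one,
      Pi.one_apply, smul_eq_mul]
    change _ = γ.g t * _
    ring
  · have h0 := h.ze_ne t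
    simp only [h.cone_io, BoundedContinuousFunction.smul_apply, h.binv_ze, smul_eq_mul]
    field_simp
  · have h0 := h.ze_ne t
    simp only [h.cone_io, BoundedContinuousFunction.smul_apply, BoundedContinuousFunction.coe_one,
      Pi.one_apply, h.binv_ze, smul_eq_mul]
    field_simp
    norm_num

theorem jetC_y (hv : Per v) : (jetC v γ).y = lft γ.zc v := (hv.jetG_y (rng_zc γ)).1
theorem jetC_yt (hv : Per v) : (jetC v γ).yt = lft γ.zc (End.dt v) := (hv.jetG_y (rng_zc γ)).2.1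
theorem jetC_ytt (hv : Per v) : (jetC v γ).ytt = lft γ.zc (End.dt (End.dt v)) :=
  (hv.jetG_y (rng_zc γ)).2.2
theorem jetK_y (hv : Per v) (h : γ.Real 1) : (jetK v γ).y = lft γ.sc v := (hv.jetG_y h.rng_sc).1
theorem jetK_yt (hv : Per v) (h : γ.Real 1) : (jetK v γ).yt = lft γ.sc (End.dt v) :=
  (hv.jetG_y h.rng_sc).2.1
theorem jetK_ytt (hv : Per v) (h : γ.Real 1) : (jetK v γ).ytt = lft γ.sc (End.dt (End.dt v)) :=
  (hv.jetG_y h.rng_sc).2.2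

theorem ev_jetC_y (hv : Per v) (t θ : ℝ) : ev (jetC v γ).y t θ = v (γ.zc t, θ) := by
  rw [hv.jetC_y, hv.ev_lft (rng_zc γ)]
theorem ev_jetC_yt (hv : Per v) (t θ : ℝ) : ev (jetC v γ).yt t θ = End.dt v (γ.zc t, θ) := by
  rw [hv.jetC_yt, hv.dt.ev_lft (rng_zc γ)]
theorem ev_jetC_ytt (hv : Per v) (t θ : ℝ) :
    ev (jetC v γ).ytt t θ = End.dt (End.dt v) (γ.zc t, θ) := by
  rw [hv.jetC_ytt, hv.dt.dt.ev_lft (rng_zc γ)]
theorem ev_jetC_op (hv : Per v) (t θ : ℝ) :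
    ev (jetC v γ).op t θ = (γ.zc t * End.ds v (γ.zc t, θ) : ℝ) := by
  rw [jetC, jetG_op, ev_mul, ev_C, hv.ds.ev_lft (rng_zc γ), zB_apply, ofReal_mul]
theorem ev_jetC_oq (hv : Per v) (h : γ.Real 1) (t θ : ℝ) : ev (jetC v γ).oq t θ =
    (End.ds (End.ds v) (γ.zc t, θ) / 2 - End.ds v (γ.zc t, θ) / (2 * γ.zc t) : ℝ) := by
  simp only [jetC, jetG_oq, ev_add, ev_mul, ev_C, hv.ds.ev_lft (rng_zc γ),
    hv.ds.ds.ev_lft (rng_zc γ), BoundedContinuousFunction.neg_apply, h.dB_apply,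
    BoundedContinuousFunction.smul_apply, BoundedContinuousFunction.coe_one, Pi.one_apply,
    smul_eq_mul]
  push_cast
  ring
theorem ev_jetC_pt (hv : Per v) (h : γ.Real 1) (t θ : ℝ) :
    ev (jetC v γ).pt t θ = (End.dt (End.ds v) (γ.zc t, θ) / (2 * γ.zc t) : ℝ) := by
  rw [jetC, jetG_pt, ev_mul, ev_C, hv.ds.dt.ev_lft (rng_zc γ), h.dB_apply]
  push_cast
  ring

theorem ev_jetK_y (hv : Per v) (h : γ.Real 1) (t θ : ℝ) : ev (jetK v γ).y t θ = v (γ.sc t, θ) := by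
  rw [hv.jetK_y h, hv.ev_lft h.rng_sc]
theorem ev_jetK_yt (hv : Per v) (h : γ.Real 1) (t θ : ℝ) :
    ev (jetK v γ).yt t θ = End.dt v (γ.sc t, θ) := by rw [hv.jetK_yt h, hv.dt.ev_lft h.rng_sc]
theorem ev_jetK_ytt (hv : Per v) (h : γ.Real 1) (t θ : ℝ) :
    ev (jetK v γ).ytt t θ = End.dt (End.dt v) (γ.sc t, θ) := by
  rw [hv.jetK_ytt h, hv.dt.dt.ev_lft h.rng_sc]
theorem ev_jetK_op (hv : Per v) (h : γ.Real 1) (t θ : ℝ) :
    ev (jetK v γ).op t θ = γ.ze t * End.ds v (γ.sc t, θ) / 2 := by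
  rw [jetK, jetG_op, ev_mul, ev_C, hv.ds.ev_lft h.rng_sc, BoundedContinuousFunction.smul_apply,
    smul_eq_mul]
  ring
theorem ev_jetK_oq (hv : Per v) (h : γ.Real 1) (t θ : ℝ) : ev (jetK v γ).oq t θ =
    (End.ds (End.ds v) (γ.sc t, θ) / 4 - End.ds v (γ.sc t, θ) / 2 : ℝ) := by
  simp only [jetK, jetG_oq, ev_add, ev_mul, ev_C, hv.ds.ev_lft h.rng_sc,
    hv.ds.ds.ev_lft h.rng_sc, BoundedContinuousFunction.smul_apply,
    BoundedContinuousFunction.coe_one, Pi.one_apply, smul_eq_mul]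
  push_cast
  ring
theorem ev_jetK_pt (hv : Per v) (h : γ.Real 1) (t θ : ℝ) :
    ev (jetK v γ).pt t θ = End.dt (End.ds v) (γ.sc t, θ) / (2 * γ.ze t) := by
  rw [jetK, jetG_pt, ev_mul, ev_C, hv.ds.dt.ev_lft h.rng_sc, BoundedContinuousFunction.smul_apply,
    h.binv_ze, smul_eq_mul]
  ring

theorem isRl_jetC (hv : Per v) (h : γ.Real 1) : (jetC v γ).IsRl := by
  have e : ∀ t, (γ.dB t).im = 0 := fun t => by
    rw [h.dB_apply, ← ofReal_ofNat, ← ofReal_mul, ← ofReal_inv, ofReal_im]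
  exact hv.isRl_jetG (rng_zc γ) (fun t => by rw [zB_apply, ofReal_im]) (fun t => by simp)
    (fun t => by simp [e]) e

theorem isRl_jetK (hv : Per v) (h : γ.Real 1) : (jetK v γ).IsRl :=
  hv.isRl_jetG h.rng_sc (fun t => by simp [h.ze_im]) (fun t => by simp) (fun t => by
    simp [neg_div]) fun t => by simp [h.binv_ze, h.ze_im]

/-- compatibility with substitutions in the parameter of the path -/
theorem jetC_comp (hv : Per v) (h : γ.Real 1) {γ' : Path} (h' : γ'.Real 1) {R : WB → WB}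
    {τ : ℝ → ℝ} (hR : ∀ f t θ, ev (R f) t θ = ev f (τ t) θ) (hz : ∀ t, γ'.ze t = γ.ze (τ t)) :
    jetC v γ' = (R (jetC v γ).y2, R (jetC v γ).op, R (jetC v γ).oq, R (jetC v γ).pt) := by
  have e : ∀ t, γ'.zc t = γ.zc (τ t) := fun t => by rw [Path.zc, hz, Path.zc]
  refine EJ.ext' (ext_ev fun t θ => ?_) (ext_ev fun t θ => ?_) (ext_ev fun t θ => ?_)
    (ext_ev fun t θ => ?_)
  · refine Eq.trans ?_ (hR _ t θ).symm
    simp only [EJ.y2_eq, ev_sub, hv.ev_jetC_y, hv.ev_jetC_ytt, e]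
  · exact Eq.trans (by rw [hv.ev_jetC_op, hv.ev_jetC_op, e]) (hR _ t θ).symm
  · exact Eq.trans (by rw [hv.ev_jetC_oq h, hv.ev_jetC_oq h', e]) (hR _ t θ).symm
  · exact Eq.trans (by rw [hv.ev_jetC_pt h, hv.ev_jetC_pt h', e]) (hR _ t θ).symm

theorem jetK_comp (hv : Per v) (h : γ.Real 1) {γ' : Path} (h' : γ'.Real 1) {R : WB → WB}
    {τ : ℝ → ℝ} (hR : ∀ f t θ, ev (R f) t θ = ev f (τ t) θ) (hz : ∀ t, γ'.ze t = γ.ze (τ t)) :
    jetK v γ' = (R (jetK v γ).y2, R (jetK v γ).op, R (jetK v γ).oq, R (jetK v γ).pt) := by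
  have e : ∀ t, γ'.sc t = γ.sc (τ t) := fun t => by rw [Path.sc, hz, Path.sc]
  refine EJ.ext' (ext_ev fun t θ => ?_) (ext_ev fun t θ => ?_) (ext_ev fun t θ => ?_)
    (ext_ev fun t θ => ?_)
  · refine Eq.trans ?_ (hR _ t θ).symm
    simp only [EJ.y2_eq, ev_sub, hv.ev_jetK_y h, hv.ev_jetK_ytt h, hv.ev_jetK_y h',
      hv.ev_jetK_ytt h', e]
  · exact Eq.trans (by rw [hv.ev_jetK_op h, hv.ev_jetK_op h', e, hz]) (hR _ t θ).symm
  · exact Eq.trans (by rw [hv.ev_jetK_oq h, hv.ev_jetK_oq h', e]) (hR _ t θ).symm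
  · exact Eq.trans (by rw [hv.ev_jetK_pt h, hv.ev_jetK_pt h', e, hz]) (hR _ t θ).symm

/-- the equation along the path -/
theorem isCyl_jetC (hv : Per v) (h : γ.Real 1) (he : ∀ t θ, CylEq v (γ.zc t, θ)) :
    γ.IsCyl 0 (jetC v γ) := by
  refine ⟨hv.isJet_jetC h, eq_zero_iff_ev.2 fun t θ => ?_⟩
  have h1 := congrArg ofRealHom (he t θ)
  rw [map_cylE, map_zero] at h1
  rw [Path.ev_Ecyl, hv.ev_jetC_y, hv.ev_jetC_yt, hv.ev_jetC_ytt, hv.ev_jetC_op, hv.ev_jetC_oq h,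
    hv.ev_jetC_pt h, h.binv_ze, h.cyl_io, h.zc_sq]
  refine Eq.trans ?_ h1
  simp [Path.hh, Path.Oh]

theorem isCone_jetK (hv : Per v) (h : γ.Real 1) {c n : ℝ → H.E3} {l : ℝ} {ka kd : WD}
    (ha : ∀ θ, W.sumL θ ka = kaL c n l θ)
    (hd : ∀ θ, W.sumL θ kd = (l⁻¹ * deriv (kaL c n l) θ : ℝ))
    (he : ∀ t θ, ConeEq c n l v (γ.sc t, θ)) : γ.IsCone l⁻¹ ka kd (jetK v γ) := by
  refine ⟨hv.isJet_jetK h, eq_zero_iff_ev.2 fun t θ => ?_⟩
  have h1 := congrArg ofRealHom (he t θ)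
  rw [map_coneE, map_zero] at h1
  have h0 := h.ze_ne t
  rw [Path.ev_Econe, hv.ev_jetK_y h, hv.ev_jetK_yt h, hv.ev_jetK_ytt h, hv.ev_jetK_op h,
    hv.ev_jetK_oq h, hv.ev_jetK_pt h, h.binv_ze, ha, hd, mul_div_assoc', mul_comm 2,
    mul_div_mul_left _ _ h0, h.exp_sc, ← h1]
  simp

end Per

end Vale.Agent.P218N.End
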