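import Vale.Agent.P218N.End.Ap
import Vale.Agent.P218N.End.ApiBas

/-! Margins for the cylindrical and the conical modes; formulas for the weights. -/

open Filter Topology Metric Set Complex
open scoped BoundedContinuousFunction

noncomputable section

namespace Vale.Agent.P218N.End

theorem sq_le_one_of {m : ℤ} (h : |m| ≤ 1) : (m : ℝ) ^ 2 ≤ 1 := by
  have : m ^ 2 ≤ 1 := by nlinarith [sq_abs m, abs_nonneg m]
  exact_mod_cast this

theorem muCyl_le1 {m : ℤ} (h : |m| ≤ 1) : |muCyl m| ≤ 1 := by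
  have h1 := sq_le_one_of h
  rw [muCyl, abs_le]
  constructor <;> nlinarith [sq_nonneg (m : ℝ)]

theorem four_le_sq {m : ℤ} (h : 2 ≤ |m|) : (4 : ℝ) ≤ (m : ℝ) ^ 2 := by
  have : (4 : ℤ) ≤ m ^ 2 := by nlinarith [sq_abs m]
  exact_mod_cast this

theorem abs_muCyl_le (m : ℤ) : |muCyl m| ≤ 1 * br m := by
  rw [muCyl, br, abs_le]
  constructor <;> nlinarith [sq_nonneg (m : ℝ)]

theorem muCone_nonneg (cc : ℝ) (m : ℤ) : 0 ≤ muCone cc m := by unfold muCone; positivity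

theorem abs_muCone_le (cc : ℝ) (m : ℤ) : |muCone cc m| ≤ cc ^ 2 * br m := by
  rw [abs_of_nonneg (muCone_nonneg cc m), muCone, br]
  nlinarith [sq_nonneg cc, mul_nonneg (sq_nonneg cc) (sq_nonneg (m : ℝ))]

namespace Ctr
variable {Γ : Ctr} {μ c : ℝ} {φ : BC}

theorem Adm0.c1 (h : Γ.Adm0 c) : c ≤ 1 :=
  let ⟨u, h1, h2, _⟩ := h.2 0; h2.trans ((Complex.re_le_norm u).trans_eq h1)

theorem Adm0.le_re (h : Γ.Adm0 c) (t : ℝ) : c * ‖Γ.g t‖ ≤ (Γ.g t).re := by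
  obtain ⟨u, -, h2, -, h4⟩ := h.2 t
  have e : (Γ.g t).re = ‖Γ.g t‖ * u.re := by simpa using re_dir h4 1
  rw [e, mul_comm]
  gcongr

theorem Adm0.le_x (h : Γ.Adm0 c) (t : ℝ) : c * (‖Γ.g t‖ * ‖Γ.io t‖) ≤ (Γ.g t * Γ.io t).re := by
  obtain ⟨u, -, -, h3, h4⟩ := h.2 t
  rw [re_dir h4, mul_left_comm]
  gcongr

theorem Adm0.x_nonneg (h : Γ.Adm0 c) (t : ℝ) : 0 ≤ (Γ.g t * Γ.io t).re :=
  le_trans (by have := h.1; positivity) (h.le_x t)

theorem Adm0.x_le (h : Γ.Adm0 c) (t : ℝ) : c * (Γ.g t * Γ.io t).re ≤ ‖Γ.io‖ * (Γ.g t).re := by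
  have h1 := (Complex.re_le_norm (Γ.g t * Γ.io t)).trans_eq (norm_mul _ _)
  have h2 := Γ.io.norm_coe_le_norm t
  have h0 := h.1
  calc _ ≤ c * (‖Γ.g t‖ * ‖Γ.io‖) := by gcongr; exact h1.trans (by gcongr)
    _ = ‖Γ.io‖ * (c * ‖Γ.g t‖) := by ring
    _ ≤ _ := by gcongr; exact h.le_re t

theorem Adm.norm_gil (h : Γ.Adm μ c) (t : ℝ) :
    ‖Γ.g t * Γ.io t * Γ.il μ t‖ ≤ 8 * (‖Γ.g t‖ * ‖Γ.io t‖) := by
  rw [norm_mul, norm_mul, mul_comm]
  gcongr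
  exact ((Γ.il μ).norm_coe_le_norm t).trans h.norm_il

/-- the slow rate is `2 μ / Ω` up to a quadratic error -/
theorem Adm.nu_sub (h : Γ.Adm μ c) (t : ℝ) :
    ‖Γ.nuB μ t - 2 * μ * Γ.io t‖ ≤ 64 * μ ^ 2 * ‖Γ.io t‖ ^ 2 := by
  have e : Γ.nuB μ t - 2 * μ * Γ.io t = -(4 * Γ.nuB μ t ^ 2) := by
    linear_combination 4 * h.nu_la t - 4 * Γ.nuB μ t * h.la_eq t
  have e2 : ‖Γ.kk μ t‖ = |μ| / 2 * ‖Γ.io t‖ := by simp [kk_apply]
  have b := norm_nu_le' (Γ.kk μ t)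
  rw [← h.nuB_apply, e2] at b
  rw [e, norm_neg, norm_mul, norm_pow, Complex.norm_ofNat, ← sq_abs μ]
  nlinarith [norm_nonneg (Γ.nuB μ t), mul_nonneg (abs_nonneg μ) (norm_nonneg (Γ.io t))]

theorem Adm0.re_nu (h : Γ.Adm0 c) (hμ : |μ| ≤ 1) (hio : ‖Γ.io‖ ≤ c / 2560) (t : ℝ) :
    |(Γ.g t * Γ.nuB μ t).re - 2 * μ * (Γ.g t * Γ.io t).re| ≤ (Γ.g t * Γ.io t).re / 40 := by
  have h0 := h.1
  have ha : Γ.Adm μ c := h.adm (Or.inr (by nlinarith [norm_nonneg Γ.io]))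
  have e : (Γ.g t * Γ.nuB μ t).re - 2 * μ * (Γ.g t * Γ.io t).re =
      (Γ.g t * (Γ.nuB μ t - 2 * μ * Γ.io t)).re := by
    rw [mul_sub, sub_re, mul_left_comm _ _ (Γ.io t),
      show (2 * μ : ℂ) = ((2 * μ : ℝ) : ℂ) by push_cast; rfl, re_ofReal_mul]
  have b1 : μ ^ 2 ≤ 1 := by nlinarith [sq_abs μ, abs_nonneg μ]
  have b2 := (Γ.io.norm_coe_le_norm t).trans hio
  rw [e]
  refine (Complex.abs_re_le_norm _).trans ?_
  rw [norm_mul]
  calc _ ≤ ‖Γ.g t‖ * (64 * 1 * (‖Γ.io t‖ * (c / 2560))) := by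
        gcongr
        refine (ha.nu_sub t).trans ?_
        rw [sq ‖_‖]
        gcongr
    _ = c * (‖Γ.g t‖ * ‖Γ.io t‖) / 40 := by ring
    _ ≤ _ := by gcongr; exact h.le_x t

/-- small modes solved forwards -/
theorem Adm0.sm_fw (h : Γ.Adm0 c) (hμ : |μ| ≤ 1) (hio : ‖Γ.io‖ ≤ c / 2560)
    (hφ : ∀ t, (1 / 20 - 2 * μ) * (Γ.g t * Γ.io t).re ≤ (Γ.g t * φ t).re) :
    Γ.SM μ φ p0 (320 / c) := by
  have h0 := h.1
  have ha : Γ.Adm μ c := h.adm (Or.inr (by nlinarith [norm_nonneg Γ.io]))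
  refine ⟨by positivity, Or.inl ⟨rfl, fun t => (ha.norm_gil t).trans ?_⟩⟩
  rw [mul_add, add_re, div_mul_eq_mul_div, le_div_iff₀ h0]
  nlinarith [(abs_le.1 (h.re_nu hμ hio t)).1, hφ t, h.le_x t]

/-- small modes solved backwards -/
theorem Adm0.sm_bw (h : Γ.Adm0 c) (hμ : |μ| ≤ 1) (hio : ‖Γ.io‖ ≤ c / 2560)
    (hφ : ∀ t, (Γ.g t * φ t).re ≤ (-(1 / 20) - 2 * μ) * (Γ.g t * Γ.io t).re) :
    Γ.SM μ φ p1 (320 / c) := by
  have h0 := h.1
  have ha : Γ.Adm μ c := h.adm (Or.inr (by nlinarith [norm_nonneg Γ.io]))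
  refine ⟨by positivity, Or.inr ⟨rfl, fun t => (ha.norm_gil t).trans ?_⟩⟩
  rw [mul_add, add_re, div_mul_eq_mul_div, le_div_iff₀ h0]
  nlinarith [(abs_le.1 (h.re_nu hμ hio t)).2, hφ t, h.le_x t]

/-- non-negative modes and growing weights -/
theorem Adm0.sm_grow (h : Γ.Adm0 c) (hμ : 0 ≤ μ) {Λ : ℝ} (hΛ : 0 < Λ)
    (hφ : ∀ t, 2 * Λ * (Γ.g t * Γ.io t).re ≤ (Γ.g t * φ t).re) : Γ.SM μ φ p0 (4 / (c * Λ)) := by
  have h0 := h.1
  have ha : Γ.Adm μ c := h.adm (Or.inl hμ)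
  refine ⟨by positivity, Or.inl ⟨rfl, fun t => (ha.norm_gil t).trans ?_⟩⟩
  have b1 : 0 ≤ (Γ.g t * Γ.nuB μ t).re := by
    obtain ⟨u, h1, h2, h3, h4⟩ := h.2 t
    have e1 : (u * Γ.kk μ t).re = μ / 2 * (u * Γ.io t).re := by
      rw [kk_apply, mul_left_comm, show (μ : ℂ) / 2 = ((μ / 2 : ℝ) : ℂ) by push_cast; rfl,
        re_ofReal_mul]
    have e2 : ‖Γ.kk μ t‖ = |μ| / 2 * ‖Γ.io t‖ := by simp [kk_apply]
    have b3 : c * ‖Γ.kk μ t‖ ≤ (u * Γ.kk μ t).re := by rw [e1, e2, abs_of_nonneg hμ]; nlinarith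
    have b4 := Gd.slow_pos ⟨h0, h1, h2, Or.inl b3⟩ b3
    rw [← ha.nuB_apply] at b4
    rw [re_dir h4]
    exact mul_nonneg (norm_nonneg _) (le_trans (by positivity) b4)
  rw [mul_add, add_re, div_mul_eq_mul_div, le_div_iff₀ (by positivity)]
  nlinarith [hφ t, mul_le_mul_of_nonneg_left (h.le_x t) hΛ.le]

variable (Γ) in
/-- admissible boundary conditions and weights on a cylindrical end -/
structure Typ (s : ℤ → Icc (0 : ℝ) 1) (φ : BC) : Prop where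
  fast : ∀ t, (Γ.g t * φ t).re ≤ 1 / 5 * (Γ.g t).re
  low : ∀ t, -(2 * (19 / 20) * (Γ.g t * Γ.io t).re) ≤ (Γ.g t * φ t).re
  big : ∀ m, 2 ≤ |m| → s m = p0
  sm : ∀ m, |m| ≤ 1 →
    (s m = p0 ∧ ∀ t, (1 / 20 - 2 * muCyl m) * (Γ.g t * Γ.io t).re ≤ (Γ.g t * φ t).re) ∨
    (s m = p1 ∧ ∀ t, (Γ.g t * φ t).re ≤ (-(1 / 20) - 2 * muCyl m) * (Γ.g t * Γ.io t).re)

theorem Adm0.good_cyl (h : Γ.Adm0 c) (ho : Γ.Ok) (hio : ‖Γ.io‖ ≤ c ^ 2 / 2560)
    (hlo : ‖Γ.lo‖ ≤ c ^ 2 / 480) {s : ℤ → Icc (0 : ℝ) 1} (ht : Γ.Typ s φ) :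
    Γ.Good muCyl s φ c (c / 20) (640 / c) := by
  have h0 := h.1
  have h1 := h.c1
  have hio' : ‖Γ.io‖ ≤ c / 2560 := hio.trans (by nlinarith)
  have hK : 2 ≤ 640 / c := by rw [le_div_iff₀ h0]; linarith
  have hm : ∀ m, 0 ≤ muCyl m ∨ |muCyl m| * ‖Γ.io‖ ≤ c / 2560 := fun m => by
    rcases le_or_gt |m| 1 with a | a
    · exact Or.inr ((mul_le_of_le_one_left (norm_nonneg _) (muCyl_le1 a)).trans hio')
    · left; unfold muCyl; linarith [four_le_sq (m := m) a]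
  refine ⟨ho, fun m => h.adm ((hm m).imp_right fun a => by linarith), by positivity, fun m => ?_,
    fun m => ?_, fun m => (abs_muCyl_le m).trans (by have := br_pos m; gcongr; linarith),
    fun m => ?_, by linarith⟩
  · have := h.fm (κ := 1 / 5) (by norm_num) (by norm_num)
      ((hm m).imp_right fun a => by linarith) (by linarith) ht.fast
    rwa [show c * (1 - 4 * (1 / 5)) / 4 = c / 20 by ring] at this
  · have hb := br_pos m
    rcases le_or_gt |m| 1 with a | a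
    · have b1 : 320 / c ≤ 640 / c / br m := by
        have := sq_le_one_of a
        rw [le_div_iff₀ hb, br, show 640 / c = 320 / c * 2 by ring]
        gcongr
        linarith
      rcases ht.sm m a with ⟨e, b⟩ | ⟨e, b⟩ <;> rw [e]
      exacts [(h.sm_fw (muCyl_le1 a) hio' b).mono b1, (h.sm_bw (muCyl_le1 a) hio' b).mono b1]
    · have b1 := four_le_sq (m := m) a
      have b2 : 1 ≤ muCyl m := by unfold muCyl; linarith
      rw [ht.big m a]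
      refine (h.sm_pos (γ := 19 / 20) (by norm_num) (by norm_num) b2
        (by nlinarith [norm_nonneg Γ.io]) ht.low).mono ?_
      rw [div_div, div_le_div_iff₀ (by positivity) (by positivity)]
      unfold muCyl br
      nlinarith
  · have h2 : (m : ℝ) ^ 2 / 2 - 1 ≤ |muCyl m| := le_abs_self (muCyl m)
    nlinarith [abs_nonneg (muCyl m)]

theorem Adm0.typ_of (h : Γ.Adm0 c) (hio : ‖Γ.io‖ ≤ c / 10) {γ : ℝ} (hγ : γ ≤ 2)
    (hφ : ∀ t, (Γ.g t * φ t).re ≤ γ * (Γ.g t * Γ.io t).re) (t : ℝ) :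
    (Γ.g t * φ t).re ≤ 1 / 5 * (Γ.g t).re := by
  have h0 := h.1
  have h1 := h.x_le t
  have h2 : 0 ≤ (Γ.g t).re := le_trans (by positivity) (h.le_re t)
  have h3 : (Γ.g t * Γ.io t).re ≤ (Γ.g t).re / 10 := le_of_mul_le_mul_left (by nlinarith) h0
  nlinarith [hφ t, h.x_nonneg t]

theorem abs_le_one_iff {m : ℤ} : |m| ≤ 1 ↔ m = 0 ∨ m = 1 ∨ m = -1 := by
  rw [abs_le]; omega

/-- the modes `0, ±1` at the end -/
theorem Adm0.typB (h : Γ.Adm0 c) (hio : ‖Γ.io‖ ≤ c / 10)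
    (h1 : ∀ t, -(19 / 10) * (Γ.g t * Γ.io t).re ≤ (Γ.g t * φ t).re)
    (h2 : ∀ t, (Γ.g t * φ t).re ≤ 19 / 20 * (Γ.g t * Γ.io t).re) : Γ.Typ sdCyl φ := by
  refine ⟨h.typ_of hio (by norm_num) h2, fun t => by linarith [h1 t],
    fun m a => if_neg (by omega), fun m a => Or.inr ⟨if_pos a, fun t => (h2 t).trans ?_⟩⟩
  have := h.x_nonneg t
  rcases abs_le_one_iff.1 a with rfl | rfl | rfl <;> simp only [muCyl] <;> push_cast <;> linarith

/-- the mode `0` at the end -/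
theorem Adm0.typF (h : Γ.Adm0 c) (hio : ‖Γ.io‖ ≤ c / 10)
    (h1 : ∀ t, 21 / 20 * (Γ.g t * Γ.io t).re ≤ (Γ.g t * φ t).re)
    (h2 : ∀ t, (Γ.g t * φ t).re ≤ 39 / 20 * (Γ.g t * Γ.io t).re) : Γ.Typ sdF φ := by
  refine ⟨h.typ_of hio (by norm_num) h2, fun t => by linarith [h1 t, h.x_nonneg t],
    fun m a => if_neg (by rintro rfl; simp at a), fun m a => ?_⟩
  rcases abs_le_one_iff.1 a with rfl | rfl | rfl
  · exact Or.inr ⟨rfl, fun t => by simp only [muCyl]; push_cast; linarith [h2 t]⟩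
  · exact Or.inl ⟨rfl, fun t => by simp only [muCyl]; push_cast; linarith [h1 t]⟩
  · exact Or.inl ⟨rfl, fun t => by simp only [muCyl]; push_cast; linarith [h1 t]⟩

/-- all modes at the start -/
theorem Adm0.typA (h : Γ.Adm0 c)
    (h1 : ∀ t, 41 / 20 * (Γ.g t * Γ.io t).re ≤ (Γ.g t * φ t).re)
    (h2 : ∀ t, (Γ.g t * φ t).re ≤ 1 / 5 * (Γ.g t).re) : Γ.Typ sdAll φ := by
  refine ⟨h2, fun t => by linarith [h1 t, h.x_nonneg t], fun _ _ => rfl,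
    fun m a => Or.inl ⟨rfl, fun t => le_trans ?_ (h1 t)⟩⟩
  have := h.x_nonneg t
  rcases abs_le_one_iff.1 a with rfl | rfl | rfl <;> simp only [muCyl] <;> push_cast <;> linarith

/-- the constant for conical ends -/
def Kcone (c cc : ℝ) : ℝ := 4 / c * (1 + 2 / cc ^ 2) + cc ^ 2

theorem Adm0.good_cone (h : Γ.Adm0 c) (ho : Γ.Ok) (hio : ‖Γ.io‖ ≤ 1) (hlo : ‖Γ.lo‖ ≤ c ^ 2 / 480)
    {cc : ℝ} (hcc : cc ≠ 0) (h1 : ∀ t, 2 * (Γ.g t * Γ.io t).re ≤ (Γ.g t * φ t).re)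
    (h2 : ∀ t, (Γ.g t * φ t).re ≤ 1 / 5 * (Γ.g t).re) :
    Γ.Good (muCone cc) sdAll φ c (c / 20) (Kcone c cc) := by
  have h0 := h.1
  have hc : 4 ≤ 4 / c := by rw [le_div_iff₀ h0]; linarith [h.c1]
  have hc2 : 0 < cc ^ 2 := by positivity
  have hb : ∀ m, br m = 1 + 2 / cc ^ 2 * muCone cc m := fun m => by unfold br muCone; field_simp
  have hi : 0 < 2 / cc ^ 2 := by positivity
  refine ⟨ho, fun m => h.adm (Or.inl (muCone_nonneg cc m)), by positivity, fun m => ?_,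
    fun m => ?_, fun m => (abs_muCone_le cc m).trans ?_, fun m => ?_, hio⟩
  · have := h.fm (κ := 1 / 5) (by norm_num) (by norm_num) (Or.inl (muCone_nonneg cc m))
      (by linarith) h2
    rwa [show c * (1 - 4 * (1 / 5)) / 4 = c / 20 by ring] at this
  · have := br_pos m
    rcases le_or_gt 1 (muCone cc m) with a | a
    · refine (h.sm_pos (γ := 0) le_rfl one_pos a (by rw [zero_mul]; positivity)
        fun t => by linarith [h1 t, h.x_nonneg t]).mono ?_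
      rw [le_div_iff₀ this, hb, sub_zero, mul_one, ← div_div, div_mul_eq_mul_div,
        div_le_iff₀ (by linarith), Kcone]
      nlinarith
    · refine (h.sm_grow (muCone_nonneg cc m) one_pos fun t => by linarith [h1 t]).mono ?_
      rw [le_div_iff₀ this, hb, mul_one, Kcone]
      nlinarith [mul_le_mul_of_nonneg_left a.le hi.le]
  · have := br_pos m
    unfold Kcone
    gcongr
    nlinarith
  · have a := muCone_nonneg cc m
    have e : (m : ℝ) ^ 2 = 2 / cc ^ 2 * muCone cc m := by unfold muCone; field_simp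
    rw [abs_of_nonneg a, e, Kcone]
    nlinarith [mul_nonneg hi.le a, mul_nonneg hc2.le a]

/-! ### Formulas for the weights -/

theorem Wt_add (φ ψ : BC) (r : Icc (0 : ℝ) 1) : Γ.Wt (φ + ψ) r = Γ.Wt φ r * Γ.Wt ψ r := by
  rw [Wt, mul_add, map_add, ex_add]; rfl

theorem iW_add (φ ψ : BC) (r : Icc (0 : ℝ) 1) : Γ.iW (φ + ψ) r = Γ.iW φ r * Γ.iW ψ r := by
  rw [iW, mul_add, map_add, neg_add, ex_add]; rfl

theorem norm_Wt (φ : BC) (r : Icc (0 : ℝ) 1) (t : ℝ) :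
    ‖Γ.Wt φ r t‖ = Real.exp (V r (Γ.g * φ) t).re := norm_ex_V r _ t

theorem norm_iW_eq (φ : BC) (r : Icc (0 : ℝ) 1) (t : ℝ) : ‖Γ.iW φ r t‖ = ‖Γ.Wt φ r t‖⁻¹ := by
  rw [norm_iW, norm_Wt, Real.exp_neg]

theorem norm_Wt_smul (b : ℝ) (φ : BC) (r : Icc (0 : ℝ) 1) (t : ℝ) :
    ‖Γ.Wt ((b : ℂ) • φ) r t‖ = ‖Γ.Wt φ r t‖ ^ b := by
  rw [norm_Wt, norm_Wt, mul_smul_comm, map_smul, BoundedContinuousFunction.smul_apply, smul_eq_mul,
    re_ofReal_mul, mul_comm, Real.exp_mul]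

/-- the weight of a logarithmic derivative -/
theorem Wt_mul_eq (hs : Spt Γ.g) {b : ℝ → ℂ} (hb : ∀ t, HasDerivAt b (Γ.g t * φ t * b t) t)
    (r : Icc (0 : ℝ) 1) (t : ℝ) : b r * Γ.Wt φ r t = b t := by
  have := eq_Sol (hs.mul φ) (b := 0) (fun _ _ => rfl) r (y := b) (fun t => by simpa using hb t) t
  rw [map_zero] at this
  exact ((add_zero _).symm.trans this.symm)

end Ctr

theorem Spt.V_eq_sub {f : BC} (h : Spt f) {b : ℝ → ℂ} (hb : ∀ t, HasDerivAt b (f t) t)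
    (r : Icc (0 : ℝ) 1) (t : ℝ) : V r f t = b t - b r := by
  rw [h.V_eq, intervalIntegral.integral_eq_sub_of_hasDerivAt (fun x _ => hb x)
    (f.continuous.intervalIntegrable _ _)]

end Vale.Agent.P218N.End
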