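import Vale.Agent.P218N.End.Root

/-! The equation `Ω (2 y'' - y'/2) - μ y = f - e y` along a contour, for one mode. -/

open Filter Topology Metric Set Complex
open scoped BoundedContinuousFunction

noncomputable section

namespace Vale.Agent.P218N.End

/-- A contour `ζ = Γ(t)`: `g = dΓ/dt`, `Om = Ω`, `io = 1/Ω`, `lo = (dΩ/dζ)/Ω`. -/
structure Ctr where
  g : BC
  Om : BC
  io : BC
  lo : BC

namespace Ctr
variable (Γ : Ctr) (μ : ℝ)

/-- the compatibility of the data -/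
structure Ok : Prop where
  spt : Spt Γ.g
  inv : Γ.Om * Γ.io = 1
  der : ∀ t, HasDerivAt Γ.io (-(Γ.g t * Γ.lo t * Γ.io t)) t

/-- `P = dy/dζ` along the contour -/
def Der (y P : BC) : Prop := ∀ t, HasDerivAt y (Γ.g t * P t) t

/-- `k = μ / (2 Ω)` -/
def kk : BC := ((μ : ℂ) / 2) • Γ.io
def nuB : BC := nem nu (Γ.kk μ)
def laB : BC := nem la (Γ.kk μ)
def il : BC := nem (fun k => (la k)⁻¹) (Γ.kk μ)
def iS : BC := nem (fun k => (Sf k)⁻¹) (Γ.kk μ)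
/-- the error potential `2 Ω dν/dζ` -/
def ee : BC := (-((μ : ℂ) / 2)) • (Γ.lo * Γ.iS μ)
/-- `dν/dζ` -/
def nz : BC := (1 / 2 : ℂ) • (Γ.io * Γ.ee μ)
def de : BC := Γ.lo + Γ.nz μ * Γ.il μ

/-- the contour is admissible for the mode `μ` -/
def Adm (c : ℝ) : Prop := ∀ t, ∃ u, Gd c u (Γ.kk μ t) ∧ Γ.g t = (‖Γ.g t‖ : ℝ) * u

/-- the fast component `π = Ω λ (P + ν y)`, vanishing at the end -/
def Pi : BC →L[ℂ] BC := (Sol p1 (Γ.g * (Γ.laB μ + Γ.de μ))).comp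
  (ContinuousLinearMap.mul ℂ BC ((1 / 2 : ℂ) • (Γ.g * Γ.laB μ)))

/-- `y` from `π`, vanishing at `s` -/
def Ys (s : Icc (0 : ℝ) 1) : BC →L[ℂ] BC := (Sol s (-(Γ.g * Γ.nuB μ))).comp
  (ContinuousLinearMap.mul ℂ BC (Γ.g * Γ.io * Γ.il μ))

/-- the homogeneous fast component with value one at the end -/
def hPi : BC := ex (V p1 (Γ.g * (Γ.laB μ + Γ.de μ)))

/-- the homogeneous slow solution with value one at `s` -/
def hY (s : Icc (0 : ℝ) 1) : BC := ex (V s (-(Γ.g * Γ.nuB μ)))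

/-- `dy/dζ` -/
def PP (π y : BC) : BC := Γ.io * Γ.il μ * π - Γ.nuB μ * y
/-- `Ω dy/dζ` -/
def OP (π y : BC) : BC := Γ.il μ * (π - ((μ : ℂ) / 2) • y)
/-- `Ω d²y/dζ²` -/
def OQ (f π y : BC) : BC :=
  (1 / 4 : ℂ) • Γ.OP μ π y + ((μ : ℂ) / 2) • y + (1 / 2 : ℂ) • f - (1 / 2 : ℂ) • (Γ.ee μ * y)

variable {Γ μ} {c : ℝ}

theorem kk_apply (t : ℝ) : Γ.kk μ t = (μ : ℂ) / 2 * Γ.io t := rfl

namespace Adm

theorem c0 (h : Γ.Adm μ c) : 0 < c := let ⟨_, hu, _⟩ := h 0; hu.c0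
theorem c1 (h : Γ.Adm μ c) : c ≤ 1 := let ⟨_, hu, _⟩ := h 0; hu.c1
theorem slit (h : Γ.Adm μ c) (t : ℝ) : 1 / 64 + Γ.kk μ t ∈ slitPlane :=
  let ⟨_, hu, _⟩ := h t; hu.slit
theorem norm_Sf (h : Γ.Adm μ c) (t : ℝ) : c / 16 ≤ ‖Sf (Γ.kk μ t)‖ :=
  let ⟨_, hu, _⟩ := h t; hu.norm_Sf
theorem Sf_ne (h : Γ.Adm μ c) (t : ℝ) : Sf (Γ.kk μ t) ≠ 0 := fun h0 => by
  have := h.norm_Sf t
  rw [h0, norm_zero] at this
  linarith [h.c0]

theorem dSf (h : Γ.Adm μ c) (t : ℝ) : DifferentiableAt ℂ Sf (Γ.kk μ t) :=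
  (hasDerivAt_Sf (h.slit t)).differentiableAt
theorem dnu (h : Γ.Adm μ c) (t : ℝ) : DifferentiableAt ℂ nu (Γ.kk μ t) := (h.dSf t).sub_const _
theorem dla (h : Γ.Adm μ c) (t : ℝ) : DifferentiableAt ℂ la (Γ.kk μ t) := (h.dSf t).add_const _
theorem dil (h : Γ.Adm μ c) (t : ℝ) : DifferentiableAt ℂ (fun k => (la k)⁻¹) (Γ.kk μ t) :=
  (h.dla t).inv (la_ne _)
theorem diS (h : Γ.Adm μ c) (t : ℝ) : DifferentiableAt ℂ (fun k => (Sf k)⁻¹) (Γ.kk μ t) :=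
  (h.dSf t).inv (h.Sf_ne t)

end Adm

theorem la_le (k : ℂ) : ‖la k‖ ≤ 2 + ‖k‖ := by
  have h1 : ‖la k‖ ≤ ‖Sf k‖ + 1 / 8 := (norm_add_le _ _).trans_eq (by simp)
  linarith [norm_Sf_le k]

theorem ila_le (k : ℂ) : ‖(la k)⁻¹‖ ≤ 8 := by
  rw [norm_inv]
  exact inv_le_of_inv_le₀ (by norm_num) (by linarith [norm_la_ge k])

namespace Adm

theorem iS_le (h : Γ.Adm μ c) (t : ℝ) : ‖(Sf (Γ.kk μ t))⁻¹‖ ≤ 16 / c := by
  rw [norm_inv]
  exact inv_le_of_inv_le₀ (by have := h.c0; positivity) (by rw [inv_div]; exact h.norm_Sf t)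

theorem nuB_apply (h : Γ.Adm μ c) (t : ℝ) : Γ.nuB μ t = nu (Γ.kk μ t) :=
  nem_apply (fun t => (h.dnu t).continuousAt) (C := 2 + ‖Γ.kk μ‖) (fun t =>
    (norm_nu_le _).trans ((la_le _).trans (by linarith [(Γ.kk μ).norm_coe_le_norm t]))) t
theorem laB_apply (h : Γ.Adm μ c) (t : ℝ) : Γ.laB μ t = la (Γ.kk μ t) :=
  nem_apply (fun t => (h.dla t).continuousAt) (C := 2 + ‖Γ.kk μ‖) (fun t =>
    (la_le _).trans (by linarith [(Γ.kk μ).norm_coe_le_norm t])) t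
theorem il_apply (h : Γ.Adm μ c) (t : ℝ) : Γ.il μ t = (la (Γ.kk μ t))⁻¹ :=
  nem_apply (φ := fun k => (la k)⁻¹) (fun t => (h.dil t).continuousAt) (fun _ => ila_le _) t
theorem iS_apply (h : Γ.Adm μ c) (t : ℝ) : Γ.iS μ t = (Sf (Γ.kk μ t))⁻¹ :=
  nem_apply (φ := fun k => (Sf k)⁻¹) (fun t => (h.diS t).continuousAt) h.iS_le t

theorem norm_il (h : Γ.Adm μ c) : ‖Γ.il μ‖ ≤ 8 := norm_BC_le fun t => by
  rw [h.il_apply]; exact ila_le _

theorem la_il (h : Γ.Adm μ c) (t : ℝ) : Γ.laB μ t * Γ.il μ t = 1 := by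
  rw [h.laB_apply, h.il_apply, mul_inv_cancel₀ (la_ne _)]

theorem nu_la (h : Γ.Adm μ c) (t : ℝ) : Γ.nuB μ t * Γ.laB μ t = (μ : ℂ) / 2 * Γ.io t := by
  rw [h.laB_apply, h.nuB_apply, nu_mul_la, kk_apply]

theorem la_eq (h : Γ.Adm μ c) (t : ℝ) : Γ.laB μ t = 1 / 4 + Γ.nuB μ t := by
  rw [h.laB_apply, h.nuB_apply, End.la_eq]

theorem norm_ee (h : Γ.Adm μ c) : ‖Γ.ee μ‖ ≤ 8 / c * ‖Γ.lo‖ * |μ| := norm_BC_le fun t => by
  have h1 := h.iS_le t
  have h0 := h.c0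
  rw [← h.iS_apply] at h1
  simp only [ee, BoundedContinuousFunction.smul_apply, BoundedContinuousFunction.mul_apply,
    smul_eq_mul, norm_mul, norm_neg, norm_div, Complex.norm_real, Real.norm_eq_abs,
    Complex.norm_ofNat]
  calc |μ| / 2 * (‖Γ.lo t‖ * ‖Γ.iS μ t‖) ≤ |μ| / 2 * (‖Γ.lo‖ * (16 / c)) := by
        gcongr; exact Γ.lo.norm_coe_le_norm t
    _ = _ := by ring

/-- `δ` is small with respect to `λ` -/
theorem norm_de (h : Γ.Adm μ c) (t : ℝ) : ‖Γ.de μ t‖ ≤ 24 / c * ‖Γ.lo‖ * ‖Γ.laB μ t‖ := by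
  obtain ⟨u, hu, -⟩ := h t
  have h0 := h.c0
  have e : Γ.de μ t = Γ.lo t * (1 - Γ.nuB μ t * Γ.iS μ t / 2) := by
    simp only [de, nz, ee, BoundedContinuousFunction.smul_apply, BoundedContinuousFunction.add_apply,
      BoundedContinuousFunction.mul_apply, smul_eq_mul]
    linear_combination (Γ.lo t * Γ.iS μ t / 2 * Γ.il μ t) * h.nu_la t -
      (Γ.lo t * Γ.iS μ t / 2 * Γ.nuB μ t) * h.la_il t
  have h1 : ‖Γ.nuB μ t * Γ.iS μ t / 2‖ ≤ 8 / c * ‖Γ.laB μ t‖ := by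
    rw [norm_div, norm_mul, h.nuB_apply, h.iS_apply, h.laB_apply, Complex.norm_ofNat]
    calc _ ≤ ‖la (Γ.kk μ t)‖ * (16 / c) / 2 := by
          gcongr
          exacts [norm_nu_le _, h.iS_le t]
      _ = _ := by ring
  have h2 : 1 ≤ 8 / c * ‖Γ.laB μ t‖ := by
    rw [h.laB_apply, div_mul_eq_mul_div, le_div_iff₀ h0]
    linarith [norm_la_ge (Γ.kk μ t), h.c1]
  rw [e, norm_mul]
  calc _ ≤ ‖Γ.lo‖ * (8 / c * ‖Γ.laB μ t‖ + 8 / c * ‖Γ.laB μ t‖) := by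
        gcongr
        · exact Γ.lo.norm_coe_le_norm t
        · exact (norm_sub_le _ _).trans (add_le_add (by simpa using h2) h1)
    _ ≤ _ := by
        have : 0 ≤ 8 / c * ‖Γ.lo‖ * ‖Γ.laB μ t‖ := by positivity
        have e2 : 24 / c * ‖Γ.lo‖ * ‖Γ.laB μ t‖ = 3 * (8 / c * ‖Γ.lo‖ * ‖Γ.laB μ t‖) := by ring
        nlinarith

theorem der_nu (h : Γ.Adm μ c) (ho : Γ.Ok) : Γ.Der (Γ.nuB μ) (Γ.nz μ) := fun t => by
  have e : (Γ.nuB μ : ℝ → ℂ) = fun t => Sf (Γ.kk μ t) - 1 / 8 := funext h.nuB_apply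
  rw [e]
  have h1 : HasDerivAt (Γ.kk μ) ((μ : ℂ) / 2 * -(Γ.g t * Γ.lo t * Γ.io t)) t :=
    (ho.der t).const_mul _
  refine HasDerivAt.congr_deriv (((hasDerivAt_Sf (h.slit t)).scomp t h1).sub_const _) ?_
  simp only [nz, ee, BoundedContinuousFunction.smul_apply, BoundedContinuousFunction.mul_apply,
    smul_eq_mul, h.iS_apply]
  have := h.Sf_ne t
  field_simp

theorem der_il (h : Γ.Adm μ c) (ho : Γ.Ok) :
    Γ.Der (Γ.il μ) (-(Γ.nz μ * Γ.il μ * Γ.il μ)) := fun t => by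
  have e : (Γ.il μ : ℝ → ℂ) = fun t => (1 / 4 + Γ.nuB μ t)⁻¹ := funext fun t => by
    rw [h.il_apply, ← h.laB_apply, h.la_eq]
  have h1 : 1 / 4 + Γ.nuB μ t ≠ 0 := by rw [← h.la_eq, h.laB_apply]; exact la_ne _
  have h2 := ((h.der_nu ho t).const_add (1 / 4)).inv h1
  simp only [BoundedContinuousFunction.neg_apply, BoundedContinuousFunction.mul_apply]
  rw [e]
  refine HasDerivAt.congr_deriv h2 ?_
  field_simp

theorem Om_PP (h : Γ.Adm μ c) (ho : Γ.Ok) (π y : BC) : Γ.Om * Γ.PP μ π y = Γ.OP μ π y := by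
  ext t
  have h1 : Γ.Om t * Γ.io t = 1 := congrArg (fun f : BC => f t) ho.inv
  simp only [PP, OP, BoundedContinuousFunction.smul_apply, BoundedContinuousFunction.mul_apply,
    BoundedContinuousFunction.sub_apply, smul_eq_mul]
  linear_combination (Γ.il μ t * π t - (μ : ℂ) / 2 * y t * Γ.il μ t) * h1 -
    (Γ.Om t * y t * Γ.il μ t) * h.nu_la t + (Γ.Om t * y t * Γ.nuB μ t) * h.la_il t

/-- the first order system gives the jets -/
theorem jet (h : Γ.Adm μ c) (ho : Γ.Ok) {f π y : BC}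
    (hπ : ∀ t, HasDerivAt π (Γ.g t * (Γ.laB μ t + Γ.de μ t) * π t +
      1 / 2 * (Γ.g t * Γ.laB μ t) * f t) t)
    (hy : ∀ t, HasDerivAt y (-(Γ.g t * Γ.nuB μ t) * y t + Γ.g t * Γ.io t * Γ.il μ t * π t) t) :
    Γ.Der y (Γ.PP μ π y) ∧ Γ.Der (Γ.PP μ π y) (Γ.io * Γ.OQ μ f π y) := by
  refine ⟨fun t => HasDerivAt.congr_deriv (hy t) ?_, fun t => ?_⟩
  · simp only [PP, BoundedContinuousFunction.mul_apply, BoundedContinuousFunction.sub_apply]
    ring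
  · have h1 := (((ho.der t).mul (h.der_il ho t)).mul (hπ t)).sub ((h.der_nu ho t).mul (hy t))
    refine HasDerivAt.congr_deriv h1 ?_
    simp only [OQ, OP, de, nz, BoundedContinuousFunction.mul_apply, Pi.mul_apply,
      BoundedContinuousFunction.sub_apply, BoundedContinuousFunction.add_apply,
      BoundedContinuousFunction.neg_apply, BoundedContinuousFunction.smul_apply, smul_eq_mul]
    have a1 := h.la_il t
    have a2 := h.nu_la t
    have a3 := h.la_eq t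
    generalize Γ.laB μ t = L at *
    generalize Γ.nuB μ t = N at *
    generalize Γ.il μ t = J at *
    subst a3
    linear_combination (Γ.g t * Γ.io t * f t / 2 + Γ.g t * y t * N / 4) * a1 +
      (Γ.g t * y t * (1 - J / 4)) * a2

theorem hasDerivAt_Pi (ho : Γ.Ok) (f : BC) (q : ℂ) (t : ℝ) :
    HasDerivAt (q • Γ.hPi μ + Γ.Pi μ f : BC) (Γ.g t * (Γ.laB μ t + Γ.de μ t) *
      (q • Γ.hPi μ + Γ.Pi μ f : BC) t + 1 / 2 * (Γ.g t * Γ.laB μ t) * f t) t := by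
  have h1 := (((ho.spt.mul (Γ.laB μ + Γ.de μ)).hasDerivAt_ex p1 t).const_mul q).add
    (hasDerivAt_Sol (ho.spt.mul (Γ.laB μ + Γ.de μ))
      (((ho.spt.mul (Γ.laB μ)).smul (1 / 2)).mul f) p1 t)
  refine HasDerivAt.congr_deriv h1 ?_
  simp only [hPi, Pi, BoundedContinuousFunction.mul_apply, BoundedContinuousFunction.add_apply,
    BoundedContinuousFunction.smul_apply, smul_eq_mul, ContinuousLinearMap.comp_apply,
    ContinuousLinearMap.mul_apply']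
  ring

theorem hasDerivAt_Ys (ho : Γ.Ok) (s : Icc (0 : ℝ) 1) (π : BC) (q : ℂ) (t : ℝ) :
    HasDerivAt (q • Γ.hY μ s + Γ.Ys μ s π : BC) (-(Γ.g t * Γ.nuB μ t) *
      (q • Γ.hY μ s + Γ.Ys μ s π : BC) t + Γ.g t * Γ.io t * Γ.il μ t * π t) t := by
  have h1 := (((ho.spt.mul (Γ.nuB μ)).neg.hasDerivAt_ex s t).const_mul q).add
    (hasDerivAt_Sol (ho.spt.mul (Γ.nuB μ)).neg (((ho.spt.mul Γ.io).mul (Γ.il μ)).mul π) s t)
  refine HasDerivAt.congr_deriv h1 ?_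
  simp only [hY, Ys, BoundedContinuousFunction.mul_apply, BoundedContinuousFunction.add_apply,
    BoundedContinuousFunction.smul_apply, smul_eq_mul, ContinuousLinearMap.comp_apply,
    ContinuousLinearMap.mul_apply', BoundedContinuousFunction.neg_apply]
  ring

/-- **existence**: the solution with data `q` (fast, at the end) and `γ` (value at `s`) -/
theorem solves (h : Γ.Adm μ c) (ho : Γ.Ok) (s : Icc (0 : ℝ) 1) (f : BC) (q γ : ℂ) :
    Γ.Der (γ • Γ.hY μ s + Γ.Ys μ s (q • Γ.hPi μ + Γ.Pi μ f))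
      (Γ.PP μ (q • Γ.hPi μ + Γ.Pi μ f) (γ • Γ.hY μ s + Γ.Ys μ s (q • Γ.hPi μ + Γ.Pi μ f))) ∧
    Γ.Der (Γ.PP μ (q • Γ.hPi μ + Γ.Pi μ f) (γ • Γ.hY μ s + Γ.Ys μ s (q • Γ.hPi μ + Γ.Pi μ f)))
      (Γ.io * Γ.OQ μ f (q • Γ.hPi μ + Γ.Pi μ f)
        (γ • Γ.hY μ s + Γ.Ys μ s (q • Γ.hPi μ + Γ.Pi μ f))) :=
  h.jet ho (hasDerivAt_Pi ho f q) (hasDerivAt_Ys ho s _ γ)

/-- **representation**: every jet is given by the formulas -/
theorem repr (h : Γ.Adm μ c) (ho : Γ.Ok) (s : Icc (0 : ℝ) 1) {y P Q : BC} (hy : Γ.Der y P)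
    (hP : Γ.Der P Q) {f π : BC}
    (hf : f = Γ.Om * ((2 : ℂ) • Q - (1 / 2 : ℂ) • P) - (μ : ℂ) • y + Γ.ee μ * y)
    (hπ : π = Γ.Om * Γ.laB μ * (P + Γ.nuB μ * y)) :
    π = π 1 • Γ.hPi μ + Γ.Pi μ f ∧ y = y s • Γ.hY μ s + Γ.Ys μ s π ∧ P = Γ.PP μ π y ∧
      Γ.Om * Q = Γ.OQ μ f π y := by
  have h1 : ∀ t, Γ.Om t * Γ.io t = 1 := fun t => congrArg (fun f : BC => f t) ho.inv
  have hO : ∀ t, HasDerivAt Γ.Om (Γ.g t * Γ.lo t * Γ.Om t) t := fun t => by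
    have e : (Γ.Om : ℝ → ℂ) = fun t => (Γ.io t)⁻¹ := funext fun t => eq_inv_of_mul_eq_one_left (h1 t)
    have h2 : Γ.io t ≠ 0 := right_ne_zero_of_mul_eq_one (h1 t)
    rw [e]
    refine HasDerivAt.congr_deriv ((ho.der t).inv h2) ?_
    field_simp
  have hL : ∀ t, HasDerivAt (Γ.laB μ) (Γ.g t * Γ.nz μ t) t := fun t => by
    have e : (Γ.laB μ : ℝ → ℂ) = fun t => 1 / 4 + Γ.nuB μ t := funext h.la_eq
    rw [e]
    exact (h.der_nu ho t).const_add _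
  have hPP : P = Γ.PP μ π y := by
    ext t
    simp only [hπ, PP, BoundedContinuousFunction.mul_apply, BoundedContinuousFunction.add_apply,
      BoundedContinuousFunction.sub_apply]
    linear_combination (-(P t + Γ.nuB μ t * y t)) * h.la_il t -
      (Γ.il μ t * Γ.laB μ t * (P t + Γ.nuB μ t * y t)) * h1 t
  refine ⟨?_, ?_, hPP, ?_⟩
  · ext t
    have h3 := eq_Sol (ho.spt.mul (Γ.laB μ + Γ.de μ))
      (((ho.spt.mul (Γ.laB μ)).smul (1 / 2)).mul f) p1 (y := π) (fun t => by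
        have h4 := ((hO t).mul (hL t)).mul ((hP t).add ((h.der_nu ho t).mul (hy t)))
        rw [hπ]
        refine HasDerivAt.congr_deriv h4 ?_
        simp only [hf, de, nz, BoundedContinuousFunction.mul_apply, Pi.mul_apply, Pi.add_apply,
          BoundedContinuousFunction.sub_apply, BoundedContinuousFunction.add_apply,
          BoundedContinuousFunction.smul_apply, smul_eq_mul]
        have a1 := h.la_il t
        have a2 := h.nu_la t
        have a3 := h.la_eq t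
        have a4 := h1 t
        generalize Γ.laB μ t = L at *
        generalize Γ.nuB μ t = N at *
        generalize Γ.il μ t = J at *
        subst a3
        linear_combination (-(Γ.g t * Γ.io t * Γ.ee μ t / 2 * Γ.Om t * (P t + N * y t))) * a1 -
          (Γ.g t * Γ.Om t * (1 / 4 + N) * y t) * a2 +
          (Γ.g t * (1 / 4 + N) * y t * (Γ.ee μ t - μ) / 2) * a4) t
    exact h3
  · ext t
    have h3 := eq_Sol (ho.spt.mul (Γ.nuB μ)).neg (((ho.spt.mul Γ.io).mul (Γ.il μ)).mul π) s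
      (y := y) (fun t => by
        refine HasDerivAt.congr_deriv (hy t) ?_
        rw [hPP]
        simp only [PP, BoundedContinuousFunction.mul_apply, BoundedContinuousFunction.sub_apply,
          BoundedContinuousFunction.neg_apply]
        ring) t
    exact h3
  · unfold OQ
    rw [← h.Om_PP ho, ← hPP, hf]
    ext t
    simp only [BoundedContinuousFunction.mul_apply, BoundedContinuousFunction.sub_apply,
      BoundedContinuousFunction.add_apply, BoundedContinuousFunction.smul_apply, smul_eq_mul]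
    ring

end Adm

/-- the model equation -/
theorem model (f π y : BC) : (2 : ℂ) • Γ.OQ μ f π y - (1 / 2 : ℂ) • Γ.OP μ π y - (μ : ℂ) • y =
    f - Γ.ee μ * y := by
  ext t
  simp only [OQ, BoundedContinuousFunction.mul_apply, BoundedContinuousFunction.sub_apply,
    BoundedContinuousFunction.add_apply, BoundedContinuousFunction.smul_apply, smul_eq_mul]
  ring

end Ctr

end Vale.Agent.P218N.End
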