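import Vale.Agent.P218N.End.Mgn
import Vale.Agent.P218N.End.Ex

/-! Admissible paths for cylindrical and conical ends. -/

open Filter Topology Metric Set Complex
open scoped BoundedContinuousFunction ComplexConjugate

noncomputable section

namespace Vale.Agent.P218N.End

theorem re_mul_inv {c : ℝ} {u z : ℂ} (h : c * ‖z‖ ≤ (conj u * z).re) :
    c * ‖z⁻¹‖ ≤ (u * z⁻¹).re := by
  rcases eq_or_ne z 0 with rfl | hz
  · simp
  have h1 : 0 < ‖z‖ := norm_pos_iff.2 hz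
  have e : (u * z⁻¹).re = (conj u * z).re * (‖z‖ ^ 2)⁻¹ := by
    rw [Complex.inv_def, ← mul_assoc, re_mul_ofReal, Complex.sq_norm, ← conj_re (u * conj z),
      map_mul, conj_conj]
  rw [e, norm_inv]
  calc c * ‖z‖⁻¹ = c * ‖z‖ * (‖z‖ ^ 2)⁻¹ := by field_simp
    _ ≤ _ := by gcongr

theorem norm_inv_le_of {δ : ℝ} {z : ℂ} (h : 1 ≤ δ * ‖z‖) : z ≠ 0 ∧ ‖z⁻¹‖ ≤ δ := by
  have hz : z ≠ 0 := by rintro rfl; norm_num at h
  refine ⟨hz, ?_⟩
  rw [norm_inv, inv_le_iff_one_le_mul₀ (norm_pos_iff.2 hz)]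
  exact h

theorem binv_apply' {b : BC} {δ : ℝ} (h : ∀ t, 1 ≤ δ * ‖b t‖) (t : ℝ) : binv b t = (b t)⁻¹ :=
  nem_apply (fun t => continuousAt_inv₀ (norm_inv_le_of (h t)).1)
    (fun t => (norm_inv_le_of (h t)).2) t

theorem hasDerivAt_binv {b : BC} {δ : ℝ} (h : ∀ t, 1 ≤ δ * ‖b t‖) {t : ℝ} {b' : ℂ}
    (hb : HasDerivAt b b' t) : HasDerivAt (binv b) (-(b' * binv b t * binv b t)) t := by
  rw [show (binv b : ℝ → ℂ) = fun t => (b t)⁻¹ from funext (binv_apply' h)]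
  have h1 := (norm_inv_le_of (h t)).1
  refine (hb.inv h1).congr_deriv ?_
  field_simp

section hol
variable {E : Type*} [NormedAddCommGroup E] [NormedSpace ℂ E] {U : Set E}

theorem differentiableOn_binv' {b : E → BC} (hU : IsOpen U) (hb : DifferentiableOn ℂ b U)
    {M : E → ℝ} (hM : ContinuousOn M U) (h : ∀ x ∈ U, ∀ t, 1 ≤ M x * ‖b x t‖) :
    DifferentiableOn ℂ (fun x => binv (b x)) U := by
  intro x hx
  have h1 : ∀ᶠ y in 𝓝 x, y ∈ U ∧ M y < M x + 1 := Eventually.and (hU.mem_nhds hx)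
    ((hM.continuousAt (hU.mem_nhds hx)).eventually (gt_mem_nhds (lt_add_one _)))
  obtain ⟨r, hr, h2⟩ := Metric.eventually_nhds_iff_ball.1 h1
  have h3 : ball x r ⊆ U := fun y hy => (h2 y hy).1
  exact ((differentiableOn_nem (φ := fun z => z⁻¹) isOpen_ball (hb.mono h3)
    (fun y hy t => differentiableAt_inv (norm_inv_le_of (h y (h3 hy) t)).1)
    (fun y hy t => (norm_inv_le_of (h y (h3 hy) t)).2.trans (h2 y hy).2.le)).differentiableAt
      (ball_mem_nhds x hr)).differentiableWithinAt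

end hol

namespace Path
variable (γ : Path)

theorem rho_apply' (a : ℂ) (t : ℝ) : γ.rho a t = rh a (γ.ze t) := rfl

/-- admissible paths on a cylindrical end -/
structure Nice (c δ : ℝ) (a : ℂ) : Prop where
  ok : γ.Ok
  c0 : 0 < c
  δ1 : δ ≤ 1 / 10
  dir : ∀ t, ∃ u : ℂ, ‖u‖ = 1 ∧ c ≤ u.re ∧ c * ‖γ.ze t * rh a (γ.ze t)‖ ≤
    (conj u * (γ.ze t * rh a (γ.ze t))).re ∧ γ.g t = (‖γ.g t‖ : ℝ) * u
  ze : ∀ t, 1 ≤ δ * ‖γ.ze t‖
  om : ∀ t, 1 ≤ δ * ‖γ.ze t * rh a (γ.ze t)‖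
  sm : ‖a‖ ≤ δ

/-- admissible scales for `∂_θ ∂_ζ y` -/
structure Sg (a : ℂ) (σ : BC) : Prop where
  one : ∀ t, 1 ≤ ‖σ t‖
  oh : ∀ t, ‖γ.Oh a t‖ ≤ ‖σ t‖
  sq : ∀ t, ‖σ t‖ ^ 2 * ‖(γ.cyl a).io t‖ ≤ 1

/-- the standard scale `1 + |a ζ / 2|` -/
def sg (a : ℂ) : BC := mkB fun t => ((1 + ‖γ.Oh a t‖ : ℝ) : ℂ)

theorem norm_sg (a : ℂ) (t : ℝ) : ‖γ.sg a t‖ = 1 + ‖γ.Oh a t‖ := by
  have h : ∀ t, ‖((1 + ‖γ.Oh a t‖ : ℝ) : ℂ)‖ = 1 + ‖γ.Oh a t‖ := fun t => by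
    rw [Complex.norm_real, Real.norm_of_nonneg (by positivity)]
  rw [sg, mkB_apply (by fun_prop) (C := 1 + ‖γ.Oh a‖) fun t => by
    rw [h]; gcongr; exact (γ.Oh a).norm_coe_le_norm t, h]

/-- `Z = ζ / ρ₀` -/
def Z (a : ℂ) : BC := γ.ze * binv (γ.rho a)

theorem pw_eq (a : ℂ) (b : ℝ) : γ.pw a b = (b : ℂ) • ((2 - 2 * a) • (γ.cyl a).io) := mul_smul _ _ _

variable {γ} {c δ : ℝ} {a : ℂ}

namespace Nice

theorem δ0 (h : γ.Nice c δ a) : 0 < δ := pos_of_mul_pos_left (one_pos.trans_le (h.ze 0)) (norm_nonneg _)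

theorem mono (h : γ.Nice c δ a) {c' δ' : ℝ} (h0 : 0 < c') (hc : c' ≤ c) (hδ : δ ≤ δ')
    (h1 : δ' ≤ 1 / 10) : γ.Nice c' δ' a :=
  ⟨h.ok, h0, h1, fun t => let ⟨u, a1, a2, a3, a4⟩ := h.dir t
    ⟨u, a1, hc.trans a2, le_trans (by gcongr) a3, a4⟩, fun t => (h.ze t).trans (by gcongr),
    fun t => (h.om t).trans (by gcongr), h.sm.trans hδ⟩

theorem rho (h : γ.Nice c δ a) (t : ℝ) : 1 ≤ δ * ‖γ.ze‖ * ‖γ.rho a t‖ := by
  have := h.δ0
  refine (h.om t).trans ?_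
  rw [norm_mul, mul_assoc, rho_apply']
  gcongr
  exact γ.ze.norm_coe_le_norm t

theorem ze_ne (h : γ.Nice c δ a) (t : ℝ) : γ.ze t ≠ 0 := (norm_inv_le_of (h.ze t)).1
theorem rh_ne (h : γ.Nice c δ a) (t : ℝ) : rh a (γ.ze t) ≠ 0 := (norm_inv_le_of (h.rho t)).1
theorem iz_apply (h : γ.Nice c δ a) (t : ℝ) : binv γ.ze t = (γ.ze t)⁻¹ := binv_apply' h.ze t
theorem ir_apply (h : γ.Nice c δ a) (t : ℝ) : binv (γ.rho a) t = (rh a (γ.ze t))⁻¹ :=
  binv_apply' h.rho t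
theorem Om_apply (a : ℂ) (t : ℝ) : (γ.cyl a).Om t = γ.ze t * rh a (γ.ze t) := rfl
theorem io_apply (h : γ.Nice c δ a) (t : ℝ) : (γ.cyl a).io t = (γ.ze t * rh a (γ.ze t))⁻¹ := by
  rw [mul_inv, ← h.iz_apply, ← h.ir_apply]; rfl
theorem hh_apply (h : γ.Nice c δ a) (t : ℝ) : γ.hh a t = a / (2 * rh a (γ.ze t)) := by
  rw [← div_div, div_eq_mul_inv (a / 2), ← h.ir_apply]; rfl
theorem Z_apply (h : γ.Nice c δ a) (t : ℝ) : γ.Z a t = γ.ze t / rh a (γ.ze t) := by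
  rw [div_eq_mul_inv, ← h.ir_apply]; rfl

theorem norm_iz (h : γ.Nice c δ a) : ‖binv γ.ze‖ ≤ δ := norm_BC_le fun t => by
  rw [h.iz_apply]; exact (norm_inv_le_of (h.ze t)).2

theorem norm_io (h : γ.Nice c δ a) : ‖(γ.cyl a).io‖ ≤ δ := norm_BC_le fun t => by
  rw [h.io_apply]; exact (norm_inv_le_of (h.om t)).2

theorem norm_two_sub (h : γ.Nice c δ a) : ‖2 - 2 * a‖ ≤ 3 := by
  refine (norm_sub_le _ _).trans ?_
  rw [norm_mul, Complex.norm_ofNat]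
  linarith [h.sm, h.δ1]

theorem hh_eq (h : γ.Nice c δ a) :
    γ.hh a = (1 / 2 : ℂ) • (binv γ.ze - (2 - 2 * a) • (γ.cyl a).io) := by
  ext t
  have h1 := h.ze_ne t
  have h2 := h.rh_ne t
  simp only [BoundedContinuousFunction.smul_apply, BoundedContinuousFunction.sub_apply,
    h.hh_apply, h.iz_apply, h.io_apply, smul_eq_mul]
  field_simp
  unfold rh
  ring

theorem Oh_hh_eq (h : γ.Nice c δ a) :
    γ.Oh a * γ.hh a = (1 / 4 : ℂ) • (a • (1 : BC) - (2 * (2 - 2 * a)) • γ.hh a) := by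
  ext t
  have h2 := h.rh_ne t
  simp only [BoundedContinuousFunction.smul_apply, BoundedContinuousFunction.sub_apply,
    BoundedContinuousFunction.mul_apply, h.hh_apply, Oh_apply, smul_eq_mul,
    BoundedContinuousFunction.coe_one, Pi.one_apply]
  field_simp
  unfold rh
  ring

theorem lo_eq : (γ.cyl a).lo = binv γ.ze + (2 : ℂ) • γ.hh a := by
  rw [hh, smul_smul, mul_div_cancel₀ a two_ne_zero]; rfl

theorem norm_hh (h : γ.Nice c δ a) : ‖γ.hh a‖ ≤ 2 * δ := by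
  have h1 := mul_le_mul h.norm_two_sub h.norm_io (norm_nonneg _) (by norm_num)
  have h2 := norm_sub_le (binv γ.ze) ((2 - 2 * a) • (γ.cyl a).io)
  rw [norm_smul] at h2
  rw [h.hh_eq, norm_smul, show ‖(1 / 2 : ℂ)‖ = 1 / 2 by simp]
  linarith [h.norm_iz]

theorem norm_lo (h : γ.Nice c δ a) : ‖(γ.cyl a).lo‖ ≤ 5 * δ := by
  rw [lo_eq]
  refine (norm_add_le _ _).trans ?_
  rw [norm_smul, Complex.norm_ofNat]
  linarith [h.norm_iz, h.norm_hh]

theorem norm_Oh_hh (h : γ.Nice c δ a) : ‖γ.Oh a * γ.hh a‖ ≤ 4 * δ := by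
  have h1 := mul_le_mul h.norm_two_sub h.norm_hh (norm_nonneg _) (by norm_num)
  have h2 := norm_sub_le (a • (1 : BC)) ((2 * (2 - 2 * a)) • γ.hh a)
  rw [norm_smul, norm_smul, norm_mul, Complex.norm_ofNat, norm_one] at h2
  rw [h.Oh_hh_eq, norm_smul, show ‖(1 / 4 : ℂ)‖ = 1 / 4 by simp]
  linarith [h.sm, h.δ0]

theorem der_rho (h : γ.Nice c δ a) (t : ℝ) : HasDerivAt (γ.rho a) (a * γ.g t) t :=
  (((h.ok.der t).sub_const 2).const_mul a).const_add 2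

theorem cyl_ok (h : γ.Nice c δ a) : (γ.cyl a).Ok := by
  refine ⟨h.ok.spt, BoundedContinuousFunction.ext fun t => ?_, fun t => ?_⟩
  · rw [BoundedContinuousFunction.mul_apply, h.io_apply, Om_apply]
    exact mul_inv_cancel₀ (mul_ne_zero (h.ze_ne t) (h.rh_ne t))
  · refine ((hasDerivAt_binv h.ze (h.ok.der t)).mul
      (hasDerivAt_binv h.rho (h.der_rho t))).congr_deriv ?_
    simp only [cyl, BoundedContinuousFunction.smul_apply, BoundedContinuousFunction.add_apply,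
      BoundedContinuousFunction.mul_apply, smul_eq_mul]
    ring

theorem adm0 (h : γ.Nice c δ a) : (γ.cyl a).Adm0 c := ⟨h.c0, fun t =>
  let ⟨u, a1, a2, a3, a4⟩ := h.dir t
  ⟨u, a1, a2, by rw [h.io_apply]; exact re_mul_inv a3, a4⟩⟩

theorem sg_one (h : γ.Nice c δ a) (h1 : ∀ t, ‖a * γ.ze t‖ ≤ 2) : γ.Sg a 1 := by
  refine ⟨fun t => by simp, fun t => ?_, fun t => ?_⟩
  · have := h1 t
    rw [Oh_apply, div_mul_eq_mul_div, norm_div, Complex.norm_ofNat]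
    simp only [BoundedContinuousFunction.coe_one, Pi.one_apply, norm_one]
    linarith
  · have := ((γ.cyl a).io.norm_coe_le_norm t).trans h.norm_io
    simp only [BoundedContinuousFunction.coe_one, Pi.one_apply, norm_one]
    linarith [h.δ1]

theorem sg_sg (h : γ.Nice c δ a) : γ.Sg a (γ.sg a) := by
  refine ⟨fun t => ?_, fun t => ?_, fun t => ?_⟩ <;> rw [norm_sg]
  · linarith [norm_nonneg (γ.Oh a t)]
  · linarith
  · have h1 := ((γ.cyl a).io.norm_coe_le_norm t).trans h.norm_io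
    have h2 := ((γ.Oh a * γ.hh a).norm_coe_le_norm t).trans h.norm_Oh_hh
    have h3 : (γ.Oh a * γ.hh a) t = γ.Oh a t ^ 2 * (γ.cyl a).io t := by
      have := h.ze_ne t
      have := h.rh_ne t
      rw [BoundedContinuousFunction.mul_apply, h.hh_apply, h.io_apply, Oh_apply]
      field_simp
    rw [h3, norm_mul, norm_pow] at h2
    nlinarith [h.δ1, mul_nonneg (sq_nonneg (1 - ‖γ.Oh a t‖)) (norm_nonneg ((γ.cyl a).io t))]

theorem der_Z (h : γ.Nice c δ a) (t : ℝ) :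
    HasDerivAt (γ.Z a) (γ.g t * ((2 - 2 * a) • (γ.cyl a).io) t * γ.Z a t) t := by
  refine ((h.ok.der t).mul (hasDerivAt_binv h.rho (h.der_rho t))).congr_deriv ?_
  have := h.ze_ne t
  have := h.rh_ne t
  rw [BoundedContinuousFunction.smul_apply, h.io_apply, h.Z_apply, h.ir_apply, smul_eq_mul]
  field_simp
  unfold rh
  ring

theorem Z_ne (h : γ.Nice c δ a) (t : ℝ) : γ.Z a t ≠ 0 := by
  rw [h.Z_apply]; exact div_ne_zero (h.ze_ne t) (h.rh_ne t)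

theorem norm_Wt_pw (h : γ.Nice c δ a) (b : ℝ) (r : Icc (0 : ℝ) 1) (t : ℝ) :
    ‖(γ.cyl a).Wt (γ.pw a b) r t‖ = (‖γ.Z a t‖ / ‖γ.Z a r‖) ^ b := by
  rw [pw_eq, Ctr.norm_Wt_smul, ← Ctr.Wt_mul_eq (Γ := γ.cyl a) h.ok.spt h.der_Z r t, norm_mul,
    mul_div_cancel_left₀ _ (norm_ne_zero_iff.2 (h.Z_ne r))]

theorem norm_iW_pw (h : γ.Nice c δ a) (b : ℝ) (r : Icc (0 : ℝ) 1) (t : ℝ) :
    ‖(γ.cyl a).iW (γ.pw a b) r t‖ = (‖γ.Z a r‖ / ‖γ.Z a t‖) ^ b := by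
  rw [Ctr.norm_iW_eq, h.norm_Wt_pw, ← Real.inv_rpow (by positivity), inv_div]

theorem re_pw (h : γ.Nice c δ a) (b : ℝ) (hb : 40 * |b| * δ ≤ c) (t : ℝ) :
    |(γ.g t * γ.pw a b t).re - 2 * b * (γ.g t * (γ.cyl a).io t).re| ≤
      (γ.g t * (γ.cyl a).io t).re / 20 := by
  have e : (γ.g t * γ.pw a b t).re - 2 * b * (γ.g t * (γ.cyl a).io t).re =
      -(2 * b * (a * (γ.g t * (γ.cyl a).io t)).re) := by
    rw [← re_ofReal_mul, ← re_ofReal_mul, ← sub_re, ← neg_re]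
    simp only [pw_eq, BoundedContinuousFunction.smul_apply, smul_eq_mul]
    congr 1
    push_cast
    ring
  have h1 := (Complex.abs_re_le_norm (a * (γ.g t * (γ.cyl a).io t))).trans_eq
    (by rw [norm_mul, norm_mul])
  have h2 : c * (‖γ.g t‖ * ‖(γ.cyl a).io t‖) ≤ _ := h.adm0.le_x t
  rw [e, abs_neg, abs_mul, abs_mul, abs_two]
  calc _ ≤ 2 * |b| * (δ * (‖γ.g t‖ * ‖(γ.cyl a).io t‖)) := by
        gcongr; exact h1.trans (by gcongr; exact h.sm)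
    _ = 40 * |b| * δ * (‖γ.g t‖ * ‖(γ.cyl a).io t‖) / 20 := by ring
    _ ≤ c * (‖γ.g t‖ * ‖(γ.cyl a).io t‖) / 20 := by gcongr
    _ ≤ _ := by gcongr; exact h2

/-- `|Z|` increases along the path -/
theorem norm_Z_mono (h : γ.Nice c δ a) (hδ : 40 * δ ≤ c) : Monotone fun t => ‖γ.Z a t‖ := by
  intro s t hst
  have h1 := norm_le_of_bw (a := fun t => γ.g t * ((2 - 2 * a) • (γ.cyl a).io) t) (b := fun _ => 0)
    (y := γ.Z a) (M := ‖γ.Z a t‖) hst (by fun_prop) continuous_const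
    (fun x => by simpa using h.der_Z x) (fun x _ => ?_) le_rfl
  · exact h1
  · have h2 := (abs_le.1 (h.re_pw 1 (by simpa using hδ) x)).1
    have h3 := h.adm0.x_nonneg x
    rw [pw_eq, Complex.ofReal_one, one_smul] at h2
    rw [norm_zero]
    exact mul_nonneg (norm_nonneg _) (by change 0 ≤ (γ.g x * _).re at h3; linarith)

theorem typB (h : γ.Nice c δ a) (hδ : 40 * δ ≤ c) {b : ℝ} (h1 : -(9 / 10) ≤ b) (h2 : b ≤ 9 / 20) :
    (γ.cyl a).Typ sdCyl (γ.pw a b) := by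
  have h0 := h.δ0
  have h3 := fun t => abs_le.1 (h.re_pw b
    (by nlinarith [show |b| ≤ 1 from abs_le.2 ⟨by linarith, by linarith⟩]) t)
  have h4 : ∀ t, 0 ≤ (γ.g t * (γ.cyl a).io t).re := h.adm0.x_nonneg
  refine h.adm0.typB (h.norm_io.trans (by linarith)) (fun t => ?_) fun t => ?_
  · change _ * (γ.g t * _).re ≤ (γ.g t * _).re
    nlinarith [(h3 t).1, h4 t]
  · change (γ.g t * _).re ≤ _ * (γ.g t * _).re
    nlinarith [(h3 t).2, h4 t]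

theorem typF (h : γ.Nice c δ a) (hδ : 40 * δ ≤ c) {b : ℝ} (h1 : 11 / 20 ≤ b) (h2 : b ≤ 19 / 20) :
    (γ.cyl a).Typ sdF (γ.pw a b) := by
  have h0 := h.δ0
  have h3 := fun t => abs_le.1 (h.re_pw b
    (by nlinarith [show |b| ≤ 1 from abs_le.2 ⟨by linarith, by linarith⟩]) t)
  have h4 : ∀ t, 0 ≤ (γ.g t * (γ.cyl a).io t).re := h.adm0.x_nonneg
  refine h.adm0.typF (h.norm_io.trans (by linarith)) (fun t => ?_) fun t => ?_
  · change _ * (γ.g t * _).re ≤ (γ.g t * _).re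
    nlinarith [(h3 t).1, h4 t]
  · change (γ.g t * _).re ≤ _ * (γ.g t * _).re
    nlinarith [(h3 t).2, h4 t]

theorem typA (h : γ.Nice c δ a) {b : ℝ} (h1 : 21 / 20 ≤ b) (hδ : 40 * b * δ ≤ c) :
    (γ.cyl a).Typ sdAll (γ.pw a b) := by
  have h0 := h.δ0
  have h3 := fun t => abs_le.1 (h.re_pw b (by rwa [abs_of_pos (by linarith)]) t)
  have h4 : ∀ t, 0 ≤ (γ.g t * (γ.cyl a).io t).re := h.adm0.x_nonneg
  refine h.adm0.typA (fun t => ?_) fun t => ?_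
  · change _ * (γ.g t * _).re ≤ (γ.g t * _).re
    nlinarith [(h3 t).1, h4 t]
  · have h5 : c * (γ.g t * (γ.cyl a).io t).re ≤ _ * (γ.g t).re := h.adm0.x_le t
    have h6 : 0 ≤ (γ.g t).re := le_trans (by have := h.c0; positivity) (h.adm0.le_re t)
    have h7 := mul_le_mul_of_nonneg_right h.norm_io h6
    have h8 : 40 * b * (γ.g t * (γ.cyl a).io t).re ≤ (γ.g t).re :=
      le_of_mul_le_mul_left (by nlinarith [mul_le_mul_of_nonneg_right hδ (h4 t)]) h0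
    change (γ.g t * _).re ≤ _ * (γ.g t).re
    nlinarith [(h3 t).2, h4 t]

/-- exponential weights -/
theorem typE (h : γ.Nice c δ a) {κ : ℝ} (h1 : 3 * δ ≤ κ * c) (h2 : κ ≤ 1 / 5) :
    (γ.cyl a).Typ sdAll ((κ : ℂ) • 1) := by
  have h0 := h.δ0
  have e : ∀ t, ((γ.cyl a).g t * ((κ : ℂ) • (1 : BC)) t).re = κ * ((γ.cyl a).g t).re := fun t => by
    simp [mul_comm]
  have h6 : ∀ t, 0 ≤ ((γ.cyl a).g t).re := fun t =>
    le_trans (by have := h.c0; positivity) (h.adm0.le_re t)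
  refine h.adm0.typA (fun t => ?_) fun t => ?_ <;> rw [e]
  · have h7 := mul_le_mul_of_nonneg_right h.norm_io (h6 t)
    refine le_of_mul_le_mul_left ?_ h.c0
    nlinarith [h.adm0.x_le t, mul_le_mul_of_nonneg_right h1 (h6 t), mul_nonneg h0.le (h6 t)]
  · exact mul_le_mul_of_nonneg_right h2 (h6 t)

end Nice

theorem Ok.V_g (h : γ.Ok) (r : Icc (0 : ℝ) 1) (t : ℝ) : V r γ.g t = γ.ze t - γ.ze r :=
  h.spt.V_eq_sub h.der r t

/-- the exponential weight, for any contour with the speed of the path -/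
theorem Ok.norm_iW_exp (h : γ.Ok) {Γ : Ctr} (e : Γ.g = γ.g) (κ : ℝ) (r : Icc (0 : ℝ) 1) (t : ℝ) :
    ‖Γ.iW ((κ : ℂ) • 1) r t‖ = Real.exp (κ * ((γ.ze r).re - (γ.ze t).re)) := by
  rw [Ctr.norm_iW, mul_smul_comm, mul_one, map_smul, BoundedContinuousFunction.smul_apply, e, h.V_g,
    smul_eq_mul, re_ofReal_mul, sub_re]
  congr 1
  ring

/-- the weight `|ζ| ^ b` -/
theorem Ok.norm_Wt_iz (h : γ.Ok) (hz : ∀ t, 1 ≤ δ * ‖γ.ze t‖) {Γ : Ctr} (e : Γ.g = γ.g) (b : ℝ)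
    (r : Icc (0 : ℝ) 1) (t : ℝ) :
    ‖Γ.Wt ((b : ℂ) • binv γ.ze) r t‖ = (‖γ.ze t‖ / ‖γ.ze r‖) ^ b := by
  rw [Ctr.norm_Wt_smul, ← Ctr.Wt_mul_eq (Γ := Γ) (φ := binv γ.ze) (e ▸ h.spt) (b := γ.ze)
    (fun t => (h.der t).congr_deriv (by
      rw [binv_apply' hz, e, inv_mul_cancel_right₀ (norm_inv_le_of (hz t)).1])) r t, norm_mul,
    mul_div_cancel_left₀ _ (norm_ne_zero_iff.2 (norm_inv_le_of (hz r)).1)]

theorem Ok.norm_iW_iz (h : γ.Ok) (hz : ∀ t, 1 ≤ δ * ‖γ.ze t‖) {Γ : Ctr} (e : Γ.g = γ.g) (b : ℝ)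
    (r : Icc (0 : ℝ) 1) (t : ℝ) :
    ‖Γ.iW ((b : ℂ) • binv γ.ze) r t‖ = (‖γ.ze r‖ / ‖γ.ze t‖) ^ b := by
  rw [Ctr.norm_iW_eq, h.norm_Wt_iz hz e, ← Real.inv_rpow (by positivity), inv_div]

variable (γ) in
/-- admissible paths on a conical end -/
structure NiceK (c δ : ℝ) : Prop where
  ok : γ.Ok
  c0 : 0 < c
  δ1 : δ ≤ 1 / 10
  dir : ∀ t, ∃ u : ℂ, ‖u‖ = 1 ∧ c ≤ u.re ∧ c * ‖γ.ze t * γ.ze t‖ ≤
    (conj u * (γ.ze t * γ.ze t)).re ∧ γ.g t = (‖γ.g t‖ : ℝ) * u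
  ze : ∀ t, 1 ≤ δ * ‖γ.ze t‖

namespace NiceK

theorem δ0 (h : γ.NiceK c δ) : 0 < δ :=
  pos_of_mul_pos_left (one_pos.trans_le (h.ze 0)) (norm_nonneg _)

theorem mono (h : γ.NiceK c δ) {c' δ' : ℝ} (h0 : 0 < c') (hc : c' ≤ c) (hδ : δ ≤ δ')
    (h1 : δ' ≤ 1 / 10) : γ.NiceK c' δ' :=
  ⟨h.ok, h0, h1, fun t => let ⟨u, a1, a2, a3, a4⟩ := h.dir t
    ⟨u, a1, hc.trans a2, le_trans (by gcongr) a3, a4⟩, fun t => (h.ze t).trans (by gcongr)⟩

theorem ze_ne (h : γ.NiceK c δ) (t : ℝ) : γ.ze t ≠ 0 := (norm_inv_le_of (h.ze t)).1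
theorem iz_apply (h : γ.NiceK c δ) (t : ℝ) : binv γ.ze t = (γ.ze t)⁻¹ := binv_apply' h.ze t
theorem io_apply (h : γ.NiceK c δ) (t : ℝ) : γ.cone.io t = (γ.ze t * γ.ze t)⁻¹ := by
  rw [mul_inv, ← h.iz_apply]; rfl

theorem norm_iz (h : γ.NiceK c δ) : ‖binv γ.ze‖ ≤ δ := norm_BC_le fun t => by
  rw [h.iz_apply]; exact (norm_inv_le_of (h.ze t)).2

theorem norm_io (h : γ.NiceK c δ) : ‖γ.cone.io‖ ≤ δ ^ 2 :=
  (norm_mul_le _ _).trans (by rw [← sq]; gcongr; exact h.norm_iz)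

theorem norm_lo (h : γ.NiceK c δ) : ‖γ.cone.lo‖ ≤ 2 * δ := by
  change ‖(2 : ℂ) • binv γ.ze‖ ≤ _
  rw [norm_smul, Complex.norm_ofNat]
  linarith [h.norm_iz]

theorem cone_ok (h : γ.NiceK c δ) : γ.cone.Ok := by
  refine ⟨h.ok.spt, BoundedContinuousFunction.ext fun t => ?_, fun t => ?_⟩
  · rw [BoundedContinuousFunction.mul_apply, h.io_apply]
    exact mul_inv_cancel₀ (mul_ne_zero (h.ze_ne t) (h.ze_ne t))
  · refine ((hasDerivAt_binv h.ze (h.ok.der t)).mul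
      (hasDerivAt_binv h.ze (h.ok.der t))).congr_deriv ?_
    simp only [cone, BoundedContinuousFunction.smul_apply, BoundedContinuousFunction.mul_apply,
      smul_eq_mul]
    ring

theorem adm0 (h : γ.NiceK c δ) : γ.cone.Adm0 c := ⟨h.c0, fun t =>
  let ⟨u, a1, a2, a3, a4⟩ := h.dir t
  ⟨u, a1, a2, by rw [h.io_apply]; exact re_mul_inv a3, a4⟩⟩

theorem sg (h : γ.NiceK c δ) (t : ℝ) : ‖γ.ze t‖ ^ 2 * ‖γ.cone.io t‖ ≤ 1 := by
  rw [h.io_apply, norm_inv, norm_mul, ← sq]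
  exact mul_inv_le_one

theorem one_le (h : γ.NiceK c δ) (t : ℝ) : 1 ≤ ‖γ.ze t‖ :=
  (h.ze t).trans (mul_le_of_le_one_left (norm_nonneg _) (h.δ1.trans (by norm_num)))

/-- the weight `exp (Λ ∫ dζ / ζ²)` -/
theorem norm_Wt_io (h : γ.NiceK c δ) (Λ : ℝ) (r : Icc (0 : ℝ) 1) (t : ℝ) :
    ‖γ.cone.Wt ((Λ : ℂ) • γ.cone.io) r t‖ = Real.exp (Λ * ((γ.ze r)⁻¹ - (γ.ze t)⁻¹).re) := by
  have h1 := (h.ok.spt.mul γ.cone.io).V_eq_sub (b := fun t => -binv γ.ze t) (fun t =>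
    (hasDerivAt_binv h.ze (h.ok.der t)).neg.congr_deriv (by
      simp only [cone, BoundedContinuousFunction.mul_apply]; ring)) r t
  rw [Ctr.norm_Wt, mul_smul_comm, map_smul, BoundedContinuousFunction.smul_apply, smul_eq_mul,
    re_ofReal_mul]
  change Real.exp (Λ * (V r (γ.g * γ.cone.io) t).re) = _
  rw [h1, h.iz_apply, h.iz_apply, neg_sub_neg]

end NiceK

section hol
variable {E : Type*} [NormedAddCommGroup E] [NormedSpace ℂ E] {U : Set E}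

/-- holomorphic families of paths -/
structure Hol (γ : E → Path) (U : Set E) : Prop where
  op : IsOpen U
  ze : DifferentiableOn ℂ (fun x => (γ x).ze) U
  g : DifferentiableOn ℂ (fun x => (γ x).g) U

theorem Hol.const (γ : Path) (hU : IsOpen U) : Hol (fun _ : E => γ) U :=
  ⟨hU, differentiableOn_const _, differentiableOn_const _⟩

variable {γ : E → Path} {a : E → ℂ} (h : Hol γ U)
include h

theorem Hol.iz (hz : ∀ x ∈ U, ∀ t, 1 ≤ δ * ‖(γ x).ze t‖) :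
    DifferentiableOn ℂ (fun x => binv (γ x).ze) U :=
  differentiableOn_binv' h.op h.ze continuousOn_const hz

theorem Hol.cone (hn : ∀ x ∈ U, (γ x).NiceK c δ) : Ctr.Hol (fun x => (γ x).cone) U :=
  have h1 := h.iz fun x hx => (hn x hx).ze
  ⟨h.op, h.g, h.ze.fun_mul h.ze, h1.fun_mul h1, h1.fun_const_smul _⟩

theorem Hol.Econe (hn : ∀ x ∈ U, (γ x).NiceK c δ) (cc : ℝ) (ka kd : WD) {j : E → EJ}
    (hj : DifferentiableOn ℂ j U) : DifferentiableOn ℂ (fun x => (γ x).Econe cc ka kd (j x)) U := by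
  have h1 := DifferentiableOn.WC (h.iz fun x hx => (hn x hx).ze)
  have h2 := DifferentiableOn.WC h.ze
  simp only [Path.Econe, coneE, coneD]
  fun_prop

variable (ha : DifferentiableOn ℂ a U)
include ha

theorem Hol.rho : DifferentiableOn ℂ (fun x => (γ x).rho (a x)) U :=
  (ha.fun_smul (h.ze.fun_sub (differentiableOn_const _))).const_add _

theorem Hol.Oh : DifferentiableOn ℂ (fun x => (γ x).Oh (a x)) U :=
  DifferentiableOn.fun_smul (c := fun x => a x / 2) (ha.mul_const (2 : ℂ)⁻¹) h.ze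

variable (hn : ∀ x ∈ U, (γ x).Nice c δ (a x))
include hn

theorem Hol.ir : DifferentiableOn ℂ (fun x => binv ((γ x).rho (a x))) U :=
  differentiableOn_binv' h.op (h.rho ha) (continuousOn_const.mul h.ze.continuousOn.norm)
    fun x hx => (hn x hx).rho

theorem Hol.hh : DifferentiableOn ℂ (fun x => (γ x).hh (a x)) U :=
  DifferentiableOn.fun_smul (c := fun x => a x / 2) (ha.mul_const (2 : ℂ)⁻¹) (h.ir ha hn)

theorem Hol.cyl : Ctr.Hol (fun x => (γ x).cyl (a x)) U :=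
  have h1 := h.iz fun x hx => (hn x hx).ze
  ⟨h.op, h.g, h.ze.fun_mul (h.rho ha), h1.fun_mul (h.ir ha hn),
    h1.fun_add (ha.fun_smul (h.ir ha hn))⟩

theorem Hol.Z : DifferentiableOn ℂ (fun x => (γ x).Z (a x)) U := h.ze.fun_mul (h.ir ha hn)

theorem Hol.pw (b : ℝ) : DifferentiableOn ℂ (fun x => (γ x).pw (a x) b) U :=
  (((ha.const_mul 2).const_sub 2).const_mul _).fun_smul (h.cyl ha hn).io

theorem Hol.Ecyl {j : E → EJ} (hj : DifferentiableOn ℂ j U) :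
    DifferentiableOn ℂ (fun x => (γ x).Ecyl (a x) (j x)) U := by
  have h1 := DifferentiableOn.WC (h.iz fun x hx => (hn x hx).ze)
  have h2 := DifferentiableOn.WC (h.cyl ha hn).io
  have h3 := DifferentiableOn.WC (h.hh ha hn)
  have h4 := DifferentiableOn.WC (h.Oh ha)
  have h5 : DifferentiableOn ℂ (fun x => algebraMap ℂ WB (a x)) U := by
    simp only [Algebra.algebraMap_eq_smul_one]
    exact ha.smul_const _
  simp only [Path.Ecyl, cylE, cylD, cylB]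
  fun_prop

end hol

theorem differentiable_Ecyl (γ : Path) (a : ℂ) : Differentiable ℂ (γ.Ecyl a) := by
  unfold Path.Ecyl cylE cylD cylB
  fun_prop

theorem differentiable_Econe (γ : Path) (cc : ℝ) (ka kd : WD) :
    Differentiable ℂ (γ.Econe cc ka kd) := by
  unfold Path.Econe coneE coneD
  fun_prop

end Path

end Vale.Agent.P218N.End
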