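import Vale.Agent.P218N.End.Volt

/-! The roots `-ν`, `λ` of `X² - X/4 - k`, and their position with respect to a direction `u`. -/

open Filter Topology Metric Set Complex
open scoped BoundedContinuousFunction

noncomputable section

namespace Vale.Agent.P218N.End

/-- the square root of the discriminant -/
def Sf (k : ℂ) : ℂ := Complex.sqrt (1 / 64 + k)
/-- the slow rate -/
def nu (k : ℂ) : ℂ := Sf k - 1 / 8
/-- the fast rate -/
def la (k : ℂ) : ℂ := Sf k + 1 / 8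

theorem Sf_sq (k : ℂ) : Sf k ^ 2 = 1 / 64 + k := by
  unfold Sf Complex.sqrt
  exact Complex.cpow_ofNat_inv_pow _ 2

theorem nu_mul_la (k : ℂ) : nu k * la k = k := by
  unfold nu la; linear_combination Sf_sq k

theorem la_eq (k : ℂ) : la k = 1 / 4 + nu k := by unfold nu la; ring

theorem Sf_re_nonneg (k : ℂ) : 0 ≤ (Sf k).re := by
  unfold Sf Complex.sqrt
  rw [Complex.cpow_inv_two_re]
  exact Real.sqrt_nonneg _

theorem Sf_re_pos {k : ℂ} (h : 1 / 64 + k ∈ slitPlane) : 0 < (Sf k).re := by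
  refine (Sf_re_nonneg k).lt_of_ne fun h0 => ?_
  have h1 := congrArg Complex.re (Sf_sq k)
  have h2 := congrArg Complex.im (Sf_sq k)
  rw [sq, mul_re, ← h0] at h1
  rw [sq, mul_im, ← h0] at h2
  rcases h with h | h
  · nlinarith [sq_nonneg (Sf k).im]
  · exact h (by rw [← h2]; ring)

theorem norm_la_ge (k : ℂ) : 1 / 8 ≤ ‖la k‖ := by
  refine le_trans ?_ (Complex.re_le_norm _)
  have := Sf_re_nonneg k
  simp only [la, add_re, div_ofNat_re, one_re]
  linarith

theorem la_ne (k : ℂ) : la k ≠ 0 := fun h => by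
  have := norm_la_ge k
  rw [h, norm_zero] at this
  linarith

theorem norm_nu_le (k : ℂ) : ‖nu k‖ ≤ ‖la k‖ := by
  refine le_of_sq_le_sq ?_ (norm_nonneg _)
  rw [Complex.sq_norm, Complex.sq_norm, normSq_apply, normSq_apply]
  have := Sf_re_nonneg k
  simp only [nu, la, add_re, sub_re, add_im, sub_im, div_ofNat_re, div_ofNat_im, one_re, one_im]
  nlinarith

theorem norm_nu_le' (k : ℂ) : ‖nu k‖ ≤ 8 * ‖k‖ := by
  have h1 : ‖nu k‖ * ‖la k‖ = ‖k‖ := by rw [← norm_mul, nu_mul_la]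
  nlinarith [norm_la_ge k, norm_nonneg (nu k)]

theorem norm_le_la_sq (k : ℂ) : ‖k‖ ≤ ‖la k‖ ^ 2 := by
  have h1 : ‖nu k‖ * ‖la k‖ = ‖k‖ := by rw [← norm_mul, nu_mul_la]
  nlinarith [norm_nu_le k, norm_nonneg (la k)]

theorem norm_Sf_le (k : ℂ) : ‖Sf k‖ ≤ 1 + ‖k‖ := by
  refine le_of_sq_le_sq ?_ (by positivity)
  rw [← norm_pow, Sf_sq]
  refine (norm_add_le _ _).trans ?_
  have : ‖(1 / 64 : ℂ)‖ = 1 / 64 := by simp
  nlinarith [norm_nonneg k]

/-- the key identity -/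
theorem nu_key (k : ℂ) : ((2 * (Sf k).re : ℝ) : ℂ) * nu k = k + ((‖nu k‖ ^ 2 : ℝ) : ℂ) := by
  have h1 := nu_mul_la k
  have h2 : ((‖nu k‖ ^ 2 : ℝ) : ℂ) = nu k * (starRingEnd ℂ) (nu k) := by
    rw [Complex.mul_conj, Complex.sq_norm]
  have h3 : ((2 * (Sf k).re : ℝ) : ℂ) = la k + (starRingEnd ℂ) (nu k) := by
    rw [← Complex.add_conj]
    simp only [la, nu, map_sub, map_div₀, map_one, map_ofNat]
    ring
  rw [h2, h3]
  linear_combination h1

theorem hasDerivAt_Sf {k : ℂ} (h : 1 / 64 + k ∈ slitPlane) : HasDerivAt Sf (1 / (2 * Sf k)) k := by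
  have h1 := (Complex.hasDerivAt_sqrt h).comp k ((hasDerivAt_id k).const_add (1 / 64))
  refine HasDerivAt.congr_deriv h1 ?_
  rw [show (-1 / 2 : ℂ) = -2⁻¹ by norm_num, Complex.cpow_neg]
  unfold Sf Complex.sqrt
  generalize (1 / 64 + k) ^ (2⁻¹ : ℂ) = w
  rw [mul_one, one_div, mul_inv, mul_comm, div_eq_mul_inv]

/-- `k` is in good position with respect to the direction `u`; `σ` is the sign of the mode -/
structure Gd (c : ℝ) (u k : ℂ) : Prop where
  c0 : 0 < c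
  one : ‖u‖ = 1
  re : c ≤ u.re
  pos : c * ‖k‖ ≤ (u * k).re ∨ ((u * k).re ≤ -(c * ‖k‖) ∧ ‖k‖ ≤ c / 256)

namespace Gd
variable {c : ℝ} {u k : ℂ}

theorem c1 (h : Gd c u k) : c ≤ 1 := h.re.trans ((Complex.re_le_norm u).trans_eq h.one)

theorem re_disc (h : Gd c u k) : c / 128 ≤ (u * (1 / 64 + k)).re := by
  have e : (u * (1 / 64 + k)).re = u.re / 64 + (u * k).re := by
    rw [mul_add, add_re]
    congr 1
    rw [mul_one_div, div_ofNat_re]
  rw [e]
  have h0 := h.c0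
  have h1 := h.re
  rcases h.pos with h2 | h2
  · nlinarith [norm_nonneg k]
  · have h3 := Complex.abs_re_le_norm (u * k)
    rw [norm_mul, h.one, one_mul] at h3
    linarith [(abs_le.1 h3).1, h2.2]

theorem slit (h : Gd c u k) : 1 / 64 + k ∈ slitPlane := by
  by_contra hn
  rw [mem_slitPlane_iff, not_or, not_lt, not_not] at hn
  have h1 := h.re_disc
  rw [mul_re, hn.2] at h1
  nlinarith [h.c0, h.re, hn.1]

theorem norm_Sf (h : Gd c u k) : c / 16 ≤ ‖Sf k‖ := by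
  refine le_of_sq_le_sq ?_ (norm_nonneg _)
  rw [← norm_pow, Sf_sq]
  have h1 := h.re_disc.trans (Complex.re_le_norm _)
  rw [norm_mul, h.one, one_mul] at h1
  nlinarith [h.c0, h.c1]

theorem norm_la (h : Gd c u k) : c * ‖la k‖ ≤ 3 * ‖Sf k‖ := by
  have h1 : ‖la k‖ ≤ ‖Sf k‖ + 1 / 8 := (norm_add_le _ _).trans_eq (by simp)
  nlinarith [h.norm_Sf, h.c0, h.c1, norm_nonneg (Sf k), norm_nonneg (la k)]

theorem key_re (u k : ℂ) : 2 * (Sf k).re * (u * nu k).re = (u * k).re + ‖nu k‖ ^ 2 * u.re := by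
  have h1 := congrArg (fun z => (u * z).re) (nu_key k)
  simp only [mul_add, add_re] at h1
  rw [mul_left_comm, re_ofReal_mul, mul_comm u (_ : ℝ), re_ofReal_mul] at h1
  exact h1

theorem key_norm (k : ℂ) : 2 * (Sf k).re * ‖nu k‖ ≤ ‖k‖ + ‖nu k‖ ^ 2 := by
  have h1 := congrArg norm (nu_key k)
  rw [norm_mul, Complex.norm_real, Real.norm_of_nonneg (by linarith [Sf_re_nonneg k])] at h1
  rw [h1]
  refine (norm_add_le _ _).trans_eq ?_
  rw [Complex.norm_real, Real.norm_of_nonneg (by positivity)]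

theorem slow_pos (h : Gd c u k) (hp : c * ‖k‖ ≤ (u * k).re) : c * ‖nu k‖ ≤ (u * nu k).re := by
  have h1 := Sf_re_pos h.slit
  have h2 := key_re u k
  have h3 := key_norm k
  refine le_of_mul_le_mul_left ?_ (by linarith : 0 < 2 * (Sf k).re)
  have h4 := h.re
  have h5 := h.c0
  nlinarith [sq_nonneg ‖nu k‖]

theorem slow_neg (h : Gd c u k) (hp : (u * k).re ≤ -(c * ‖k‖)) (hk : ‖k‖ ≤ c / 256) :
    (u * nu k).re ≤ -(c / 3 * ‖nu k‖) := by
  have h1 := Sf_re_pos h.slit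
  have h2 := key_re u k
  have h3 := key_norm k
  refine le_of_mul_le_mul_left ?_ (by linarith : 0 < 2 * (Sf k).re)
  have h4 : u.re ≤ 1 := (Complex.re_le_norm u).trans_eq h.one
  have h5 := h.c0
  have h6 := h.c1
  have h7 := norm_nu_le' k
  have h8 : ‖nu k‖ ^ 2 ≤ c / 4 * ‖k‖ := by nlinarith [norm_nonneg (nu k), norm_nonneg k]
  have h9 : ‖nu k‖ ^ 2 * u.re ≤ ‖nu k‖ ^ 2 := mul_le_of_le_one_right (sq_nonneg _) h4
  have h10 : c * (2 * (Sf k).re * ‖nu k‖) ≤ c * (‖k‖ + ‖nu k‖ ^ 2) := by gcongr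
  nlinarith [norm_nonneg k, mul_nonneg h5.le (norm_nonneg k)]

theorem fast (h : Gd c u k) : c / 2 * ‖la k‖ ≤ (u * la k).re := by
  have e : (u * la k).re = u.re / 4 + (u * nu k).re := by
    rw [la_eq, mul_add, add_re, mul_one_div, div_ofNat_re]
  have h1 : ‖la k‖ ≤ 1 / 4 + ‖nu k‖ := by
    rw [la_eq]; exact (norm_add_le _ _).trans_eq (by simp)
  have h4 := h.re
  have h5 := h.c0
  rw [e]
  rcases h.pos with h2 | h2
  · have := h.slow_pos h2
    nlinarith [norm_nonneg (nu k)]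
  · have h3 := Complex.abs_re_le_norm (u * nu k)
    rw [norm_mul, h.one, one_mul] at h3
    have h7 := norm_nu_le' k
    have h6 := h.c1
    nlinarith [(abs_le.1 h3).1, h2.2, norm_nonneg (nu k)]

end Gd

/-! ### Composition operators -/

/-- composition with a function -/
def nem (φ : ℂ → ℂ) (a : BC) : BC := mkB fun t => φ (a t)

theorem nem_apply {φ : ℂ → ℂ} {a : BC} (h : ∀ t, ContinuousAt φ (a t)) {C : ℝ}
    (hC : ∀ t, ‖φ (a t)‖ ≤ C) (t : ℝ) : nem φ a t = φ (a t) :=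
  mkB_apply (continuous_iff_continuousAt.2 fun t => (h t).comp a.continuous.continuousAt) hC t

theorem differentiableOn_nem {E : Type*} [NormedAddCommGroup E] [NormedSpace ℂ E] {φ : ℂ → ℂ}
    {a : E → BC} {U : Set E} (hU : IsOpen U) (ha : DifferentiableOn ℂ a U)
    (h : ∀ y ∈ U, ∀ t, DifferentiableAt ℂ φ (a y t)) {C : ℝ} (hC : ∀ y ∈ U, ∀ t, ‖φ (a y t)‖ ≤ C) :
    DifferentiableOn ℂ (fun y => nem φ (a y)) U := by
  have e : ∀ y ∈ U, ∀ t, nem φ (a y) t = φ (a y t) := fun y hy t =>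
    nem_apply (fun t => (h y hy t).continuousAt) (hC y hy) t
  refine differentiableOn_BC hU (M := C) (fun y hy t => (e y hy t).symm ▸ hC y hy t) fun t => ?_
  refine DifferentiableOn.congr (f := fun y => φ (a y t)) (fun y hy => ?_) fun y hy => e y hy t
  exact (h y hy t).comp_differentiableWithinAt y (DifferentiableOn.evalBC ha t y hy)

end Vale.Agent.P218N.End
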