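import Vale.Agent.P218N.End.Bas

/-! From functions of `(t, θ)` to elements of `WB`: Fourier coefficients, decay, inversion. -/

open Filter Topology Metric Set Complex Function
open scoped BoundedContinuousFunction

noncomputable section

namespace Vale.Agent.P218N.End

/-! ### Fourier coefficients of a function of `θ` -/

/-- the Fourier coefficient of a function of `θ` -/
def fd (u : ℝ → ℂ) (m : ℤ) : ℂ := (2 * Real.pi : ℂ)⁻¹ *
  ∫ θ in (0 : ℝ)..2 * Real.pi, u θ * Complex.exp (-(m * θ * I))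

/-- the Fourier coefficient in `θ` of a function of `(t, θ)` -/
def fc (F : ℝ → ℝ → ℂ) (m : ℤ) (t : ℝ) : ℂ := fd (F t) m

theorem norm_eneg (m : ℤ) (θ : ℝ) : ‖Complex.exp (-(m * θ * I))‖ = 1 := by
  rw [Complex.norm_exp]; simp

theorem hasDerivAt_eneg (m : ℤ) (θ : ℝ) : HasDerivAt (fun θ : ℝ => Complex.exp (-(m * θ * I)))
    (-(m * I) * Complex.exp (-(m * θ * I))) θ := by
  have h : HasDerivAt (fun θ : ℝ => -((m : ℂ) * θ * I)) (-(m * 1 * I)) θ :=
    ((Complex.ofRealCLM.hasDerivAt.const_mul (m : ℂ)).mul_const I).neg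
  refine h.cexp.congr_deriv ?_
  ring

theorem periodic_eneg (m : ℤ) :
    Periodic (fun θ : ℝ => Complex.exp (-(m * θ * I))) (2 * Real.pi) := fun θ => by
  have h : -((m : ℂ) * ((θ + 2 * Real.pi : ℝ) : ℂ) * I) =
      -(m * θ * I) + ((-m : ℤ) : ℂ) * (2 * Real.pi * I) := by push_cast; ring
  simp only
  rw [h, Complex.exp_add, Complex.exp_int_mul_two_pi_mul_I, mul_one]

theorem norm_inv_two_pi : ‖(2 * Real.pi : ℂ)⁻¹‖ = (2 * Real.pi)⁻¹ := by
  rw [norm_inv, norm_mul, Complex.norm_real, Real.norm_of_nonneg Real.pi_pos.le]; simp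

section one
variable {u u1 v : ℝ → ℂ} {K : ℝ}

theorem norm_fd_le (h : ∀ θ, ‖u θ‖ ≤ K) (m : ℤ) : ‖fd u m‖ ≤ K := by
  have h1 : ‖∫ θ in (0 : ℝ)..2 * Real.pi, u θ * Complex.exp (-(m * θ * I))‖ ≤
      K * |2 * Real.pi - 0| :=
    intervalIntegral.norm_integral_le_of_norm_le_const fun θ _ => by
      rw [norm_mul, norm_eneg, mul_one]; exact h θ
  have h2 : 0 < 2 * Real.pi := Real.two_pi_pos
  rw [sub_zero, abs_of_pos h2] at h1
  rw [fd, norm_mul, norm_inv_two_pi, inv_mul_le_iff₀ h2, mul_comm _ K]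
  exact h1

theorem fd_add (hu : Continuous u) (hv : Continuous v) (m : ℤ) :
    fd (fun θ => u θ + v θ) m = fd u m + fd v m := by
  simp only [fd, add_mul]
  rw [intervalIntegral.integral_add (Continuous.intervalIntegrable (by fun_prop) _ _)
    (Continuous.intervalIntegrable (by fun_prop) _ _), mul_add]

theorem fd_const_mul (z : ℂ) (u : ℝ → ℂ) (m : ℤ) : fd (fun θ => z * u θ) m = z * fd u m := by
  simp only [fd, mul_assoc]
  rw [intervalIntegral.integral_const_mul]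
  ring

theorem fd_neg (u : ℝ → ℂ) (m : ℤ) : fd (fun θ => -u θ) m = -fd u m := by
  simpa using fd_const_mul (-1) u m

theorem fd_sub (hu : Continuous u) (hv : Continuous v) (m : ℤ) :
    fd (fun θ => u θ - v θ) m = fd u m - fd v m := by
  simp only [sub_eq_add_neg]
  rw [fd_add (v := fun θ => -v θ) hu hv.neg, fd_neg]

/-- integration by parts -/
theorem fd_deriv (hp : Periodic u (2 * Real.pi)) (hd : ∀ θ, HasDerivAt u (u1 θ) θ)
    (hc : Continuous u1) (m : ℤ) : fd u1 m = m * I * fd u m := by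
  have h := intervalIntegral.integral_mul_deriv_eq_deriv_mul (a := 0) (b := 2 * Real.pi)
    (fun θ _ => hd θ) (fun θ _ => hasDerivAt_eneg m θ) (hc.intervalIntegrable _ _)
    (Continuous.intervalIntegrable (by fun_prop) _ _)
  have h1 : u (2 * Real.pi) = u 0 := by simpa using hp 0
  have h2 := periodic_eneg m 0
  simp only [zero_add] at h2
  rw [h1, h2, sub_self, zero_sub] at h
  simp only [mul_left_comm _ (-((m : ℂ) * I))] at h
  rw [intervalIntegral.integral_const_mul] at h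
  simp only [fd]
  linear_combination (2 * Real.pi : ℂ)⁻¹ * h

/-- translation -/
theorem fd_shift (hp : Periodic u (2 * Real.pi)) (s : ℝ) (m : ℤ) :
    fd (fun θ => u (θ + s)) m = Complex.exp (m * s * I) * fd u m := by
  have h1 : Periodic (fun θ : ℝ => u θ * Complex.exp (-(m * θ * I))) (2 * Real.pi) :=
    hp.mul (periodic_eneg m)
  have h2 := h1.intervalIntegral_add_eq 0 s
  have h3 := intervalIntegral.integral_comp_add_right
    (fun θ : ℝ => u θ * Complex.exp (-(m * θ * I))) (a := 0) (b := 2 * Real.pi) s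
  rw [zero_add, add_comm _ s, ← h2, zero_add] at h3
  simp only [fd]
  rw [← h3, mul_left_comm, ← intervalIntegral.integral_const_mul (Complex.exp (m * s * I))]
  congr 2
  ext θ
  rw [mul_left_comm, ← Complex.exp_add]
  congr 2
  push_cast
  ring

/-- decay for Hoelder functions -/
theorem norm_fd_le_hol (hu : Continuous u) (hp : Periodic u (2 * Real.pi)) {α : ℝ}
    (h : ∀ θ θ', ‖u θ - u θ'‖ ≤ K * |θ - θ'| ^ α) {m : ℤ} (hm : m ≠ 0) :
    ‖fd u m‖ ≤ K * (Real.pi / |(m : ℝ)|) ^ α / 2 := by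
  have hm' : (m : ℂ) ≠ 0 := Int.cast_ne_zero.2 hm
  have h1 := fd_shift hp (Real.pi / m) m
  have h2 : Complex.exp (m * ((Real.pi / m : ℝ) : ℂ) * I) = -1 := by
    rw [← Complex.exp_pi_mul_I]
    congr 2
    push_cast
    field_simp
  have h3 := fd_sub (v := fun θ => u (θ + Real.pi / m)) hu (by fun_prop) m
  have h4 := norm_fd_le (u := fun θ => u θ - u (θ + Real.pi / m))
    (K := K * (Real.pi / |(m : ℝ)|) ^ α) (fun θ => by
      have := h θ (θ + Real.pi / m)
      rwa [sub_add_cancel_left, abs_neg, abs_div, abs_of_pos Real.pi_pos] at this) m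
  rw [h3, h1, h2, neg_one_mul, sub_neg_eq_add, ← two_mul, norm_mul] at h4
  simp only [Complex.norm_ofNat] at h4
  linarith

/-- Fourier inversion -/
theorem hasSum_fd (hu : Continuous u) (hp : Periodic u (2 * Real.pi))
    (hs : Summable fun m => ‖fd u m‖) (θ : ℝ) :
    HasSum (fun m : ℤ => Complex.exp (m * θ * I) * fd u m) (u θ) := by
  have : Fact (0 < 2 * Real.pi) := ⟨Real.two_pi_pos⟩
  let f : C(AddCircle (2 * Real.pi), ℂ) := ⟨hp.lift, continuous_coinduced_dom.2 hu⟩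
  have hπ : (Real.pi : ℂ) ≠ 0 := Complex.ofReal_ne_zero.2 Real.pi_pos.ne'
  have he : ∀ (n : ℤ) (x : ℝ), fourier n (x : AddCircle (2 * Real.pi)) =
      Complex.exp (n * x * I) := fun n x => by
    rw [fourier_coe_apply]
    congr 1
    push_cast
    field_simp
  have hf : ∀ m, fourierCoeff f m = fd u m := fun m => by
    rw [fourierCoeff_eq_intervalIntegral _ _ 0, zero_add, fd, Complex.real_smul]
    congr 1
    · push_cast; rw [one_div]
    · congr 1
      ext x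
      rw [he, smul_eq_mul, mul_comm]
      congr 2
      push_cast
      ring
  have h := has_pointwise_sum_fourier_series_of_summable (f := f)
    (by rw [funext hf]; exact hs.of_norm) (θ : AddCircle (2 * Real.pi))
  refine h.congr_fun fun m => ?_
  rw [hf, he, smul_eq_mul, mul_comm]

theorem periodic_of_hasDerivAt {T : ℝ} (hp : Periodic u T) (hd : ∀ θ, HasDerivAt u (u1 θ) θ) :
    Periodic u1 T := fun θ => by
  have h := (hd (θ + T)).comp_add_const θ T
  rw [show (fun x => u (x + T)) = u from funext hp] at h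
  exact h.unique (hd θ)

end one

/-! ### Summable majorants -/

/-- the majorant for two bounded derivatives -/
def b2 (m : ℤ) : ℝ := if m = 0 then 1 else 1 / (m : ℝ) ^ 2

/-- the majorant for a Hoelder derivative -/
def bw (α : ℝ) (m : ℤ) : ℝ := if m = 0 then 1 else Real.pi ^ α / 2 * |(m : ℝ)| ^ (-(1 + α))

/-- the constant of the embedding `C^{1,α} → W` -/
def Cw (α : ℝ) : ℝ := ∑' m, bw α m

theorem hasSum_b2 : HasSum b2 (1 + Real.pi ^ 2 / 3) := by
  have h1 : HasSum (fun n : ℕ => (1 : ℝ) / ((n + 1 : ℕ) : ℝ) ^ 2) (Real.pi ^ 2 / 6) := by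
    have := (hasSum_nat_add_iff' 1).2 hasSum_zeta_two
    simpa using this
  have h2 := HasSum.of_add_one_of_neg_add_one (f := b2) (m := Real.pi ^ 2 / 6)
    (m' := Real.pi ^ 2 / 6) (h1.congr_fun fun n => by
      rw [b2, if_neg (by omega)]; push_cast; rfl) (h1.congr_fun fun n => by
      rw [b2, if_neg (by omega)]; push_cast; rw [neg_sq])
  convert h2 using 1
  simp only [b2, if_pos]
  ring

theorem summable_b2 : Summable b2 := hasSum_b2.summable

theorem tsum_b2_le : ∑' m, b2 m ≤ 5 := by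
  rw [hasSum_b2.tsum_eq]
  nlinarith [Real.pi_lt_d2, Real.pi_pos]

theorem summable_bw {α : ℝ} (hα : 0 < α) : Summable (bw α) := by
  have h := (Real.summable_abs_int_rpow (b := 1 + α) (by linarith)).mul_left (Real.pi ^ α / 2)
  refine (summable_congr_cofinite ?_).1 h
  refine (Set.finite_singleton (0 : ℤ)).eventually_cofinite_notMem.mono fun m hm => ?_
  simp only [bw]
  rw [if_neg (by simpa using hm)]

theorem bw_nonneg (α : ℝ) (m : ℤ) : 0 ≤ bw α m := by
  unfold bw; split_ifs <;> positivity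

theorem b2_nonneg (m : ℤ) : 0 ≤ b2 m := by
  unfold b2; split_ifs <;> positivity

section one
variable {u u1 u2 : ℝ → ℂ} {K : ℝ}

theorem norm_fd_le_b2 (hp : Periodic u (2 * Real.pi)) (h1 : ∀ θ, HasDerivAt u (u1 θ) θ)
    (h2 : ∀ θ, HasDerivAt u1 (u2 θ) θ) (hc : Continuous u2) (b0 : ∀ θ, ‖u θ‖ ≤ K)
    (b2' : ∀ θ, ‖u2 θ‖ ≤ K) (m : ℤ) : ‖fd u m‖ ≤ K * b2 m := by
  unfold b2
  split_ifs with hm
  · rw [mul_one]; exact norm_fd_le b0 m
  have h3 := norm_fd_le b2' m
  rw [fd_deriv (periodic_of_hasDerivAt hp h1) h2 hc, fd_deriv hp h1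
    (continuous_iff_continuousAt.2 fun θ => (h2 θ).continuousAt)] at h3
  simp only [norm_mul, Complex.norm_I, mul_one, Complex.norm_intCast] at h3
  have h4 : (0 : ℝ) < (m : ℝ) ^ 2 := by positivity
  rw [mul_one_div, le_div_iff₀ h4, ← sq_abs]
  linarith

theorem continuous_of_hol {α : ℝ} (hα : 0 < α)
    (h : ∀ θ θ', ‖u θ - u θ'‖ ≤ K * |θ - θ'| ^ α) : Continuous u := by
  refine continuous_iff_continuousAt.2 fun θ' => tendsto_iff_norm_sub_tendsto_zero.2 ?_
  have h1 : Continuous fun θ : ℝ => K * |θ - θ'| ^ α :=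
    continuous_const.mul ((continuous_id.sub continuous_const).abs.rpow_const fun _ => Or.inr hα.le)
  have h2 := h1.tendsto θ'
  rw [sub_self, abs_zero, Real.zero_rpow hα.ne', mul_zero] at h2
  exact squeeze_zero (fun _ => norm_nonneg _) (fun θ => h θ θ') h2

theorem norm_fd_le_bw {α : ℝ} (hα : 0 < α) (hp : Periodic u (2 * Real.pi))
    (h1 : ∀ θ, HasDerivAt u (u1 θ) θ) (b0 : ∀ θ, ‖u θ‖ ≤ K)
    (h : ∀ θ θ', ‖u1 θ - u1 θ'‖ ≤ K * |θ - θ'| ^ α) (m : ℤ) : ‖fd u m‖ ≤ K * bw α m := by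
  unfold bw
  split_ifs with hm
  · rw [mul_one]; exact norm_fd_le b0 m
  have hc := continuous_of_hol hα h
  have h3 := norm_fd_le_hol hc (periodic_of_hasDerivAt hp h1) h hm
  rw [fd_deriv hp h1 hc] at h3
  simp only [norm_mul, Complex.norm_I, mul_one, Complex.norm_intCast] at h3
  have h4 : (0 : ℝ) < |(m : ℝ)| := abs_pos.2 (Int.cast_ne_zero.2 hm)
  rw [Real.div_rpow Real.pi_pos.le h4.le] at h3
  rw [Real.rpow_neg h4.le, Real.rpow_add h4, Real.rpow_one]
  have h5 : (0 : ℝ) < |(m : ℝ)| ^ α := Real.rpow_pos_of_pos h4 α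
  rw [mul_comm, ← le_div_iff₀ h4] at h3
  refine h3.trans_eq ?_
  field_simp

end one

/-! ### Functions of `θ` as elements of `WD` -/

open Classical in
/-- the element of `WD` with the Fourier coefficients of `u` (zero unless they are summable) -/
def toD (u : ℝ → ℂ) : WD := if h : Summable fun m => ‖fd u m‖ then W.mk (fd u) h else 0

section toD
variable {u u1 u2 v : ℝ → ℂ} {K : ℝ}

theorem c_toD (h : Summable fun m => ‖fd u m‖) (m : ℤ) : (toD u).c m = fd u m := by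
  unfold toD; rw [dif_pos h]; rfl

theorem sumL_eq_of_c {d : WD} (hu : Continuous u) (hp : Periodic u (2 * Real.pi))
    (h : ∀ m, d.c m = fd u m) (θ : ℝ) : W.sumL θ d = u θ :=
  (W.hasSum_sumL θ d).unique ((hasSum_fd hu hp (by simpa only [h] using d.sm) θ).congr_fun
    fun m => by rw [h, smul_eq_mul])

theorem sumL_toD (hu : Continuous u) (hp : Periodic u (2 * Real.pi))
    (h : Summable fun m => ‖fd u m‖) (θ : ℝ) : W.sumL θ (toD u) = u θ :=
  sumL_eq_of_c hu hp (c_toD h) θ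

theorem summable_fd_of_le {b : ℤ → ℝ} (hb : Summable b) (h : ∀ m, ‖fd u m‖ ≤ K * b m) :
    Summable fun m => ‖fd u m‖ :=
  Summable.of_nonneg_of_le (fun _ => norm_nonneg _) h (hb.mul_left K)

theorem norm_toD_le {b : ℤ → ℝ} (hb : Summable b) (h : ∀ m, ‖fd u m‖ ≤ K * b m) :
    ‖toD u‖ ≤ K * ∑' m, b m :=
  W.norm_le_of_hasSum (hb.hasSum.mul_left K) fun m => by
    rw [c_toD (summable_fd_of_le hb h)]; exact h m

/-- `C² ⊂ WD` -/
theorem toD_C2 (hp : Periodic u (2 * Real.pi)) (h1 : ∀ θ, HasDerivAt u (u1 θ) θ)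
    (h2 : ∀ θ, HasDerivAt u1 (u2 θ) θ) (hc : Continuous u2) (b0 : ∀ θ, ‖u θ‖ ≤ K)
    (b2' : ∀ θ, ‖u2 θ‖ ≤ K) : (∀ m, (toD u).c m = fd u m) ∧ (∀ θ, W.sumL θ (toD u) = u θ) ∧
      ‖toD u‖ ≤ 5 * K := by
  have h := norm_fd_le_b2 hp h1 h2 hc b0 b2'
  have hs := summable_fd_of_le summable_b2 h
  refine ⟨c_toD hs, sumL_toD (continuous_iff_continuousAt.2 fun θ => (h1 θ).continuousAt) hp hs,
    (norm_toD_le summable_b2 h).trans ?_⟩
  rw [mul_comm]
  exact mul_le_mul_of_nonneg_right tsum_b2_le ((norm_nonneg _).trans (b0 0))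

/-- `C^{1,α} ⊂ WD` -/
theorem toD_hol {α : ℝ} (hα : 0 < α) (hp : Periodic u (2 * Real.pi))
    (h1 : ∀ θ, HasDerivAt u (u1 θ) θ) (b0 : ∀ θ, ‖u θ‖ ≤ K)
    (h : ∀ θ θ', ‖u1 θ - u1 θ'‖ ≤ K * |θ - θ'| ^ α) :
    (∀ m, (toD u).c m = fd u m) ∧ (∀ θ, W.sumL θ (toD u) = u θ) ∧ ‖toD u‖ ≤ Cw α * K := by
  have h := norm_fd_le_bw hα hp h1 b0 h
  have hs := summable_fd_of_le (summable_bw hα) h
  exact ⟨c_toD hs, sumL_toD (continuous_iff_continuousAt.2 fun θ => (h1 θ).continuousAt) hp hs,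
    (norm_toD_le (summable_bw hα) h).trans_eq (mul_comm _ _)⟩

/-- the derivative in terms of coefficients (`kd = cc ∂_θ ka`) -/
theorem c_toD_deriv (hp : Periodic u (2 * Real.pi)) (h1 : ∀ θ, HasDerivAt u (u1 θ) θ)
    (hc : Continuous u1) (hs : Summable fun m => ‖fd u m‖) (hs1 : Summable fun m => ‖fd u1 m‖)
    (m : ℤ) : (toD u1).c m = ((m : ℂ) * I) • (toD u).c m := by
  rw [c_toD hs, c_toD hs1, fd_deriv hp h1 hc, smul_eq_mul]

theorem toD_add (hu : Continuous u) (hv : Continuous v) (hs : Summable fun m => ‖fd u m‖)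
    (hs' : Summable fun m => ‖fd v m‖) : toD (fun θ => u θ + v θ) = toD u + toD v := by
  have h : Summable fun m => ‖fd (fun θ => u θ + v θ) m‖ :=
    Summable.of_nonneg_of_le (fun _ => norm_nonneg _)
      (fun m => by rw [fd_add hu hv]; exact norm_add_le _ _) (hs.add hs')
  ext m
  rw [W.c_add, c_toD h, c_toD hs, c_toD hs', fd_add hu hv]

theorem toD_const_mul (z : ℂ) (hs : Summable fun m => ‖fd u m‖) :
    toD (fun θ => z * u θ) = z • toD u := by
  have h : Summable fun m => ‖fd (fun θ => z * u θ) m‖ := by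
    simpa only [fd_const_mul, norm_mul] using hs.mul_left ‖z‖
  ext m
  rw [W.c_smul, c_toD h, c_toD hs, fd_const_mul, smul_eq_mul]

end toD

/-! ### Functions of `(t, θ)` as elements of `WB` -/

open Classical in
/-- the element of `WB` with the Fourier coefficients of `F` (zero unless they are summable) -/
def toW (F : ℝ → ℝ → ℂ) : WB :=
  if h : Summable fun m => ‖mkB (fc F m)‖ then W.mk (fun m => mkB (fc F m)) h else 0

/-- `F` is continuous, periodic, and its coefficients are bounded by `K t * b m`. -/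
structure FDom (K : ℝ → ℝ) (b : ℤ → ℝ) (F : ℝ → ℝ → ℂ) : Prop where
  cont : Continuous fun p : ℝ × ℝ => F p.1 p.2
  per : ∀ t, Periodic (F t) (2 * Real.pi)
  le : ∀ m t, ‖fc F m t‖ ≤ K t * b m
  sm : Summable b
  nn : ∀ m, 0 ≤ b m
  bdd : ∃ K₀, ∀ t, K t ≤ K₀

theorem continuous_fc {F : ℝ → ℝ → ℂ} (h : Continuous fun p : ℝ × ℝ => F p.1 p.2) (m : ℤ) :
    Continuous (fc F m) := by
  refine continuous_const.mul (intervalIntegral.continuous_parametric_intervalIntegral_of_continuous'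
    (f := fun t θ => F t θ * Complex.exp (-(m * θ * I))) ?_ _ _)
  exact h.mul (by fun_prop)

theorem hasSum_ev_c (f : WB) (t θ : ℝ) :
    HasSum (fun m : ℤ => Complex.exp (m * θ * I) * f.c m t) (ev f t θ) :=
  (BoundedContinuousFunction.evalCLM ℂ t : BC →L[ℂ] ℂ).hasSum (W.hasSum_sumL θ f)

/-- an element of `WB` with the coefficients of a continuous periodic function -/
theorem ev_eq_of_c {f : WB} {u : ℝ → ℂ} {t : ℝ} (hu : Continuous u)
    (hp : Periodic u (2 * Real.pi)) (h : ∀ m, f.c m t = fd u m) (θ : ℝ) : ev f t θ = u θ := by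
  have hs : Summable fun m => ‖fd u m‖ :=
    Summable.of_nonneg_of_le (fun _ => norm_nonneg _)
      (fun m => by rw [← h]; exact (f.c m).norm_coe_le_norm t) f.sm
  exact (hasSum_ev_c f t θ).unique ((hasSum_fd hu hp hs θ).congr_fun fun m => by rw [h])

namespace FDom
variable {K K' : ℝ → ℝ} {b b' : ℤ → ℝ} {F F' : ℝ → ℝ → ℂ}

theorem cont_t (h : FDom K b F) (t : ℝ) : Continuous (F t) :=
  h.cont.comp (Continuous.prodMk_right t)

theorem mono (h : FDom K b F) (hK : ∀ t, K t ≤ K' t) (hb : ∃ K₀, ∀ t, K' t ≤ K₀) : FDom K' b F :=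
  ⟨h.cont, h.per, fun m t => (h.le m t).trans (mul_le_mul_of_nonneg_right (hK t) (h.nn m)),
    h.sm, h.nn, hb⟩

theorem mkB_fc (h : FDom K b F) (m : ℤ) (t : ℝ) : mkB (fc F m) t = fc F m t := by
  obtain ⟨K₀, hK⟩ := h.bdd
  exact mkB_apply (continuous_fc h.cont m) (C := K₀ * b m)
    (fun t => (h.le m t).trans (mul_le_mul_of_nonneg_right (hK t) (h.nn m))) t

theorem summable (h : FDom K b F) : Summable fun m => ‖mkB (fc F m)‖ := by
  obtain ⟨K₀, hK⟩ := h.bdd
  refine Summable.of_nonneg_of_le (fun _ => norm_nonneg _) (fun m => norm_BC_le fun t => ?_)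
    (h.sm.mul_left K₀)
  rw [h.mkB_fc]
  exact (h.le m t).trans (mul_le_mul_of_nonneg_right (hK t) (h.nn m))

theorem c_toW (h : FDom K b F) (m : ℤ) (t : ℝ) : (toW F).c m t = fc F m t := by
  unfold toW
  rw [dif_pos h.summable]
  exact h.mkB_fc m t

theorem ev_toW (h : FDom K b F) (t θ : ℝ) : ev (toW F) t θ = F t θ :=
  ev_eq_of_c (h.cont_t t) (h.per t) (fun m => h.c_toW m t) θ

/-- the weighted bound -/
theorem norm_wt_le (h : FDom K b F) (w : BC) {K₁ : ℝ} (hw : ∀ t, ‖w t‖ * K t ≤ K₁) :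
    ‖W.C w * toW F‖ ≤ (∑' m, b m) * K₁ := by
  refine W.norm_le_of_hasSum (h.sm.hasSum.mul_right K₁) fun m => norm_BC_le fun t => ?_
  rw [W.c_C_mul, BoundedContinuousFunction.mul_apply, h.c_toW, norm_mul, mul_comm (b m)]
  refine (mul_le_mul_of_nonneg_left (h.le m t) (norm_nonneg _)).trans ?_
  rw [← mul_assoc]
  exact mul_le_mul_of_nonneg_right (hw t) (h.nn m)

theorem norm_le (h : FDom K b F) {K₀ : ℝ} (hK : ∀ t, K t ≤ K₀) : ‖toW F‖ ≤ (∑' m, b m) * K₀ := by
  simpa using h.norm_wt_le 1 (K₁ := K₀) (by simpa using hK)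

theorem add (h : FDom K b F) (h' : FDom K' b F') :
    FDom (fun t => K t + K' t) b fun t θ => F t θ + F' t θ where
  cont := h.cont.add h'.cont
  per t := (h.per t).add (h'.per t)
  le m t := by
    rw [fc, fd_add (h.cont_t t) (h'.cont_t t), add_mul]
    exact (norm_add_le _ _).trans (add_le_add (h.le m t) (h'.le m t))
  sm := h.sm
  nn := h.nn
  bdd := let ⟨a, ha⟩ := h.bdd; let ⟨a', ha'⟩ := h'.bdd; ⟨a + a', fun t => add_le_add (ha t) (ha' t)⟩

/-- multiplication by a function of `t` -/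
theorem mul_left (h : FDom K b F) {w : ℝ → ℂ} (hw : Continuous w)
    (hb : ∃ K₀, ∀ t, ‖w t‖ * K t ≤ K₀) :
    FDom (fun t => ‖w t‖ * K t) b fun t θ => w t * F t θ where
  cont := (hw.comp continuous_fst).mul h.cont
  per t θ := by simp only [h.per t θ]
  le m t := by
    rw [fc, fd_const_mul, norm_mul, mul_assoc]
    exact mul_le_mul_of_nonneg_left (h.le m t) (norm_nonneg _)
  sm := h.sm
  nn := h.nn
  bdd := hb

theorem summable_fd (h : FDom K b F) (t : ℝ) : Summable fun m => ‖fd (F t) m‖ :=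
  summable_fd_of_le h.sm fun m => h.le m t

theorem tr_toW (h : FDom K b F) (t : ℝ) : tr t (toW F) = toD (F t) := by
  ext m
  rw [c_tr, h.c_toW, c_toD (h.summable_fd t), fc]

theorem eq_toW (h : FDom K b F) {f : WB} (hf : ∀ m t, f.c m t = fc F m t) : f = toW F := by
  ext m t
  rw [hf, h.c_toW]

/-- two majorants -/
theorem add' (h : FDom K b F) (h' : FDom K' b' F') :
    FDom (fun t => max (max (K t) (K' t)) 0) (fun m => b m + b' m) fun t θ => F t θ + F' t θ where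
  cont := h.cont.add h'.cont
  per t := (h.per t).add (h'.per t)
  le m t := by
    rw [fc, fd_add (h.cont_t t) (h'.cont_t t), mul_add]
    refine (norm_add_le _ _).trans (add_le_add ((h.le m t).trans ?_) ((h'.le m t).trans ?_))
    · exact mul_le_mul_of_nonneg_right ((le_max_left _ _).trans (le_max_left _ _)) (h.nn m)
    · exact mul_le_mul_of_nonneg_right ((le_max_right _ _).trans (le_max_left _ _)) (h'.nn m)
  sm := h.sm.add h'.sm
  nn m := add_nonneg (h.nn m) (h'.nn m)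
  bdd := let ⟨a, ha⟩ := h.bdd; let ⟨a', ha'⟩ := h'.bdd
    ⟨max (max a a') 0, fun t => max_le_max (max_le_max (ha t) (ha' t)) le_rfl⟩

theorem toW_add (h : FDom K b F) (h' : FDom K' b' F') :
    toW (fun t θ => F t θ + F' t θ) = toW F + toW F' := by
  refine ((h.add' h').eq_toW fun m t => ?_).symm
  rw [W.c_add, BoundedContinuousFunction.add_apply, h.c_toW, h'.c_toW, fc, fc, fc,
    fd_add (h.cont_t t) (h'.cont_t t)]

theorem mul_BC (h : FDom K b F) (w : BC) :
    FDom (fun t => ‖w t‖ * K t) b fun t θ => w t * F t θ := by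
  obtain ⟨K₀, hK⟩ := h.bdd
  refine h.mul_left w.continuous ⟨‖w‖ * max K₀ 0, fun t => ?_⟩
  exact (mul_le_mul_of_nonneg_left ((hK t).trans (le_max_left _ _)) (norm_nonneg _)).trans
    (mul_le_mul_of_nonneg_right (w.norm_coe_le_norm t) (le_max_right _ _))

theorem toW_mul_BC (h : FDom K b F) (w : BC) :
    toW (fun t θ => w t * F t θ) = W.C w * toW F := by
  refine ((h.mul_BC w).eq_toW fun m t => ?_).symm
  rw [W.c_C_mul, BoundedContinuousFunction.mul_apply, h.c_toW, fc, fc, fd_const_mul]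

theorem const_mul (h : FDom K b F) (z : ℂ) :
    FDom (fun t => ‖z‖ * K t) b fun t θ => z * F t θ :=
  h.mul_BC (BoundedContinuousFunction.const ℝ z)

theorem toW_const_mul (h : FDom K b F) (z : ℂ) : toW (fun t θ => z * F t θ) = z • toW F := by
  refine ((h.const_mul z).eq_toW fun m t => ?_).symm
  rw [W.c_smul, BoundedContinuousFunction.smul_apply, h.c_toW, fc, fc, fd_const_mul, smul_eq_mul]

theorem neg (h : FDom K b F) : FDom K b fun t θ => -F t θ := by
  simpa using h.const_mul (-1)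

theorem sub (h : FDom K b F) (h' : FDom K' b F') :
    FDom (fun t => K t + K' t) b fun t θ => F t θ - F' t θ := by
  simpa only [sub_eq_add_neg] using h.add h'.neg

theorem toW_sub (h : FDom K b F) (h' : FDom K' b' F') :
    toW (fun t θ => F t θ - F' t θ) = toW F - toW F' := by
  have h1 := h'.toW_const_mul (-1)
  simp only [neg_mul, one_mul, neg_smul, one_smul] at h1
  simp only [sub_eq_add_neg]
  rw [h.toW_add h'.neg, h1]

/-- the `θ`-derivative in terms of coefficients -/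
theorem c_toW_deriv (h : FDom K b F) (h' : FDom K' b' F')
    (hd : ∀ t θ, HasDerivAt (F t) (F' t θ) θ) (m : ℤ) :
    (toW F').c m = ((m : ℂ) * I) • (toW F).c m := by
  ext t
  rw [BoundedContinuousFunction.smul_apply, h.c_toW, h'.c_toW, fc, fc,
    fd_deriv (h.per t) (hd t) (h'.cont_t t), smul_eq_mul]

end FDom

theorem cst_toD {u : ℝ → ℂ} (hu : Continuous u) (hp : Periodic u (2 * Real.pi))
    (hs : Summable fun m => ‖fd u m‖) : cst (toD u) = toW fun _ => u := by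
  have h : FDom (fun _ => 1) (fun m => ‖fd u m‖) fun _ => u :=
    ⟨hu.comp continuous_snd, fun _ => hp, fun m t => (one_mul _).ge, hs, fun _ => norm_nonneg _,
      1, fun _ => le_rfl⟩
  refine h.eq_toW fun m t => ?_
  rw [c_cst, c_toD hs]
  simp [fc]

/-- `C^{1,α}` in `θ` -/
theorem fdom_hol {α : ℝ} (hα : 0 < α) {K : ℝ → ℝ} {K₀ : ℝ} (hK : ∀ t, K t ≤ K₀)
    {F F1 : ℝ → ℝ → ℂ} (hc : Continuous fun p : ℝ × ℝ => F p.1 p.2)
    (hp : ∀ t, Periodic (F t) (2 * Real.pi)) (b0 : ∀ t θ, ‖F t θ‖ ≤ K t)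
    (h1 : ∀ t θ, HasDerivAt (F t) (F1 t θ) θ)
    (h : ∀ t θ θ', ‖F1 t θ - F1 t θ'‖ ≤ K t * |θ - θ'| ^ α) : FDom K (bw α) F :=
  ⟨hc, hp, fun m t => norm_fd_le_bw hα (hp t) (h1 t) (b0 t) (h t) m, summable_bw hα, bw_nonneg α,
    K₀, hK⟩

/-- `C²` in `θ` -/
theorem fdom_C2 {K : ℝ → ℝ} {K₀ : ℝ} (hK : ∀ t, K t ≤ K₀) {F F1 F2 : ℝ → ℝ → ℂ}
    (hc : Continuous fun p : ℝ × ℝ => F p.1 p.2) (hp : ∀ t, Periodic (F t) (2 * Real.pi))
    (h1 : ∀ t θ, HasDerivAt (F t) (F1 t θ) θ) (h2 : ∀ t θ, HasDerivAt (F1 t) (F2 t θ) θ)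
    (hc2 : ∀ t, Continuous (F2 t)) (b0 : ∀ t θ, ‖F t θ‖ ≤ K t) (b2' : ∀ t θ, ‖F2 t θ‖ ≤ K t) :
    FDom K b2 F :=
  ⟨hc, hp, fun m t => norm_fd_le_b2 (hp t) (h1 t) (h2 t) (hc2 t) (b0 t) (b2' t) m, summable_b2,
    b2_nonneg, K₀, hK⟩

/-- the statement for a uniform bound, Hoelder case -/
theorem toW_hol {α K : ℝ} (hα : 0 < α) {F F1 : ℝ → ℝ → ℂ}
    (hc : Continuous fun p : ℝ × ℝ => F p.1 p.2) (hp : ∀ t, Periodic (F t) (2 * Real.pi))
    (b0 : ∀ t θ, ‖F t θ‖ ≤ K) (h1 : ∀ t θ, HasDerivAt (F t) (F1 t θ) θ)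
    (h : ∀ t θ θ', ‖F1 t θ - F1 t θ'‖ ≤ K * |θ - θ'| ^ α) :
    (∀ t θ, ev (toW F) t θ = F t θ) ∧ ‖toW F‖ ≤ Cw α * K :=
  have h := fdom_hol hα (K := fun _ => K) (fun _ => le_rfl) hc hp b0 h1 h
  ⟨h.ev_toW, h.norm_le fun _ => le_rfl⟩

/-- the statement for a uniform bound, `C²` case -/
theorem toW_C2 {K : ℝ} {F F1 F2 : ℝ → ℝ → ℂ}
    (hc : Continuous fun p : ℝ × ℝ => F p.1 p.2) (hp : ∀ t, Periodic (F t) (2 * Real.pi))
    (h1 : ∀ t θ, HasDerivAt (F t) (F1 t θ) θ) (h2 : ∀ t θ, HasDerivAt (F1 t) (F2 t θ) θ)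
    (hc2 : ∀ t, Continuous (F2 t)) (b0 : ∀ t θ, ‖F t θ‖ ≤ K) (b2' : ∀ t θ, ‖F2 t θ‖ ≤ K) :
    (∀ t θ, ev (toW F) t θ = F t θ) ∧ ‖toW F‖ ≤ 5 * K :=
  have h := fdom_C2 (K := fun _ => K) (fun _ => le_rfl) hc hp h1 h2 hc2 b0 b2'
  ⟨h.ev_toW, (h.norm_le fun _ => le_rfl).trans
    (mul_le_mul_of_nonneg_right tsum_b2_le ((norm_nonneg _).trans (b0 0 0)))⟩

end Vale.Agent.P218N.End
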