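import Vale.Agent.P218N.End.Hol

/-! Linear first order equations along a contour parametrised by `[0, 1]`. Functions along the
contour are bounded continuous functions on `ℝ`; speeds vanish outside of `[0, 1]`. -/

open Filter Topology Metric Set intervalIntegral
open scoped BoundedContinuousFunction

noncomputable section

namespace Vale.Agent.P218N.End

/-- functions along a contour -/
abbrev BC : Type := ℝ →ᵇ ℂ

open Classical in
/-- a function as an element of `BC` (zero unless it is bounded and continuous) -/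
def mkB (f : ℝ → ℂ) : BC :=
  if h : Continuous f ∧ ∃ C, ∀ t, ‖f t‖ ≤ C then
    BoundedContinuousFunction.ofNormedAddCommGroup f h.1 h.2.choose h.2.choose_spec
  else 0

theorem mkB_apply {f : ℝ → ℂ} (hf : Continuous f) {C : ℝ} (hC : ∀ t, ‖f t‖ ≤ C) (t : ℝ) :
    mkB f t = f t := by
  unfold mkB
  rw [dif_pos ⟨hf, C, hC⟩]
  rfl

theorem norm_BC_le {f : BC} {C : ℝ} (h : ∀ t, ‖f t‖ ≤ C) : ‖f‖ ≤ C :=
  (BoundedContinuousFunction.norm_le ((norm_nonneg _).trans (h 0))).2 h

theorem norming_BC : Norming (range fun t : ℝ => (BoundedContinuousFunction.evalCLM ℂ t :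
    BC →L[ℂ] ℂ)) where
  le := by
    rintro _ ⟨t, rfl⟩ b
    exact b.norm_coe_le_norm t
  ge b C _ h := norm_BC_le fun t => h _ ⟨t, rfl⟩

/-- holomorphic maps into `BC` -/
theorem differentiableOn_BC {E : Type*} [NormedAddCommGroup E] [NormedSpace ℂ E] {f : E → BC}
    {U : Set E} (hU : IsOpen U) {M : ℝ} (hM : ∀ y ∈ U, ∀ t, ‖f y t‖ ≤ M)
    (hw : ∀ t, DifferentiableOn ℂ (fun y => f y t) U) : DifferentiableOn ℂ f U :=
  norming_BC.differentiableOn hU (fun y hy => norm_BC_le (hM y hy)) (by
    rintro _ ⟨t, rfl⟩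
    exact hw t)

theorem DifferentiableOn.evalBC {E : Type*} [NormedAddCommGroup E] [NormedSpace ℂ E] {f : E → BC}
    {U : Set E} (h : DifferentiableOn ℂ f U) (t : ℝ) : DifferentiableOn ℂ (fun y => f y t) U :=
  (BoundedContinuousFunction.evalCLM ℂ t : BC →L[ℂ] ℂ).differentiable.comp_differentiableOn h

/-- the nearest point of `[0, 1]` -/
def cl (t : ℝ) : ℝ := max 0 (min t 1)

theorem cl_mem (t : ℝ) : cl t ∈ Icc (0 : ℝ) 1 :=
  ⟨le_max_left _ _, max_le zero_le_one (min_le_right _ _)⟩

theorem cl_of_mem {t : ℝ} (h : t ∈ Icc (0 : ℝ) 1) : cl t = t := by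
  unfold cl; rw [min_eq_left h.2, max_eq_right h.1]

theorem continuous_cl : Continuous cl := continuous_const.max (continuous_id.min continuous_const)

theorem cl_cl (t : ℝ) : cl (cl t) = cl t := cl_of_mem (cl_mem t)

theorem norm_prim_le (f : BC) {s t : ℝ} (hs : s ∈ Icc (0 : ℝ) 1) (ht : t ∈ Icc (0 : ℝ) 1) :
    ‖∫ x in s..t, f x‖ ≤ ‖f‖ := by
  refine (norm_integral_le_of_norm_le_const (C := ‖f‖) fun x _ => f.norm_coe_le_norm x).trans ?_
  refine mul_le_of_le_one_right (norm_nonneg _) ?_
  rw [abs_le]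
  constructor <;> linarith [hs.1, hs.2, ht.1, ht.2]

theorem continuous_prim (f : BC) (s : ℝ) : Continuous fun t => ∫ x in s..cl t, f x :=
  (continuous_primitive (fun a b => f.continuous.intervalIntegrable a b) s).comp continuous_cl

/-- the primitive vanishing at `s` -/
def V (s : Icc (0 : ℝ) 1) : BC →L[ℂ] BC :=
  LinearMap.mkContinuous
    ⟨⟨fun f => BoundedContinuousFunction.ofNormedAddCommGroup (fun t => ∫ x in s..cl t, f x)
        (continuous_prim f s) ‖f‖ fun t => norm_prim_le f s.2 (cl_mem t), fun f g => by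
      ext t
      exact integral_add (f.continuous.intervalIntegrable _ _) (g.continuous.intervalIntegrable _ _)⟩,
    fun z f => by
      ext t
      exact integral_smul z f⟩ 1 fun f => by
    rw [one_mul]
    exact norm_BC_le fun t => norm_prim_le f s.2 (cl_mem t)

theorem V_apply (s : Icc (0 : ℝ) 1) (f : BC) (t : ℝ) : V s f t = ∫ x in s..cl t, f x := rfl

@[simp] theorem V_self (s : Icc (0 : ℝ) 1) (f : BC) : V s f s = 0 := by
  rw [V_apply, cl_of_mem s.2, integral_same]

theorem V_cl (s : Icc (0 : ℝ) 1) (f : BC) (t : ℝ) : V s f (cl t) = V s f t := by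
  rw [V_apply, V_apply, cl_cl]

/-- `f` vanishes outside of `[0, 1]` -/
def Spt (f : BC) : Prop := ∀ t, t ∉ Icc (0 : ℝ) 1 → f t = 0

theorem Spt.mul {f : BC} (h : Spt f) (g : BC) : Spt (f * g) := fun t ht => by
  simp [h t ht]

theorem Spt.mul' {f : BC} (h : Spt f) (g : BC) : Spt (g * f) := mul_comm f g ▸ h.mul g

theorem Spt.add {f g : BC} (h : Spt f) (h' : Spt g) : Spt (f + g) := fun t ht => by
  simp [h t ht, h' t ht]

theorem Spt.neg {f : BC} (h : Spt f) : Spt (-f) := fun t ht => by simp [h t ht]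

theorem Spt.smul {f : BC} (h : Spt f) (z : ℂ) : Spt (z • f) := fun t ht => by simp [h t ht]

theorem Spt.V_eq {f : BC} (h : Spt f) (s : Icc (0 : ℝ) 1) (t : ℝ) : V s f t = ∫ x in s..t, f x := by
  rw [V_apply, ← integral_add_adjacent_intervals (b := cl t) (c := t)
    (f.continuous.intervalIntegrable _ _) (f.continuous.intervalIntegrable _ _)]
  have : ∫ x in cl t..t, f x = 0 := by
    refine integral_zero_ae ?_
    have h0 : ∀ᵐ x : ℝ, x ≠ 0 := by simp [MeasureTheory.ae_iff]
    filter_upwards [h0] with x hx0 hx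
    refine h x fun hx1 => ?_
    unfold cl at hx
    rcases le_total t 0 with a | a
    · rw [min_eq_left (a.trans zero_le_one), max_eq_left a, uIoc_of_ge a] at hx
      exact hx0 (le_antisymm hx.2 hx1.1)
    · rcases le_total t 1 with b | b
      · rw [min_eq_left b, max_eq_right a] at hx
        simp at hx
      · rw [min_eq_right b, max_eq_right zero_le_one, uIoc_of_le b] at hx
        exact absurd hx.1 (not_lt.2 hx1.2)
  rw [this, add_zero]

theorem Spt.hasDerivAt_V {f : BC} (h : Spt f) (s : Icc (0 : ℝ) 1) (t : ℝ) :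
    HasDerivAt (V s f) (f t) t := by
  have : (V s f : ℝ → ℂ) = fun t => ∫ x in s..t, f x := funext (h.V_eq s)
  rw [this]
  exact (f.continuous.integral_hasStrictDerivAt _ t).hasDerivAt

/-- the exponential -/
def ex (a : BC) : BC := mkB fun t => Complex.exp (a t)

theorem norm_exp_le (a : BC) (t : ℝ) : ‖Complex.exp (a t)‖ ≤ Real.exp ‖a‖ :=
  (Complex.norm_exp_le_exp_norm _).trans (Real.exp_le_exp.2 (a.norm_coe_le_norm t))

@[simp] theorem ex_apply (a : BC) (t : ℝ) : ex a t = Complex.exp (a t) :=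
  mkB_apply (Complex.continuous_exp.comp a.continuous) (norm_exp_le a) t

theorem ex_add (a b : BC) : ex (a + b) = ex a * ex b := by
  ext t; simp [Complex.exp_add]

@[simp] theorem ex_zero : ex 0 = 1 := by ext t; simp

theorem ex_neg_mul (a : BC) : ex (-a) * ex a = 1 := by rw [← ex_add, neg_add_cancel, ex_zero]

theorem ex_mul_neg (a : BC) : ex a * ex (-a) = 1 := by rw [← ex_add, add_neg_cancel, ex_zero]

theorem differentiable_ex : Differentiable ℂ ex := fun a => by
  have h : DifferentiableOn ℂ ex (ball a 1) := by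
    refine differentiableOn_BC isOpen_ball (M := Real.exp (‖a‖ + 1)) (fun b hb t => ?_) fun t => ?_
    · rw [ex_apply]
      refine (norm_exp_le b t).trans (Real.exp_le_exp.2 ?_)
      rw [mem_ball, dist_eq_norm] at hb
      linarith [norm_le_insert' b a]
    · simp only [ex_apply]
      exact (DifferentiableOn.evalBC differentiableOn_id t).cexp
  exact h.differentiableAt (ball_mem_nhds a one_pos)

/-- the solution of `y' = a y + b` which vanishes at `s` -/
def Sol (s : Icc (0 : ℝ) 1) (a : BC) : BC →L[ℂ] BC :=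
  (ContinuousLinearMap.mul ℂ BC (ex (V s a))).comp
    ((V s).comp (ContinuousLinearMap.mul ℂ BC (ex (-V s a))))

theorem Sol_eq (s : Icc (0 : ℝ) 1) (a b : BC) :
    Sol s a b = ex (V s a) * V s (ex (-V s a) * b) := rfl

@[simp] theorem Sol_self (s : Icc (0 : ℝ) 1) (a b : BC) : Sol s a b s = 0 := by
  simp [Sol_eq]

theorem Sol_cl (s : Icc (0 : ℝ) 1) (a b : BC) (t : ℝ) : Sol s a b (cl t) = Sol s a b t := by
  simp [Sol_eq, V_cl]

theorem differentiable_Sol (s : Icc (0 : ℝ) 1) : Differentiable ℂ (Sol s) := by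
  unfold Sol
  refine Differentiable.clm_comp ?_ (Differentiable.clm_comp (differentiable_const _) ?_)
  · exact (ContinuousLinearMap.mul ℂ BC).differentiable.comp
      (differentiable_ex.comp (V s).differentiable)
  · exact (ContinuousLinearMap.mul ℂ BC).differentiable.comp
      (differentiable_ex.comp (V s).differentiable.neg)

theorem Spt.hasDerivAt_ex {a : BC} (ha : Spt a) (s : Icc (0 : ℝ) 1) (t : ℝ) :
    HasDerivAt (ex (V s a)) (a t * ex (V s a) t) t := by
  have : (ex (V s a) : ℝ → ℂ) = fun t => Complex.exp (V s a t) := funext (ex_apply _)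
  rw [this, mul_comm]
  exact (ha.hasDerivAt_V s t).cexp

theorem hasDerivAt_Sol {a b : BC} (ha : Spt a) (hb : Spt b) (s : Icc (0 : ℝ) 1) (t : ℝ) :
    HasDerivAt (Sol s a b) (a t * Sol s a b t + b t) t := by
  have h := (ha.hasDerivAt_ex s t).mul ((hb.mul' (ex (-V s a))).hasDerivAt_V s t)
  refine HasDerivAt.congr_deriv h ?_
  have h1 : ex (V s a) t * ex (-V s a) t = 1 := by
    rw [← BoundedContinuousFunction.mul_apply, ex_mul_neg]; rfl
  simp only [Sol_eq, BoundedContinuousFunction.mul_apply]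
  linear_combination (b t) * h1

/-- uniqueness and variation of constants -/
theorem eq_Sol {a b : BC} (ha : Spt a) (hb : Spt b) (s : Icc (0 : ℝ) 1) {y : ℝ → ℂ}
    (hy : ∀ t, HasDerivAt y (a t * y t + b t) t) (t : ℝ) :
    y t = y s * ex (V s a) t + Sol s a b t := by
  have h1 : ∀ t, HasDerivAt (fun t => ex (V s (-a)) t * (y t - Sol s a b t)) 0 t := fun t => by
    refine HasDerivAt.congr_deriv
      ((ha.neg.hasDerivAt_ex s t).mul ((hy t).sub (hasDerivAt_Sol ha hb s t))) ?_
    simp only [BoundedContinuousFunction.neg_apply]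
    ring
  have h2 := is_const_of_deriv_eq_zero (fun t => (h1 t).differentiableAt)
    (fun t => (h1 t).deriv) t s
  have h3 : ex (V s a) t * ex (V s (-a)) t = 1 := by
    rw [← BoundedContinuousFunction.mul_apply, map_neg, ex_mul_neg]; rfl
  simp only [ex_apply, V_self, Complex.exp_zero, Sol_self] at h2 h3 ⊢
  linear_combination Complex.exp (V s a t) * h2 - (y t - Sol s a b t) * h3

/-- weights: conjugation by `exp (V r ω)` shifts the coefficient -/
theorem Sol_conj {a b ω : BC} (ha : Spt a) (hb : Spt b) (hω : Spt ω) (s r : Icc (0 : ℝ) 1) :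
    ex (-V r ω) * Sol s a b = Sol s (a - ω) (ex (-V r ω) * b) := by
  ext t
  have h1 : Spt (a - ω) := by rw [sub_eq_add_neg]; exact ha.add hω.neg
  have h2 := eq_Sol h1 (hb.mul' (ex (-V r ω))) s (y := fun t => (ex (-V r ω) * Sol s a b) t)
    (fun t => by
      have h3 := (hω.neg.hasDerivAt_ex r t).mul (hasDerivAt_Sol ha hb s t)
      rw [map_neg] at h3
      refine HasDerivAt.congr_deriv h3 ?_
      simp only [BoundedContinuousFunction.neg_apply, BoundedContinuousFunction.mul_apply,
        BoundedContinuousFunction.sub_apply]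
      ring) t
  simpa using h2

theorem norm_ex_V (s : Icc (0 : ℝ) 1) (a : BC) (t : ℝ) :
    ‖ex (V s a) t‖ = Real.exp (V s a t).re := by rw [ex_apply, Complex.norm_exp]

/-- the basic estimate, for a general function -/
theorem norm_le_of_fw {a b y : ℝ → ℂ} {M s t : ℝ} (hst : s ≤ t) (ha : Continuous a)
    (hb : Continuous b) (hy : ∀ x, HasDerivAt y (a x * y x + b x) x)
    (h : ∀ x ∈ Icc s t, ‖b x‖ ≤ M * -(a x).re) (h0 : ‖y s‖ ≤ M) : ‖y t‖ ≤ M := by
  set A : ℝ → ℂ := fun x => ∫ u in s..x, a u with hA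
  have hAd : ∀ x, HasDerivAt A (a x) x := fun x => (ha.integral_hasStrictDerivAt _ x).hasDerivAt
  have hAc : Continuous A := continuous_iff_continuousAt.2 fun x => (hAd x).continuousAt
  have h1 : ∀ x, HasDerivAt (fun x => Complex.exp (-A x) * y x) (Complex.exp (-A x) * b x) x :=
    fun x => by
      refine HasDerivAt.congr_deriv ((hAd x).neg.cexp.mul (hy x)) ?_
      simp only [Pi.neg_apply]
      ring
  have h2 : ∀ x, HasDerivAt (fun x => M * Real.exp (-(A x).re))
      (M * (Real.exp (-(A x).re) * -(a x).re)) x := fun x =>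
    (((Complex.reCLM.hasFDerivAt.comp_hasDerivAt x (hAd x)).neg).exp).const_mul M
  have h3 := integral_eq_sub_of_hasDerivAt (fun x _ => h1 x)
    ((by fun_prop : Continuous fun x => Complex.exp (-A x) * b x).intervalIntegrable s t)
  have h4 := integral_eq_sub_of_hasDerivAt (fun x _ => h2 x)
    ((by fun_prop : Continuous fun x => M * (Real.exp (-(A x).re) * -(a x).re)).intervalIntegrable
      s t)
  have h5 : ‖∫ x in s..t, Complex.exp (-A x) * b x‖ ≤
      ∫ x in s..t, M * (Real.exp (-(A x).re) * -(a x).re) := by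
    refine norm_integral_le_of_norm_le hst (Eventually.of_forall fun x hx => ?_)
      ((by fun_prop : Continuous fun x => M * (Real.exp (-(A x).re) * -(a x).re)).intervalIntegrable
        s t)
    rw [norm_mul, Complex.norm_exp, Complex.neg_re, mul_left_comm]
    exact mul_le_mul_of_nonneg_left (h x ⟨hx.1.le, hx.2⟩) (Real.exp_pos _).le
  have hAs : A s = 0 := by simp [hA]
  rw [h3, h4, hAs] at h5
  simp only [neg_zero, Complex.exp_zero, one_mul, Complex.zero_re, Real.exp_zero, mul_one] at h5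
  have h6 := norm_le_insert' (Complex.exp (-A t) * y t) (y s)
  rw [norm_mul, Complex.norm_exp, Complex.neg_re] at h6
  have h7 := Real.exp_pos (-(A t).re)
  nlinarith

theorem norm_le_of_bw {a b y : ℝ → ℂ} {M s t : ℝ} (hst : t ≤ s) (ha : Continuous a)
    (hb : Continuous b) (hy : ∀ x, HasDerivAt y (a x * y x + b x) x)
    (h : ∀ x ∈ Icc t s, ‖b x‖ ≤ M * (a x).re) (h0 : ‖y s‖ ≤ M) : ‖y t‖ ≤ M := by
  have := norm_le_of_fw (a := fun x => -a (-x)) (b := fun x => -b (-x)) (y := fun x => y (-x))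
    (M := M) (s := -s) (t := -t) (neg_le_neg hst) (by fun_prop) (by fun_prop) (fun x => by
      refine HasDerivAt.congr_deriv ((hy (-x)).scomp x (hasDerivAt_neg x)) ?_
      simp only [neg_smul, one_smul]
      ring) (fun x hx => by
      rw [norm_neg, Complex.neg_re, neg_neg]
      exact h _ ⟨by linarith [hx.2], by linarith [hx.1]⟩) (by simpa using h0)
  simpa using this

/-- the start of the contour -/
def p0 : Icc (0 : ℝ) 1 := ⟨0, le_rfl, zero_le_one⟩

/-- the end of the contour -/
def p1 : Icc (0 : ℝ) 1 := ⟨1, zero_le_one, le_rfl⟩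

theorem norm_Sol_fw {a b : BC} (ha : Spt a) (hb : Spt b) {M : ℝ} (hM : 0 ≤ M)
    (h : ∀ x, ‖b x‖ ≤ M * -(a x).re) : ‖Sol p0 a b‖ ≤ M := norm_BC_le fun t => by
  rw [← Sol_cl]
  exact norm_le_of_fw (s := 0) (cl_mem t).1 a.continuous b.continuous (hasDerivAt_Sol ha hb p0)
    (fun x _ => h x) (by rw [show (0 : ℝ) = p0 from rfl, Sol_self, norm_zero]; exact hM)

theorem norm_Sol_bw {a b : BC} (ha : Spt a) (hb : Spt b) {M : ℝ} (hM : 0 ≤ M)
    (h : ∀ x, ‖b x‖ ≤ M * (a x).re) : ‖Sol p1 a b‖ ≤ M := norm_BC_le fun t => by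
  rw [← Sol_cl]
  exact norm_le_of_bw (s := 1) (cl_mem t).2 a.continuous b.continuous (hasDerivAt_Sol ha hb p1)
    (fun x _ => h x) (by rw [show (1 : ℝ) = p1 from rfl, Sol_self, norm_zero]; exact hM)

theorem norm_ex_fw {a : BC} (ha : Spt a) (h : ∀ x, (a x).re ≤ 0) : ‖ex (V p0 a)‖ ≤ 1 :=
  norm_BC_le fun t => by
    rw [ex_apply, ← V_cl, ← ex_apply]
    exact norm_le_of_fw (s := 0) (b := fun _ => 0) (cl_mem t).1 a.continuous continuous_const
      (fun x => by simpa using ha.hasDerivAt_ex p0 x) (fun x _ => by simpa using h x)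
      (by rw [show (0 : ℝ) = p0 from rfl, ex_apply, V_self]; simp)

theorem norm_ex_bw {a : BC} (ha : Spt a) (h : ∀ x, 0 ≤ (a x).re) : ‖ex (V p1 a)‖ ≤ 1 :=
  norm_BC_le fun t => by
    rw [ex_apply, ← V_cl, ← ex_apply]
    exact norm_le_of_bw (s := 1) (b := fun _ => 0) (cl_mem t).2 a.continuous continuous_const
      (fun x => by simpa using ha.hasDerivAt_ex p1 x) (fun x _ => by simpa using h x)
      (by
        have : ex (V p1 a) p1 = 1 := by rw [ex_apply, V_self, Complex.exp_zero]
        exact (congrArg norm this).trans_le norm_one.le)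

end Vale.Agent.P218N.End
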